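import Crest.Agent.R271.RDB

/-! Row 271: the mean value property of holomorphic functions on balls. -/

set_option autoImplicit false
set_option linter.unusedSectionVars false

namespace Crest.Agent.R271

open MeasureTheory Filter Topology Set Metric
open scoped ENNReal NNReal

variable {E : Type} [NormedAddCommGroup E] [NormedSpace ℂ E] [FiniteDimensional ℂ E]
  [MeasurableSpace E] [BorelSpace E] {μ : Measure E} [μ.IsAddHaarMeasure]

/-- rotation invariance: the image of `μ` is a Haar measure (`ContinuousAddEquiv`/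
`ContinuousLinearEquiv.isAddHaarMeasure_map`), hence a multiple of `μ`
(`Measure.isAddLeftInvariant_eq_smul`), with the same mass of the unit ball. -/
theorem Hrot (μ : Measure E) [μ.IsAddHaarMeasure] {c : ℂ} (hc : ‖c‖ = 1) :
    MeasurePreserving (fun t : E => c • t) μ μ := by
  have : ProperSpace E := FiniteDimensional.proper ℂ E
  have hc0 : c ≠ 0 := by rintro rfl; simp at hc
  let A : E ≃L[ℂ] E := ContinuousLinearEquiv.equivOfInverse (c • ContinuousLinearMap.id ℂ E)
    (c⁻¹ • ContinuousLinearMap.id ℂ E) (fun t => by simp [smul_smul, hc0])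
    (fun t => by simp [smul_smul, hc0])
  have hA : (fun t : E => c • t) = A := rfl
  have hm : Measurable (fun t : E => c • t) := (continuous_const_smul c).measurable
  have : (μ.map (fun t : E => c • t)).IsAddHaarMeasure := by
    rw [hA]; exact A.isAddHaarMeasure_map μ
  have h := Measure.isAddLeftInvariant_eq_smul (μ.map (fun t : E => c • t)) μ
  have hb : (fun t : E => c • t) ⁻¹' ball 0 1 = ball 0 1 := by
    ext t; simp [norm_smul, hc]
  have h1 : (μ.map (fun t : E => c • t)) (ball 0 1) = μ (ball 0 1) := by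
    rw [Measure.map_apply hm measurableSet_ball, hb]
  have hpos : μ (ball (0 : E) 1) ≠ 0 := (measure_ball_pos μ 0 one_pos).ne'
  have hfin : μ (ball (0 : E) 1) ≠ ∞ := measure_ball_lt_top.ne
  set k := Measure.addHaarScalarFactor (μ.map (fun t : E => c • t)) μ with hk
  have hk1 : k = 1 := by
    rw [h, Measure.smul_apply, ENNReal.smul_def, smul_eq_mul] at h1
    have : (k : ℝ≥0∞) = 1 := by
      have h2 : (k : ℝ≥0∞) * μ (ball (0 : E) 1) = 1 * μ (ball (0 : E) 1) := by rw [one_mul, h1]
      exact (ENNReal.mul_left_inj hpos hfin).1 h2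
    exact_mod_cast this
  refine ⟨hm, ?_⟩
  rw [h, hk1, one_smul]

/-- translate to `z = 0`; `∫_{ball 0 r} F (z + t) = ∫_{ball 0 r} F (z + e^{iθ} • t)` (`Hrot`), average
over `θ`, Fubini (continuity on the compact `[0, 2π] × closedBall 0 r`), and the one variable mean
value property (`circleAverage_of_differentiable_on`, `DiffContOnCl.circleAverage`) of
`ζ ↦ F (z + ζ • t)`. -/
theorem Hmean {F : E → ℂ} {z : E} {r : ℝ} {U : Set E} (hU : IsOpen U) (hF : DifferentiableOn ℂ F U)
    (hr : closedBall z r ⊆ U) : ∫ t in ball z r, F t ∂μ = μ.real (ball (0 : E) r) • F z := by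
  have : ProperSpace E := FiniteDimensional.proper ℂ E
  have hpi : (0 : ℝ) < 2 * Real.pi := by positivity
  have hmem : ∀ (ζ : ℂ) (t : E), ‖ζ‖ ≤ 1 → ‖t‖ ≤ r → z + ζ • t ∈ U := by
    intro ζ t hζ ht
    apply hr
    rw [mem_closedBall, dist_eq_norm, add_sub_cancel_left, norm_smul]
    calc ‖ζ‖ * ‖t‖ ≤ 1 * ‖t‖ := by gcongr
      _ ≤ r := by rw [one_mul]; exact ht
  -- translation
  have h1 : ∫ t in ball z r, F t ∂μ = ∫ t in ball (0 : E) r, F (z + t) ∂μ := by
    have := (measurePreserving_add_left μ z).setIntegral_preimage_emb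
      (measurableEmbedding_addLeft z) F (ball z r)
    rw [← this]
    congr 2
    ext t; simp [mem_ball, dist_eq_norm]
  -- rotation
  have h2 : ∀ θ : ℝ, ∫ t in ball (0 : E) r, F (z + circleMap 0 1 θ • t) ∂μ =
      ∫ t in ball (0 : E) r, F (z + t) ∂μ := by
    intro θ
    have hc : ‖circleMap 0 1 θ‖ = 1 := by simp
    have hc0 : circleMap 0 1 θ ≠ 0 := by intro h; rw [h] at hc; simp at hc
    have := (Hrot μ hc).setIntegral_preimage_emb
      (measurableEmbedding_const_smul₀ hc0) (fun t => F (z + t)) (ball (0 : E) r)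
    rw [← this]
    congr 2
    ext t; simp [norm_smul]
  -- one variable
  have h3 : ∀ t ∈ ball (0 : E) r,
      ∫ θ in (0 : ℝ)..2 * Real.pi, F (z + circleMap 0 1 θ • t) = (2 * Real.pi) • F z := by
    intro t ht
    have ht' : ‖t‖ ≤ r := (mem_ball_zero_iff.1 ht).le
    have hd : DifferentiableOn ℂ (fun ζ : ℂ => F (z + ζ • t)) (closedBall 0 1) := by
      refine hF.comp (f := fun ζ : ℂ => z + ζ • t) (by fun_prop) ?_
      intro ζ hζ
      exact hmem ζ t (mem_closedBall_zero_iff.1 hζ) ht'
    have hd' : DiffContOnCl ℂ (fun ζ : ℂ => F (z + ζ • t)) (ball 0 |1|) := by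
      apply DifferentiableOn.diffContOnCl
      rw [abs_one, closure_ball _ one_ne_zero]; exact hd
    have := hd'.circleAverage
    rw [Real.circleAverage_def] at this
    simp only [zero_smul, add_zero] at this
    rw [← this, smul_smul, mul_inv_cancel₀ hpi.ne', one_smul]
  -- Fubini
  have h4 : Integrable (Function.uncurry fun (θ : ℝ) (t : E) => F (z + circleMap 0 1 θ • t))
      ((volume.restrict (uIoc (0 : ℝ) (2 * Real.pi))).prod (μ.restrict (ball (0 : E) r))) := by
    rw [Measure.prod_restrict]
    have hK : IsCompact (uIcc (0 : ℝ) (2 * Real.pi) ×ˢ closedBall (0 : E) r) :=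
      isCompact_uIcc.prod (isCompact_closedBall _ _)
    have hc : ContinuousOn (Function.uncurry fun (θ : ℝ) (t : E) => F (z + circleMap 0 1 θ • t))
        (uIcc (0 : ℝ) (2 * Real.pi) ×ˢ closedBall (0 : E) r) := by
      refine hF.continuousOn.comp (f := fun p : ℝ × E => z + circleMap 0 1 p.1 • p.2) ?_ ?_
      · exact (continuous_const.add
          (((continuous_circleMap 0 1).comp continuous_fst).smul continuous_snd)).continuousOn
      · intro p hp
        exact hmem _ _ (by simp) (mem_closedBall_zero_iff.1 hp.2)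
    exact (hc.integrableOn_compact hK).mono_set (prod_mono uIoc_subset_uIcc ball_subset_closedBall)
  have h5 := intervalIntegral_integral_swap h4
  simp only [h2] at h5
  rw [setIntegral_congr_fun measurableSet_ball h3, intervalIntegral.integral_const,
    setIntegral_const, sub_zero, smul_comm] at h5
  rw [h1]
  exact smul_right_injective ℂ hpi.ne' h5

/-- the mean value inequality (Cauchy–Schwarz / Jensen). -/
theorem Hmean_sq {F : E → ℂ} {z : E} {r : ℝ} {U : Set E} (hU : IsOpen U)
    (hF : DifferentiableOn ℂ F U) (hr : closedBall z r ⊆ U) :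
    μ (ball (0 : E) r) * ‖F z‖ₑ ^ 2 ≤ ∫⁻ t in ball z r, ‖F t‖ₑ ^ 2 ∂μ := by
  have : ProperSpace E := FiniteDimensional.proper ℂ E
  have h := Hmean (μ := μ) (F := fun t => F t ^ 2) hU (hF.pow 2) hr
  have h2 := enorm_integral_le_lintegral_enorm (μ := μ.restrict (ball z r)) (fun t => F t ^ 2)
  rw [h, enorm_smul] at h2
  simp only [enorm_pow] at h2
  have h3 : ‖μ.real (ball (0 : E) r)‖ₑ = μ (ball (0 : E) r) := by
    rw [Real.enorm_eq_ofReal measureReal_nonneg, ofReal_measureReal measure_ball_lt_top.ne]
  rwa [h3] at h2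

end Crest.Agent.R271
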