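import Crest.Agent.R271.AL1

/-! Row 271, (ALG) part 3: points of a standard étale algebra over affine space. -/

set_option autoImplicit false
set_option linter.unusedSectionVars false

namespace Crest.Agent.R271

open Set Polynomial

variable {n : ℕ} {S : Type} [CommRing S] [Algebra ℂ S] [Algebra (MvPolynomial (Fin n) ℂ) S]
  [IsScalarTower ℂ (MvPolynomial (Fin n) ℂ) S]

/-- the image of a point in affine space. -/
noncomputable def ALpt (n : ℕ) {S : Type} [CommRing S] [Algebra ℂ S]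
    [Algebra (MvPolynomial (Fin n) ℂ) S] (y : S →ₐ[ℂ] ℂ) : Fin n → ℂ :=
  fun i => y (algebraMap (MvPolynomial (Fin n) ℂ) S (MvPolynomial.X i))

theorem AL_alg (y : S →ₐ[ℂ] ℂ) (p : MvPolynomial (Fin n) ℂ) :
    y (algebraMap (MvPolynomial (Fin n) ℂ) S p) = MvPolynomial.eval (ALpt n y) p := by
  have : (y : S →+* ℂ).comp (algebraMap (MvPolynomial (Fin n) ℂ) S) =
      MvPolynomial.eval (ALpt n y) := by
    refine MvPolynomial.ringHom_ext (fun c => ?_) fun i => ?_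
    · change y (algebraMap (MvPolynomial (Fin n) ℂ) S (algebraMap ℂ _ c)) = _
      rw [← IsScalarTower.algebraMap_apply, y.commutes, MvPolynomial.eval_C]
      rfl
    · rw [MvPolynomial.eval_X]; rfl
  exact congrArg (fun f => f p) this

theorem AL_aeval (y : S →ₐ[ℂ] ℂ) (x : S) (p : (MvPolynomial (Fin n) ℂ)[X]) :
    y (aeval x p) = (p.map (MvPolynomial.eval (ALpt n y))).eval (y x) := by
  have h2 : (y : S →+* ℂ).comp (algebraMap (MvPolynomial (Fin n) ℂ) S) =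
      MvPolynomial.eval (ALpt n y) := RingHom.ext fun p => AL_alg y p
  rw [eval_map, ← h2, aeval_def]
  exact hom_eval₂ p _ (y : S →+* ℂ) x

/-- polynomial growth along `w ≥ 0` -/
def ALh61_Gr {Y : Type} (w f : Y → ℝ) : Prop :=
  ∃ (C : ℝ) (N : ℕ), 0 < C ∧ ∀ y, f y ≤ C * (1 + w y) ^ N

theorem ALh61_const {Y : Type} {w : Y → ℝ} (c : ℝ) : ALh61_Gr w fun _ => c :=
  ⟨|c| + 1, 0, by positivity, fun y => by simp only [pow_zero, mul_one]; linarith [le_abs_self c]⟩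

theorem ALh61_add {Y : Type} {w f g : Y → ℝ} (hw : ∀ y, 0 ≤ w y) (hf : ALh61_Gr w f)
    (hg : ALh61_Gr w g) : ALh61_Gr w fun y => f y + g y := by
  obtain ⟨C, N, hC, hf⟩ := hf
  obtain ⟨C', N', hC', hg⟩ := hg
  refine ⟨C + C', N + N', by positivity, fun y => ?_⟩
  have h1 : 1 ≤ 1 + w y := by linarith [hw y]
  have a : C * (1 + w y) ^ N ≤ C * (1 + w y) ^ (N + N') := by gcongr; omega
  have b : C' * (1 + w y) ^ N' ≤ C' * (1 + w y) ^ (N + N') := by gcongr; omega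
  linarith [hf y, hg y]

theorem ALh61_mul {Y : Type} {w f g : Y → ℝ} (hw : ∀ y, 0 ≤ w y) (hg0 : ∀ y, 0 ≤ g y)
    (hf : ALh61_Gr w f) (hg : ALh61_Gr w g) : ALh61_Gr w fun y => f y * g y := by
  obtain ⟨C, N, hC, hf⟩ := hf
  obtain ⟨C', N', hC', hg⟩ := hg
  refine ⟨C * C', N + N', by positivity, fun y => ?_⟩
  have h1 := hw y
  calc f y * g y ≤ C * (1 + w y) ^ N * (C' * (1 + w y) ^ N') :=
        mul_le_mul (hf y) (hg y) (hg0 y) (by positivity)
    _ = _ := by ring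

theorem ALh61_pow {Y : Type} {w f : Y → ℝ} (hw : ∀ y, 0 ≤ w y) (hf0 : ∀ y, 0 ≤ f y)
    (hf : ALh61_Gr w f) (k : ℕ) : ALh61_Gr w fun y => f y ^ k := by
  induction k with
  | zero => simpa using ALh61_const 1
  | succ k ih => simpa [pow_succ] using ALh61_mul hw hf0 ih hf

theorem ALh61_sum {Y ι : Type} {w : Y → ℝ} (hw : ∀ y, 0 ≤ w y) (s : Finset ι) {f : ι → Y → ℝ}
    (hf : ∀ i, ALh61_Gr w (f i)) : ALh61_Gr w fun y => ∑ i ∈ s, f i y := by
  classical
  induction s using Finset.induction_on with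
  | empty => simpa using ALh61_const 0
  | insert i s hi ih => simpa [Finset.sum_insert hi] using ALh61_add hw (hf i) ih

theorem ALh61_mono {Y : Type} {w f g : Y → ℝ} (h : ∀ y, f y ≤ g y) (hg : ALh61_Gr w g) :
    ALh61_Gr w f := by
  obtain ⟨C, N, hC, hg⟩ := hg
  exact ⟨C, N, hC, fun y => (h y).trans (hg y)⟩

/-- integral elements have polynomial growth: `y s` is a root of a monic polynomial whose
coefficients have polynomial growth (`AL_growth`; `Polynomial.IsRoot.norm_lt_cauchyBound`, or directly: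
if `‖z‖ ≥ 1` then `‖z‖^d ≤ (∑ ‖a_i‖) ‖z‖^{d-1}`). -/
theorem AL_integral {s : S} (hs : IsIntegral (MvPolynomial (Fin n) ℂ) s) :
    ∃ (C : ℝ) (N : ℕ), 0 < C ∧ ∀ y : S →ₐ[ℂ] ℂ, ‖y s‖ ≤ C * (1 + ‖ALpt n y‖) ^ N := by
  obtain ⟨p, hp, hps⟩ := hs
  have hw : ∀ y : S →ₐ[ℂ] ℂ, 0 ≤ ‖ALpt n y‖ := fun _ => norm_nonneg _
  refine ALh61_mono (g := fun y => ∑ i ∈ Finset.range p.natDegree,
    ‖MvPolynomial.eval (ALpt n y) (p.coeff i)‖ + 1) (fun y => ?_)
    (ALh61_add hw (ALh61_sum hw _ fun i => ?_) (ALh61_const 1))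
  · have hm : (p.map (MvPolynomial.eval (ALpt n y))).Monic := hp.map _
    have hr : (p.map (MvPolynomial.eval (ALpt n y))).IsRoot (y s) := by
      rw [IsRoot.def, ← AL_aeval, aeval_def, hps, map_zero]
    have h1 := (hr.norm_lt_cauchyBound hm.ne_zero).le
    rw [cauchyBound, hm.leadingCoeff, nnnorm_one, div_one, hp.natDegree_map] at h1
    have h2 : (Finset.range p.natDegree).sup
        (fun i => ‖(p.map (MvPolynomial.eval (ALpt n y))).coeff i‖₊) ≤
        ∑ i ∈ Finset.range p.natDegree, ‖MvPolynomial.eval (ALpt n y) (p.coeff i)‖₊ :=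
      Finset.sup_le fun i hi => by
        rw [coeff_map]
        exact Finset.single_le_sum (f := fun i => ‖MvPolynomial.eval (ALpt n y) (p.coeff i)‖₊)
          (fun _ _ => zero_le) hi
    have h3 := NNReal.coe_le_coe.2 (h1.trans (add_le_add h2 le_rfl))
    simpa using h3
  · obtain ⟨C, N, hC, h⟩ := AL_growth (p.coeff i)
    exact ⟨C, N, hC, fun y => h _⟩

/-- the presentation by an irreducible polynomial. -/
structure ALData (n : ℕ) {S : Type} [CommRing S] [Algebra ℂ S] [Algebra (MvPolynomial (Fin n) ℂ) S]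
    (x g : S) (D : MvPolynomial (Fin n) ℂ) : Prop where
  inj : Function.Injective (algebraMap (MvPolynomial (Fin n) ℂ) S)
  int : IsIntegral (MvPolynomial (Fin n) ℂ) x
  g_unit : IsUnit g
  g_int : IsIntegral (MvPolynomial (Fin n) ℂ) g
  den : ∀ s : S, ∃ (e : ℕ) (p : (MvPolynomial (Fin n) ℂ)[X]), s * g ^ e = aeval x p
  der_unit : IsUnit (aeval x (derivative (minpoly (MvPolynomial (Fin n) ℂ) x)))
  D_ne : D ≠ 0
  ext : ∀ y y' : S →ₐ[ℂ] ℂ, ALpt n y = ALpt n y' → y x = y' x → y = y'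
  lift : ∀ (t : Fin n → ℂ) (z : ℂ), MvPolynomial.eval t D ≠ 0 →
    ((minpoly (MvPolynomial (Fin n) ℂ) x).map (MvPolynomial.eval t)).eval z = 0 →
    ∃ y : S →ₐ[ℂ] ℂ, ALpt n y = t ∧ y x = z

/-- `P : StandardEtalePresentation`, `x = P.x`, `g = aeval x P.g`.  `inj`: étale algebras are flat.
`minpoly ∣ P.f` (`minpoly.isIntegrallyClosed_dvd`), so `aeval x (minpoly)' ∣ aeval x P.f'`.
`IsAlgebraic.exists_nonzero_eq_adjoin_mul`: `g * aeval x a = D ≠ 0`, so `minpoly ∣ P.g * a - C D`.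
`lift`: give `ℂ` the algebra structure `eval t`; `P.HasMap z`, `P.lift`, `P.equivRing`. -/
theorem AL_data [IsDomain S] [Algebra.IsStandardEtale (MvPolynomial (Fin n) ℂ) S] :
    ∃ (x g : S) (D : MvPolynomial (Fin n) ℂ), ALData n x g D := by
  obtain ⟨P⟩ := Algebra.IsStandardEtale.nonempty_standardEtalePresentation
    (R := MvPolynomial (Fin n) ℂ) (S := S)
  have hx : IsIntegral (MvPolynomial (Fin n) ℂ) P.x :=
    ⟨P.f, P.monic_f, by simpa [aeval_def] using P.hasMap.1⟩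
  have hg : IsIntegral (MvPolynomial (Fin n) ℂ) (aeval P.x P.g) :=
    .of_mem_of_fg _ hx.fg_adjoin_singleton _ (aeval_mem_adjoin_singleton _ _)
  obtain ⟨a, ha, D, hD, e⟩ := hg.isAlgebraic.exists_nonzero_eq_adjoin_mul
    (mem_nonZeroDivisors_of_ne_zero P.hasMap.2.ne_zero)
  have ha' : a ∈ Algebra.adjoin (MvPolynomial (Fin n) ℂ) {P.x} :=
    Algebra.adjoin_le (Set.singleton_subset_iff.2 (aeval_mem_adjoin_singleton _ _)) ha
  rw [Algebra.adjoin_singleton_eq_range_aeval] at ha'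
  obtain ⟨q, rfl⟩ := ha'
  obtain ⟨r, hr⟩ := minpoly.isIntegrallyClosed_dvd hx P.hasMap.1
  obtain ⟨r', hr'⟩ := minpoly.isIntegrallyClosed_dvd hx (p := P.g * q - C D) (by
    rw [map_sub, map_mul, aeval_C, sub_eq_zero]
    exact e)
  refine ⟨P.x, aeval P.x P.g, D, FaithfulSMul.algebraMap_injective _ _, hx, P.hasMap.2, hg,
    fun s => ?_, ?_, hD, fun y y' h1 h2 => ?_, fun t z ht hz => ?_⟩
  · obtain ⟨p, k, hp⟩ := P.exists_mul_aeval_x_g_pow_eq_aeval_x s
    exact ⟨k, p, hp⟩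
  · have h := P.hasMap.isUnit_derivative_f
    rw [hr, derivative_mul, map_add, map_mul, map_mul, minpoly.aeval, zero_mul, add_zero] at h
    exact isUnit_of_mul_isUnit_left h
  · ext s
    obtain ⟨p, k, hp⟩ := P.exists_mul_aeval_x_g_pow_eq_aeval_x s
    have e0 : ∀ p : (MvPolynomial (Fin n) ℂ)[X], y (aeval P.x p) = y' (aeval P.x p) := fun p => by
      rw [AL_aeval, AL_aeval, h1, h2]
    have e1 := e0 p
    rw [← hp, map_mul, map_mul, map_pow, map_pow, e0] at e1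
    exact mul_right_cancel₀ (pow_ne_zero _ (P.hasMap.2.map y').ne_zero) e1
  · let _ : Algebra (MvPolynomial (Fin n) ℂ) ℂ := (MvPolynomial.eval t).toAlgebra
    have ea : ∀ p : (MvPolynomial (Fin n) ℂ)[X],
        aeval z p = (p.map (MvPolynomial.eval t)).eval z := fun p => by
      rw [aeval_def, eval_map]
      rfl
    rw [← ea] at hz
    have hm : P.HasMap z := by
      refine ⟨by rw [hr, map_mul, hz, zero_mul], isUnit_iff_ne_zero.2 fun h0 => ht ?_⟩
      have := congrArg (aeval z) hr'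
      rw [map_sub, map_mul, map_mul, hz, h0, zero_mul, zero_mul, aeval_C, zero_sub,
        neg_eq_zero] at this
      exact this
    let φ : S →ₐ[MvPolynomial (Fin n) ℂ] ℂ := (P.lift z hm).comp P.equivRing.toAlgHom
    refine ⟨{ φ.toRingHom with commutes' := fun c => ?_ }, funext fun i => ?_, ?_⟩
    · change φ (algebraMap ℂ S c) = c
      rw [IsScalarTower.algebraMap_apply ℂ (MvPolynomial (Fin n) ℂ) S, φ.commutes]
      exact MvPolynomial.eval_C c
    · exact (φ.commutes (MvPolynomial.X i)).trans (MvPolynomial.eval_X i)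
    · change P.lift z hm (P.equivRing P.x) = z
      rw [P.equivRing_x, P.lift_X]

variable {x g : S} {D : MvPolynomial (Fin n) ℂ}

/-- `y ↦ y x` is an injection of the fibre into the roots of the (monic) specialised minimal
polynomial; if `D t ≠ 0` it is onto and all roots are simple (`der_unit`), so there are `natDegree`
of them (`Polynomial.card_rootSet_eq_natDegree`, `Separable`, or `nodup_roots`,
`IsAlgClosed.splits`). -/
theorem ALData.fibre (h : ALData n x g D) (t : Fin n → ℂ) :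
    {y : S →ₐ[ℂ] ℂ | ALpt n y = t}.Finite ∧
      {y : S →ₐ[ℂ] ℂ | ALpt n y = t}.ncard ≤ (minpoly (MvPolynomial (Fin n) ℂ) x).natDegree ∧
      (MvPolynomial.eval t D ≠ 0 →
        {y : S →ₐ[ℂ] ℂ | ALpt n y = t}.ncard = (minpoly (MvPolynomial (Fin n) ℂ) x).natDegree) := by
  classical
  set P : ℂ[X] := (minpoly (MvPolynomial (Fin n) ℂ) x).map (MvPolynomial.eval t) with hP
  have hPm : P.Monic := (minpoly.monic h.int).map _
  have hPd : P.natDegree = (minpoly (MvPolynomial (Fin n) ℂ) x).natDegree :=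
    (minpoly.monic h.int).natDegree_map _
  have hinj : InjOn (fun y : S →ₐ[ℂ] ℂ => y x) {y : S →ₐ[ℂ] ℂ | ALpt n y = t} :=
    fun y hy y' hy' e => h.ext y y' (hy.trans hy'.symm) e
  have hmaps : MapsTo (fun y : S →ₐ[ℂ] ℂ => y x) {y : S →ₐ[ℂ] ℂ | ALpt n y = t}
      (P.roots.toFinset : Set ℂ) := by
    intro y hy
    have h1 := AL_aeval (n := n) y x (minpoly (MvPolynomial (Fin n) ℂ) x)
    rw [minpoly.aeval, map_zero, show ALpt n y = t from hy] at h1
    simp only [Finset.mem_coe, Multiset.mem_toFinset, mem_roots hPm.ne_zero, IsRoot.def]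
    exact h1.symm
  have hfin : {y : S →ₐ[ℂ] ℂ | ALpt n y = t}.Finite :=
    Set.Finite.of_injOn hmaps hinj (Finset.finite_toSet _)
  refine ⟨hfin, ?_, fun hD => ?_⟩
  · refine (Set.ncard_le_ncard_of_injOn _ hmaps hinj (Finset.finite_toSet _)).trans ?_
    rw [Set.ncard_coe_finset, ← hPd]
    exact (Multiset.toFinset_card_le _).trans (card_roots' P)
  · have hsurj : SurjOn (fun y : S →ₐ[ℂ] ℂ => y x) {y : S →ₐ[ℂ] ℂ | ALpt n y = t}
        (P.roots.toFinset : Set ℂ) := by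
      intro z hz
      simp only [Finset.mem_coe, Multiset.mem_toFinset, mem_roots hPm.ne_zero, IsRoot.def] at hz
      obtain ⟨y, hy, hyz⟩ := h.lift t z hD hz
      exact ⟨y, hy, hyz⟩
    have hnd : P.roots.Nodup := by
      rw [Multiset.nodup_iff_count_le_one]
      intro z
      rw [count_roots]
      by_contra hc
      push Not at hc
      obtain ⟨h0, h1⟩ := (one_lt_rootMultiplicity_iff_isRoot hPm.ne_zero).1 hc
      obtain ⟨y, hy, hyz⟩ := h.lift t z hD h0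
      have h2 := AL_aeval (n := n) y x (derivative (minpoly (MvPolynomial (Fin n) ℂ) x))
      rw [hy, hyz, ← derivative_map, ← hP, h1.eq_zero] at h2
      exact (h.der_unit.map y).ne_zero h2
    rw [(BijOn.mk hmaps hinj hsurj).ncard_eq, Set.ncard_coe_finset,
      Multiset.toFinset_card_of_nodup hnd, IsAlgClosed.card_roots_eq_natDegree, hPd]

/-- Euler's dual basis: `m i = (minpolyDiv _ x).coeff i`, `eval₂_minpolyDiv_of_eval₂_eq_zero`,
`Polynomial.eval₂_eq_sum_range`. -/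
theorem ALData.dual (h : ALData n x g D) : ∃ (k : ℕ) (m : ℕ → S) (u : S), IsUnit u ∧
    ∀ y y' : S →ₐ[ℂ] ℂ, ALpt n y = ALpt n y' →
      (y = y' → ∑ i ∈ Finset.range k, y (m i) * y' x ^ i = y u) ∧
      (y ≠ y' → ∑ i ∈ Finset.range k, y (m i) * y' x ^ i = 0) := by
  classical
  refine ⟨(minpolyDiv (MvPolynomial (Fin n) ℂ) x).natDegree + 1,
    fun i => (minpolyDiv (MvPolynomial (Fin n) ℂ) x).coeff i, _, h.der_unit, fun y y' hyy => ?_⟩
  have h1 := AL_aeval (n := n) y' x (minpoly (MvPolynomial (Fin n) ℂ) x)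
  rw [minpoly.aeval, map_zero, ← hyy] at h1
  have h2 : (y : S →+* ℂ).comp (algebraMap (MvPolynomial (Fin n) ℂ) S) =
      MvPolynomial.eval (ALpt n y) := RingHom.ext fun p => AL_alg y p
  have h3 := eval₂_minpolyDiv_of_eval₂_eq_zero (R := MvPolynomial (Fin n) ℂ) (x := x) (y := y' x)
    (y : S →+* ℂ) (by rw [h2, ← eval_map]; exact h1.symm)
  rw [eval₂_eq_sum_range] at h3
  refine ⟨fun e => ?_, fun e => ?_⟩
  · rw [if_pos (by rw [e]; rfl)] at h3
    exact h3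
  · exact h3.trans (if_neg fun e' => e (h.ext y y' hyy e'))

/-- clearing denominators in the weight: `s₀ = g ^ (e * ⌈M⌉₊)` where all `γ k * g ^ e` are integral;
`‖g^e‖^{2M'} (1 + ∑ ‖γ‖²)^{M'} = (‖g^e‖² + ∑ ‖γ g^e‖²)^{M'}`; `AL_integral`. -/
theorem ALData.weight (h : ALData n x g D) {κ : Type} [Fintype κ] (γ : κ → S) (M : ℝ) :
    ∃ s₀ : S, IsUnit s₀ ∧ ∀ i : ℕ, ∃ (C : ℝ) (N : ℕ), 0 < C ∧ ∀ y : S →ₐ[ℂ] ℂ,
      ‖y (s₀ * x ^ i)‖ ^ 2 * (1 + ∑ k, ‖y (γ k)‖ ^ 2) ^ M ≤ C * (1 + ‖ALpt n y‖) ^ N := by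
  classical
  choose e p hp using h.den
  set E : ℕ := ∑ k, e (γ k) with hE
  have hint : ∀ k, IsIntegral (MvPolynomial (Fin n) ℂ) (γ k * g ^ E) := fun k => by
    obtain ⟨r, hr⟩ := Nat.exists_eq_add_of_le
      (Finset.single_le_sum (f := fun k => e (γ k)) (fun _ _ => Nat.zero_le _) (Finset.mem_univ k))
    rw [hE, hr, pow_add, ← mul_assoc, hp]
    exact (IsIntegral.of_mem_of_fg _ h.int.fg_adjoin_singleton _
      (aeval_mem_adjoin_singleton _ _)).mul (h.g_int.pow r)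
  have hw : ∀ y : S →ₐ[ℂ] ℂ, 0 ≤ ‖ALpt n y‖ := fun _ => norm_nonneg _
  refine ⟨(g ^ E) ^ ⌈M⌉₊, (h.g_unit.pow _).pow _, fun i => ?_⟩
  refine ALh61_mono (g := fun y => (‖y (g ^ E)‖ ^ 2 + ∑ k, ‖y (γ k * g ^ E)‖ ^ 2) ^ ⌈M⌉₊ *
    ‖y (x ^ i)‖ ^ 2) (fun y => ?_)
    (ALh61_mul hw (fun y => by positivity) (ALh61_pow hw (fun y => by positivity)
      (ALh61_add hw (ALh61_pow hw (fun y => norm_nonneg _) (AL_integral (h.g_int.pow E)) 2)
        (ALh61_sum hw _ fun k => ALh61_pow hw (fun y => norm_nonneg _) (AL_integral (hint k)) 2)) _)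
      (ALh61_pow hw (fun y => norm_nonneg _) (AL_integral (h.int.pow i)) 2))
  have h1 : 1 ≤ 1 + ∑ k, ‖y (γ k)‖ ^ 2 := le_add_of_nonneg_right (by positivity)
  have h2 : (1 + ∑ k, ‖y (γ k)‖ ^ 2) ^ M ≤ (1 + ∑ k, ‖y (γ k)‖ ^ 2) ^ ⌈M⌉₊ := by
    rw [← Real.rpow_natCast]
    exact Real.rpow_le_rpow_of_exponent_le h1 (Nat.le_ceil M)
  have h3 : ‖y (g ^ E)‖ ^ 2 + ∑ k, ‖y (γ k * g ^ E)‖ ^ 2 =
      ‖y (g ^ E)‖ ^ 2 * (1 + ∑ k, ‖y (γ k)‖ ^ 2) := by
    rw [mul_add, mul_one, Finset.mul_sum]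
    congr 1
    refine Finset.sum_congr rfl fun k _ => ?_
    rw [map_mul, norm_mul]; ring
  rw [h3, map_mul, map_pow y (g ^ E), norm_mul, norm_pow]
  calc _ ≤ (‖y (g ^ E)‖ ^ ⌈M⌉₊ * ‖y (x ^ i)‖) ^ 2 * (1 + ∑ k, ‖y (γ k)‖ ^ 2) ^ ⌈M⌉₊ := by gcongr
    _ = _ := by rw [mul_pow (‖y (g ^ E)‖ ^ 2)]; ring

end Crest.Agent.R271
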