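import Crest.Agent.R271.AL2
import Crest.Agent.R271.AL3

/-! Row 271, (ALG): holomorphic functions of polynomial `L²` growth on the points of a standard étale
algebra are algebraic. -/

set_option autoImplicit false

namespace Crest.Agent.R271

open MeasureTheory Filter Topology Set
open scoped ENNReal NNReal

theorem alg {n : ℕ} {S : Type} [CommRing S] [IsDomain S] [Algebra ℂ S] (t : Fin n → S)
    (het : @Algebra.IsStandardEtale (MvPolynomial (Fin n) ℂ) S _ _
      (MvPolynomial.aeval t : MvPolynomial (Fin n) ℂ →ₐ[ℂ] S).toRingHom.toAlgebra)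
    {Y : Type} [TopologicalSpace Y] [T2Space Y] [MeasurableSpace Y] [BorelSpace Y]
    (X : RD (Fin n → ℂ) Y volume) (ev : Y → (S →ₐ[ℂ] ℂ)) (hev : Function.Bijective ev)
    (hπ : ∀ y i, X.π y i = ev y (t i)) (hhol : ∀ s, X.Hol univ fun y => ev y s)
    {κ : Type} [Fintype κ] (γ : κ → S) {h : Y → ℂ} (hh : X.Hol univ h) {M : ℝ}
    (hint : ∫⁻ y, ‖h y‖ₑ ^ 2 / ENNReal.ofReal ((1 + ∑ k, ‖ev y (γ k)‖ ^ 2) ^ M) ∂X.ν < ∞) :
    ∃ f : S, ∀ y, h y = ev y f := by
  classical
  let _ : Algebra (MvPolynomial (Fin n) ℂ) S :=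
    (MvPolynomial.aeval t : MvPolynomial (Fin n) ℂ →ₐ[ℂ] S).toRingHom.toAlgebra
  have _ : IsScalarTower ℂ (MvPolynomial (Fin n) ℂ) S :=
    IsScalarTower.of_algebraMap_eq fun c => ((MvPolynomial.aeval t).commutes c).symm
  obtain ⟨x, g, D, hD⟩ := AL_data (n := n) (S := S)
  have hpt : ∀ y, ALpt n (ev y) = X.π y := fun y => funext fun i => by
    rw [hπ]
    exact congrArg (ev y) (MvPolynomial.aeval_X t i)
  have himg : ∀ z, ev '' (X.π ⁻¹' {z}) = {y : S →ₐ[ℂ] ℂ | ALpt n y = z} := fun z => by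
    ext y
    obtain ⟨w, rfl⟩ := hev.2 y
    rw [hev.1.mem_set_image, mem_ofPred_eq, hpt]
    rfl
  have hfin : ∀ z, (X.π ⁻¹' {z}).Finite := fun z =>
    Finite.of_finite_image (himg z ▸ (hD.fibre z).1) hev.1.injOn
  have hcard : ∀ z, (X.π ⁻¹' {z}).ncard = {y : S →ₐ[ℂ] ℂ | ALpt n y = z}.ncard := fun z => by
    rw [← himg, ncard_image_of_injective _ hev.1]
  have hle := fun z => (hcard z).le.trans (hD.fibre z).2.1
  obtain ⟨k, m, u, hu, hdual⟩ := hD.dual
  obtain ⟨s₀, hs₀, hw⟩ := hD.weight γ M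
  have hF : ∀ i : ℕ, X.Hol univ fun y => h y * ev y (s₀ * x ^ i) := fun i y hy =>
    (hh y hy).mul (hhol _ y hy)
  have hcont : ∀ {F : Y → ℂ}, X.Hol univ F → Continuous F := fun hF =>
    continuousOn_univ.1 (RD.C2.continuousOn X (RD.Hol.c2 X isOpen_univ hF))
  have key : ∀ i : ℕ, ∃ q : MvPolynomial (Fin n) ℂ, ∀ z, MvPolynomial.eval z D ≠ 0 →
      ∑ᶠ y ∈ X.π ⁻¹' {z}, h y * ev y (s₀ * x ^ i) = MvPolynomial.eval z q := fun i => by
    obtain ⟨C, N, hC, hb⟩ := hw i
    refine AL_poly hD.D_ne (fun z hz => (X.AL_trace_hol hfin hle (hF i)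
      ((hcard z).trans ((hD.fibre z).2.2 hz))).differentiableWithinAt) (N := N) ?_
    refine (setLIntegral_le_lintegral _ _).trans_lt ((X.AL_trace_int hfin hle (hcont (hF i))
      (w := fun z => ENNReal.ofReal ((1 + ‖z‖) ^ N)) (by fun_prop)).trans_lt
      (ENNReal.mul_lt_top (ENNReal.natCast_lt_top _) ?_))
    refine lt_of_le_of_lt (lintegral_mono fun y => ?_)
      ((lintegral_const_mul' (ENNReal.ofReal C) _ ENNReal.ofReal_ne_top).trans_lt
        (ENNReal.mul_lt_top ENNReal.ofReal_lt_top hint))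
    have h1 := hb (ev y)
    rw [hpt] at h1
    have p1 : 0 < (1 + ‖X.π y‖) ^ N := by positivity
    have p2 : 0 < (1 + ∑ k, ‖ev y (γ k)‖ ^ 2) ^ M := Real.rpow_pos_of_pos (by positivity) _
    rw [← ofReal_norm, ← ofReal_norm, ← ENNReal.ofReal_pow (norm_nonneg _),
      ← ENNReal.ofReal_pow (norm_nonneg _), ← ENNReal.ofReal_div_of_pos p1,
      ← ENNReal.ofReal_div_of_pos p2, ← ENNReal.ofReal_mul hC.le]
    refine ENNReal.ofReal_le_ofReal ?_
    rw [norm_mul, mul_pow, ← mul_div_assoc, div_le_div_iff₀ p1 p2]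
    nlinarith [mul_le_mul_of_nonneg_left h1 (sq_nonneg ‖h y‖)]
  choose q hq using key
  obtain ⟨v, hv⟩ := (hu.mul hs₀).exists_right_inv
  have hd : Dense (X.π ⁻¹' {z | MvPolynomial.eval z D ≠ 0}) :=
    X.AL_dense (Measure.dense_of_ae (AL_null hD.D_ne))
  refine ⟨(∑ i ∈ Finset.range k, m i * algebraMap (MvPolynomial (Fin n) ℂ) S (q i)) * v,
    congrFun (Continuous.ext_on hd (hcont hh) (hcont (hhol _)) fun y hy => ?_)⟩
  have e1 : ev y (∑ i ∈ Finset.range k, m i * algebraMap (MvPolynomial (Fin n) ℂ) S (q i)) =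
      h y * ev y (u * s₀) := by
    simp only [map_sum, map_mul, AL_alg, hpt, ← hq _ _ hy,
      finsum_mem_eq_finite_toFinset_sum _ (hfin _), Finset.mul_sum, map_pow]
    rw [Finset.sum_comm, Finset.sum_eq_single y]
    · rw [← (hdual (ev y) (ev y) rfl).1 rfl, Finset.sum_mul, Finset.mul_sum]
      exact Finset.sum_congr rfl fun i _ => by ring
    · intro w hw hne
      have hw' : X.π w = X.π y := by simpa using hw
      have := (hdual (ev y) (ev w) (by rw [hpt, hpt, hw'])).2 fun e => hne (hev.1 e).symm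
      rw [← mul_zero (h w * ev w s₀), ← this, Finset.mul_sum]
      exact Finset.sum_congr rfl fun i _ => by ring
    · intro hy'
      exact absurd (by simp) hy'
  change h y = ev y (_ * v)
  rw [map_mul, e1, mul_assoc, ← map_mul, hv, map_one, mul_one]

end Crest.Agent.R271
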