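import Crest.Agent.R271.RDB

/-! Row 271, part B: elementary facts on integrability exponents. -/

set_option autoImplicit false
set_option linter.unusedSectionVars false
set_option linter.unusedVariables false

namespace Crest.Agent.R271

open MeasureTheory Filter Topology
open scoped ENNReal NNReal

variable {E : Type} [NormedAddCommGroup E] [NormedSpace ℂ E] [FiniteDimensional ℂ E]
  [MeasurableSpace E] [BorelSpace E] (μ : Measure E) [μ.IsAddHaarMeasure]
  {ι ι' : Type} [Fintype ι] [Fintype ι'] {g : ι → E → ℂ} {z : E}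

omit [NormedSpace ℂ E] [FiniteDimensional ℂ E] [μ.IsAddHaarMeasure] in
theorem Ex0_mono [IsLocallyFiniteMeasure μ] {ω ω' : E → ℝ≥0∞} {K L : ℝ≥0∞} (hK : K ≠ ∞)
    (hL : L ≠ ∞) (h : IntNear μ ω' z) (hle : ∀ᶠ w in 𝓝 z, ω w ≤ K * ω' w + L) : IntNear μ ω z := by
  obtain ⟨V, hV, hi⟩ := h
  obtain ⟨B, hB, hfin⟩ := μ.finiteAt_nhds z
  obtain ⟨O, hO, hOo, hz⟩ := mem_nhds_iff.1 (hle.and (inter_mem hV hB))
  refine ⟨O, hOo.mem_nhds hz, ?_⟩
  calc ∫⁻ w in O, ω w ∂μ ≤ ∫⁻ w in O, (K * ω' w + L) ∂μ :=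
        setLIntegral_mono' hOo.measurableSet fun w hw => (hO hw).1
    _ = K * ∫⁻ w in O, ω' w ∂μ + L * μ O := by
        rw [lintegral_add_right _ measurable_const, lintegral_const_mul' _ _ hK,
          setLIntegral_const]
    _ < ∞ := by
        refine ENNReal.add_lt_top.2 ⟨ENNReal.mul_lt_top hK.lt_top ?_,
          ENNReal.mul_lt_top hL.lt_top ?_⟩
        · exact (lintegral_mono_set fun w hw => (hO hw).2.1).trans_lt hi
        · exact (measure_mono fun w hw => (hO hw).2.2).trans_lt hfin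

omit [FiniteDimensional ℂ E] [NormedSpace ℂ E] in
theorem Ex0_top {ω : E → ℝ≥0∞} (h : ∀ᶠ w in 𝓝 z, ω w = ∞) : ¬ IntNear μ ω z := by
  rintro ⟨V, hV, hi⟩
  obtain ⟨O, hO, hOo, hz⟩ := mem_nhds_iff.1 (h.and hV)
  have h1 : ∫⁻ w in O, ω w ∂μ = ∞ := by
    rw [setLIntegral_congr_fun hOo.measurableSet (g := fun _ => ∞) fun w hw => (hO hw).1,
      setLIntegral_const, ENNReal.top_mul (hOo.measure_ne_zero μ ⟨z, hz⟩)]
  exact ((lintegral_mono_set fun w hw => (hO hw).2).trans_lt hi).ne h1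

theorem Ex0_nw_nonneg {Y : Type} (g : ι → Y → ℂ) (lam : ι → ℝ) (w : Y) : 0 ≤ nw g lam w :=
  Finset.sum_nonneg fun _ _ => Real.rpow_nonneg (norm_nonneg _) _

theorem Ex0_pow {a b K c s : ℝ} (hb : 0 ≤ b) (hK : 0 < K) (hc : 0 ≤ c) (hs : 0 ≤ s)
    (h : a ≤ K * b ^ s) :
    ENNReal.ofReal b ^ (-(s * c)) ≤ ENNReal.ofReal K ^ c * ENNReal.ofReal a ^ (-c) + 0 := by
  have h1 : ENNReal.ofReal a ^ c ≤ ENNReal.ofReal K ^ c * ENNReal.ofReal b ^ (s * c) := by
    rw [ENNReal.rpow_mul, ← ENNReal.mul_rpow_of_nonneg _ _ hc, ENNReal.ofReal_rpow_of_nonneg hb hs,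
      ← ENNReal.ofReal_mul hK.le]
    exact ENNReal.rpow_le_rpow (ENNReal.ofReal_le_ofReal h) hc
  have h2 : ENNReal.ofReal K ^ c ≠ 0 := (ENNReal.rpow_pos (ENNReal.ofReal_pos.2 hK) (by simp)).ne'
  have h3 : ENNReal.ofReal K ^ c ≠ ∞ := ENNReal.rpow_ne_top_of_nonneg hc (by simp)
  rw [add_zero, ENNReal.rpow_neg, ENNReal.rpow_neg]
  have h4 := ENNReal.inv_le_inv.2 h1
  rw [ENNReal.mul_inv (Or.inl h2) (Or.inl h3)] at h4
  calc _ = ENNReal.ofReal K ^ c * ((ENNReal.ofReal K ^ c)⁻¹ * (ENNReal.ofReal b ^ (s * c))⁻¹) := by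
        rw [← mul_assoc, ENNReal.mul_inv_cancel h2 h3, one_mul]
    _ ≤ _ := by gcongr

theorem le_ex {lam : ι → ℝ} {c : ℝ}
    (h : IntNear μ (fun w => ENNReal.ofReal (nw g lam w) ^ (-c)) z) :
    ENNReal.ofReal c ≤ ex μ g lam z := by
  rcases le_total c 0 with hc | hc
  · rw [ENNReal.ofReal_of_nonpos hc]; exact zero_le
  · lift c to ℝ≥0 using hc
    rw [ENNReal.ofReal_coe_nnreal]
    exact le_iSup₂_of_le (f := fun (c : ℝ≥0) (_ : IntNear μ
      (fun w => ENNReal.ofReal (nw g lam w) ^ (-(c : ℝ))) z) => (c : ℝ≥0∞)) c h le_rfl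

theorem intNear_of_lt_ex (hg : ∀ i, AnalyticAt ℂ (g i) z) {lam : ι → ℝ} {c : ℝ} (hc : 0 ≤ c)
    (h : ENNReal.ofReal c < ex μ g lam z) :
    IntNear μ (fun w => ENNReal.ofReal (nw g lam w) ^ (-c)) z := by
  have := FiniteDimensional.proper ℂ E
  simp only [ex, lt_iSup_iff] at h
  obtain ⟨c', hi, hlt⟩ := h
  have h1 : c < c' := (ENNReal.ofReal_lt_coe_iff hc).1 hlt
  refine Ex0_mono μ ENNReal.one_ne_top ENNReal.one_ne_top hi (Eventually.of_forall fun w => ?_)
  rw [one_mul]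
  rcases le_total (ENNReal.ofReal (nw g lam w)) 1 with h2 | h2
  · exact (ENNReal.rpow_le_rpow_of_exponent_ge h2 (by linarith)).trans le_self_add
  · refine le_trans ?_ le_add_self
    rw [ENNReal.rpow_neg, ENNReal.inv_le_one]
    rw [← ENNReal.one_rpow c]
    exact ENNReal.rpow_le_rpow h2 hc

theorem ex_mono (hg : ∀ i, AnalyticAt ℂ (g i) z) {lam : ι → ℝ} {g' : ι' → E → ℂ} {lam' : ι' → ℝ}
    (h : ∀ i, 0 < lam' i → ∃ C : ℝ, ∀ᶠ w in 𝓝 z, ‖g' i w‖ ≤ C * nw g lam w ^ (lam' i / 2)) :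
    ex μ g' lam' z ≤ ex μ g lam z := by
  have := FiniteDimensional.proper ℂ E
  choose! C hC using h
  have h1 : ∀ᶠ w in 𝓝 z, nw g' lam' w ≤
      (1 + ∑ i with 0 < lam' i, |C i| ^ (2 / lam' i)) * nw g lam w ^ (1 : ℝ) := by
    filter_upwards [(eventually_all_finset (Finset.univ.filter fun i => 0 < lam' i)).2
      fun i hi => hC i (Finset.mem_filter.1 hi).2] with w hw
    have h0 := Ex0_nw_nonneg g lam w
    rw [Real.rpow_one, add_mul, Finset.sum_mul, nw]
    refine le_add_of_nonneg_of_le (by simpa using h0) (Finset.sum_le_sum fun i hi => ?_)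
    have hl := (Finset.mem_filter.1 hi).2
    have h2 : ‖g' i w‖ ≤ |C i| * nw g lam w ^ (lam' i / 2) :=
      (hw i hi).trans (mul_le_mul_of_nonneg_right (le_abs_self _) (Real.rpow_nonneg h0 _))
    refine (Real.rpow_le_rpow (norm_nonneg _) h2 (by positivity)).trans (le_of_eq ?_)
    rw [Real.mul_rpow (abs_nonneg _) (Real.rpow_nonneg h0 _), ← Real.rpow_mul h0,
      show lam' i / 2 * (2 / lam' i) = 1 by field_simp, Real.rpow_one]
  refine iSup₂_le fun c hi => ?_
  rw [← ENNReal.ofReal_coe_nnreal]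
  have h2 : 0 ≤ ∑ i with 0 < lam' i, |C i| ^ (2 / lam' i) :=
    Finset.sum_nonneg fun _ _ => Real.rpow_nonneg (abs_nonneg _) _
  have h3 := Ex0_mono μ (ENNReal.rpow_ne_top_of_nonneg c.2 ENNReal.ofReal_ne_top)
    ENNReal.zero_ne_top hi (h1.mono fun w hw =>
      Ex0_pow (Ex0_nw_nonneg g lam w) (by linarith) c.2 zero_le_one hw)
  rw [one_mul] at h3
  exact le_ex μ h3

theorem ex_smul_le (hg : ∀ i, AnalyticAt ℂ (g i) z) (lam : ι → ℝ) {t : ℝ} (ht : 0 < t) :
    ex μ g (t • lam) z ≤ ENNReal.ofReal t * ex μ g lam z := by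
  have := FiniteDimensional.proper ℂ E
  have h1 : ∀ w, nw g (t • lam) w ≤ (Fintype.card ι + 1) * nw g lam w ^ t⁻¹ := by
    intro w
    have h0 := Real.rpow_nonneg (Ex0_nw_nonneg g lam w) t⁻¹
    refine (Finset.sum_le_card_nsmul _ _ (nw g lam w ^ t⁻¹) fun i hi => ?_).trans ?_
    · have hl : 0 < lam i := (pos_iff_pos_of_mul_pos (Finset.mem_filter.1 hi).2).1 ht
      rw [show 2 / (t • lam) i = 2 / lam i * t⁻¹ by simp; field_simp,
        Real.rpow_mul (norm_nonneg _)]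
      refine Real.rpow_le_rpow (Real.rpow_nonneg (norm_nonneg _) _) ?_ (by positivity)
      exact Finset.single_le_sum (f := fun i => ‖g i w‖ ^ (2 / lam i))
        (fun _ _ => Real.rpow_nonneg (norm_nonneg _) _)
        (Finset.mem_filter.2 ⟨Finset.mem_univ _, hl⟩)
    · rw [nsmul_eq_mul]
      refine mul_le_mul_of_nonneg_right ?_ h0
      exact_mod_cast (Finset.card_le_univ _).trans (Nat.le_succ _)
  refine iSup₂_le fun c hi => ?_
  have h2 := le_ex μ (Ex0_mono μ (ENNReal.rpow_ne_top_of_nonneg c.2 ENNReal.ofReal_ne_top)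
    ENNReal.zero_ne_top hi (Eventually.of_forall fun w => Ex0_pow (Ex0_nw_nonneg g lam w)
      (by positivity) c.2 (by positivity) (h1 w)))
  refine le_trans (le_of_eq ?_) (mul_le_mul_right h2 _)
  rw [← ENNReal.ofReal_mul ht.le, mul_inv_cancel_left₀ ht.ne']
  exact ENNReal.ofReal_coe_nnreal.symm

theorem ex_zero (g : ι → E → ℂ) (z : E) : ex μ g 0 z = 0 := by
  refine le_antisymm (iSup₂_le fun c hi => ?_) zero_le
  by_contra hc
  have h1 : (0 : ℝ) < c := by simpa [pos_iff_ne_zero] using hc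
  refine Ex0_top μ (Eventually.of_forall fun w => ?_) hi
  simp [nw, ENNReal.zero_rpow_of_neg (neg_lt_zero.2 h1)]

theorem Ex0_norm [Nontrivial E] (z : E) :
    ¬ IntNear μ (fun w => (‖w - z‖ₑ ^ (2 * Module.finrank ℂ E))⁻¹) z := by
  have := FiniteDimensional.proper ℂ E
  rintro ⟨V, hV, hi⟩
  have h1 : μ (Metric.ball 0 1) ≠ 0 := (Metric.measure_ball_pos μ _ one_pos).ne'
  obtain ⟨δ, hδ, h⟩ := exists_pos_setLIntegral_lt_of_measure_lt hi.ne h1
  obtain ⟨r, ⟨h2, h3⟩, hr⟩ := ((((tendsto_measure_cthickening_of_isCompact (μ := μ)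
    (isCompact_singleton (x := z))).eventually (gt_mem_nhds (by simpa using hδ))).and
    (eventually_closedBall_subset hV)).filter_mono (nhdsWithin_le_nhds (s := Set.Ioi 0))).and
    self_mem_nhdsWithin |>.exists
  have hr : 0 < r := hr
  rw [Metric.cthickening_singleton _ hr.le] at h2
  have h4 := h (Metric.ball z r) (((μ.restrict_le_self _).trans
    (measure_mono Metric.ball_subset_closedBall)).trans_lt h2)
  rw [Measure.restrict_restrict measurableSet_ball,
    Set.inter_eq_self_of_subset_left (Metric.ball_subset_closedBall.trans h3)] at h4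
  refine h4.not_ge (le_trans ?_ (setLIntegral_mono' measurableSet_ball
    (f := fun _ => (ENNReal.ofReal r ^ (2 * Module.finrank ℂ E))⁻¹) fun w hw => ?_))
  · rw [setLIntegral_const, Measure.addHaar_ball_of_pos μ z hr, finrank_real_of_complex,
      ENNReal.ofReal_pow hr.le, ← mul_assoc, ENNReal.inv_mul_cancel (by simp [hr]) (by simp),
      one_mul]
  · rw [ENNReal.inv_le_inv, ← ofReal_norm]
    gcongr
    exact (mem_ball_iff_norm.1 hw).le

theorem Ex0_one {ψ : ℂ → ℂ} {t : ℂ} (h : DifferentiableAt ℂ ψ t) (h0 : ψ t = 0) :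
    ¬ IntNear volume (fun s => (‖ψ s‖ₑ ^ 2)⁻¹) t := by
  intro hi
  obtain ⟨C, hC, h1⟩ := h.isBigO_sub.exists_pos
  refine Ex0_norm volume t (Ex0_mono volume (K := ENNReal.ofReal C ^ 2) (L := 0) (by simp)
    (by simp) hi (h1.bound.mono fun s hs => ?_))
  rw [h0, sub_zero] at hs
  have h2 : ‖ψ s‖ₑ ^ 2 ≤ ENNReal.ofReal C ^ 2 * ‖s - t‖ₑ ^ 2 := by
    rw [← mul_pow, ← ofReal_norm, ← ofReal_norm, ← ENNReal.ofReal_mul hC.le]
    gcongr
  have h3 : ENNReal.ofReal C ^ 2 ≠ 0 := by simp [hC]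
  have h4 := ENNReal.inv_le_inv.2 h2
  rw [ENNReal.mul_inv (Or.inl h3) (Or.inl (by simp))] at h4
  rw [Module.finrank_self, mul_one, add_zero]
  calc _ = ENNReal.ofReal C ^ 2 * ((ENNReal.ofReal C ^ 2)⁻¹ * (‖s - t‖ₑ ^ 2)⁻¹) := by
        rw [← mul_assoc, ENNReal.mul_inv_cancel h3 (by simp), one_mul]
    _ ≤ _ := by gcongr

omit [FiniteDimensional ℂ E] [MeasurableSpace E] [BorelSpace E] in
/-- nearby parallel lines contain zeros. -/
theorem Ex0_line {f : E → ℂ} {O : Set E} (hO : IsOpen O) (hf : DifferentiableOn ℂ f O)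
    (h0 : f z = 0) {v : E} {ρ : ℝ} (hρ : 0 < ρ)
    (h1 : ∀ t ∈ Metric.closedBall (0 : ℂ) ρ, z + t • v ∈ O)
    (h2 : ∀ t ∈ Metric.sphere (0 : ℂ) ρ, f (z + t • v) ≠ 0) :
    ∀ᶠ w in 𝓝 z, (∀ t ∈ Metric.closedBall (0 : ℂ) ρ, w + t • v ∈ O) ∧
      ∃ t ∈ Metric.ball (0 : ℂ) ρ, f (w + t • v) = 0 := by
  have hc : Continuous fun p : E × ℂ => p.1 + p.2 • v := by fun_prop
  have hz : z ∈ O := by simpa using h1 0 (Metric.mem_closedBall_self hρ.le)
  have e1 : ∀ᶠ w in 𝓝 z, ∀ t ∈ Metric.closedBall (0 : ℂ) ρ, w + t • v ∈ O :=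
    (isCompact_closedBall _ _).eventually_forall_of_forall_eventually fun t ht =>
      hc.continuousAt.eventually (hO.mem_nhds (h1 t ht))
  have e2 : ∀ᶠ w in 𝓝 z, ∀ t ∈ Metric.sphere (0 : ℂ) ρ, ‖f w‖ < ‖f (w + t • v)‖ := by
    refine (isCompact_sphere _ _).eventually_forall_of_forall_eventually fun t ht => ?_
    refine ContinuousAt.eventually_lt (f := fun p : E × ℂ => ‖f p.1‖)
      (g := fun p : E × ℂ => ‖f (p.1 + p.2 • v)‖) ?_ ?_ (by simpa [h0] using h2 t ht)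
    · exact (ContinuousAt.comp (f := Prod.fst) (hf.continuousOn.continuousAt (hO.mem_nhds hz))
        continuousAt_fst).norm
    · exact (ContinuousAt.comp (f := fun p : E × ℂ => p.1 + p.2 • v)
        (hf.continuousOn.continuousAt (hO.mem_nhds (h1 t (Metric.sphere_subset_closedBall ht))))
        hc.continuousAt).norm
  filter_upwards [e1, e2] with w a1 a2
  refine ⟨a1, by_contra fun hn => ?_⟩
  push Not at hn
  have a3 : ∀ t ∈ Metric.closedBall (0 : ℂ) ρ, f (w + t • v) ≠ 0 := fun t ht => by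
    rw [← Metric.ball_union_sphere] at ht
    exact ht.elim (hn t) fun ht => norm_pos_iff.1 ((norm_nonneg _).trans_lt (a2 t ht))
  have a4 : DifferentiableOn ℂ (fun t : ℂ => (f (w + t • v))⁻¹) (Metric.closedBall 0 ρ) :=
    (hf.comp (by fun_prop) a1).inv a3
  rw [← closure_ball _ hρ.ne'] at a4
  obtain ⟨t, ht, hm⟩ := Complex.exists_mem_frontier_isMaxOn_norm Metric.isBounded_ball
    ⟨0, Metric.mem_ball_self hρ⟩ a4.diffContOnCl
  rw [frontier_ball _ hρ.ne'] at ht
  have a5 := hm (subset_closure (Metric.mem_ball_self hρ))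
  have a6 : 0 < ‖f w‖ := by simpa using hn 0 (Metric.mem_ball_self hρ)
  simp only [Function.comp_apply, Set.mem_ofPred_eq, zero_smul, add_zero, norm_inv] at a5
  exact (inv_strictAnti₀ a6 (a2 t ht)).not_ge a5

/-- a function with a zero at `z` has `|f|⁻²` not integrable near `z`. -/
theorem not_intNear_inv {f : E → ℂ} (hf : AnalyticAt ℂ f z) (h0 : f z = 0) :
    ¬ IntNear μ (fun w => (‖f w‖ₑ ^ 2)⁻¹) z := by
  classical
  have := FiniteDimensional.proper ℂ E
  by_cases hz : ∀ᶠ w in 𝓝 z, f w = 0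
  · exact Ex0_top μ (hz.mono fun w hw => by simp [hw])
  rintro ⟨V, hV, hi⟩
  obtain ⟨R, hR, hsub⟩ := Metric.mem_nhds_iff.1 (hf.eventually_analyticAt.and hV)
  obtain ⟨w0, hw0, hne⟩ : ∃ w ∈ Metric.ball z R, f w ≠ 0 := by
    by_contra hn
    push Not at hn
    exact hz (mem_of_superset (Metric.ball_mem_nhds z hR) hn)
  have hd : DifferentiableOn ℂ f (Metric.ball z R) := fun w hw =>
    (hsub hw).1.differentiableAt.differentiableWithinAt
  set v := w0 - z with hv
  have hl : ∀ t ∈ Metric.closedBall (0 : ℂ) 1, z + t • v ∈ Metric.ball z R := fun t ht => by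
    rw [mem_ball_iff_norm, add_sub_cancel_left, norm_smul]
    exact (mul_le_of_le_one_left (norm_nonneg _) (by simpa using ht)).trans_lt
      (mem_ball_iff_norm.1 hw0)
  have ha : AnalyticOnNhd ℂ (fun t : ℂ => f (z + t • v)) (Metric.closedBall 0 1) := fun t ht =>
    AnalyticAt.comp (f := fun t : ℂ => z + t • v) (hsub (hl t ht)).1 (by fun_prop)
  have h01 : (0 : ℂ) ∈ Metric.closedBall (0 : ℂ) 1 := Metric.mem_closedBall_self zero_le_one
  obtain ⟨ρ, hρ, hρ1, hρ2⟩ : ∃ ρ : ℝ, 0 < ρ ∧ ρ ≤ 1 ∧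
      ∀ t ∈ Metric.sphere (0 : ℂ) ρ, f (z + t • v) ≠ 0 := by
    rcases (ha 0 h01).eventually_eq_zero_or_eventually_ne_zero with h | h
    · exact absurd (ha.eqOn_zero_of_preconnected_of_eventuallyEq_zero
        (convex_closedBall _ _).isPreconnected h01 h (show (1 : ℂ) ∈ _ by simp))
        (by simpa [hv] using hne)
    · obtain ⟨ε, hε, h'⟩ := Metric.nhds_basis_closedBall.eventually_iff.1
        (eventually_nhdsWithin_iff.1 h)
      have hm := lt_min hε one_pos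
      refine ⟨min ε 1, hm, min_le_right _ _, fun t ht => h' (Metric.closedBall_subset_closedBall
        (min_le_left _ _) (Metric.sphere_subset_closedBall ht)) ?_⟩
      exact Metric.ne_of_mem_sphere ht hm.ne'
  have hev := Ex0_line Metric.isOpen_ball hd h0 hρ
    (fun t ht => hl t (Metric.closedBall_subset_closedBall hρ1 ht)) hρ2
  set G : E → ℝ≥0∞ := (Metric.ball z R).indicator fun w => (‖f w‖ₑ ^ 2)⁻¹ with hG
  have hGm : Measurable G := by
    rw [hG, ← Set.piecewise_eq_indicator]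
    exact ContinuousOn.measurable_piecewise
      ((ENNReal.continuous_pow 2).comp_continuousOn hd.continuousOn.enorm).inv continuousOn_const
      measurableSet_ball
  refine Ex0_top μ (z := z) (ω := fun w => ∫⁻ t in Metric.ball (0 : ℂ) ρ, G (w + t • v)) ?_
    ⟨Set.univ, univ_mem, ?_⟩
  · filter_upwards [hev] with w ⟨a1, t, ht, a2⟩
    by_contra hn
    refine Ex0_one (ψ := fun s => f (w + s • v)) (DifferentiableAt.comp t
      (hsub (a1 t (Metric.ball_subset_closedBall ht))).1.differentiableAt (by fun_prop)) a2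
      ⟨_, Metric.isOpen_ball.mem_nhds ht, lt_of_eq_of_lt ?_ (lt_top_iff_ne_top.2 hn)⟩
    exact setLIntegral_congr_fun measurableSet_ball fun s hs =>
      (Set.indicator_of_mem (a1 s (Metric.ball_subset_closedBall hs))
        fun w => (‖f w‖ₑ ^ 2)⁻¹).symm
  · rw [Measure.restrict_univ, lintegral_lintegral_swap (f := fun (w : E) (t : ℂ) => G (w + t • v))
      (hGm.comp (f := fun p : E × ℂ => p.1 + p.2 • v) (by fun_prop)).aemeasurable]
    simp only [lintegral_add_right_eq_self]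
    rw [setLIntegral_const, hG, lintegral_indicator measurableSet_ball]
    exact ENNReal.mul_lt_top ((lintegral_mono_set fun w hw => (hsub hw).2).trans_lt hi)
      measure_ball_lt_top

theorem not_intNear_norm [Nontrivial E] (z : E) :
    ¬ IntNear μ (fun w => (‖w - z‖ₑ ^ (2 * Module.finrank ℂ E))⁻¹) z :=
  Ex0_norm μ z

theorem ex_single_le [DecidableEq ι] (hg : ∀ i, AnalyticAt ℂ (g i) z) (i : ι) (h0 : g i z = 0)
    {ε : ℝ} (hε : 0 ≤ ε) : ex μ g (Pi.single i ε) z ≤ ENNReal.ofReal ε := by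
  rcases hε.eq_or_lt with rfl | hε
  · rw [Pi.single_zero, ex_zero]; exact zero_le
  by_contra hn
  refine not_intNear_inv μ (hg i) h0 ?_
  convert intNear_of_lt_ex μ hg hε.le (not_le.1 hn) using 2 with w
  have h1 : nw g (Pi.single i ε) w = ‖g i w‖ ^ (2 / ε) := by
    rw [nw, Finset.sum_eq_single_of_mem i (by simpa using hε), Pi.single_eq_same]
    intro j hj hne
    simp [hne] at hj
  rw [h1, ← ENNReal.ofReal_rpow_of_nonneg (norm_nonneg _) (by positivity), ← ENNReal.rpow_mul,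
    show 2 / ε * -ε = -(2 : ℕ) by push_cast; field_simp, ENNReal.rpow_neg, ENNReal.rpow_natCast,
    ofReal_norm]

end Crest.Agent.R271
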