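import Crest.Agent.R271.Defs

/-! Row 271, part B: negative powers of polynomials. -/

set_option autoImplicit false

namespace Crest.Agent.R271

open MeasureTheory Filter Topology
open scoped ENNReal NNReal

theorem ExP_ball {t : ℝ} (ht : t < 2) :
    ∫⁻ ζ in Metric.ball (0 : ℂ) 1, ‖ζ‖ₑ ^ (-t) < ∞ := by
  have h : IntegrableOn (fun ζ : ℂ => ‖ζ‖ ^ (-t)) (Metric.ball 0 1) volume :=
    integrableOn_ball_of_norm_le_rpow (C := 1) (α := t) (by simp) (by simpa using ht)
      (Eventually.of_forall fun x => by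
        rw [Real.norm_of_nonneg (by positivity), one_mul])
      (Measurable.aestronglyMeasurable (by fun_prop))
  refine lt_of_eq_of_lt (lintegral_congr_ae ?_) h.2
  have h0 : ∀ᵐ ζ : ℂ, ζ ∈ ({0} : Set ℂ)ᶜ := compl_mem_ae_iff.mpr (measure_singleton 0)
  filter_upwards [ae_restrict_of_ae h0] with ζ hζ
  rw [Real.enorm_of_nonneg (by positivity), ← ofReal_norm,
    ENNReal.ofReal_rpow_of_pos (norm_pos_iff.mpr hζ)]

theorem ExP_shift {t : ℝ} (h0 : 0 ≤ t) (a r : ℂ) :
    ∫⁻ ζ in Metric.ball a 1, ‖ζ - r‖ₑ ^ (-t) ≤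
      volume (Metric.ball (0 : ℂ) 1) + ∫⁻ ζ in Metric.ball (0 : ℂ) 1, ‖ζ‖ₑ ^ (-t) := by
  have h1 : ∀ ζ : ℂ, ‖ζ - r‖ₑ ^ (-t) ≤
      1 + (Metric.ball (0 : ℂ) 1).indicator (fun ζ => ‖ζ‖ₑ ^ (-t)) (ζ - r) := by
    intro ζ
    by_cases h : ζ - r ∈ Metric.ball (0 : ℂ) 1
    · rw [Set.indicator_of_mem h]
      exact le_add_self
    · refine le_trans ?_ le_self_add
      rw [mem_ball_zero_iff, not_lt] at h
      rw [ENNReal.rpow_neg, ENNReal.inv_le_one]
      rcases h0.eq_or_lt with h0 | h0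
      · rw [← h0, ENNReal.rpow_zero]
      · refine ENNReal.one_le_rpow ?_ h0
        rw [← ofReal_norm]
        exact ENNReal.one_le_ofReal.mpr h
  refine le_trans (lintegral_mono h1) ?_
  rw [lintegral_add_left measurable_const, setLIntegral_one, Measure.addHaar_ball_center]
  refine add_le_add le_rfl (le_trans (setLIntegral_le_lintegral _ _) (le_of_eq ?_))
  rw [lintegral_sub_right_eq_self
    ((Metric.ball (0 : ℂ) 1).indicator fun ζ => ‖ζ‖ₑ ^ (-t)) r,
    lintegral_indicator measurableSet_ball]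

theorem ExP_sum (μ : Measure ℂ) (t : ℝ) {K : ℝ≥0∞} (h : ∀ r : ℂ, ∫⁻ ζ, ‖ζ - r‖ₑ ^ (-t) ∂μ ≤ K)
    (m : Multiset ℂ) :
    ∫⁻ ζ, (m.map fun r => ‖ζ - r‖ₑ ^ (-t)).sum ∂μ ≤ Multiset.card m * K := by
  induction m using Multiset.induction_on with
  | empty => simp
  | cons a m ih =>
    simp only [Multiset.map_cons, Multiset.sum_cons, Multiset.card_cons]
    rw [lintegral_add_left (by fun_prop), Nat.cast_succ, add_mul, one_mul, add_comm]
    exact add_le_add ih (h a)

theorem ExP_prod (s : ℝ) (ζ : ℂ) (m : Multiset ℂ) :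
    ‖(m.map (ζ - ·)).prod‖ₑ ^ (-s) = (m.map fun r => ‖ζ - r‖ₑ ^ (-s)).prod := by
  induction m using Multiset.induction_on with
  | empty => simp
  | cons a m ih =>
    simp only [Multiset.map_cons, Multiset.prod_cons]
    rw [enorm_mul, ENNReal.mul_rpow_of_ne_top enorm_ne_top enorm_ne_top, ih]

theorem ExP_amgm (g : ℂ → ℝ≥0∞) (m : Multiset ℂ) :
    (m.map g).prod ≤ 1 + (m.map fun r => g r ^ Multiset.card m).sum := by
  classical
  rcases eq_or_ne m 0 with rfl | hm
  · simp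
  obtain ⟨r, hr, hmax⟩ := m.toFinset.exists_max_image g (Multiset.toFinset_nonempty.mpr hm)
  refine le_trans ?_ le_add_self
  have h1 := Multiset.prod_le_pow_card (m.map g) (g r) fun x hx => by
    obtain ⟨y, hy, rfl⟩ := Multiset.mem_map.mp hx
    exact hmax y (Multiset.mem_toFinset.mpr hy)
  rw [Multiset.card_map] at h1
  exact h1.trans (Multiset.le_sum_of_mem
    (Multiset.mem_map_of_mem (fun r => g r ^ Multiset.card m) (Multiset.mem_toFinset.mp hr)))

theorem ExP_one {s : ℝ} (hs : 0 < s) {d : ℕ} (hd : s * d < 2) :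
    ∃ K : ℝ≥0∞, K ≠ ∞ ∧ ∀ (p : Polynomial ℂ) (a : ℂ), p.natDegree ≤ d →
      ∫⁻ ζ in Metric.ball a 1, ‖p.eval ζ‖ₑ ^ (-s) ≤ K * ‖p.coeff d‖ₑ ^ (-s) := by
  set V : ℝ≥0∞ := volume (Metric.ball (0 : ℂ) 1) with hV
  set K : ℝ≥0∞ := V + ∫⁻ ζ in Metric.ball (0 : ℂ) 1, ‖ζ‖ₑ ^ (-(s * d)) with hK
  have hV1 : V ≠ ∞ := measure_ball_lt_top.ne
  have hV0 : V ≠ 0 := (Metric.measure_ball_pos _ _ one_pos).ne'
  have hK1 : K ≠ ∞ := ENNReal.add_ne_top.mpr ⟨hV1, (ExP_ball hd).ne⟩
  refine ⟨V + d * K, ENNReal.add_ne_top.mpr ⟨hV1, ENNReal.mul_ne_top (by simp) hK1⟩,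
    fun p a hp => ?_⟩
  by_cases h0 : p.coeff d = 0
  · rw [h0, enorm_zero, ENNReal.zero_rpow_of_neg (neg_neg_of_pos hs),
      ENNReal.mul_top (by simp [hV0])]
    exact le_top
  have h1 : p.natDegree = d := le_antisymm hp (Polynomial.le_natDegree_of_ne_zero h0)
  have h2 : Multiset.card p.roots = d := IsAlgClosed.card_roots_eq_natDegree.trans h1
  have h3 : ∀ ζ : ℂ, ‖p.eval ζ‖ₑ ^ (-s) ≤
      (1 + (p.roots.map fun r => ‖ζ - r‖ₑ ^ (-(s * d))).sum) * ‖p.coeff d‖ₑ ^ (-s) := by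
    intro ζ
    rw [(IsAlgClosed.splits p).eval_eq_prod_roots, enorm_mul,
      ENNReal.mul_rpow_of_ne_top enorm_ne_top enorm_ne_top, ExP_prod, Polynomial.leadingCoeff, h1,
      mul_comm]
    refine mul_le_mul_left ((ExP_amgm _ _).trans (le_of_eq ?_)) _
    simp only [h2, ← ENNReal.rpow_natCast, ← ENNReal.rpow_mul, neg_mul]
  refine le_trans (lintegral_mono h3) ?_
  rw [lintegral_mul_const' _ _ (ENNReal.rpow_ne_top_of_ne_zero (by simpa using h0) enorm_ne_top),
    lintegral_add_left measurable_const, setLIntegral_one, Measure.addHaar_ball_center]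
  refine mul_le_mul_left (add_le_add le_rfl ?_) _
  rw [← h2]
  refine ExP_sum _ _ (fun r => ?_) _
  rw [h2]
  exact ExP_shift (by positivity) a r

/-- negative powers of polynomials. -/
theorem intNear_poly {n : ℕ} {q : MvPolynomial (Fin n) ℂ} (hq : q ≠ 0) {c : ℝ} (hc : 0 < c)
    (h : c * q.totalDegree < 1) (z : Fin n → ℂ) :
    IntNear volume (fun w => ‖MvPolynomial.eval w q‖ₑ ^ (-(2 * c))) z := by
  induction n with
  | zero =>
    refine ⟨Metric.ball z 1, Metric.ball_mem_nhds z one_pos, ?_⟩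
    rw [MvPolynomial.eq_C_of_isEmpty q] at hq ⊢
    simp only [MvPolynomial.eval_C]
    rw [setLIntegral_const]
    refine ENNReal.mul_lt_top (lt_top_iff_ne_top.mpr
      (ENNReal.rpow_ne_top_of_ne_zero ?_ enorm_ne_top)) measure_ball_lt_top
    intro h0
    rw [enorm_eq_zero] at h0
    exact hq (by rw [h0, map_zero])
  | succ n ih =>
    set Q := MvPolynomial.finSuccEquiv ℂ n q with hQ
    have hQ0 : Q ≠ 0 := by
      rw [hQ]
      simpa using hq
    have hl : Q.coeff Q.natDegree ≠ 0 := Polynomial.leadingCoeff_ne_zero.mpr hQ0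
    have hdeg := MvPolynomial.totalDegree_coeff_finSuccEquiv_add_le q _ hl
    rw [← hQ] at hdeg
    have d1 : ((Q.coeff Q.natDegree).totalDegree : ℝ) ≤ q.totalDegree := by
      exact_mod_cast (by omega : (Q.coeff Q.natDegree).totalDegree ≤ q.totalDegree)
    have d2 : (Q.natDegree : ℝ) ≤ q.totalDegree := by
      exact_mod_cast (by omega : Q.natDegree ≤ q.totalDegree)
    obtain ⟨V, hV, hI⟩ := ih hl (lt_of_le_of_lt (mul_le_mul_of_nonneg_left d1 hc.le) h)
      (fun j => z j.succ)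
    obtain ⟨K, hK, hK'⟩ := ExP_one (s := 2 * c) (by positivity) (d := Q.natDegree) (by nlinarith)
    let e := MeasurableEquiv.piFinSuccAbove (fun _ : Fin (n + 1) => ℂ) 0
    have he : MeasurePreserving e := volume_preserving_piFinSuccAbove (fun _ => ℂ) 0
    have hm : Measurable fun w : Fin (n + 1) → ℂ => ‖MvPolynomial.eval w q‖ₑ ^ (-(2 * c)) :=
      (MvPolynomial.continuous_eval q).measurable.enorm.pow_const _
    have hc1 : Continuous fun w : Fin (n + 1) → ℂ => (w 0, fun j : Fin n => w j.succ) := by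
      fun_prop
    refine ⟨e ⁻¹' (Metric.ball (z 0) 1 ×ˢ V),
      hc1.continuousAt.preimage_mem_nhds (prod_mem_nhds (Metric.ball_mem_nhds _ one_pos) hV), ?_⟩
    have h1 := he.setLIntegral_comp_preimage_emb e.measurableEmbedding
      (fun p => ‖MvPolynomial.eval (e.symm p) q‖ₑ ^ (-(2 * c))) (Metric.ball (z 0) 1 ×ˢ V)
    simp only [MeasurableEquiv.symm_apply_apply] at h1
    rw [h1, Measure.volume_eq_prod, ← Measure.prod_restrict,
      lintegral_prod_symm' (fun p => ‖MvPolynomial.eval (e.symm p) q‖ₑ ^ (-(2 * c)))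
        (hm.comp e.symm.measurable)]
    refine lt_of_le_of_lt (lintegral_mono fun y => ?_)
      (lt_of_eq_of_lt (lintegral_const_mul' K _ hK) (ENNReal.mul_lt_top hK.lt_top hI))
    have h2 := hK' (Q.map (MvPolynomial.eval y)) (z 0) Polynomial.natDegree_map_le
    rw [Polynomial.coeff_map] at h2
    refine le_trans (le_of_eq (lintegral_congr fun x => ?_)) h2
    rw [hQ, ← MvPolynomial.eval_eq_eval_mv_eval']
    have : e.symm (x, y) = Fin.cons x y := by
      simp [e, MeasurableEquiv.piFinSuccAbove_symm_apply, Fin.insertNthEquiv]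
    rw [this]

end Crest.Agent.R271
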