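import Crest.Agent.R271.HMean
import Crest.Agent.R271.Ex0
import Crest.Agent.R271.ExP

/-! Row 271, (ALG) part 1: `L²` holomorphic functions of polynomial growth off a hypersurface are
polynomials. -/

set_option autoImplicit false
set_option linter.unusedSectionVars false

namespace Crest.Agent.R271

open MeasureTheory Filter Topology Set Metric MvPolynomial
open scoped ENNReal NNReal

variable {n : ℕ}

/-- `intNear_poly` (with `c = 1 / (totalDegree + 1)`), `ae_lt_top`, `measure_null_of_locally_null`. -/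
theorem AL_null {D : MvPolynomial (Fin n) ℂ} (hD : D ≠ 0) : ∀ᵐ t : Fin n → ℂ, eval t D ≠ 0 := by
  rw [ae_iff]
  refine measure_null_of_locally_null _ fun z _ => ?_
  have hc : (0 : ℝ) < 1 / ((D.totalDegree : ℝ) + 1) := by positivity
  obtain ⟨V, hV, h⟩ := intNear_poly hD hc (by
    rw [one_div, inv_mul_lt_iff₀ (by positivity)]; linarith) z
  refine ⟨_, inter_mem_nhdsWithin _ hV, ?_⟩
  have hm : Measurable fun w : Fin n → ℂ =>
      ‖eval w D‖ₑ ^ (-(2 * (1 / ((D.totalDegree : ℝ) + 1)))) :=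
    (continuous_eval D).measurable.enorm.pow_const _
  have h1 := ae_imp_of_ae_restrict (ae_lt_top hm h.ne)
  refine measure_mono_null (fun w hw => ?_) (ae_iff.1 h1)
  intro h2
  have h3 := h2 hw.2
  rw [not_not.1 hw.1, enorm_zero, ENNReal.zero_rpow_of_neg (by linarith)] at h3
  exact lt_irrefl _ h3

theorem AL_analytic (p : MvPolynomial (Fin n) ℂ) (z : Fin n → ℂ) :
    AnalyticAt ℂ (fun t : Fin n → ℂ => eval t p) z := by
  exact AnalyticOnNhd.eval_mvPolynomial p z (mem_univ z)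

/-- `MvPolynomial.induction_on`. -/
theorem AL_growth (p : MvPolynomial (Fin n) ℂ) :
    ∃ (C : ℝ) (N : ℕ), 0 < C ∧ ∀ t : Fin n → ℂ, ‖eval t p‖ ≤ C * (1 + ‖t‖) ^ N := by
  induction p using MvPolynomial.induction_on with
  | C a => exact ⟨‖a‖ + 1, 0, by positivity, fun t => by simp⟩
  | add p q hp hq =>
    obtain ⟨C, N, hC, hp⟩ := hp
    obtain ⟨C', N', hC', hq⟩ := hq
    refine ⟨C + C', N + N', by positivity, fun t => ?_⟩
    have h1 : 1 ≤ 1 + ‖t‖ := le_add_of_nonneg_right (norm_nonneg t)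
    rw [map_add, add_mul]
    refine (norm_add_le _ _).trans (add_le_add ((hp t).trans ?_) ((hq t).trans ?_))
    · exact mul_le_mul_of_nonneg_left (pow_le_pow_right₀ h1 (Nat.le_add_right _ _)) hC.le
    · exact mul_le_mul_of_nonneg_left (pow_le_pow_right₀ h1 (Nat.le_add_left _ _)) hC'.le
  | mul_X p i hp =>
    obtain ⟨C, N, hC, hp⟩ := hp
    refine ⟨C, N + 1, hC, fun t => ?_⟩
    rw [map_mul, eval_X, norm_mul, pow_succ, ← mul_assoc]
    exact mul_le_mul (hp t) ((norm_le_pi_norm t i).trans (by linarith)) (norm_nonneg _)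
      (by positivity)

theorem AL62_van {g : ℂ → ℂ} (hg : Differentiable ℂ g) {C : ℝ} {N : ℕ}
    (hC : ∀ z, ‖g z‖ ≤ C * (1 + ‖z‖) ^ N) {k : ℕ} (hk : N < k) : iteratedDeriv k g 0 = 0 := by
  have hC0 : 0 ≤ C := by
    have := (norm_nonneg _).trans (hC 0)
    simpa using this
  have key : ∀ R : ℝ, 1 ≤ R → ‖iteratedDeriv k g 0‖ ≤ (k.factorial * C * 2 ^ N) / R := by
    intro R hR
    have hR0 : 0 < R := by linarith
    have h1 := Complex.norm_iteratedDeriv_le_of_forall_mem_sphere_norm_le (f := g) (c := 0)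
      (R := R) (C := C * (1 + R) ^ N) k hR0 hg.diffContOnCl (fun z hz => by
        have : ‖z‖ = R := by simpa using hz
        simpa [this] using hC z)
    refine h1.trans ?_
    rw [div_le_div_iff₀ (by positivity) hR0]
    have h2 : (1 + R) ^ N ≤ 2 ^ N * R ^ N := by
      rw [← mul_pow]
      exact pow_le_pow_left₀ (by positivity) (by linarith) N
    have h3 : R ^ N * R ≤ R ^ k := by
      rw [← pow_succ]
      exact pow_le_pow_right₀ hR hk
    have h4 : (0 : ℝ) ≤ k.factorial * C := by positivity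
    calc (k.factorial : ℝ) * (C * (1 + R) ^ N) * R = (k.factorial * C) * ((1 + R) ^ N * R) := by ring
      _ ≤ (k.factorial * C) * (2 ^ N * R ^ N * R) := by gcongr
      _ = (k.factorial * C * 2 ^ N) * (R ^ N * R) := by ring
      _ ≤ (k.factorial * C * 2 ^ N) * R ^ k := by gcongr
  have ht : Tendsto (fun R : ℝ => (k.factorial * C * 2 ^ N) / R) atTop (𝓝 0) :=
    tendsto_const_nhds.div_atTop tendsto_id
  have : ‖iteratedDeriv k g 0‖ ≤ 0 :=
    ge_of_tendsto ht ((eventually_ge_atTop 1).mono key)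
  exact norm_le_zero_iff.mp this

theorem AL62_multi {k : ℕ} (M : ContinuousMultilinearMap ℂ (fun _ : Fin k => (Fin n → ℂ)) ℂ) :
    ∃ p : MvPolynomial (Fin n) ℂ, ∀ t, M (fun _ => t) = eval t p := by
  classical
  refine ⟨∑ r : Fin k → Fin n, MvPolynomial.C (M fun j => Pi.single (r j) 1) * ∏ j, X (r j),
    fun t => ?_⟩
  have ht : t = ∑ i, t i • (Pi.single i 1 : Fin n → ℂ) := by
    ext j
    simp [Finset.sum_apply, Pi.single_apply]
  have : M (fun _ => t) = M (fun _ => ∑ i, t i • (Pi.single i 1 : Fin n → ℂ)) := by rw [← ht]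
  rw [this, ContinuousMultilinearMap.map_sum]
  simp only [map_sum, map_mul, eval_C, map_prod, eval_X]
  refine Finset.sum_congr rfl fun r _ => ?_
  rw [ContinuousMultilinearMap.map_smul_univ, smul_eq_mul, mul_comm]

/-- Liouville.  One way: `f` is analytic (`R264.SCV.analyticOnNhd`); for fixed `t` the entire function
`ζ ↦ f (ζ • t)` has growth `≤ C' (1 + |ζ|)^N`, so its Taylor coefficients of order `> N` vanish (Cauchy
estimates on large circles) and `f t = ∑_{k ≤ N} (k!)⁻¹ iteratedFDeriv ℂ k f 0 (fun _ => t)`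
(`R264.SCV.iteratedDeriv_line`, `Complex.taylorSeries_eq_of_entire`; or
`R264.SCV.norm_iteratedFDeriv_le` with `ρ → ∞`); each term is a polynomial in `t` since
`t = ∑ i, t i • Pi.single i 1` (`ContinuousMultilinearMap.map_sum`, `map_smul_univ`). -/
theorem AL_liouville {f : (Fin n → ℂ) → ℂ} (hf : Differentiable ℂ f) {C : ℝ} {N : ℕ}
    (hC : ∀ t, ‖f t‖ ≤ C * (1 + ‖t‖) ^ N) : ∃ p : MvPolynomial (Fin n) ℂ, ∀ t, f t = eval t p := by
  choose P hP using fun k : ℕ => AL62_multi (n := n) (iteratedFDeriv ℂ k f 0)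
  refine ⟨∑ k ∈ Finset.range (N + 1), MvPolynomial.C ((k.factorial : ℂ)⁻¹) * P k, fun t => ?_⟩
  have hC0 : 0 ≤ C := by
    have := (norm_nonneg _).trans (hC 0)
    simpa using this
  set g : ℂ → ℂ := fun z => f (0 + z • t) with hg
  have hgd : Differentiable ℂ g := hf.comp (by fun_prop)
  have hgb : ∀ z, ‖g z‖ ≤ (C * (1 + ‖t‖) ^ N) * (1 + ‖z‖) ^ N := by
    intro z
    refine (hC _).trans ?_
    rw [mul_assoc, ← mul_pow]
    gcongr
    rw [zero_add, norm_smul]
    nlinarith [norm_nonneg z, norm_nonneg t]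
  have hk : ∀ k, iteratedDeriv k g 0 = eval t (P k) := by
    intro k
    rw [hg, Crest.Agent.R264.SCV.iteratedDeriv_line isOpen_univ hf.differentiableOn 0 t k 0
      (mem_univ _), ← hP]
    simp
  have h1 := Complex.taylorSeries_eq_of_entire' 0 1 hgd
  rw [tsum_eq_sum (s := Finset.range (N + 1)) (fun k hk' => by
    rw [AL62_van hgd hgb (k := k) (by simpa [Nat.lt_succ_iff] using hk')]
    simp)] at h1
  have h2 : g 1 = f t := by simp [hg]
  rw [← h2, ← h1]
  simp [map_sum, hk]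

/-- growth near the hypersurface.  With `‖D s‖ ≤ C (1 + ‖s‖)^K` (`AL_growth`) and
`R264.SCV.norm_sub_le` on `ball t 1`: `‖D s - D t‖ ≤ L ‖s - t‖`, `L = 2 C (2 + ‖t‖)^K`.  For
`r = ‖D t‖ / (2 L)` (`≤ 1/4`) the closed ball `closedBall t r` misses `{D = 0}`, and `Hmean_sq` gives
`volume (ball 0 1) r^{2n} ‖τ t‖² ≤ ∫_{ball t r} ‖τ‖² ≤ (2 + ‖t‖)^N I`
(`Measure.addHaar_ball`, `finrank ℝ (Fin n → ℂ) = 2 n`); `2 + ‖t‖ ≤ 2 (1 + ‖t‖)`. -/
theorem AL_near {D : MvPolynomial (Fin n) ℂ} {τ : (Fin n → ℂ) → ℂ}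
    (hτ : DifferentiableOn ℂ τ {t | eval t D ≠ 0}) {N : ℕ}
    (hI : ∫⁻ t in {t | eval t D ≠ 0}, ‖τ t‖ₑ ^ 2 / ENNReal.ofReal ((1 + ‖t‖) ^ N) < ∞) :
    ∃ (C : ℝ) (N' : ℕ), ∀ t, eval t D ≠ 0 → ‖eval t D‖ ^ n * ‖τ t‖ ≤ C * (1 + ‖t‖) ^ N' := by
  obtain ⟨C, K, hC0, hC⟩ := AL_growth D
  set I := ∫⁻ t in {t | eval t D ≠ 0}, ‖τ t‖ₑ ^ 2 / ENNReal.ofReal ((1 + ‖t‖) ^ N) with hI'
  have hV : 0 < (volume (ball (0 : Fin n → ℂ) 1)).toReal :=
    ENNReal.toReal_pos (measure_ball_pos _ _ one_pos).ne' measure_ball_lt_top.ne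
  set V := (volume (ball (0 : Fin n → ℂ) 1)).toReal with hV'
  refine ⟨(4 * C) ^ n * (I.toReal / V + 1) * 2 ^ (K * n + N), K * n + N, fun t ht => ?_⟩
  have hδ : 0 < ‖eval t D‖ := norm_pos_iff.2 ht
  have h1 : ∀ s ∈ ball t 1, 1 + ‖s‖ ≤ 2 + ‖t‖ := fun s hs => by
    linarith [mem_ball_iff_norm.1 hs, norm_sub_norm_le s t]
  have hM : ∀ s ∈ ball t 1, ‖eval s D‖ ≤ C * (2 + ‖t‖) ^ K := fun s hs =>
    (hC s).trans (by have := h1 s hs; gcongr)
  have hM0 : 0 < 4 * (C * (2 + ‖t‖) ^ K) := by positivity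
  obtain ⟨r, hr⟩ : ∃ r, ‖eval t D‖ = 4 * (C * (2 + ‖t‖) ^ K) * r :=
    ⟨_, (mul_div_cancel₀ _ hM0.ne').symm⟩
  have hr0 : 0 < r := (mul_pos_iff_of_pos_left hM0).1 (hr ▸ hδ)
  have hr1 : r < 1 := (mul_lt_iff_lt_one_right hM0).1 (by linarith [hM t (mem_ball_self one_pos)])
  have hsub : closedBall t r ⊆ {s | eval s D ≠ 0} := fun s hs h0 => by
    have := R264.SCV.norm_sub_le (fun z _ => (AL_analytic D z).differentiableAt.differentiableWithinAt)
      hM (closedBall_subset_ball hr1 hs)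
    rw [h0, zero_sub, norm_neg, div_one] at this
    have h2 := mul_le_mul_of_nonneg_left (mem_closedBall_iff_norm.1 hs) hM0.le
    linarith
  have h2 := Hmean_sq (μ := volume) (isOpen_ne_fun (MvPolynomial.continuous_eval D) continuous_const)
    hτ hsub
  have h3 : ∫⁻ s in ball t r, ‖τ s‖ₑ ^ 2 ≤ ENNReal.ofReal ((2 + ‖t‖) ^ N) * I := by
    refine le_trans (setLIntegral_mono' measurableSet_ball (g := fun s => ENNReal.ofReal
      ((2 + ‖t‖) ^ N) * (‖τ s‖ₑ ^ 2 / ENNReal.ofReal ((1 + ‖s‖) ^ N))) fun s hs => ?_) ?_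
    · refine (ENNReal.mul_div_cancel (a := ENNReal.ofReal ((1 + ‖s‖) ^ N))
        (ENNReal.ofReal_pos.2 (by positivity)).ne' ENNReal.ofReal_ne_top).ge.trans ?_
      have := h1 s (ball_subset_ball hr1.le hs)
      gcongr
    · rw [lintegral_const_mul' _ _ ENNReal.ofReal_ne_top]
      exact mul_le_mul_right (lintegral_mono_set (ball_subset_closedBall.trans hsub)) _
  have h4 := ENNReal.toReal_mono (ENNReal.mul_ne_top ENNReal.ofReal_ne_top hI.ne) (h2.trans h3)
  rw [Measure.addHaar_ball_of_pos _ _ hr0, show Module.finrank ℝ (Fin n → ℂ) = n * 2 by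
    simp [Module.finrank_pi_fintype]] at h4
  simp only [ENNReal.toReal_mul, ENNReal.toReal_pow, toReal_enorm] at h4
  rw [ENNReal.toReal_ofReal (by positivity), ENNReal.toReal_ofReal (by positivity), ← hV'] at h4
  have ha : 1 ≤ (2 + ‖t‖) ^ N := one_le_pow₀ (by linarith [norm_nonneg t])
  have hB : 0 ≤ I.toReal / V := by positivity
  have h5 : r ^ n * ‖τ t‖ ≤ (2 + ‖t‖) ^ N * (I.toReal / V + 1) := by
    have hb : 1 ≤ (2 + ‖t‖) ^ N * (I.toReal / V + 1) := one_le_mul_of_one_le_of_one_le ha (by linarith)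
    refine (pow_le_pow_iff_left₀ (by positivity) (by positivity) two_ne_zero).1
      (le_trans ?_ (le_self_pow₀ hb two_ne_zero))
    rw [mul_pow, ← pow_mul, mul_add, ← mul_div_assoc]
    refine le_trans ((le_div_iff₀ hV).2 (by linarith)) (le_add_of_nonneg_right (by positivity))
  calc _ = (4 * C) ^ n * (2 + ‖t‖) ^ (K * n) * (r ^ n * ‖τ t‖) := by
        rw [hr, pow_mul]
        simp only [mul_pow]
        ring
    _ ≤ (4 * C) ^ n * (2 + ‖t‖) ^ (K * n) * ((2 + ‖t‖) ^ N * (I.toReal / V + 1)) := by gcongr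
    _ = (4 * C) ^ n * (I.toReal / V + 1) * (2 + ‖t‖) ^ (K * n + N) := by ring
    _ ≤ (4 * C) ^ n * (I.toReal / V + 1) * (2 * (1 + ‖t‖)) ^ (K * n + N) := by
        gcongr
        linarith [norm_nonneg t]
    _ = _ := by rw [mul_pow 2, mul_assoc _ (2 ^ _)]

/-- `F = D^{n+2} τ` (which is `0` on `{D = 0}`) is differentiable everywhere: at a zero `z` of `D`,
`‖F t‖ ≤ C' ‖D t‖² = O(‖t - z‖²)`, so `HasFDerivAt F 0 z`; `AL_liouville`. -/
theorem AL_ext {D : MvPolynomial (Fin n) ℂ} {τ : (Fin n → ℂ) → ℂ}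
    (hτ : DifferentiableOn ℂ τ {t | eval t D ≠ 0}) {C : ℝ} {N : ℕ}
    (hC : ∀ t, eval t D ≠ 0 → ‖eval t D‖ ^ n * ‖τ t‖ ≤ C * (1 + ‖t‖) ^ N) :
    ∃ p : MvPolynomial (Fin n) ℂ, ∀ t, eval t D ^ (n + 2) * τ t = eval t p := by
  obtain ⟨C', N', hC', hD⟩ := AL_growth D
  have hDd : Differentiable ℂ (fun t : Fin n → ℂ => eval t D) := fun z =>
    (AL_analytic D z).differentiableAt
  have hb : ∀ t, ‖eval t D ^ (n + 2) * τ t‖ ≤ |C| * (1 + ‖t‖) ^ N * ‖eval t D‖ ^ 2 := by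
    intro t
    by_cases ht : eval t D = 0
    · simp [ht]
    · rw [norm_mul, norm_pow, pow_add]
      have h1 := (hC t ht).trans (mul_le_mul_of_nonneg_right (le_abs_self C) (by positivity))
      calc ‖eval t D‖ ^ n * ‖eval t D‖ ^ 2 * ‖τ t‖
          = (‖eval t D‖ ^ n * ‖τ t‖) * ‖eval t D‖ ^ 2 := by ring
        _ ≤ _ := by gcongr
  have hF : Differentiable ℂ (fun t : Fin n → ℂ => eval t D ^ (n + 2) * τ t) := by
    intro z
    by_cases hz : eval z D = 0
    · refine HasFDerivAt.differentiableAt (f' := 0) ?_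
      rw [hasFDerivAt_iff_isLittleO]
      have h0 : (fun t : Fin n → ℂ => eval t D) =O[𝓝 z] fun t => t - z := by
        have := (hDd z).isBigO_sub
        simpa [hz] using this
      have h1 : (fun t : Fin n → ℂ => eval t D) =o[𝓝 z] fun _ => (1 : ℝ) := by
        rw [Asymptotics.isLittleO_one_iff]
        have := (hDd z).continuousAt.tendsto
        rwa [hz] at this
      have h2 : (fun t : Fin n → ℂ => |C| * (1 + ‖t‖) ^ N) =O[𝓝 z] fun _ => (1 : ℝ) := by
        have : ContinuousAt (fun t : Fin n → ℂ => |C| * (1 + ‖t‖) ^ N) z := by fun_prop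
        exact this.tendsto.isBigO_one ℝ
      have h3 : (fun t : Fin n → ℂ => |C| * (1 + ‖t‖) ^ N * ‖eval t D‖ ^ 2) =o[𝓝 z]
          fun t => t - z := by
        have := h2.mul_isLittleO (h1.norm_left.mul_isBigO h0.norm_norm)
        simp only [one_mul] at this
        simpa [sq] using this.of_norm_right
      refine Asymptotics.IsBigO.trans_isLittleO ?_ h3
      refine Asymptotics.IsBigO.of_bound 1 (Eventually.of_forall fun t => ?_)
      have := hb t
      simp only [hz, zero_pow (show n + 2 ≠ 0 by omega), zero_mul, sub_zero,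
        zero_apply, one_mul]
      exact this.trans (le_abs_self _)
    · have ho : IsOpen {t : Fin n → ℂ | eval t D ≠ 0} :=
        isOpen_ne_fun hDd.continuous continuous_const
      exact ((hDd z).pow _).mul (hτ.differentiableAt (ho.mem_nhds hz))
  refine AL_liouville hF (C := |C| * C' ^ 2) (N := N + 2 * N') fun t => (hb t).trans ?_
  calc |C| * (1 + ‖t‖) ^ N * ‖eval t D‖ ^ 2 ≤ |C| * (1 + ‖t‖) ^ N * (C' * (1 + ‖t‖) ^ N') ^ 2 := by
        gcongr
        exact hD t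
    _ = _ := by ring

/-- lowest terms.  `UniqueFactorizationMonoid.exists_reduced_factors'`: `p = c a`, `Q = c b`,
`IsRelPrime a b`.  If `b` is a unit take `q = a b⁻¹`.  Otherwise a prime `r ∣ b` does not divide `a`,
and the Nullstellensatz (`MvPolynomial.vanishingIdeal_zeroLocus_eq_radical`) gives `z` with
`r z = 0`, `a z ≠ 0`; near `z`, `(‖b‖²)⁻¹ ≤ C ‖τ‖² / (1 + ‖t‖)^N` a.e. (`AL_null`), contradicting
`not_intNear_inv`. -/
theorem AL_lowest {Q p : MvPolynomial (Fin n) ℂ} (hQ : Q ≠ 0) {τ : (Fin n → ℂ) → ℂ}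
    (h : ∀ t, eval t Q * τ t = eval t p) {N : ℕ}
    (hI : ∫⁻ t in {t | eval t Q ≠ 0}, ‖τ t‖ₑ ^ 2 / ENNReal.ofReal ((1 + ‖t‖) ^ N) < ∞) :
    ∃ q : MvPolynomial (Fin n) ℂ, ∀ t, eval t Q ≠ 0 → τ t = eval t q := by
  obtain ⟨a, b, c, hab, rfl, rfl⟩ := UniqueFactorizationMonoid.exists_reduced_factors' p Q hQ
  have h1 : ∀ t, eval t (c * b) ≠ 0 → eval t b * τ t = eval t a := fun t ht => by
    have h2 := h t
    rw [map_mul] at ht
    rw [map_mul, map_mul, mul_assoc] at h2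
    exact mul_left_cancel₀ (left_ne_zero_of_mul ht) h2
  by_cases hb : IsUnit b
  · obtain ⟨b', hb'⟩ := hb.exists_left_inv
    refine ⟨b' * a, fun t ht => ?_⟩
    rw [map_mul, ← h1 t ht, ← mul_assoc, ← map_mul, hb', map_one, one_mul]
  exfalso
  obtain ⟨r, hr, hrb⟩ := WfDvdMonoid.exists_irreducible_factor hb (right_ne_zero_of_mul hQ)
  have h2 : a ∉ vanishingIdeal ℂ (zeroLocus ℂ (Ideal.span {r})) := by
    rw [vanishingIdeal_zeroLocus_eq_radical,
      ((Ideal.span_singleton_prime hr.ne_zero).2 hr.prime).radical, Ideal.mem_span_singleton]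
    exact fun h3 => hr.not_isUnit (hab h3 hrb)
  rw [mem_vanishingIdeal_iff] at h2
  push Not at h2
  obtain ⟨z, hz, hza⟩ := h2
  have hza : eval z a ≠ 0 := by rwa [aeval_eq_eval] at hza
  have hzb : eval z b = 0 := by
    have := hz b (Ideal.mem_span_singleton.2 hrb)
    rwa [aeval_eq_eval] at this
  refine not_intNear_inv volume (AL_analytic b z) hzb ?_
  have hae := AL_null hQ
  rw [Measure.restrict_eq_self_of_ae_mem (s := {t | eval t (c * b) ≠ 0}) hae] at hI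
  have hφ : ContinuousAt (fun w : Fin n → ℂ => (1 + ‖w‖) ^ N / ‖eval w a‖ ^ 2) z :=
    ContinuousAt.div (by fun_prop) ((continuous_eval a).continuousAt.norm.pow 2)
      (pow_ne_zero 2 (norm_ne_zero_iff.2 hza))
  obtain ⟨V, hV, hVo, hzV⟩ := _root_.eventually_nhds_iff.1
    ((hφ.eventually_lt_const (lt_add_one _)).and
      ((continuous_eval a).continuousAt.eventually_ne hza))
  refine ⟨V, hVo.mem_nhds hzV, ?_⟩
  generalize (fun w : Fin n → ℂ => (1 + ‖w‖) ^ N / ‖eval w a‖ ^ 2) z + 1 = K at hV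
  calc _ ≤ ∫⁻ w in V, ENNReal.ofReal K * (‖τ w‖ₑ ^ 2 / ENNReal.ofReal ((1 + ‖w‖) ^ N)) := by
        refine lintegral_mono_ae ?_
        filter_upwards [ae_restrict_of_ae hae, ae_restrict_mem hVo.measurableSet] with w hw hwV
        obtain ⟨h3, h4⟩ := hV w hwV
        rw [← h1 w hw] at h3 h4
        have h5 : 0 < ‖eval w b‖ := norm_pos_iff.2 (left_ne_zero_of_mul h4)
        have h6 : 0 < ‖τ w‖ := norm_pos_iff.2 (right_ne_zero_of_mul h4)
        have h7 : 0 ≤ K := le_trans (by positivity) h3.le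
        rw [← ofReal_norm, ← ofReal_norm, ← ENNReal.ofReal_pow h5.le,
          ← ENNReal.ofReal_pow h6.le, ← ENNReal.ofReal_inv_of_pos (by positivity),
          ← ENNReal.ofReal_div_of_pos (by positivity), ← ENNReal.ofReal_mul h7]
        refine ENNReal.ofReal_le_ofReal (le_trans (le_of_eq ?_)
          (mul_le_mul_of_nonneg_right h3.le (by positivity)))
        rw [norm_mul]
        field_simp
    _ ≤ ∫⁻ w, ENNReal.ofReal K * (‖τ w‖ₑ ^ 2 / ENNReal.ofReal ((1 + ‖w‖) ^ N)) :=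
        setLIntegral_le_lintegral _ _
    _ < ∞ := by
        rw [lintegral_const_mul' _ _ ENNReal.ofReal_ne_top]
        exact ENNReal.mul_lt_top ENNReal.ofReal_lt_top hI

theorem AL_poly {D : MvPolynomial (Fin n) ℂ} (hD : D ≠ 0) {τ : (Fin n → ℂ) → ℂ}
    (hτ : DifferentiableOn ℂ τ {t | eval t D ≠ 0}) {N : ℕ}
    (hI : ∫⁻ t in {t | eval t D ≠ 0}, ‖τ t‖ₑ ^ 2 / ENNReal.ofReal ((1 + ‖t‖) ^ N) < ∞) :
    ∃ q : MvPolynomial (Fin n) ℂ, ∀ t, eval t D ≠ 0 → τ t = eval t q := by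
  obtain ⟨C, N', hC⟩ := AL_near hτ hI
  obtain ⟨p, hp⟩ := AL_ext hτ hC
  have e : ∀ t : Fin n → ℂ, eval t (D ^ (n + 2)) ≠ 0 ↔ eval t D ≠ 0 := fun t => by
    rw [map_pow, pow_ne_zero_iff (by omega)]
  obtain ⟨q, hq⟩ := AL_lowest (Q := D ^ (n + 2)) (p := p) (pow_ne_zero _ hD) (τ := τ)
    (fun t => by rw [map_pow, hp]) (N := N) (by simpa only [e] using hI)
  exact ⟨q, fun t ht => hq t ((e t).2 ht)⟩

end Crest.Agent.R271
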