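import Crest.Agent.R271.RDB

/-! Row 271, (ALG) part 2: traces along a finite Riemann domain. -/

set_option autoImplicit false
set_option linter.unusedSectionVars false

namespace Crest.Agent.R271

open MeasureTheory Filter Topology Set
open scoped ENNReal NNReal

namespace RD
variable {E Y : Type} [NormedAddCommGroup E] [NormedSpace ℂ E] [FiniteDimensional ℂ E]
  [MeasurableSpace E] [BorelSpace E] {μ : Measure E}
  [TopologicalSpace Y] [T2Space Y] [MeasurableSpace Y] [BorelSpace Y] (X : RD E Y μ)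

/-- near a point `t₀` whose fibre `s` has the maximal number of points, the fibre of `t` consists of
the points `(X.ch y).symm t`, `y ∈ s`: they lie over `t` (`π_symm`), are pairwise distinct for `t` near
`t₀` (continuity of `symm` at `t₀`, `T2`), and there is no room for more
(`Set.eq_of_subset_of_ncard_le`). -/
theorem AL_fibre {d : ℕ} (hfin : ∀ t, (X.π ⁻¹' {t}).Finite) (hle : ∀ t, (X.π ⁻¹' {t}).ncard ≤ d)
    {t₀ : E} (h₀ : (X.π ⁻¹' {t₀}).ncard = d) :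
    ∀ᶠ t in 𝓝 t₀, InjOn (fun y => (X.ch y).symm t) (X.π ⁻¹' {t₀}) ∧
      (fun y => (X.ch y).symm t) '' (X.π ⁻¹' {t₀}) = X.π ⁻¹' {t} := by
  have hc : ∀ y ∈ X.π ⁻¹' {t₀}, ContinuousAt (X.ch y).symm t₀ ∧ (X.ch y).symm t₀ = y ∧
      (X.ch y).target ∈ 𝓝 t₀ := by
    intro y hy
    have e : X.π y = t₀ := hy
    subst e
    exact ⟨(X.ch y).continuousAt_symm (X.π_mem (X.mem y)), X.symm_π (X.mem y),
      (X.ch y).open_target.mem_nhds (X.π_mem (X.mem y))⟩
  have h1 : ∀ᶠ t in 𝓝 t₀, ∀ y ∈ X.π ⁻¹' {t₀}, t ∈ (X.ch y).target :=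
    (eventually_all_finite (hfin t₀)).2 fun y hy => (hc y hy).2.2
  have h2 : ∀ᶠ t in 𝓝 t₀, ∀ y ∈ X.π ⁻¹' {t₀}, ∀ y' ∈ X.π ⁻¹' {t₀}, y ≠ y' →
      (X.ch y).symm t ≠ (X.ch y').symm t := by
    refine (eventually_all_finite (hfin t₀)).2 fun y hy =>
      (eventually_all_finite (hfin t₀)).2 fun y' hy' => ?_
    by_cases h : y = y'
    · exact Eventually.of_forall fun _ h' => absurd h h'
    · have := ((hc y hy).1.prodMk (hc y' hy').1).eventually
        (isClosed_diagonal (X := Y).isOpen_compl.mem_nhds (by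
          simp only [(hc y hy).2.1, (hc y' hy').2.1]
          exact h))
      exact this.mono fun t ht _ => ht
  filter_upwards [h1, h2] with t a b
  have hi : InjOn (fun y => (X.ch y).symm t) (X.π ⁻¹' {t₀}) := fun y hy y' hy' e => by
    by_contra h
    exact b y hy y' hy' h e
  refine ⟨hi, Set.eq_of_subset_of_ncard_le ?_ ?_ (hfin t)⟩
  · rintro _ ⟨y, hy, rfl⟩
    exact X.π_symm (a y hy)
  · rw [hi.ncard_image, h₀]
    exact hle t

/-- `AL_fibre`, `finsum_mem_image`, `finsum_mem_eq_finite_toFinset_sum`. -/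
theorem AL_trace_hol {d : ℕ} (hfin : ∀ t, (X.π ⁻¹' {t}).Finite)
    (hle : ∀ t, (X.π ⁻¹' {t}).ncard ≤ d) {F : Y → ℂ} (hF : X.Hol univ F) {t₀ : E}
    (h₀ : (X.π ⁻¹' {t₀}).ncard = d) :
    DifferentiableAt ℂ (fun t => ∑ᶠ y ∈ X.π ⁻¹' {t}, F y) t₀ := by
  have h1 : (fun t => ∑ᶠ y ∈ X.π ⁻¹' {t}, F y) =ᶠ[𝓝 t₀]
      fun t => ∑ y ∈ (hfin t₀).toFinset, X.loc F y t := by
    filter_upwards [X.AL_fibre hfin hle h₀] with t ht
    rw [← ht.2, finsum_mem_image ht.1, finsum_mem_eq_finite_toFinset_sum _ (hfin t₀)]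
    rfl
  refine DifferentiableAt.congr_of_eventuallyEq ?_ h1
  refine DifferentiableAt.fun_sum fun y hy => ?_
  have e : X.π y = t₀ := (hfin t₀).mem_toFinset.1 hy
  rw [← e]
  exact hF y trivial

/-- Cauchy–Schwarz in the fibres and `X.lint`. -/
theorem AL_trace_int {d : ℕ} (hfin : ∀ t, (X.π ⁻¹' {t}).Finite)
    (hle : ∀ t, (X.π ⁻¹' {t}).ncard ≤ d) {F : Y → ℂ} (hF : Continuous F) {w : E → ℝ≥0∞}
    (hw : Measurable w) :
    ∫⁻ t, ‖∑ᶠ y ∈ X.π ⁻¹' {t}, F y‖ₑ ^ 2 / w t ∂μ ≤ d * ∫⁻ y, ‖F y‖ₑ ^ 2 / w (X.π y) ∂X.ν := by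
  have hm : Measurable fun y => ‖F y‖ₑ ^ 2 / w (X.π y) :=
    (hF.measurable.enorm.pow_const 2).div (hw.comp X.continuous_π.measurable)
  rw [X.lint _ hm, ← lintegral_const_mul' _ _ (ENNReal.natCast_ne_top d)]
  refine lintegral_mono fun t => ?_
  have e : ∑' y : X.π ⁻¹' {t}, ‖F y‖ₑ ^ 2 / w (X.π y) =
      (∑ y ∈ (hfin t).toFinset, ‖F y‖ₑ ^ 2) / w t := by
    rw [tsum_congr_set_coe (fun y => ‖F y‖ₑ ^ 2 / w (X.π y)) (hfin t).coe_toFinset.symm,
      Finset.tsum_subtype' _ fun y => ‖F y‖ₑ ^ 2 / w (X.π y)]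
    simp only [div_eq_mul_inv, Finset.sum_mul]
    refine Finset.sum_congr rfl fun y hy => ?_
    have e : X.π y = t := by simpa using hy
    rw [e]
  simp only
  rw [e, finsum_mem_eq_finite_toFinset_sum _ (hfin t), ← mul_div_assoc]
  gcongr
  have hc : ((hfin t).toFinset.card : ℝ) ≤ d := by
    have := hle t
    rw [Set.ncard_eq_toFinset_card _ (hfin t)] at this
    exact_mod_cast this
  have h1 : ‖∑ y ∈ (hfin t).toFinset, F y‖ ^ 2 ≤ d * ∑ y ∈ (hfin t).toFinset, ‖F y‖ ^ 2 := by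
    refine le_trans (pow_le_pow_left₀ (norm_nonneg _) (norm_sum_le _ _) 2)
      (sq_sum_le_card_mul_sum_sq.trans ?_)
    exact mul_le_mul_of_nonneg_right hc (Finset.sum_nonneg fun _ _ => by positivity)
  have h2 := ENNReal.ofReal_le_ofReal h1
  rw [ENNReal.ofReal_mul (Nat.cast_nonneg d), ENNReal.ofReal_natCast,
    ENNReal.ofReal_sum_of_nonneg fun _ _ => by positivity] at h2
  simpa only [ENNReal.ofReal_pow (norm_nonneg _), ofReal_norm] using h2

/-- the preimage of a dense set is dense (`map_nhds`). -/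
theorem AL_dense {s : Set E} (hs : Dense s) : Dense (X.π ⁻¹' s) :=
  hs.preimage (isOpenMap_iff_nhds_le.2 fun y => (X.map_nhds y).ge)

end RD

end Crest.Agent.R271
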