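import Crest.Agent.R271.DP
import Crest.Agent.R271.ExP

/-! Row 271, part D: orders of vanishing grow linearly. -/

set_option autoImplicit false

namespace Crest.Agent.R271

open MeasureTheory Filter Topology
open scoped ENNReal NNReal

section alg
variable {n : ℕ} {A ι : Type} [CommRing A] [Algebra (MvPolynomial (Fin n) ℂ) A] [Fintype ι]
  [DecidableEq ι] (b : Module.Basis ι (MvPolynomial (Fin n) ℂ) A)

/-- the matrix of multiplication by `a` has entries of degree `≤ N`. -/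
def DI_deg (a : A) (N : ℕ) : Prop := ∀ i j, (Algebra.leftMulMatrix b a i j).totalDegree ≤ N

theorem DI_exists (a : A) : ∃ N, ∀ N', N ≤ N' → DI_deg b a N' :=
  ⟨Finset.univ.sup fun p : ι × ι => (Algebra.leftMulMatrix b a p.1 p.2).totalDegree,
    fun _ h i j => (Finset.le_sup (f := fun p : ι × ι =>
      (Algebra.leftMulMatrix b a p.1 p.2).totalDegree) (Finset.mem_univ (i, j))).trans h⟩

theorem DI_add {a a' : A} {N : ℕ} (h : DI_deg b a N) (h' : DI_deg b a' N) :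
    DI_deg b (a + a') N := fun i j => by
  rw [map_add, Matrix.add_apply]
  exact (MvPolynomial.totalDegree_add _ _).trans (max_le (h i j) (h' i j))

theorem DI_mul {a a' : A} {N N' : ℕ} (h : DI_deg b a N) (h' : DI_deg b a' N') :
    DI_deg b (a * a') (N + N') := fun i j => by
  rw [map_mul, Matrix.mul_apply]
  exact MvPolynomial.totalDegree_finsetSum_le fun k _ =>
    (MvPolynomial.totalDegree_mul _ _).trans (add_le_add (h i k) (h' k j))

theorem DI_const (c : ℂ) : DI_deg b (algebraMap (MvPolynomial (Fin n) ℂ) A (MvPolynomial.C c)) 0 :=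
    fun i j => by
  rw [AlgHom.commutes, Matrix.algebraMap_matrix_apply]
  split_ifs <;> simp

theorem DI_norm [IsDomain A] {a : A} (ha : a ≠ 0) {N : ℕ} (h : DI_deg b a N) :
    ∃ (q : MvPolynomial (Fin n) ℂ) (a' : A), q ≠ 0 ∧ q.totalDegree ≤ Fintype.card ι * N ∧
      a * a' = algebraMap (MvPolynomial (Fin n) ℂ) A q := by
  refine ⟨(Algebra.leftMulMatrix b a).det,
    b.equivFun.symm ((Algebra.leftMulMatrix b a).adjugate.mulVec (b.repr 1)), ?_, ?_, ?_⟩
  · rw [← Algebra.norm_eq_matrix_det]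
    exact (Algebra.norm_ne_zero_iff_of_basis b).2 ha
  · rw [Matrix.det_apply]
    refine MvPolynomial.totalDegree_finsetSum_le fun σ _ => ?_
    rw [Units.smul_def, zsmul_eq_mul, ← map_intCast (MvPolynomial.C : ℂ →+* _)]
    refine (MvPolynomial.totalDegree_mul _ _).trans ?_
    rw [MvPolynomial.totalDegree_C, zero_add]
    exact (MvPolynomial.totalDegree_finsetProd _ _).trans
      (Finset.sum_le_card_nsmul _ _ _ fun i _ => h _ _)
  · apply b.repr.injective
    apply DFunLike.coe_injective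
    rw [← Algebra.leftMulMatrix_mulVec_repr, Algebra.algebraMap_eq_smul_one, map_smul,
      ← b.equivFun_apply, LinearEquiv.apply_symm_apply, Matrix.mulVec_mulVec, Matrix.mul_adjugate,
      Matrix.smul_mulVec, Matrix.one_mulVec]
    rfl

end alg

/-- every nonzero `s ∈ V ^ k` divides a nonzero polynomial of degree `≤ C k`. -/
theorem DI_dvd {n : ℕ} {S : Type} [CommRing S] [IsDomain S] [Algebra ℂ S]
    [Algebra (MvPolynomial (Fin n) ℂ) S] [IsScalarTower ℂ (MvPolynomial (Fin n) ℂ) S]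
    [Algebra.IsStandardEtale (MvPolynomial (Fin n) ℂ) S] {V : Submodule ℂ S} (hV : V.FG) :
    ∃ C : ℕ, ∀ k : ℕ, ∀ s ∈ V ^ k, s ≠ 0 → ∃ (q : MvPolynomial (Fin n) ℂ) (s' : S), q ≠ 0 ∧
      q.totalDegree ≤ C * k ∧ s * s' = algebraMap (MvPolynomial (Fin n) ℂ) S q := by
  obtain ⟨P⟩ := Algebra.IsStandardEtale.nonempty_standardEtalePresentation
    (R := MvPolynomial (Fin n) ℂ) (S := S)
  have hx : IsIntegral (MvPolynomial (Fin n) ℂ) P.x :=
    ⟨P.f, P.monic_f, by simpa [Polynomial.aeval_def] using P.hasMap.1⟩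
  obtain ⟨A, hA⟩ : ∃ A, A = Algebra.adjoin (MvPolynomial (Fin n) ℂ) {P.x} := ⟨_, rfl⟩
  obtain ⟨d, ⟨b⟩⟩ : ∃ d : ℕ, Nonempty (Module.Basis (Fin d) (MvPolynomial (Fin n) ℂ) A) :=
    hA ▸ ⟨_, ⟨(Algebra.adjoin.powerBasis' hx).basis⟩⟩
  have hp : ∀ p : Polynomial (MvPolynomial (Fin n) ℂ), Polynomial.aeval P.x p ∈ A := fun p =>
    hA ▸ Polynomial.aeval_mem_adjoin_singleton _ _
  have hC : ∀ c : ℂ, algebraMap ℂ S c =
      (algebraMap (MvPolynomial (Fin n) ℂ) A (MvPolynomial.C c) : A) := fun c =>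
    IsScalarTower.algebraMap_apply ℂ (MvPolynomial (Fin n) ℂ) S c
  obtain ⟨G, N, hG, hV'⟩ : ∃ (G : S) (N : ℕ), G ≠ 0 ∧
      ∀ s ∈ V, ∃ a : A, s * G = a ∧ DI_deg b a N := by
    obtain ⟨T, rfl⟩ := hV
    choose p e hpe using P.exists_mul_aeval_x_g_pow_eq_aeval_x
    have h1 : ∀ s ∈ T, ∃ a : A, s * Polynomial.aeval P.x P.g ^ T.sup e = a := fun s hs => by
      obtain ⟨m, hm⟩ := Nat.exists_eq_add_of_le (Finset.le_sup (f := e) hs)
      exact ⟨⟨_, hp (p s * P.g ^ m)⟩, by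
        rw [hm, pow_add, ← mul_assoc, hpe, ← map_pow, ← map_mul]⟩
    choose! a ha using h1
    choose N hN using fun s => DI_exists b (a s)
    refine ⟨_, T.sup N, pow_ne_zero (T.sup e) P.hasMap.2.ne_zero, fun s hs => ?_⟩
    induction hs using Submodule.span_induction with
    | mem s hs => exact ⟨a s, ha s hs, hN s _ (Finset.le_sup hs)⟩
    | zero => exact ⟨0, by simp, fun i j => by simp⟩
    | add x y _ _ hx hy =>
      obtain ⟨a, ha, ha'⟩ := hx
      obtain ⟨a', hb, hb'⟩ := hy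
      exact ⟨a + a', by rw [add_mul, ha, hb, Subalgebra.coe_add], DI_add b ha' hb'⟩
    | smul c x _ hx =>
      obtain ⟨a, ha, ha'⟩ := hx
      refine ⟨_, ?_, zero_add (T.sup N) ▸ DI_mul b (DI_const b c) ha'⟩
      rw [Algebra.smul_def, mul_assoc, ha, hC, Subalgebra.coe_mul]
  refine ⟨d * N, fun k s hs hs0 => ?_⟩
  have key : ∃ a : A, s * G ^ k = a ∧ DI_deg b a (N * k) := by
    clear hs0
    induction hs using Submodule.pow_induction_on_left' with
    | algebraMap r => exact ⟨_, by rw [pow_zero, mul_one, hC], DI_const b r⟩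
    | add x y i _ _ hx hy =>
      obtain ⟨a, ha, ha'⟩ := hx
      obtain ⟨a', hb, hb'⟩ := hy
      exact ⟨a + a', by rw [add_mul, ha, hb, Subalgebra.coe_add], DI_add b ha' hb'⟩
    | mem_mul m hm i x _ hx =>
      obtain ⟨a, ha, ha'⟩ := hV' m hm
      obtain ⟨a', hb, hb'⟩ := hx
      refine ⟨a * a', ?_, ?_⟩
      · rw [Subalgebra.coe_mul, ← ha, ← hb, pow_succ]
        ring
      · rw [Nat.mul_succ, add_comm]
        exact DI_mul b ha' hb'
  obtain ⟨a, ha, ha'⟩ := key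
  obtain ⟨q, a', hq, hd, e⟩ := DI_norm b (a := a)
    (fun h0 => mul_ne_zero hs0 (pow_ne_zero k hG) (by rw [ha, h0]; rfl)) ha'
  refine ⟨q, G ^ k * a', hq, by rwa [Fintype.card_fin, ← mul_assoc] at hd, ?_⟩
  rw [← mul_assoc, ha, ← Subalgebra.coe_mul, e]
  rfl

variable {n : ℕ} {S : Type} [CommRing S] [IsDomain S] [Algebra ℂ S] {t : Fin n → S} {Y : Type}
  [TopologicalSpace Y] [T2Space Y] [SecondCountableTopology Y] [MeasurableSpace Y] [BorelSpace Y]
  {X : RD (Fin n → ℂ) Y volume} {ev : Y → (S →ₐ[ℂ] ℂ)}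

theorem PtD.izumi (h : PtD t X ev) (het : SE t) {V : Submodule ℂ S} (hV : V.FG) :
    ∃ C₀ : ℝ, 0 ≤ C₀ ∧ ∀ k : ℕ, ∀ s ∈ V ^ k, s ≠ 0 → ∀ c : ℝ, 0 < c → c * C₀ * k < 1 → ∀ y,
      IntNear X.ν (fun w => ‖ev w s‖ₑ ^ (-(2 * c))) y := by
  let _ : Algebra (MvPolynomial (Fin n) ℂ) S :=
    (MvPolynomial.aeval t : MvPolynomial (Fin n) ℂ →ₐ[ℂ] S).toRingHom.toAlgebra
  have _ : IsScalarTower ℂ (MvPolynomial (Fin n) ℂ) S :=
    IsScalarTower.of_algebraMap_eq fun c => ((MvPolynomial.aeval t).commutes c).symm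
  obtain ⟨C, hC⟩ := DI_dvd (n := n) hV
  refine ⟨C, Nat.cast_nonneg C, fun k s hs hs0 c hc hck y => ?_⟩
  obtain ⟨q, s', hq, hd, e⟩ := hC k s hs hs0
  have e1 : ∀ w, ev w s * ev w s' = MvPolynomial.eval (X.π w) q := fun w => by
    rw [← map_mul, e, show X.π w = fun i => ev w (t i) from funext (h.π w),
      ← MvPolynomial.coe_aeval_eq_eval, ← MvPolynomial.comp_aeval]
    rfl
  have hdeg : c * q.totalDegree < 1 := by
    refine lt_of_le_of_lt ?_ hck
    rw [mul_assoc]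
    exact mul_le_mul_of_nonneg_left (by exact_mod_cast hd) hc.le
  obtain ⟨U, hU, hi⟩ := (X.intNear_iff (X.mem y)
    (fun w => ‖MvPolynomial.eval (X.π w) q‖ₑ ^ (-(2 * c)))).2 (by
      obtain ⟨U, hU, hi⟩ := intNear_poly hq hc hdeg (X.π y)
      refine ⟨interior U ∩ (X.ch y).target, inter_mem (interior_mem_nhds.2 hU)
        ((X.ch y).open_target.mem_nhds (X.π_mem (X.mem y))), lt_of_le_of_lt ?_ hi⟩
      refine (le_of_eq (setLIntegral_congr_fun
        (isOpen_interior.inter (X.ch y).open_target).measurableSet fun z hz => ?_)).trans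
        (lintegral_mono_set (Set.inter_subset_left.trans interior_subset))
      simp only [RD.loc, Function.comp, X.π_symm hz.2])
  have hcont : Continuous fun w => ev w s' :=
    continuousOn_univ.1 (RD.C2.continuousOn X (RD.Hol.c2 X isOpen_univ (h.hol s')))
  have hO : IsOpen (interior U ∩ {w | ‖ev w s'‖ < ‖ev y s'‖ + 1}) :=
    isOpen_interior.inter (isOpen_lt hcont.norm continuous_const)
  have hK0 : ENNReal.ofReal (‖ev y s'‖ + 1) ≠ 0 := by
    rw [ne_eq, ENNReal.ofReal_eq_zero, not_le]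
    positivity
  have hK : ENNReal.ofReal (‖ev y s'‖ + 1) ^ (2 * c) ≠ ∞ :=
    ENNReal.rpow_ne_top_of_nonneg (by positivity) ENNReal.ofReal_ne_top
  refine ⟨_, hO.mem_nhds ⟨mem_interior_iff_mem_nhds.2 hU, lt_add_one ‖ev y s'‖⟩, ?_⟩
  refine lt_of_le_of_lt (setLIntegral_mono' hO.measurableSet (g := fun w =>
    ENNReal.ofReal (‖ev y s'‖ + 1) ^ (2 * c) * ‖MvPolynomial.eval (X.π w) q‖ₑ ^ (-(2 * c)))
    fun w hw => ?_) ?_
  · have h1 : ‖MvPolynomial.eval (X.π w) q‖ₑ ≤ ENNReal.ofReal (‖ev y s'‖ + 1) * ‖ev w s‖ₑ := by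
      rw [← e1, enorm_mul, mul_comm, ← ofReal_norm (ev w s')]
      exact mul_le_mul_left (ENNReal.ofReal_le_ofReal hw.2.le) _
    have h2 := ENNReal.rpow_le_rpow h1 (by positivity : 0 ≤ 2 * c)
    rw [ENNReal.mul_rpow_of_nonneg _ _ (by positivity)] at h2
    have h3 : ENNReal.ofReal (‖ev y s'‖ + 1) ^ (2 * c) ≠ 0 := by
      simp [ENNReal.rpow_eq_zero_iff, hK0]
    rw [ENNReal.rpow_neg, ENNReal.rpow_neg, ← ENNReal.inv_mul_le_iff h3 hK,
      ← ENNReal.mul_inv (Or.inl h3) (Or.inl hK)]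
    exact ENNReal.inv_le_inv.2 h2
  · rw [lintegral_const_mul' _ _ hK]
    exact ENNReal.mul_lt_top hK.lt_top
      ((lintegral_mono_set (Set.inter_subset_left.trans interior_subset)).trans_lt hi)

end Crest.Agent.R271
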