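import Crest.Agent.R271.RDB

/-! Row 271, part D: change of variables between Riemann domains. -/

set_option autoImplicit false
set_option linter.unusedSectionVars false

namespace Crest.Agent.R271

open MeasureTheory Filter Topology
open scoped ENNReal NNReal

variable {E Y Y' : Type} [NormedAddCommGroup E] [NormedSpace ℂ E] [FiniteDimensional ℂ E]
  [MeasurableSpace E] [BorelSpace E] {μ : Measure E} [μ.IsAddHaarMeasure]
  [TopologicalSpace Y] [MeasurableSpace Y] [BorelSpace Y]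
  [TopologicalSpace Y'] [MeasurableSpace Y'] [BorelSpace Y']

/-- as in the proof of `RD.lintegral_chart` -/
theorem RD.meas_image (X : RD E Y μ) (y : Y) {A : Set Y} (hA : MeasurableSet A)
    (hs : A ⊆ (X.ch y).source) : MeasurableSet (X.π '' A) := by
  have h1 : Measurable ((X.ch y).target.domRestrict (X.ch y).symm) :=
    (continuousOn_iff_continuous_domRestrict.1 (X.ch y).continuousOn_symm).measurable
  convert (X.ch y).open_target.measurableSet.subtype_image (h1 hA) using 1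
  ext t
  constructor
  · rintro ⟨w, hw, rfl⟩
    exact ⟨⟨X.π w, X.π_mem (hs hw)⟩, Set.mem_of_eq_of_mem (s := A) (X.symm_π (hs hw)) hw,
      rfl⟩
  · rintro ⟨⟨t, ht⟩, h2, rfl⟩
    exact ⟨_, h2, X.π_symm ht⟩

/-- one piece: `D` lies in a chart of `Y'` and is mapped into a chart of `Y`.  `lintegral_chart` twice,
`T = X'.loc (X.π ∘ Φ) y'` is injective on `X'.π '' D` with derivative `J ((X'.ch y').symm ·)`
(`loc_eventuallyEq`), `lintegral_image_eq_lintegral_abs_det_fderiv_mul`;
`Φ '' D = source ∩ X.π ⁻¹' (T '' (X'.π '' D))`, `measurable_image_of_fderivWithin`. -/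
theorem RD.cov_one (X : RD E Y μ) (X' : RD E Y' μ) {Φ : Y' → Y} {J : Y' → E →L[ℝ] E} {D : Set Y'}
    (hD : MeasurableSet D) {y : Y} {y' : Y'} (h1 : D ⊆ (X'.ch y').source)
    (h2 : Set.MapsTo Φ D (X.ch y).source) (hi : Set.InjOn Φ D)
    (hJ : ∀ w ∈ D, HasFDerivAt (X'.loc (fun w => X.π (Φ w)) w) (J w) (X'.π w)) (F : Y → ℝ≥0∞) :
    MeasurableSet (Φ '' D) ∧
      ∫⁻ w in D, ENNReal.ofReal |(J w).det| * F (Φ w) ∂X'.ν = ∫⁻ w in Φ '' D, F w ∂X.ν := by
  have hB := X'.meas_image y' hD h1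
  have hd : ∀ t ∈ X'.π '' D, HasFDerivWithinAt (X'.loc (fun w => X.π (Φ w)) y') (X'.loc J y' t)
      (X'.π '' D) t := by
    rintro _ ⟨w, hw, rfl⟩
    rw [X'.loc_π J (h1 hw)]
    exact ((hJ w hw).congr_of_eventuallyEq (X'.loc_eventuallyEq _ (h1 hw))).hasFDerivWithinAt
  have hT : Set.InjOn (X'.loc (fun w => X.π (Φ w)) y') (X'.π '' D) := by
    rintro _ ⟨w, hw, rfl⟩ _ ⟨w', hw', rfl⟩ e
    rw [X'.loc_π _ (h1 hw), X'.loc_π _ (h1 hw')] at e
    rw [hi hw hw' (by rw [← X.symm_π (h2 hw), e, X.symm_π (h2 hw')])]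
  have e1 : X'.loc (fun w => X.π (Φ w)) y' '' (X'.π '' D) = X.π '' (Φ '' D) := by
    rw [Set.image_image, Set.image_image]
    exact Set.image_congr fun w hw => X'.loc_π _ (h1 hw)
  have hM : MeasurableSet (Φ '' D) := by
    convert (X.ch y).open_source.measurableSet.inter
      (X.continuous_π.measurable (e1 ▸ measurable_image_of_fderivWithin hB hd hT)) using 1
    refine (Set.subset_inter h2.image_subset (Set.subset_preimage_image _ _)).antisymm ?_
    rintro w ⟨hw, w', hw', e⟩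
    rwa [← X.symm_π hw, ← e, X.symm_π (h2.image_subset hw')]
  refine ⟨hM, ?_⟩
  rw [X'.lintegral_chart y' hD h1, X.lintegral_chart y hM h2.image_subset, ← e1,
    lintegral_image_eq_lintegral_abs_det_fderiv_mul μ hB hd hT]
  refine setLIntegral_congr_fun hB ?_
  rintro _ ⟨w, hw, rfl⟩
  simp only [X'.loc_π _ (h1 hw), X.loc_π _ (h2 hw)]

/-- countable cover of `Ω` by the open sets `Ω ∩ (X'.ch w).source ∩ Φ ⁻¹' (X.ch (Φ w)).source`
(`TopologicalSpace.countable_cover_nhdsWithin` / `isOpen_iUnion_countable`), `disjointed`, `cov_one`,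
`lintegral_iUnion` on both sides. -/
theorem RD.cov_le [SecondCountableTopology Y'] (X : RD E Y μ) (X' : RD E Y' μ) {Φ : Y' → Y}
    {J : Y' → E →L[ℝ] E} {Ω : Set Y'} (hΩ : IsOpen Ω) (hc : ContinuousOn Φ Ω) (hi : Set.InjOn Φ Ω)
    (hJ : ∀ w ∈ Ω, HasFDerivAt (X'.loc (fun w => X.π (Φ w)) w) (J w) (X'.π w)) (F : Y → ℝ≥0∞) :
    ∫⁻ w in Ω, ENNReal.ofReal |(J w).det| * F (Φ w) ∂X'.ν ≤ ∫⁻ w, F w ∂X.ν := by
  let U : Y' → Set Y' := fun w => (Ω ∩ Φ ⁻¹' (X.ch (Φ w)).source) ∩ (X'.ch w).source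
  have hU : ∀ w, IsOpen (U w) := fun w =>
    (hc.isOpen_inter_preimage hΩ (X.ch (Φ w)).open_source).inter (X'.ch w).open_source
  obtain ⟨T, hT, hTU⟩ := TopologicalSpace.isOpen_iUnion_countable U hU
  have hcov : ⋃ w, U w = Ω := by
    refine Set.Subset.antisymm (Set.iUnion_subset fun w => fun z hz => hz.1.1) fun w hw => ?_
    exact Set.mem_iUnion.2 ⟨w, ⟨hw, X.mem _⟩, X'.mem w⟩
  rcases T.eq_empty_or_nonempty with rfl | hne
  · have : Ω = ∅ := by rw [← hcov, ← hTU]; simp
    rw [this, Measure.restrict_empty, lintegral_zero_measure]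
    exact zero_le
  obtain ⟨e, rfl⟩ := hT.exists_eq_range hne
  rw [Set.biUnion_range, hcov] at hTU
  have hm : ∀ n, MeasurableSet (disjointed (fun n => U (e n)) n) :=
    MeasurableSet.disjointed fun n => (hU _).measurableSet
  have hsub : ∀ n, disjointed (fun n => U (e n)) n ⊆ U (e n) := disjointed_subset _
  have hone := fun n => RD.cov_one X X' (J := J) (hm n) (y := Φ (e n)) (y' := e n)
    (fun z hz => (hsub n hz).2) (fun z hz => (hsub n hz).1.2)
    (hi.mono fun z hz => (hsub n hz).1.1) (fun w hw => hJ w (hsub n hw).1.1) F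
  have hd : Pairwise (Function.onFun Disjoint fun n => Φ '' disjointed (fun n => U (e n)) n) := by
    intro i j hij
    exact (disjoint_disjointed _ hij).image hi (fun z hz => (hsub i hz).1.1)
      fun z hz => (hsub j hz).1.1
  rw [← hTU, ← iUnion_disjointed, lintegral_iUnion hm (disjoint_disjointed _)]
  simp_rw [fun n => (hone n).2]
  rw [← lintegral_iUnion (fun n => (hone n).1) hd]
  exact setLIntegral_le_lintegral _ _

/-- the real determinant of a complex linear map (`LinearMap.det_restrictScalars`,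
`Algebra.norm_complex_apply`) -/
theorem DQ_det {n : ℕ} (M : Matrix (Fin n) (Fin n) ℂ) :
    (((Matrix.toLin' M).toContinuousLinearMap.restrictScalars ℝ :
      (Fin n → ℂ) →L[ℝ] (Fin n → ℂ))).det = ‖M.det‖ ^ 2 := by
  have h := LinearMap.det_restrictScalars (R := ℝ) (S := ℂ) (f := Matrix.toLin' M)
  rw [Algebra.norm_complex_apply, LinearMap.det_toLin', Complex.normSq_eq_norm_sq] at h
  exact h

end Crest.Agent.R271
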