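import Crest.Agent.R271.Defs

/-! Row 271, part D: two affine models of the same function field (algebra). -/

set_option autoImplicit false
set_option linter.unusedSectionVars false

namespace Crest.Agent.R271

variable {K : Type} [Field K] [Algebra ℂ K]

/-- `Fr S`: `K` is the fraction field of `S` -/
def Fr (S : Subalgebra ℂ K) : Prop := ∀ f : K, ∃ p q : S, (q : K) ≠ 0 ∧ f * q = p

theorem Fr.isFractionRing {S : Subalgebra ℂ K} (h : Fr S) : IsFractionRing S K := by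
  refine IsFractionRing.of_field S K fun z => ?_
  obtain ⟨p, q, hq, e⟩ := h z
  exact ⟨p, q, by rw [eq_div_iff (by simpa using hq)]; simpa using e⟩

/-- common denominators -/
theorem Fr.common {S : Subalgebra ℂ K} (h : Fr S) {ι : Type} [Finite ι] (x : ι → K) :
    ∃ (G : S) (p : ι → S), G ≠ 0 ∧ ∀ i, x i * G = p i := by
  classical
  cases nonempty_fintype ι
  choose p q hq e using fun i => h (x i)
  refine ⟨∏ i, q i, fun i => p i * ∏ j ∈ Finset.univ.erase i, q j, ?_, fun i => ?_⟩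
  · exact Finset.prod_ne_zero_iff.2 fun i _ h0 => hq i (by simp [h0])
  · rw [← Finset.mul_prod_erase Finset.univ q (Finset.mem_univ i)]
    push_cast
    rw [← mul_assoc, e i]

/-- `ω = G dp - p dG - G ∑ a_j dt_j ∈ Ω[S⁄ℂ]` maps to `0` in `Ω[K⁄ℂ]`, which is a localisation
(`KaehlerDifferential.isLocalizedModule_map`, `IsLocalizedModule.eq_zero_iff`), so `h • ω = 0`.  Make `ℂ` an
`S`-module through `φ` (`φ.toRingHom.toAlgebra`), `δ` is a `Derivation`, apply `liftKaehlerDifferential`. -/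
theorem DQ_kae {S : Subalgebra ℂ K} (hS : Fr S) {n : ℕ} (t : Fin n → S) {x : K} {p G : S}
    (hx : x * G = p) {A : Fin n → K} {a : Fin n → S} (ha : ∀ j, A j * G = a j)
    (hA : KaehlerDifferential.D ℂ K x = ∑ j, A j • KaehlerDifferential.D ℂ K (t j)) :
    ∃ h : S, h ≠ 0 ∧ ∀ (φ : S →ₐ[ℂ] ℂ) (δ : S →ₗ[ℂ] ℂ),
      (∀ u v, δ (u * v) = φ u * δ v + φ v * δ u) → φ h ≠ 0 →
      φ G * δ p - φ p * δ G = φ G * ∑ j, φ (a j) * δ (t j) := by
  have := hS.isFractionRing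
  set ω : Ω[S⁄ℂ] := G • KaehlerDifferential.D ℂ S p - p • KaehlerDifferential.D ℂ S G -
    G • ∑ j, a j • KaehlerDifferential.D ℂ S (t j) with hω
  have h0 : KaehlerDifferential.map ℂ ℂ S K ω = 0 := by
    have e1 : KaehlerDifferential.D ℂ K (p : K) =
        x • KaehlerDifferential.D ℂ K (G : K) + (G : K) • KaehlerDifferential.D ℂ K x := by
      rw [← hx, Derivation.leibniz]
    have e2 : ∀ (s : S) (w : Ω[S⁄ℂ]), KaehlerDifferential.map ℂ ℂ S K (s • w) =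
        (s : K) • KaehlerDifferential.map ℂ ℂ S K w := fun s w => by
      rw [LinearMap.map_smul]; rfl
    have e3 : ∀ s : S, KaehlerDifferential.map ℂ ℂ S K (KaehlerDifferential.D ℂ S s) =
        KaehlerDifferential.D ℂ K (s : K) := fun s => KaehlerDifferential.map_D ..
    simp only [hω, map_sub, map_sum, e2, e3]
    rw [e1, hA, ← hx]
    simp only [← ha, Finset.smul_sum, smul_add, smul_smul]
    have : ∑ j, ((G : K) * ((G : K) * A j)) • KaehlerDifferential.D ℂ K (t j : K) =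
        ∑ j, ((G : K) * (A j * G)) • KaehlerDifferential.D ℂ K (t j : K) :=
      Finset.sum_congr rfl fun j _ => by rw [mul_comm (A j)]
    rw [this, mul_comm x]
    abel
  obtain ⟨h, hh⟩ := (IsLocalizedModule.eq_zero_iff (nonZeroDivisors S)
    (KaehlerDifferential.map ℂ ℂ S K)).1 h0
  refine ⟨h, nonZeroDivisors.ne_zero h.2, fun φ δ hδ hφ => ?_⟩
  let _ : Algebra S ℂ := φ.toRingHom.toAlgebra
  have hs : ∀ (s : S) (c : ℂ), s • c = φ s * c := fun s c => rfl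
  have : IsScalarTower ℂ S ℂ := ⟨fun c s d => by
    rw [hs, hs, map_smul, smul_eq_mul, smul_eq_mul, mul_assoc]⟩
  let D : Derivation ℂ S ℂ := Derivation.mk' δ fun u v => by rw [hδ, hs, hs]
  have hD : ∀ s, D.liftKaehlerDifferential (KaehlerDifferential.D ℂ S s) = δ s := fun s => by
    rw [Derivation.liftKaehlerDifferential_comp_D]; rfl
  have h1 := congrArg D.liftKaehlerDifferential hh
  rw [Submonoid.smul_def, map_smul, map_zero, hs, hω] at h1
  simp only [map_sub, map_smul, map_sum, hD, hs] at h1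
  exact sub_eq_zero.1 ((mul_eq_zero.1 h1).resolve_left hφ)

/-- a finitely generated subalgebra lies in a localisation of `S'` (`Fr.common` for the generators,
`Algebra.adjoin_induction`) -/
theorem Fr.away {S S' : Subalgebra ℂ K} [Algebra.FiniteType ℂ S] (h : Fr S') :
    ∃ G : S', G ≠ 0 ∧ ∀ s : S, ∃ (N : ℕ) (p : S'), (s : K) * (G : K) ^ N = p := by
  
  classical
  obtain ⟨s₀, hs₀⟩ := (Algebra.FiniteType.out : (⊤ : Subalgebra ℂ S).FG)
  obtain ⟨G, p, hG, hp⟩ := h.common (ι := s₀) (fun i => ((i : S) : K))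
  refine ⟨G, hG, fun s => ?_⟩
  have hs : s ∈ Algebra.adjoin ℂ (s₀ : Set S) := by rw [hs₀]; trivial
  induction hs using Algebra.adjoin_induction with
  | mem x hx => exact ⟨1, p ⟨x, hx⟩, by simpa using hp ⟨x, hx⟩⟩
  | algebraMap r => exact ⟨0, algebraMap ℂ S' r, by simp⟩
  | add x y _ _ ihx ihy =>
    obtain ⟨N, a, ha⟩ := ihx
    obtain ⟨M, b, hb⟩ := ihy
    refine ⟨N + M, a * G ^ M + b * G ^ N, ?_⟩
    push_cast
    rw [← ha, ← hb]
    ring
  | mul x y _ _ ihx ihy =>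
    obtain ⟨N, a, ha⟩ := ihx
    obtain ⟨M, b, hb⟩ := ihy
    refine ⟨N + M, a * b, ?_⟩
    push_cast
    rw [← ha, ← hb]
    ring


/-- a point of `S'` where `G` does not vanish defines a point of `S`: choose `N s`, `p s`, put
`Φ s = φ (p s) / φ G ^ N s`; it satisfies the displayed property, which determines it, hence is an algebra map. -/
theorem DQ_one {S S' : Subalgebra ℂ K} {G : S'}
    (hG : ∀ s : S, ∃ (N : ℕ) (p : S'), (s : K) * (G : K) ^ N = p) (φ : S' →ₐ[ℂ] ℂ) (h0 : φ G ≠ 0) :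
    ∃ Φ : S →ₐ[ℂ] ℂ, ∀ (s : S) (p q : S'), (s : K) * q = p → Φ s * φ q = φ p := by
  
  classical
  choose N p hp using hG
  have key : ∀ (s : S) (a q : S'), (s : K) * q = a → (φ (p s) / φ G ^ N s) * φ q = φ a := by
    intro s a q h
    have h1 : p s * q = a * G ^ N s := by
      apply Subtype.ext
      push_cast
      rw [← hp s, ← h]
      ring
    have h2 := congrArg φ h1
    rw [map_mul, map_mul, map_pow] at h2
    have h3 : φ G ^ N s ≠ 0 := pow_ne_zero _ h0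
    rw [div_mul_eq_mul_div, div_eq_iff h3]
    exact h2
  have uniq : ∀ (s : S) (M : ℕ) (a : S'), (s : K) * (G : K) ^ M = a →
      φ (p s) / φ G ^ N s = φ a / φ G ^ M := by
    intro s M a h
    have h1 := key s a (G ^ M) (by push_cast; exact h)
    rw [map_pow] at h1
    have h3 : φ G ^ M ≠ 0 := pow_ne_zero _ h0
    rw [eq_div_iff h3]
    exact h1
  refine ⟨{ toFun := fun s => φ (p s) / φ G ^ N s
            map_one' := ?_
            map_mul' := ?_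
            map_zero' := ?_
            map_add' := ?_
            commutes' := ?_ }, key⟩
  · rw [uniq 1 0 1 (by simp)]
    simp
  · intro x y
    rw [uniq (x * y) (N x + N y) (p x * p y) (by push_cast; rw [← hp x, ← hp y]; ring)]
    rw [map_mul, pow_add, div_mul_div_comm]
  · rw [uniq 0 0 0 (by simp)]
    simp
  · intro x y
    rw [uniq (x + y) (N x + N y) (p x * G ^ N y + p y * G ^ N x)
      (by push_cast; rw [← hp x, ← hp y]; ring)]
    have h1 : φ G ^ N x ≠ 0 := pow_ne_zero _ h0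
    have h2 : φ G ^ N y ≠ 0 := pow_ne_zero _ h0
    rw [map_add, map_mul, map_mul, map_pow, map_pow, pow_add]
    field_simp
  · intro r
    rw [uniq (algebraMap ℂ S r) 0 (algebraMap ℂ S' r) (by simp)]
    simp


/-- `Fr.away` in both directions: `G₁ ∈ S'`, `g ∈ S`, `g G₁^N = h ∈ S'`, `G = G₀ G₁ h`.  Injectivity: for
`s' ∈ S'`, `s' g^M = s ∈ S`, so `s G₁^{NM} = s' h^M` and `φ s' = Φ s φ(G₁)^{NM} / φ(h)^M = Φ s / (Φ g)^M`. -/
theorem DQ_ext {S S' : Subalgebra ℂ K} [Algebra.FiniteType ℂ S] [Algebra.FiniteType ℂ S'] (hS : Fr S)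
    (hS' : Fr S') {G₀ : S'} (hG₀ : G₀ ≠ 0) [Nonempty (S →ₐ[ℂ] ℂ)] :
    ∃ (G : S') (Φ : (S' →ₐ[ℂ] ℂ) → (S →ₐ[ℂ] ℂ)), G ≠ 0 ∧ G₀ ∣ G ∧ Set.InjOn Φ {φ | φ G ≠ 0} ∧
      (∀ s : S, ∃ (N : ℕ) (p : S'), (s : K) * (G : K) ^ N = p) ∧
      ∀ φ : S' →ₐ[ℂ] ℂ, φ G ≠ 0 → ∀ (s : S) (p q : S'), (s : K) * q = p → Φ φ s * φ q = φ p := by
  
  classical
  obtain ⟨G₁, hG₁, h₁⟩ := Fr.away (S := S) hS'
  obtain ⟨g, hg, h₂⟩ := Fr.away (S := S') hS
  obtain ⟨N, h, hh⟩ := h₁ g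
  have hG₁K : (G₁ : K) ≠ 0 := fun e => hG₁ (Subtype.ext e)
  have hgK : (g : K) ≠ 0 := fun e => hg (Subtype.ext e)
  have hh0 : h ≠ 0 := by
    intro e
    rw [e] at hh
    exact (mul_ne_zero hgK (pow_ne_zero _ hG₁K)) (by simpa using hh)
  have hex : ∀ φ : S' →ₐ[ℂ] ℂ, ∃ Φ : S →ₐ[ℂ] ℂ, φ G₁ ≠ 0 →
      ∀ (s : S) (p q : S'), (s : K) * q = p → Φ s * φ q = φ p := by
    intro φ
    by_cases h0 : φ G₁ = 0
    · exact ⟨Classical.arbitrary _, fun h => absurd h0 h⟩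
    · obtain ⟨Φ, hΦ⟩ := DQ_one h₁ φ h0
      exact ⟨Φ, fun _ => hΦ⟩
  choose Φ hΦ using hex
  have hsplit : ∀ φ : S' →ₐ[ℂ] ℂ, φ (G₀ * G₁ * h) ≠ 0 → φ G₁ ≠ 0 ∧ φ h ≠ 0 := by
    intro φ h0
    rw [map_mul, map_mul] at h0
    exact ⟨right_ne_zero_of_mul (left_ne_zero_of_mul h0), right_ne_zero_of_mul h0⟩
  have hval : ∀ φ : S' →ₐ[ℂ] ℂ, φ (G₀ * G₁ * h) ≠ 0 → ∀ (s' : S') (M : ℕ) (s : S),
      (s' : K) * (g : K) ^ M = s → Φ φ g ≠ 0 ∧ φ s' = Φ φ s / Φ φ g ^ M := by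
    intro φ h0 s' M s hs
    obtain ⟨h1, h2⟩ := hsplit φ h0
    have e1 := hΦ φ h1 g h (G₁ ^ N) (by push_cast; exact hh)
    have e2 := hΦ φ h1 s (s' * h ^ M) ((G₁ ^ N) ^ M) (by
      push_cast; rw [← hs, ← hh]; ring)
    rw [map_mul, map_pow, map_pow φ h, ← e1] at e2
    have h3 : φ (G₁ ^ N) ≠ 0 := by rw [map_pow]; exact pow_ne_zero _ h1
    have h4 : Φ φ g ≠ 0 := by
      intro e
      rw [e, zero_mul] at e1
      exact h2 e1.symm
    refine ⟨h4, ?_⟩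
    rw [eq_div_iff (pow_ne_zero _ h4)]
    have h5 : φ (G₁ ^ N) ^ M ≠ 0 := pow_ne_zero _ h3
    apply mul_right_cancel₀ h5
    rw [e2]
    ring
  refine ⟨G₀ * G₁ * h, Φ, mul_ne_zero (mul_ne_zero hG₀ hG₁) hh0, ⟨G₁ * h, by ring⟩, ?_, ?_, ?_⟩
  · intro φ hφ ψ hψ e
    apply AlgHom.ext
    intro s'
    obtain ⟨M, s, hs⟩ := h₂ s'
    rw [(hval φ hφ s' M s hs).2, (hval ψ hψ s' M s hs).2, e]
  · intro s
    obtain ⟨M, a, ha⟩ := h₁ s
    refine ⟨M, a * (G₀ * h) ^ M, ?_⟩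
    push_cast
    rw [← ha]
    ring
  · intro φ h0
    exact hΦ φ (hsplit φ h0).1


/-- integer exponents -/
theorem DQ_zpow {S S' : Subalgebra ℂ K} {Φ : S →ₐ[ℂ] ℂ} {φ : S' →ₐ[ℂ] ℂ}
    (h : ∀ (s : S) (p q : S'), (s : K) * q = p → Φ s * φ q = φ p) {ϖ : S'} (h0 : φ ϖ ≠ 0) {s : S}
    {p q : S'} {e : ℤ} (he : (s : K) * q = p * (ϖ : K) ^ e) : Φ s * φ q = φ p * φ ϖ ^ e := by
  
  have hϖ : (ϖ : K) ≠ 0 := by
    intro e0
    apply h0
    rw [show ϖ = 0 from Subtype.ext e0, map_zero]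
  obtain ⟨n, rfl | rfl⟩ := Int.eq_nat_or_neg e
  · have := h s (p * ϖ ^ n) q (by push_cast; rw [he, zpow_natCast])
    rw [this, map_mul, map_pow, zpow_natCast]
  · have h1 : (ϖ : K) ^ n ≠ 0 := pow_ne_zero _ hϖ
    have := h s p (q * ϖ ^ n) (by
      push_cast
      rw [← mul_assoc, he, zpow_neg, zpow_natCast, mul_assoc, inv_mul_cancel₀ h1, mul_one])
    have h2 : φ ϖ ^ n ≠ 0 := pow_ne_zero _ h0
    rw [← this, map_mul, map_pow, zpow_neg, zpow_natCast]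
    field_simp


end Crest.Agent.R271
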