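import Crest.Agent.R271.DD0

/-! Row 271, part D: point derivations, and the pointwise inequality of the pole estimate. -/

set_option autoImplicit false
set_option linter.unusedSectionVars false

namespace Crest.Agent.R271

open MeasureTheory Filter Topology
open scoped ENNReal NNReal

variable {n : ℕ} {S : Type} [CommRing S] [Algebra ℂ S] {t : Fin n → S} {Y : Type}
  [TopologicalSpace Y] [MeasurableSpace Y] [BorelSpace Y]
  {X : RD (Fin n → ℂ) Y volume} {ev : Y → (S →ₐ[ℂ] ℂ)}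

/-- `δ s = fderiv ℂ (X.loc (ev · s) y) (X.π y)`; `loc (ev · (t j)) y = proj j` near `π y` (`π_symm`) -/
theorem PtD.der (h : PtD t X ev) (y : Y) : ∃ δ : S →ₗ[ℂ] ((Fin n → ℂ) →L[ℂ] ℂ),
    (∀ s, HasFDerivAt (X.loc (fun w => ev w s) y) (δ s) (X.π y)) ∧
    (∀ u v, δ (u * v) = ev y u • δ v + ev y v • δ u) ∧ ∀ j v, δ (t j) v = v j := by
  have hd : ∀ s, HasFDerivAt (X.loc (fun w => ev w s) y)
      (fderiv ℂ (X.loc (fun w => ev w s) y) (X.π y)) (X.π y) :=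
    fun s => (h.hol s y (Set.mem_univ y)).hasFDerivAt
  have hv : ∀ s, X.loc (fun w => ev w s) y (X.π y) = ev y s :=
    fun s => X.loc_π (fun w => ev w s) (X.mem y)
  refine ⟨{ toFun := fun s => fderiv ℂ (X.loc (fun w => ev w s) y) (X.π y)
            map_add' := fun u v => ?_
            map_smul' := fun c u => ?_ }, hd, fun u v => ?_, fun j v => ?_⟩
  · refine (hd (u + v)).unique (((hd u).add (hd v)).congr_of_eventuallyEq ?_)
    exact Eventually.of_forall fun z => map_add _ _ _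
  · refine (hd (c • u)).unique (((hd u).const_smul c).congr_of_eventuallyEq ?_)
    exact Eventually.of_forall fun z => map_smul _ _ _
  · have h1 := (hd u).mul (hd v)
    rw [hv, hv] at h1
    refine (hd (u * v)).unique (h1.congr_of_eventuallyEq ?_)
    exact Eventually.of_forall fun z => map_mul _ _ _
  · have h1 : HasFDerivAt (X.loc (fun w => ev w (t j)) y)
        (ContinuousLinearMap.proj j : (Fin n → ℂ) →L[ℂ] ℂ) (X.π y) := by
      refine (ContinuousLinearMap.proj j : (Fin n → ℂ) →L[ℂ] ℂ).hasFDerivAt.congr_of_eventuallyEq ?_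
      filter_upwards [(X.ch y).open_target.mem_nhds (X.π_mem (X.mem y))] with z hz
      show ev ((X.ch y).symm z) (t j) = z j
      rw [← h.π, X.π_symm hz]
    show fderiv ℂ (X.loc (fun w => ev w (t j)) y) (X.π y) v = v j
    rw [h1.fderiv]
    rfl

/-- the Jacobian of `(p_i / G)_i`: quotient rule and the hypothesis for `δ · v` -/
theorem PtD.jac (h : PtD t X ev) {y : Y} {G : S} (hG : ev y G ≠ 0) (p : Fin n → S)
    (a : Matrix (Fin n) (Fin n) S)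
    (ha : ∀ δ : S →ₗ[ℂ] ℂ, (∀ u v, δ (u * v) = ev y u * δ v + ev y v * δ u) → ∀ i,
      ev y G * δ (p i) - ev y (p i) * δ G = ev y G * ∑ j, ev y (a j i) * δ (t j)) :
    HasFDerivAt (X.loc (fun w i => ev w (p i) / ev w G) y)
      (Matrix.toLin' (Matrix.of fun i j => ev y (a j i) / ev y G)).toContinuousLinearMap (X.π y) := by
  obtain ⟨δ, hδ, hmul, ht⟩ := h.der y
  have hv : ∀ s, X.loc (fun w => ev w s) y (X.π y) = ev y s :=
    fun s => X.loc_π (fun w => ev w s) (X.mem y)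
  refine hasFDerivAt_pi'' fun i => ?_
  have h1 := (hasDerivAt_inv (by rw [hv]; exact hG)).comp_hasFDerivAt (X.π y) (hδ G)
  have h2 := (hδ (p i)).mul h1
  simp only [Function.comp_apply, hv] at h2
  refine (h2.congr_of_eventuallyEq (Eventually.of_forall fun z => div_eq_mul_inv _ _)).congr_fderiv ?_
  refine ContinuousLinearMap.ext fun v => ?_
  have h3 := ha ((ContinuousLinearMap.apply ℂ ℂ v).toLinearMap ∘ₗ δ) (fun a b => by
    simp [hmul]) i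
  simp only [LinearMap.comp_apply, ContinuousLinearMap.coe_coe, ContinuousLinearMap.apply_apply,
    ht] at h3
  have h4 : ∑ j, ev y (a j i) / ev y G * v j = (∑ j, ev y (a j i) * v j) / ev y G := by
    rw [Finset.sum_div]
    exact Finset.sum_congr rfl fun j _ => by ring
  simp only [ContinuousLinearMap.add_apply, ContinuousLinearMap.smul_apply, smul_eq_mul,
    ContinuousLinearMap.comp_apply, ContinuousLinearMap.proj_apply,
    LinearMap.coe_toContinuousLinearMap', Matrix.toLin'_apply, Matrix.mulVec, dotProduct,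
    Matrix.of_apply, h4]
  field_simp
  linear_combination h3

/-- `w = ‖ϖ‖ ∈ (0, 1]`, `(∑ ‖s_k‖²)^{m/a} ≤ R^{m/a} w^{2 e₂ m / a}`, `2 e₁ - 2 e₂ m / a ≤ -2` -/
theorem DQ_pt {κ : Type} [Fintype κ] {a m : ℕ} (ha : 1 ≤ a) {e₁ e₂ : ℤ} (he : a * e₁ - m * e₂ ≤ -(a : ℤ))
    {η R : ℝ} (hη : 0 < η) (hR : 0 < R) {f D u ϖ : ℂ} {s r : κ → ℂ} (h0 : ϖ ≠ 0) (h1 : ‖ϖ‖ ≤ 1)
    (hu : η ≤ ‖u‖) (hr : ∑ k, ‖r k‖ ^ 2 ≤ R) (hf : f * D = u * ϖ ^ e₁) (hs : ∀ k, s k = r k * ϖ ^ e₂) :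
    (‖ϖ‖ₑ ^ 2)⁻¹ ≤ ENNReal.ofReal (R ^ ((m : ℝ) / a) / η ^ 2) * (ENNReal.ofReal (‖D‖ ^ 2) *
      (‖f‖ₑ ^ 2 / ENNReal.ofReal ((∑ k, ‖s k‖ ^ 2) ^ ((m : ℝ) / a)))) := by
  have hw : 0 < ‖ϖ‖ := norm_pos_iff.2 h0
  have ha0 : (0 : ℝ) < a := by exact_mod_cast ha
  obtain ⟨c, hc⟩ : ∃ c : ℝ, c = (m : ℝ) / a := ⟨_, rfl⟩
  have hc0 : 0 ≤ c := by rw [hc]; positivity
  have he' : (e₁ : ℝ) * 2 - e₂ * 2 * c ≤ -2 := by
    have h : (a : ℝ) * e₁ - m * e₂ ≤ -(a : ℝ) := by exact_mod_cast he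
    have h' : (m : ℝ) = c * a := by rw [hc]; field_simp
    rw [h'] at h
    nlinarith
  rw [← hc]
  have hz : ∀ e : ℤ, ‖ϖ ^ e‖ ^ 2 = ‖ϖ‖ ^ ((e : ℝ) * 2) := fun e => by
    rw [norm_zpow, Real.rpow_mul hw.le, Real.rpow_intCast, Real.rpow_two]
  have hT : (∑ k, ‖s k‖ ^ 2) ^ c ≤ R ^ c * ‖ϖ‖ ^ ((e₂ : ℝ) * 2 * c) := by
    rw [Real.rpow_mul hw.le _ c, ← Real.mul_rpow hR.le (by positivity)]
    refine Real.rpow_le_rpow (by positivity) ?_ hc0
    calc ∑ k, ‖s k‖ ^ 2 = (∑ k, ‖r k‖ ^ 2) * ‖ϖ‖ ^ ((e₂ : ℝ) * 2) := by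
          rw [Finset.sum_mul]
          exact Finset.sum_congr rfl fun k _ => by rw [hs, norm_mul, mul_pow, hz]
      _ ≤ _ := by gcongr
  have hB : 0 < R ^ c * ‖ϖ‖ ^ ((e₂ : ℝ) * 2 * c) := by positivity
  refine le_trans ?_ (mul_le_mul_right (mul_le_mul_right
    (ENNReal.div_le_div_left (ENNReal.ofReal_le_ofReal hT) _) _) _)
  rw [← ofReal_norm_eq_enorm, ← ofReal_norm_eq_enorm, ← ENNReal.ofReal_pow hw.le,
    ← ENNReal.ofReal_pow (norm_nonneg _), ← ENNReal.ofReal_inv_of_pos (by positivity),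
    ← ENNReal.ofReal_div_of_pos hB, ← ENNReal.ofReal_mul (by positivity),
    ← ENNReal.ofReal_mul (by positivity)]
  refine ENNReal.ofReal_le_ofReal ?_
  have e1 : ‖D‖ ^ 2 * ‖f‖ ^ 2 = ‖u‖ ^ 2 * ‖ϖ‖ ^ ((e₁ : ℝ) * 2) := by
    rw [← hz, ← mul_pow, ← mul_pow, ← norm_mul, ← norm_mul, mul_comm D, hf]
  have e2 : R ^ c / η ^ 2 * (‖D‖ ^ 2 * (‖f‖ ^ 2 / (R ^ c * ‖ϖ‖ ^ ((e₂ : ℝ) * 2 * c)))) =
      ‖u‖ ^ 2 / η ^ 2 * ‖ϖ‖ ^ ((e₁ : ℝ) * 2 - e₂ * 2 * c) := by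
    rw [← mul_div_assoc (‖D‖ ^ 2), e1, Real.rpow_sub hw]
    field_simp
  have e3 : 1 ≤ ‖u‖ ^ 2 / η ^ 2 := by
    rw [le_div_iff₀ (by positivity), one_mul]; gcongr
  rw [e2]
  calc (‖ϖ‖ ^ 2)⁻¹ = 1 * ‖ϖ‖ ^ (-2 : ℝ) := by rw [one_mul, Real.rpow_neg hw.le, Real.rpow_two]
    _ ≤ _ := mul_le_mul e3 (Real.rpow_le_rpow_of_exponent_ge hw h1 he') (by positivity)
      (by positivity)

end Crest.Agent.R271
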