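import Crest.Agent.R271.DXa
import Crest.Agent.R271.AL3

/-! Row 271, part D: local sections over affine space. -/

set_option autoImplicit false
set_option linter.unusedSectionVars false

namespace Crest.Agent.R271

open Filter Topology Set Polynomial

variable {n : ℕ}

/-- the value of `p ∈ ℂ[t][T]` at a point. -/
noncomputable def Xev (p : (MvPolynomial (Fin n) ℂ)[X]) (u : (Fin n → ℂ) × ℂ) : ℂ :=
  (p.map (MvPolynomial.eval u.1)).eval u.2

theorem Xev_contDiff (p : (MvPolynomial (Fin n) ℂ)[X]) : ContDiff ℂ 1 (Xev p) := by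
  induction p using Polynomial.induction_on' with
  | add p q hp hq =>
    have : Xev (p + q) = fun u => Xev p u + Xev q u := by funext u; simp [Xev]
    rw [this]; exact hp.add hq
  | monomial k a =>
    have : Xev (monomial k a) = fun u => MvPolynomial.eval u.1 a * u.2 ^ k := by
      funext u; simp [Xev]
    rw [this]
    have ha : ContDiff ℂ 1 fun t : Fin n → ℂ => MvPolynomial.eval t a :=
      contDiff_iff_contDiffAt.2 fun z => (AL_analytic a z).contDiffAt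
    exact (ha.comp contDiff_fst).mul (contDiff_snd.pow k)

theorem Xift {χ : (MvPolynomial (Fin n) ℂ)[X]} {u₀ : (Fin n → ℂ) × ℂ} (h : Xev χ u₀ = 0)
    (h' : Xev (derivative χ) u₀ ≠ 0) :
    ∃ φ : (Fin n → ℂ) → ℂ, φ u₀.1 = u₀.2 ∧ (∀ᶠ w in 𝓝 u₀.1, DifferentiableAt ℂ φ w) ∧
      ∀ᶠ u in 𝓝 u₀, Xev χ u = 0 ↔ φ u.1 = u.2 := by
  have hc : ContDiffAt ℂ 1 (Xev χ) u₀ := (Xev_contDiff χ).contDiffAt
  have h1 : HasFDerivAt (fun τ : ℂ => Xev χ (u₀.1, τ))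
      (fderiv ℂ (Xev χ) u₀ ∘L .inr ℂ (Fin n → ℂ) ℂ) u₀.2 :=
    HasFDerivAt.comp (g := Xev χ) (f := fun τ : ℂ => (u₀.1, τ)) u₀.2
      (hc.differentiableAt one_ne_zero).hasFDerivAt (hasFDerivAt_prodMk_right (𝕜 := ℂ) u₀.1 u₀.2)
  have h2 : HasDerivAt (fun τ : ℂ => Xev χ (u₀.1, τ)) (Xev (derivative χ) u₀) u₀.2 := by
    have := (χ.map (MvPolynomial.eval u₀.1)).hasDerivAt u₀.2
    rwa [derivative_map] at this
  have h3 : (fderiv ℂ (Xev χ) u₀ ∘L .inr ℂ (Fin n → ℂ) ℂ).IsInvertible := by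
    rw [h1.unique h2.hasFDerivAt]
    exact ⟨ContinuousLinearEquiv.unitsEquivAut ℂ (Units.mk0 _ h'), by ext; simp⟩
  refine ⟨hc.implicitFunction one_ne_zero h3, hc.implicitFunction_apply_self _ _, ?_, ?_⟩
  · filter_upwards [(hc.contDiffAt_implicitFunction one_ne_zero h3).eventually (by simp)] with w hw
    exact hw.differentiableAt one_ne_zero
  · have := hc.eventually_apply_eq_iff_implicitFunction one_ne_zero h3
    rwa [h] at this

variable {S : Type} [CommRing S] [Algebra ℂ S] [Algebra (MvPolynomial (Fin n) ℂ) S]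
  [IsScalarTower ℂ (MvPolynomial (Fin n) ℂ) S]

theorem Xlift (P : StandardEtalePresentation (MvPolynomial (Fin n) ℂ) S) {u : (Fin n → ℂ) × ℂ}
    (hf : Xev P.f u = 0) (hg : Xev P.g u ≠ 0) :
    ∃ y : S →ₐ[ℂ] ℂ, ALpt n y = u.1 ∧ y P.x = u.2 := by
  let _ : Algebra (MvPolynomial (Fin n) ℂ) ℂ := (MvPolynomial.eval u.1).toAlgebra
  have ea : ∀ p : (MvPolynomial (Fin n) ℂ)[X], aeval u.2 p = Xev p u := fun p => by
    rw [Xev, aeval_def, eval_map]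
    rfl
  have hm : P.HasMap u.2 := ⟨by rw [ea, hf], isUnit_iff_ne_zero.2 (by rw [ea]; exact hg)⟩
  let φ : S →ₐ[MvPolynomial (Fin n) ℂ] ℂ := (P.lift u.2 hm).comp P.equivRing.toAlgHom
  refine ⟨{ φ.toRingHom with commutes' := fun c => ?_ }, funext fun i => ?_, ?_⟩
  · change φ (algebraMap ℂ S c) = c
    rw [IsScalarTower.algebraMap_apply ℂ (MvPolynomial (Fin n) ℂ) S, φ.commutes]
    exact MvPolynomial.eval_C c
  · exact (φ.commutes (MvPolynomial.X i)).trans (MvPolynomial.eval_X i)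
  · change P.lift u.2 hm (P.equivRing P.x) = u.2
    rw [P.equivRing_x, P.lift_X]

theorem Xval (P : StandardEtalePresentation (MvPolynomial (Fin n) ℂ) S) (s : S) :
    ∃ (p : (MvPolynomial (Fin n) ℂ)[X]) (k : ℕ), ∀ y : S →ₐ[ℂ] ℂ,
      y s = Xev p (ALpt n y, y P.x) / Xev P.g (ALpt n y, y P.x) ^ k := by
  obtain ⟨p, k, hp⟩ := P.exists_mul_aeval_x_g_pow_eq_aeval_x s
  refine ⟨p, k, fun y => ?_⟩
  have h1 := congrArg y hp
  have h2 := (P.hasMap.2.map y).ne_zero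
  rw [map_mul, map_pow, AL_aeval, AL_aeval] at h1
  rw [AL_aeval] at h2
  exact (eq_div_iff (pow_ne_zero _ h2)).2 h1

theorem Xsection (P : StandardEtalePresentation (MvPolynomial (Fin n) ℂ) S) (y₀ : XPt S) :
    ∃ (O : Set (XPt S)) (U : Set (Fin n → ℂ)) (σ : (Fin n → ℂ) → XPt S), IsOpen O ∧ IsOpen U ∧
      y₀ ∈ O ∧ (∀ y ∈ O, ALpt n y.ev ∈ U ∧ σ (ALpt n y.ev) = y) ∧
      (∀ w ∈ U, σ w ∈ O ∧ ALpt n (σ w).ev = w) ∧
      ∀ s : S, DifferentiableOn ℂ (fun w => (σ w).ev s) U := by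
  classical
  have hf : ∀ y : S →ₐ[ℂ] ℂ, Xev P.f (ALpt n y, y P.x) = 0 := fun y => by
    have := congrArg y P.hasMap.1
    rwa [AL_aeval, map_zero] at this
  have hu : ∀ {p : (MvPolynomial (Fin n) ℂ)[X]}, IsUnit (aeval P.x p) → ∀ y : S →ₐ[ℂ] ℂ,
      Xev p (ALpt n y, y P.x) ≠ 0 := fun {p} h y => by
    have := (h.map y).ne_zero
    rwa [AL_aeval] at this
  obtain ⟨φ, h0, hd, he⟩ := Xift (hf y₀.ev) (hu P.hasMap.isUnit_derivative_f y₀.ev)
  obtain ⟨U₁, V, hU₁, m1, hV, m2, hUV⟩ := mem_nhds_prod_iff'.1 he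
  have hc : ContinuousAt φ (ALpt n y₀.ev) := hd.self_of_nhds.continuousAt
  have hc2 : ContinuousAt (fun w => Xev P.g (w, φ w)) (ALpt n y₀.ev) :=
    (Xev_contDiff P.g).continuous.continuousAt.comp (continuousAt_id.prodMk hc)
  have e1 : ∀ᶠ w in 𝓝 (ALpt n y₀.ev), φ w ∈ V := hc.eventually_mem (hV.mem_nhds (by
    simp only at h0 m2; rw [h0]; exact m2))
  have e2 : ∀ᶠ w in 𝓝 (ALpt n y₀.ev), Xev P.g (w, φ w) ≠ 0 := hc2.eventually_ne (by
    simp only at h0; rw [h0]; exact hu P.hasMap.2 y₀.ev)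
  obtain ⟨U, hU, hUo, m0⟩ := mem_nhds_iff.1
    (((hd.and e1).and e2).and (hU₁.mem_nhds m1 : ∀ᶠ w in 𝓝 (ALpt n y₀.ev), w ∈ U₁))
  have hσ : ∀ w, ∃ y : XPt S, w ∈ U → ALpt n y.ev = w ∧ y.ev P.x = φ w := fun w => by
    by_cases hw : w ∈ U
    · obtain ⟨y, hy⟩ := Xlift P (u := (w, φ w))
        ((hUV (mk_mem_prod (hU hw).2 (hU hw).1.1.2)).2 rfl) (hU hw).1.2
      exact ⟨y, fun _ => hy⟩
    · exact ⟨y₀, fun h => absurd h hw⟩
  choose σ hσ using hσ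
  have cπ : Continuous fun y : XPt S => ALpt n y.ev := continuous_pi fun _ => XPt.continuous_ev _
  refine ⟨{y | ALpt n y.ev ∈ U ∧ y.ev P.x ∈ V}, U, σ,
    (hUo.preimage cπ).inter (hV.preimage (XPt.continuous_ev _)), hUo, ⟨m0, m2⟩,
    fun y hy => ⟨hy.1, ?_⟩, fun w hw => ⟨⟨?_, ?_⟩, (hσ w hw).1⟩, fun s w hw => ?_⟩
  · have h1 : φ (ALpt n y.ev) = y.ev P.x := (hUV (mk_mem_prod (hU hy.1).2 hy.2)).1 (hf y.ev)
    refine AlgHom.ext (φ₁ := (σ _).ev) (φ₂ := y.ev) fun s => ?_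
    obtain ⟨p, k, hp⟩ := Xval P s
    rw [hp, hp, (hσ _ hy.1).1, (hσ _ hy.1).2, h1]
  · rw [(hσ w hw).1]; exact hw
  · rw [(hσ w hw).2]; exact (hU hw).1.1.2
  · obtain ⟨p, k, hp⟩ := Xval P s
    have hφ : DifferentiableAt ℂ (fun w => (w, φ w)) w :=
      differentiableAt_id.prodMk (hU hw).1.1.1
    have hq : ∀ q, DifferentiableAt ℂ (fun w => Xev q (w, φ w)) w := fun q =>
      ((Xev_contDiff q).differentiable one_ne_zero _).comp w hφ
    have hz : Xev P.g (w, φ w) ^ k ≠ 0 := pow_ne_zero _ (hU hw).1.2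
    have hd' : DifferentiableAt ℂ (fun w => Xev p (w, φ w) * (Xev P.g (w, φ w) ^ k)⁻¹) w :=
      (hq p).mul (((hq P.g).pow k).inv hz)
    refine hd'.differentiableWithinAt.congr (fun w' hw' => ?_) ?_
    · rw [hp, (hσ _ hw').1, (hσ _ hw').2, div_eq_mul_inv]
    · rw [hp, (hσ _ hw).1, (hσ _ hw).2, div_eq_mul_inv]

end Crest.Agent.R271
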