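import Crest.Agent.R271.RDB

/-! Row 271, part D: the pulled back measure on a Riemann domain. -/

set_option autoImplicit false
set_option linter.unusedSectionVars false

namespace Crest.Agent.R271

open MeasureTheory Filter Topology Set
open scoped ENNReal NNReal

variable {E Y : Type} [TopologicalSpace E] [MeasurableSpace E] [BorelSpace E]
  [TopologicalSpace Y] [SecondCountableTopology Y] [MeasurableSpace Y] [BorelSpace Y]

theorem DXm_image (e : OpenPartialHomeomorph Y E) {A : Set Y} (hA : MeasurableSet A)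
    (hs : A ⊆ e.source) : MeasurableSet (e '' A) := by
  have h1 : Measurable (e.target.domRestrict e.symm) :=
    (continuousOn_iff_continuous_domRestrict.1 e.continuousOn_symm).measurable
  have h2 : e '' A = Subtype.val '' (e.target.domRestrict e.symm ⁻¹' A) := by
    ext t
    constructor
    · rintro ⟨y, hy, rfl⟩
      exact ⟨⟨e y, e.map_source (hs hy)⟩, by simpa [e.left_inv (hs hy)] using hy, rfl⟩
    · rintro ⟨⟨t, ht⟩, h, rfl⟩
      exact ⟨e.symm t, h, e.right_inv ht⟩
  rw [h2]
  exact (MeasurableEmbedding.subtype_coe e.open_target.measurableSet).measurableSet_image.2 (h1 hA)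

theorem DXm_fib (e : OpenPartialHomeomorph Y E) {A : Set Y} (hs : A ⊆ e.source) (F : Y → ℝ≥0∞)
    (t : E) : (e '' A).indicator (fun t => F (e.symm t)) t =
      ∑' y : e ⁻¹' {t}, A.indicator F y := by
  by_cases ht : t ∈ e '' A
  · obtain ⟨y, hy, rfl⟩ := ht
    rw [indicator_of_mem (mem_image_of_mem _ hy), e.left_inv (hs hy),
      tsum_eq_single (⟨y, rfl⟩ : e ⁻¹' {e y}), indicator_of_mem hy]
    rintro ⟨y', h'⟩ hne
    refine indicator_of_notMem (fun hy' => hne (Subtype.ext ?_)) _
    exact e.injOn (hs hy') (hs hy) h'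
  · rw [indicator_of_notMem ht, eq_comm, ENNReal.tsum_eq_zero]
    rintro ⟨y, h⟩
    exact indicator_of_notMem (fun hy => ht ⟨y, hy, h⟩) _

/-- the pulled back measure. -/
theorem RD.exists_of_charts (μ : Measure E) (π : Y → E) (ch : Y → OpenPartialHomeomorph Y E)
    (mem : ∀ y, y ∈ (ch y).source) (coe : ∀ y, ⇑(ch y) = π) :
    ∃ X : RD E Y μ, X.π = π ∧ X.ch = ch := by
  rcases isEmpty_or_nonempty Y with hY | hY
  · exact ⟨⟨π, ch, mem, coe, 0, fun F _ => by simp⟩, rfl, rfl⟩
  obtain ⟨s, hs, hU⟩ := TopologicalSpace.countable_cover_nhds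
    (f := fun y => (ch y).source) fun y => (ch y).open_source.mem_nhds (mem y)
  have hne : s.Nonempty := by
    obtain ⟨y⟩ := hY
    have : y ∈ ⋃ x ∈ s, (ch x).source := hU ▸ mem_univ y
    simp only [mem_iUnion] at this
    obtain ⟨x, hx, -⟩ := this
    exact ⟨x, hx⟩
  obtain ⟨c, rfl⟩ := hs.exists_eq_range hne
  rw [biUnion_range] at hU
  set A : ℕ → Set Y := disjointed fun k => (ch (c k)).source with hA
  have hAm : ∀ k, MeasurableSet (A k) :=
    MeasurableSet.disjointed fun k => (ch (c k)).open_source.measurableSet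
  have hAs : ∀ k, A k ⊆ (ch (c k)).source := disjointed_subset _
  have hAU : ⋃ k, A k = univ := by rw [hA, iUnion_disjointed, hU]
  have hAd : Pairwise (Function.onFun Disjoint A) := disjoint_disjointed _
  have hBm : ∀ k, MeasurableSet (ch (c k) '' A k) := fun k => DXm_image _ (hAm k) (hAs k)
  have hae : ∀ k, AEMeasurable (ch (c k)).symm (μ.restrict (ch (c k) '' A k)) := fun k =>
    ((ch (c k)).continuousOn_symm.mono
      (by rintro _ ⟨y, hy, rfl⟩; exact (ch (c k)).map_source (hAs k hy))).aemeasurable (hBm k)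
  refine ⟨⟨π, ch, mem, coe,
    Measure.sum fun k => Measure.map (ch (c k)).symm (μ.restrict (ch (c k) '' A k)),
    fun F hF => ?_⟩, rfl, rfl⟩
  rw [lintegral_sum_measure]
  have h1 : ∀ k, ∫⁻ y, F y ∂Measure.map (ch (c k)).symm (μ.restrict (ch (c k) '' A k)) =
      ∫⁻ t, (ch (c k) '' A k).indicator (fun t => F ((ch (c k)).symm t)) t ∂μ := fun k => by
    rw [lintegral_map' hF.aemeasurable (hae k), lintegral_indicator (hBm k)]
  simp_rw [h1]
  have h3 : ∀ k, AEMeasurable
      (fun t => (ch (c k) '' A k).indicator (fun t => F ((ch (c k)).symm t)) t) μ := fun k =>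
    (aemeasurable_indicator_iff (hBm k)).2 (hF.comp_aemeasurable (hae k))
  rw [← lintegral_tsum h3]
  refine lintegral_congr fun t => ?_
  have h2 : ∀ k, (ch (c k) '' A k).indicator (fun t => F ((ch (c k)).symm t)) t =
      ∑' y : π ⁻¹' {t}, (A k).indicator F y := fun k => by
    rw [DXm_fib _ (hAs k), coe]
  simp_rw [h2]
  rw [ENNReal.tsum_comm]
  refine tsum_congr fun y => ?_
  obtain ⟨k, hk⟩ := mem_iUnion.1 (hAU ▸ mem_univ (y : Y))
  rw [tsum_eq_single k, indicator_of_mem hk]
  intro j hj
  exact indicator_of_notMem (fun h => Set.disjoint_left.1 (hAd hj) h hk) _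

end Crest.Agent.R271
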