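import Crest.Agent.R271.DXt
import Crest.Agent.R271.DXm
import Crest.Agent.R271.DXi

/-! Row 271, part D: existence of the space of points. -/

set_option autoImplicit false

namespace Crest.Agent.R271

open MeasureTheory Filter Topology
open scoped ENNReal NNReal

variable {n : ℕ} {S : Type} [CommRing S] [Algebra ℂ S] {t : Fin n → S}

theorem SE.exists_ptD (het : SE t) : ∃ (Y : Type) (_ : TopologicalSpace Y) (_ : T2Space Y)
    (_ : SecondCountableTopology Y) (_ : MeasurableSpace Y) (_ : BorelSpace Y)
    (X : RD (Fin n → ℂ) Y volume) (ev : Y → (S →ₐ[ℂ] ℂ)), PtD t X ev := by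
  haveI := het.ft
  letI : Algebra (MvPolynomial (Fin n) ℂ) S :=
    (MvPolynomial.aeval t : MvPolynomial (Fin n) ℂ →ₐ[ℂ] S).toRingHom.toAlgebra
  haveI : IsScalarTower ℂ (MvPolynomial (Fin n) ℂ) S :=
    IsScalarTower.of_algebraMap_eq fun c =>
      ((MvPolynomial.aeval t : MvPolynomial (Fin n) ℂ →ₐ[ℂ] S).commutes c).symm
  obtain ⟨P⟩ := het.nonempty_standardEtalePresentation
  choose O U σ hO hU hm h1 h2 hd using Xsection P
  have cπ : Continuous fun y : XPt S => ALpt n y.ev := continuous_pi fun _ => XPt.continuous_ev _
  let ch : XPt S → OpenPartialHomeomorph (XPt S) (Fin n → ℂ) := fun y =>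
    { toFun := fun y => ALpt n y.ev
      invFun := σ y
      source := O y
      target := U y
      map_source' := fun z hz => (h1 y z hz).1
      map_target' := fun w hw => (h2 y w hw).1
      left_inv' := fun z hz => (h1 y z hz).2
      right_inv' := fun w hw => (h2 y w hw).2
      open_source := hO y
      open_target := hU y
      continuousOn_toFun := cπ.continuousOn
      continuousOn_invFun := XPt.continuousOn_iff.2 fun s => (hd y s).continuousOn }
  obtain ⟨X, hπ, hch⟩ := RD.exists_of_charts volume (fun y : XPt S => ALpt n y.ev) ch hm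
    fun _ => rfl
  refine ⟨XPt S, inferInstance, inferInstance, inferInstance, inferInstance, inferInstance, X,
    XPt.ev, Function.bijective_id, fun y i => ?_, fun s y _ => ?_,
    fun κ _ γ h r => XPt.isCompact_gen h r⟩
  · rw [hπ]
    exact congrArg y.ev (MvPolynomial.aeval_X t i)
  · have : X.loc (fun y => y.ev s) y = fun w => (σ y w).ev s := by
      unfold RD.loc; rw [hch]; rfl
    rw [this, hπ]
    exact (hd y s).differentiableAt ((hU y).mem_nhds (h1 y y (hm y)).1)

end Crest.Agent.R271
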