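import Crest.Agent.R271.DP
import Crest.Agent.R271.DX
import Crest.Agent.R271.DI
import Crest.Agent.R271.Ex0
import Crest.Agent.R271.DQ1
import Crest.Agent.R271.DQ2
import Crest.Agent.R271.DQ3

/-! Row 271, part D: pole orders. -/

set_option autoImplicit false

namespace Crest.Agent.R271

open MeasureTheory Filter Topology
open scoped ENNReal NNReal

theorem PtD.pole {K : Type} [Field K] [Algebra ℂ K] {n : ℕ} (c : Chart K n) {Y : Type}
    [TopologicalSpace Y] [T2Space Y] [SecondCountableTopology Y] [MeasurableSpace Y] [BorelSpace Y]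
    {X : RD (Fin n → ℂ) Y volume} {ev : Y → (c.S →ₐ[ℂ] ℂ)} (h : PtD c.t X ev) {κ : Type}
    [Fintype κ] (s : κ → c.S) {a m : ℕ} (ha : 1 ≤ a) {f : c.S}
    (hf : ∫⁻ y, ‖ev y f‖ₑ ^ 2 / ENNReal.ofReal ((∑ k, ‖ev y (s k)‖ ^ 2) ^ ((m : ℝ) / a)) ∂X.ν < ∞)
    (c' : Chart K n) (A : Matrix (Fin n) (Fin n) K)
    (hA : ∀ i, KaehlerDifferential.D ℂ K (c.t i) = ∑ j, A j i • KaehlerDifferential.D ℂ K (c'.t j))
    (ϖ : c'.S) (h0 : ϖ ≠ 0) (hu : ¬ IsUnit ϖ) (u : c'.Sˣ) (e₁ e₂ : ℤ)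
    (h1 : (f : K) * A.det = ((u : c'.S) : K) * (ϖ : K) ^ e₁)
    (h2 : ∀ k, ∃ r : c'.S, (s k : K) = (r : K) * (ϖ : K) ^ e₂) :
    -(a : ℤ) < a * e₁ - m * e₂ := by
  by_contra hneg
  have he : a * e₁ - m * e₂ ≤ -(a : ℤ) := not_lt.1 hneg
  have := SE.ft c.et
  have := SE.ft c'.et
  obtain ⟨Y', _, _, _, _, _, X', ev', h'⟩ := SE.exists_ptD c'.et
  have hS : Fr c.S := c.frac
  have hS' : Fr c'.S := c'.frac
  choose r hr using h2
  obtain ⟨G₀, P, hG₀, hP⟩ := hS'.common (ι := Fin n ⊕ Fin n × Fin n)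
    (Sum.elim (fun i => (c.t i : K)) fun ji => A ji.1 ji.2)
  let aM : Matrix (Fin n) (Fin n) c'.S := Matrix.of fun j i => P (.inr (j, i))
  choose H hH0 hH using fun i => DQ_kae hS' c'.t (x := c.t i) (hP (.inl i)) (A := fun j => A j i)
    (a := fun j => aM j i) (fun j => hP (.inr (j, i))) (hA i)
  have : Nonempty (c.S →ₐ[ℂ] ℂ) := ⟨(DD_point (S := c.S) not_isUnit_zero).choose⟩
  obtain ⟨G, Φ, hG, ⟨G', hG'⟩, hinj, hN, hΦ⟩ := DQ_ext hS hS' (G₀ := G₀ * ϖ * ∏ i, H i)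
    (mul_ne_zero (mul_ne_zero hG₀ h0) (Finset.prod_ne_zero_iff.2 fun i _ => hH0 i))
  choose ι hι using h.bij.2
  have hΩ : IsOpen {w | ev' w G ≠ 0} := isOpen_ne_fun (h'.cont G) continuous_const
  have hnz : ∀ w, ev' w G ≠ 0 → ev' w G₀ ≠ 0 ∧ ev' w ϖ ≠ 0 ∧ ∀ i, ev' w (H i) ≠ 0 := fun w hw => by
    rw [hG', map_mul, map_mul, map_mul, map_prod] at hw
    exact ⟨left_ne_zero_of_mul (left_ne_zero_of_mul (left_ne_zero_of_mul hw)),
      right_ne_zero_of_mul (left_ne_zero_of_mul (left_ne_zero_of_mul hw)), fun i =>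
      Finset.prod_ne_zero_iff.1 (right_ne_zero_of_mul (left_ne_zero_of_mul hw)) i
        (Finset.mem_univ i)⟩
  have hc : ContinuousOn (fun w => ι (Φ (ev' w))) {w | ev' w G ≠ 0} := fun w hw => by
    refine h.tendsto fun s => ?_
    obtain ⟨N, p, hp⟩ := hN s
    have e : ∀ w', ev' w' G ≠ 0 → ev' w' p / ev' w' G ^ N = ev (ι (Φ (ev' w'))) s := fun w' hw' => by
      rw [hι, div_eq_iff (pow_ne_zero _ hw'), ← map_pow]
      exact (hΦ _ hw' s p (G ^ N) (by exact_mod_cast hp)).symm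
    rw [← e w hw]
    refine Tendsto.congr' (eventually_nhdsWithin_of_forall e) ?_
    exact (((h'.cont p).continuousAt.div ((h'.cont G).continuousAt.pow N)
      (pow_ne_zero _ hw))).continuousWithinAt
  have hi : Set.InjOn (fun w => ι (Φ (ev' w))) {w | ev' w G ≠ 0} := fun w hw w' hw' e => by
    refine h'.bij.1 (hinj hw hw' ?_)
    rw [← hι (Φ (ev' w)), ← hι (Φ (ev' w'))]
    exact congrArg ev e
  have key := RD.cov_le X X' (J := fun w => (Matrix.toLin' (Matrix.of fun i j =>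
      ev' w (aM j i) / ev' w G₀)).toContinuousLinearMap.restrictScalars ℝ) hΩ hc hi (fun w hw => by
    obtain ⟨a1, -, a3⟩ := hnz w hw
    refine ((h'.jac a1 (fun i => P (.inl i)) aM fun δ hδ i =>
      hH i _ δ hδ (a3 i)).restrictScalars ℝ).congr_of_eventuallyEq ?_
    have b1 := (X'.ch w).continuousAt_symm (X'.π_mem (X'.mem w))
    refine b1.eventually (p := fun w' => X.π (ι (Φ (ev' w'))) =
      fun i => ev' w' (P (.inl i)) / ev' w' G₀) ?_
    rw [X'.symm_π (X'.mem w)]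
    filter_upwards [hΩ.mem_nhds hw] with w' hw'
    funext i
    rw [h.π, hι, eq_div_iff (hnz w' hw').1]
    exact hΦ _ hw' _ _ _ (hP (.inl i)))
    (fun y => ‖ev y f‖ₑ ^ 2 / ENNReal.ofReal ((∑ k, ‖ev y (s k)‖ ^ 2) ^ ((m : ℝ) / a)))
  obtain ⟨φ₀, hφ₀⟩ := DD_point hu
  obtain ⟨y₀, rfl⟩ := h'.bij.2 φ₀
  obtain ⟨C₀, hC₀, hiz⟩ := h'.izumi c'.et (V := Submodule.span ℂ {G}) (Submodule.fg_span_singleton G)
  obtain ⟨V₁, hV₁, hfin⟩ := hiz 1 G (by rw [pow_one]; exact Submodule.mem_span_singleton_self G) hG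
    (1 / (C₀ + 1)) (by positivity) (by
      rw [Nat.cast_one, mul_one, div_mul_eq_mul_div, one_mul, div_lt_one (by positivity)]
      exact lt_add_one _) y₀
  have hae : ∀ᵐ w ∂X'.ν.restrict V₁, ev' w G ≠ 0 := by
    filter_upwards [ae_lt_top ((h'.cont G).enorm.measurable.pow_const _) hfin.ne] with w hw e
    rw [e, enorm_zero, ENNReal.zero_rpow_of_neg (by
      have : 0 < 1 / (C₀ + 1) := by positivity
      linarith)] at hw
    exact lt_irrefl _ hw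
  have hu0 : 0 < ‖ev' y₀ u‖ := norm_pos_iff.2 (u.isUnit.map (ev' y₀)).ne_zero
  have hV₂ : ∀ᶠ w in 𝓝 y₀, ‖ev' w ϖ‖ ≤ 1 ∧ ‖ev' y₀ u‖ / 2 ≤ ‖ev' w u‖ ∧
      ∑ k, ‖ev' w (r k)‖ ^ 2 ≤ ∑ k, ‖ev' y₀ (r k)‖ ^ 2 + 1 := by
    refine ((h'.cont ϖ).norm.continuousAt.eventually (eventually_le_nhds ?_)).and
      (((h'.cont u).norm.continuousAt.eventually (eventually_ge_nhds ?_)).and
      ((continuous_finsetSum _ fun k _ => (h'.cont (r k)).norm.pow 2).continuousAt.eventually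
        (eventually_le_nhds (lt_add_one _))))
    · simp [hφ₀]
    · exact half_lt_self hu0
  obtain ⟨O, hO, hOo, hyO⟩ := mem_nhds_iff.1 (inter_mem hV₁ hV₂)
  have hdet : (f : K) * (aM.det : c'.S) = ((u * G₀ ^ n : c'.S) : K) * (ϖ : K) ^ e₁ := by
    have e : c'.S.val.mapMatrix aM = (G₀ : K) • A := by
      ext j i
      exact (hP (.inr (j, i))).symm.trans (mul_comm _ _)
    have e2 : ((aM.det : c'.S) : K) = (G₀ : K) ^ n * A.det := by
      have := c'.S.val.map_det aM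
      rwa [e, Matrix.det_smul, Fintype.card_fin] at this
    rw [e2]
    push_cast
    linear_combination (G₀ : K) ^ n * h1
  refine not_intNear_inv volume (RD.Hol.analyticAt X' isOpen_univ (h'.hol ϖ) (Set.mem_univ y₀))
    ((X'.loc_π _ (X'.mem y₀)).trans hφ₀)
    ((X'.intNear_iff (X'.mem y₀) fun w => (‖ev' w ϖ‖ₑ ^ 2)⁻¹).1 ⟨O, hOo.mem_nhds hyO, ?_⟩)
  refine lt_of_le_of_lt ?_ (ENNReal.mul_lt_top (ENNReal.ofReal_lt_top (r :=
    (∑ k, ‖ev' y₀ (r k)‖ ^ 2 + 1) ^ ((m : ℝ) / a) / (‖ev' y₀ u‖ / 2) ^ 2)) (key.trans_lt hf))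
  rw [← lintegral_const_mul' _ _ ENNReal.ofReal_ne_top, ← lintegral_indicator hΩ.measurableSet]
  refine le_trans (lintegral_mono_ae ?_) (lintegral_mono' Measure.restrict_le_self le_rfl)
  filter_upwards [ae_restrict_mem hOo.measurableSet,
    ae_restrict_of_ae_restrict_of_subset (fun w hw => (hO hw).1) hae] with w hw hwG
  obtain ⟨a1, a2, -⟩ := hnz w hwG
  obtain ⟨b1, b2, b3⟩ := (hO hw).2
  rw [Set.indicator_of_mem (show w ∈ {w | ev' w G ≠ 0} from hwG), DQ_det,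
    abs_of_nonneg (sq_nonneg _)]
  refine DQ_pt ha he (half_pos hu0) (by positivity) a2 b1 b2 b3 ?_ fun k => ?_
  · have e : (Matrix.of fun i j => ev' w (aM j i) / ev' w G₀) =
        (ev' w G₀)⁻¹ • ((ev' w).mapMatrix aM).transpose := by
      ext i j
      simp [div_eq_inv_mul]
    have e2 := DQ_zpow (hΦ _ hwG) a2 hdet
    rw [map_mul, map_pow] at e2
    rw [e, Matrix.det_smul, Matrix.det_transpose, ← AlgHom.map_det, Fintype.card_fin, hι]
    rw [inv_pow, mul_left_comm, e2, mul_right_comm, mul_comm, mul_assoc,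
      mul_inv_cancel₀ (pow_ne_zero _ a1), mul_one]
  · have e2 := DQ_zpow (hΦ _ hwG) a2 (s := s k) (p := r k) (q := 1) (e := e₂) (by simpa using hr k)
    rwa [map_one, mul_one, ← hι (Φ (ev' w))] at e2

end Crest.Agent.R271
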