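import Crest.Agent.R271.DF
import Crest.Agent.R271.DQ

/-! Row 271, part D: the analytic theorem in algebraic form. -/

set_option autoImplicit false

namespace Crest.Agent.R271

/-- There is `f` with `f(x) = 1` such that the form `f dt` is square integrable for the metric
`(∑ |σ s_i| ^ 2) ^ (m / a)`; consequently its poles are controlled along every divisor. -/
theorem ana {K : Type} [Field K] [Algebra ℂ K] {n : ℕ} (hn : 1 ≤ n) (c : Chart K n)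
    (x : c.S →ₐ[ℂ] ℂ) {V : Submodule ℂ c.S} {a : ℕ} (hV : ProjData c.S V a) (σ : c.Sˣ) {m : ℕ}
    (hm : n + 1 ≤ m) :
    ∃ f : c.S, x f = 1 ∧ ∀ (c' : Chart K n) (A : Matrix (Fin n) (Fin n) K),
      (∀ i, KaehlerDifferential.D ℂ K (c.t i) =
        ∑ j, A j i • KaehlerDifferential.D ℂ K (c'.t j)) →
      ∀ (ϖ : c'.S), ϖ ≠ 0 → ¬ IsUnit ϖ → ∀ (u : c'.Sˣ) (e₁ e₂ : ℤ),
      (f : K) * A.det = ((u : c'.S) : K) * (ϖ : K) ^ e₁ →
      (∀ s ∈ V, ∃ r : c'.S, (((σ : c.S) * s : c.S) : K) = (r : K) * (ϖ : K) ^ e₂) →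
      -(a : ℤ) < a * e₁ - m * e₂ := by
  obtain ⟨Y, _, _, _, _, _, X, ev, h⟩ := SE.exists_ptD (t := c.t) c.et
  obtain ⟨y, rfl⟩ := h.bij.2 x
  obtain ⟨N, v, hv⟩ := Submodule.fg_iff_exists_fin_generating_family.1 hV.fg
  obtain ⟨f, h1, h2⟩ := h.final c.et hn y hV hv σ hm
  exact ⟨f, h1, fun c' A hA ϖ h0 hu u e₁ e₂ h3 h4 => PtD.pole c h (fun k => (σ : c.S) * v k)
    hV.a_pos h2 c' A hA ϖ h0 hu u e₁ e₂ h3 fun k => h4 _ (hv ▸ Submodule.subset_span ⟨k, rfl⟩)⟩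

end Crest.Agent.R271
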