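import Crest.Agent.R271.BAdd1

/-! Row 271, part B: convexity of the exponent. -/

set_option autoImplicit false
set_option linter.unusedSectionVars false
set_option linter.unusedVariables false

namespace Crest.Agent.R271

open MeasureTheory Filter Topology Set Metric
open scoped ENNReal NNReal

variable {E : Type} [NormedAddCommGroup E] [NormedSpace ℂ E] [FiniteDimensional ℂ E]
  [MeasurableSpace E] [BorelSpace E] (μ : Measure E) [μ.IsAddHaarMeasure]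
  {ι : Type} [Fintype ι]

/-- a good neighbourhood of `z`. -/
theorem B_nhd {g : ι → E → ℂ} {z : E} (hg : ∀ i, AnalyticAt ℂ (g i) z) {U : Set E}
    (hU : U ∈ 𝓝 z) : ∃ (W : Set E) (R : ℝ), z ∈ W ∧ W ⊆ U ∧ Bornology.IsBounded W ∧
    (RD.triv μ).Stein W ∧ (RD.triv (μ.prod (volume : Measure ℂ))).Stein (W ×ˢ univ) ∧
    (∀ i, DifferentiableOn ℂ (g i) W) ∧ ∀ i, ∀ w ∈ W, ‖g i w‖ ≤ R := by
  have h1 : ∀ᶠ w in 𝓝 z, ∀ i, DifferentiableAt ℂ (g i) w :=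
    eventually_all.2 fun i => (hg i).eventually_analyticAt.mono fun w hw => hw.differentiableAt
  have h2 : ∀ᶠ w in 𝓝 z, ∀ i, ‖g i w‖ ≤ ∑ j, ‖g j z‖ + 1 := eventually_all.2 fun i =>
    ((hg i).continuousAt.norm.eventually (gt_mem_nhds (lt_add_one _))).mono fun w hw =>
      hw.le.trans (add_le_add_left (Finset.single_le_sum (f := fun j => ‖g j z‖)
        (fun _ _ => norm_nonneg _) (Finset.mem_univ i)) _)
  obtain ⟨W, hz, hs, hb, h3, h4⟩ := B_exists_W μ z (inter_mem hU (h1.and h2))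
  exact ⟨W, _, hz, fun w hw => (hs hw).1, hb, h3, h4,
    fun i w hw => ((hs hw).2.1 i).differentiableWithinAt, fun i w hw => (hs hw).2.2 i⟩

theorem add_core {g : ι → E → ℂ} {z : E} (hg : ∀ i, AnalyticAt ℂ (g i) z) {lam lam' : ι → ℝ}
    (h : 0 ≤ lam) (h' : 0 ≤ lam') {c c' c₂ : ℝ} (hc : 0 ≤ c) (hc' : 0 ≤ c') (hlt : c + c' < c₂)
    (hn : ¬ IntNear μ (fun w => ENNReal.ofReal (nw g lam w) ^ (-c)) z)
    (hn' : ¬ IntNear μ (fun w => ENNReal.ofReal (nw g lam' w) ^ (-c')) z) :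
    ¬ IntNear μ (fun w => ENNReal.ofReal (nw g (lam + lam') w) ^ (-c₂)) z := by
  rintro ⟨U, hU, hI⟩
  have hc₂ : 0 ≤ c₂ := by linarith
  obtain ⟨W, R, hz, hWU, hb, hW, hW', hgd, hR⟩ := B_nhd μ hg hU
  set δ := (c₂ - c - c') / 3 with hδ
  have hδ0 : 0 < δ := by rw [hδ]; linarith
  obtain ⟨θ, hθ, hx⟩ := add_param (a := (c + δ) + (c' + δ)) (c := c₂) (by rw [hδ]; linarith)
  obtain ⟨C, hC, hF⟩ := add_ot μ hW.1 hW' hb hgd h h' hc₂
    ((lintegral_mono_set hWU).trans_lt hI) hθ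
  have hθ0 : 0 < θ := by linarith
  set ρ := (θ - 1) / (4 * θ ^ 2) with hρ
  have hρ0 : 0 < ρ := div_pos (by linarith) (by positivity)
  obtain ⟨D, hD, H⟩ := add_half μ hW hgd hR hz h h' hc (lt_add_of_pos_right c hδ0) hc₂ hn hρ0
  obtain ⟨D', hD', H'⟩ := add_half μ hW hgd hR hz h' h hc' (lt_add_of_pos_right c' hδ0) hc₂ hn' hρ0
  set x := (2 / θ) ^ (-c₂) with hxd
  have hx0 : 0 < x := Real.rpow_pos_of_pos (by positivity) _
  have hT : (1 : ℝ) ≤ 4 * θ ^ 2 := by nlinarith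
  obtain ⟨S, hS⟩ := exists_pow_lt_of_lt_one (x := (D * D' * C ^ 2)⁻¹) (by positivity) hx
  obtain ⟨F, hFd, hF1, hFi⟩ := hF S
  set A : Set ℂ := {ζ : ℂ | (2 * θ ^ 2)⁻¹ < ‖ζ‖ ∧ ‖ζ‖ < 2 * θ ^ 2} with hA
  have hAo : IsOpen A :=
    (isOpen_lt continuous_const continuous_norm).inter (isOpen_lt continuous_norm continuous_const)
  have hA0 : ∀ ζ ∈ A, ζ ≠ 0 := fun ζ hζ => norm_pos_iff.1 (lt_trans (by positivity) hζ.1)
  have hp : DifferentiableOn ℂ (fun ζ : ℂ => (2 / ζ) ^ S) A := fun ζ hζ =>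
    (((differentiableAt_const _).div differentiableAt_id (hA0 ζ hζ)).pow S).differentiableWithinAt
  have hq : DifferentiableOn ℂ (fun ζ : ℂ => (2 * ζ) ^ S) A := by fun_prop
  have hp0 : ∀ ζ ∈ A, (2 / ζ) ^ S ≠ 0 := fun ζ hζ => pow_ne_zero _ (div_ne_zero two_ne_zero (hA0 ζ hζ))
  have hq0 : ∀ ζ ∈ A, (2 * ζ) ^ S ≠ 0 := fun ζ hζ => pow_ne_zero _ (mul_ne_zero two_ne_zero (hA0 ζ hζ))
  have hτ : (1 : ℝ) ≤ (4 * θ ^ 2) ^ S := one_le_pow₀ hT
  have hB : 0 ≤ C * x ^ S := by positivity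
  have e1 : (2 * θ ^ 2)⁻¹ + 2 * ρ = (2 * θ)⁻¹ := by rw [hρ]; field_simp; ring
  have e2 : (2 * θ)⁻¹ + ρ ≤ 1 / 2 := by
    rw [hρ, ← sub_nonneg]
    have : 1 / 2 - ((2 * θ)⁻¹ + (θ - 1) / (4 * θ ^ 2)) = (θ - 1) * (2 * θ - 1) / (4 * θ ^ 2) := by
      field_simp; ring
    rw [this]
    exact div_nonneg (mul_nonneg (by linarith) (by linarith)) (by positivity)
  have e3 : ρ ≤ θ - 1 := by
    rw [hρ]; exact div_le_self (by linarith) hT
  have e4 : (2 * θ ^ 2)⁻¹ ≤ 1 := inv_le_one_of_one_le₀ (by nlinarith)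
  have n1 : ∀ {ζ ζ' : ℂ}, ζ' ∈ closedBall ζ ρ → ‖ζ‖ - ρ ≤ ‖ζ'‖ ∧ ‖ζ'‖ ≤ ‖ζ‖ + ρ := by
    intro ζ ζ' hζ'
    have := abs_norm_sub_norm_le ζ' ζ
    rw [mem_closedBall_iff_norm] at hζ'
    constructor <;> linarith [abs_le.1 (this.trans hζ')]
  have key := add_max (b := 2 * θ ^ 2) (r := 2 * θ) (f := fun ζ => F (z, ζ))
    (M₁ := D * ((4 * θ ^ 2) ^ S) ^ (c + δ) * (C * x ^ S))
    (M₂ := D' * ((4 * θ ^ 2) ^ S) ^ (c' + δ) * (C * x ^ S)) (by linarith) (by nlinarith)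
    (hFd.comp (by fun_prop : DifferentiableOn ℂ (fun ζ : ℂ => (z, ζ)) A) fun ζ hζ => ⟨hz, hζ⟩)
    (fun ζ hζ => H A _ _ F _ _ ζ hAo hp hq (fun ζ hζ => ⟨hp0 ζ hζ, hq0 ζ hζ⟩) hFd hB hFi hτ
      (fun ζ' hζ' => ⟨by linarith [(n1 hζ').1], by nlinarith [(n1 hζ').2]⟩) fun ζ' hζ' => by
        obtain ⟨m1, m2⟩ := n1 (ball_subset_closedBall hζ')
        have m0 : 0 < (2 * θ ^ 2)⁻¹ := by positivity
        have m3 : (2 * θ ^ 2)⁻¹ ≤ ‖ζ'‖ := by linarith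
        constructor
        · rw [norm_pow]
          refine pow_le_pow_left₀ (norm_nonneg _) ?_ _
          rw [norm_div, Complex.norm_two, div_le_iff₀ (by linarith)]
          calc (2 : ℝ) = 4 * θ ^ 2 * (2 * θ ^ 2)⁻¹ := by field_simp; ring
            _ ≤ _ := by gcongr
        · rw [norm_pow]
          refine pow_le_one₀ (norm_nonneg _) ?_
          rw [norm_mul, Complex.norm_two]; linarith)
    (fun ζ hζ => H' A _ _ F _ _ ζ hAo hq hp (fun ζ hζ => ⟨hq0 ζ hζ, hp0 ζ hζ⟩) hFd hB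
      (by rw [← aw_comm]; exact hFi) hτ
      (fun ζ' hζ' => ⟨by linarith [(n1 hζ').1], by nlinarith [(n1 hζ').2]⟩) fun ζ' hζ' => by
        obtain ⟨m1, m2⟩ := n1 (ball_subset_closedBall hζ')
        constructor
        · rw [norm_pow]
          refine pow_le_pow_left₀ (norm_nonneg _) ?_ _
          rw [norm_mul, Complex.norm_two]; nlinarith
        · rw [norm_pow]
          refine pow_le_one₀ (norm_nonneg _) ?_
          rw [norm_div, Complex.norm_two, div_le_one (by linarith)]; linarith)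
  simp only [hF1 z hz, norm_one, one_pow] at key
  have e5 : D * ((4 * θ ^ 2) ^ S) ^ (c + δ) * (C * x ^ S) *
      (D' * ((4 * θ ^ 2) ^ S) ^ (c' + δ) * (C * x ^ S)) =
      (D * D' * C ^ 2) * ((4 * θ ^ 2) ^ (c + δ + (c' + δ)) * x ^ 2) ^ S := by
    have e6 : ∀ y : ℝ, ((4 * θ ^ 2) ^ S) ^ y = ((4 * θ ^ 2) ^ y) ^ S := fun y =>
      (Real.rpow_pow_comm (by positivity) y S).symm
    rw [e6, e6, Real.rpow_add (x := 4 * θ ^ 2) (by positivity) (c + δ), mul_pow, mul_pow]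
    ring
  rw [e5] at key
  have := mul_lt_mul_of_pos_left hS (show 0 < D * D' * C ^ 2 by positivity)
  rw [mul_inv_cancel₀ (by positivity)] at this
  linarith

theorem B_ex_add_le {g : ι → E → ℂ} {z : E} (hg : ∀ i, AnalyticAt ℂ (g i) z) {lam lam' : ι → ℝ}
    (h : 0 ≤ lam) (h' : 0 ≤ lam') : ex μ g (lam + lam') z ≤ ex μ g lam z + ex μ g lam' z := by
  refine le_of_forall_lt_imp_le_of_dense fun r hr => ?_
  lift r to ℝ≥0 using hr.ne_top
  by_contra hlt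
  rw [not_le] at hlt
  have f1 : ex μ g lam z ≠ ∞ := ((le_self_add.trans_lt hlt).trans ENNReal.coe_lt_top).ne
  have f2 : ex μ g lam' z ≠ ∞ := ((le_add_self.trans_lt hlt).trans ENNReal.coe_lt_top).ne
  obtain ⟨a, ha⟩ : ∃ a : ℝ≥0, ex μ g lam z = a := ⟨_, (ENNReal.coe_toNNReal f1).symm⟩
  obtain ⟨b, hb⟩ : ∃ a : ℝ≥0, ex μ g lam' z = a := ⟨_, (ENNReal.coe_toNNReal f2).symm⟩
  rw [ha, hb] at hlt
  have h1 : (a : ℝ) + b < r := by exact_mod_cast hlt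
  have ha0 := a.2
  have hb0 := b.2
  refine add_core μ hg h h' (c := a + (r - a - b) / 3) (c' := b + (r - a - b) / 3) (c₂ := r)
    (by simp only [NNReal.val_eq_coe] at *; linarith) (by simp only [NNReal.val_eq_coe] at *; linarith)
    (by linarith) (fun hi => ?_) (fun hi => ?_)
    (intNear_of_lt_ex μ hg r.2 (by simpa using hr))
  · have := le_ex μ hi
    rw [ha, ENNReal.ofReal_le_coe] at this
    linarith
  · have := le_ex μ hi
    rw [hb, ENNReal.ofReal_le_coe] at this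
    linarith

end Crest.Agent.R271
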