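import Crest.Agent.R271.OTr

/-! Row 271, part B: complex derivatives in the extension theorem. -/

set_option autoImplicit false

namespace Crest.Agent.R271

open Filter Topology
open scoped ComplexConjugate

variable {ε : ℝ} {G : Type} [NormedAddCommGroup G] [NormedSpace ℂ G] {s : G → ℂ} {t : G}

theorem OTc_dE {x : ℝ} (h : 0 < x + ε) : HasDerivAt (otE ε) (-otD ε x) x := by
  have h1 := ((((hasDerivAt_id' x).add_const ε).log h.ne').const_sub 14).sub (hasDerivAt_id' x)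
  refine h1.congr_deriv ?_
  rw [otD]
  ring

theorem OTc_dD {x : ℝ} (h : 0 < x + ε) : HasDerivAt (otD ε) (-(1 / (x + ε) ^ 2)) x := by
  have h1 := ((hasDerivAt_const x (1 : ℝ)).fun_div ((hasDerivAt_id' x).add_const ε)
    h.ne').add_const 1
  refine h1.congr_deriv ?_
  ring

theorem OTc_cE {x : ℝ} (h : 0 < x + ε) : ContDiffAt ℝ 2 (otE ε) x :=
  (contDiffAt_const.sub ((contDiffAt_id.add contDiffAt_const).log h.ne')).sub contDiffAt_id

theorem OTc_cut : ContDiff ℝ 2 cut :=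
  Real.smoothTransition.contDiff.comp (contDiff_const.sub (contDiff_const.mul contDiff_id))

theorem OTc_cut_one {x : ℝ} (h : x ≤ 1 / 2) : cut x = 1 :=
  Real.smoothTransition.one_of_one_le (by linarith)

theorem OTc_deriv_cut : deriv cut 0 = 0 := by
  have : cut =ᶠ[𝓝 0] fun _ => 1 := by
    filter_upwards [Iic_mem_nhds (show (0 : ℝ) < 1 / 2 by norm_num)] with x hx
    exact OTc_cut_one hx
  rw [this.deriv_eq, deriv_const]

theorem OTc_zero (hε : 0 < ε) (hs : AnalyticAt ℂ s t) (h0 : s t = 0) :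
    (fun w => ((cut (‖s w‖ ^ 2 / ε) - 1 : ℝ) : ℂ) / s w) =ᶠ[𝓝 t] fun _ => 0 := by
  have h1 : ContinuousAt (fun w => ‖s w‖ ^ 2 / ε) t := (hs.continuousAt.norm.pow 2).div_const ε
  filter_upwards [h1.eventually (Iic_mem_nhds (a := 1 / 2) (by simp [h0]))] with w hw
  rw [OTc_cut_one hw]
  simp

theorem OTc_ofReal {φ : G → ℝ} (h : ContDiffAt ℝ 2 φ t) : ContDiffAt ℝ 2 (fun w => (φ w : ℂ)) t :=
  Complex.ofRealCLM.contDiff.contDiffAt.comp t h

theorem ot_psi_c2 (hε : 0 < ε) (hε' : ε ≤ 1 / 2) (hs : AnalyticAt ℂ s t) (h1 : ‖s t‖ ^ 2 ≤ 1) :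
    ContDiffAt ℝ 2 (fun w => otE ε (‖s w‖ ^ 2)) t := by
  exact (OTc_cE (x := ‖s t‖ ^ 2) (by positivity)).comp t (LPAt.normSq hs).c2

/-- `levi_comp`, `levi_normSq`, `gsq_normSq`. -/
theorem ot_levi (hε : 0 < ε) (hε' : ε ≤ 1 / 2) (hs : AnalyticAt ℂ s t) (h1 : ‖s t‖ ^ 2 ≤ 1) (v : G) :
    levi (fun w => -Real.log (otE ε (‖s w‖ ^ 2))) t v =
      otL ε (‖s t‖ ^ 2) * ‖fderiv ℂ s t v‖ ^ 2 := by
  have hx : 0 < ‖s t‖ ^ 2 + ε := by positivity
  have hE : otE ε (‖s t‖ ^ 2) ≠ 0 := by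
    have := (otE_bounds hε hε' (by positivity) h1).1
    positivity
  rw [levi_comp (κ := fun x => -Real.log (otE ε x)) (LPAt.normSq hs).c2
    ((OTc_cE hx).log hE).neg, levi_normSq hs, gsq_normSq hs]
  generalize ‖s t‖ ^ 2 = x at hx hE
  have e1 : ∀ y, 0 < y + ε → otE ε y ≠ 0 →
      deriv (fun x => -Real.log (otE ε x)) y = otD ε y / otE ε y := fun y h h' => by
    rw [((OTc_dE h).log h').fun_neg.deriv]
    ring
  have e2 : deriv (fun x => -Real.log (otE ε x)) =ᶠ[𝓝 x] fun y => otD ε y / otE ε y := by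
    have h2 : ∀ᶠ y in 𝓝 x, 0 < y + ε :=
      (continuousAt_id.add continuousAt_const).eventually (lt_mem_nhds hx)
    filter_upwards [h2, (OTc_dE hx).continuousAt.eventually_ne hE] with y h h'
    exact e1 y h h'
  rw [e1 x hx hE, e2.deriv_eq, ((OTc_dD hx).fun_div (OTc_dE hx) hE).deriv, otL]
  have e3 : ε / (x + ε) ^ 2 + 1 = otD ε x - x * (1 / (x + ε) ^ 2) := by
    rw [otD]
    field_simp
    ring
  rw [e3]
  field_simp
  ring

theorem dbar_normSq (hs : AnalyticAt ℂ s t) (v : G) :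
    dbar (fun w => ((‖s w‖ ^ 2 : ℝ) : ℂ)) t v = s t * conj (fderiv ℂ s t v) := by
  have h1 : HasFDerivAt s ((fderiv ℂ s t).restrictScalars ℝ) t :=
    hs.differentiableAt.hasFDerivAt.restrictScalars ℝ
  have h2 : HasFDerivAt (fun w => conj (s w))
      ((Complex.conjCLE : ℂ →L[ℝ] ℂ).comp ((fderiv ℂ s t).restrictScalars ℝ)) t :=
    (Complex.conjCLE : ℂ →L[ℝ] ℂ).hasFDerivAt.comp t h1
  have e : (fun w => ((‖s w‖ ^ 2 : ℝ) : ℂ)) = fun w => s w * conj (s w) := by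
    funext w
    rw [Complex.mul_conj, Complex.normSq_eq_norm_sq]
  rw [e, dbar_mul h1.differentiableAt h2.differentiableAt, dbar_of_hol hs.differentiableAt,
    zero_mul, zero_add, dbar, h2.fderiv]
  congr 1
  simp only [ContinuousLinearMap.comp_apply, ContinuousLinearMap.coe_restrictScalars',
    ContinuousLinearEquiv.coe_coe, Complex.conjCLE_apply, map_smul, smul_eq_mul, map_mul,
    Complex.conj_I]
  linear_combination (-(conj (fderiv ℂ s t v)) / 2) * Complex.I_mul_I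

/-- near a zero of `s` the function vanishes identically. -/
theorem ot_u_c2 (hε : 0 < ε) (hs : AnalyticAt ℂ s t) :
    ContDiffAt ℝ 2 (fun w => ((cut (‖s w‖ ^ 2 / ε) - 1 : ℝ) : ℂ) / s w) t := by
  by_cases h0 : s t = 0
  · exact contDiffAt_const.congr_of_eventuallyEq (OTc_zero hε hs h0)
  · simp only [div_eq_mul_inv _ (s _)]
    refine (OTc_ofReal ?_).mul ((hs.contDiffAt.restrict_scalars ℝ).inv h0)
    exact (OTc_cut.contDiffAt.comp t ((LPAt.normSq hs).c2.div_const ε)).sub contDiffAt_const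

theorem ot_u_bound (hε : 0 < ε) (s : ℂ) : ‖((cut (‖s‖ ^ 2 / ε) - 1 : ℝ) : ℂ) / s‖ ^ 2 ≤ 2 / ε := by
  by_cases h : ‖s‖ ^ 2 / ε ≤ 1 / 2
  · rw [OTc_cut_one h]
    simpa using div_nonneg zero_le_two hε.le
  · rw [not_le, lt_div_iff₀ hε] at h
    have h0 : 0 ≤ cut (‖s‖ ^ 2 / ε) := Real.smoothTransition.nonneg _
    have h1 : cut (‖s‖ ^ 2 / ε) ≤ 1 := Real.smoothTransition.le_one _
    rw [norm_div, div_pow, Complex.norm_real, Real.norm_eq_abs, sq_abs,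
      div_le_div_iff₀ (by linarith) hε]
    nlinarith [mul_nonneg h0 hε.le, mul_nonneg (mul_nonneg h0 (sub_nonneg.2 h1)) hε.le]

theorem OTc_dbar_u (hε : 0 < ε) (hs : AnalyticAt ℂ s t) (v : G) :
    dbar (fun w => ((cut (‖s w‖ ^ 2 / ε) - 1 : ℝ) : ℂ) / s w) t v =
      ((deriv cut (‖s t‖ ^ 2 / ε) / ε : ℝ) : ℂ) * conj (fderiv ℂ s t v) := by
  by_cases h0 : s t = 0
  · rw [dbar, (OTc_zero hε hs h0).fderiv_eq]
    simp [h0, OTc_deriv_cut]
  · have hN := (LPAt.normSq hs).c2.differentiableAt (by norm_num)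
    have hκ : HasDerivAt (fun y => cut (y / ε) - 1) (deriv cut (‖s t‖ ^ 2 / ε) * (1 / ε))
        (‖s t‖ ^ 2) :=
      ((OTc_cut.differentiable (by norm_num) _).hasDerivAt.comp _
        ((hasDerivAt_id' (‖s t‖ ^ 2)).div_const ε)).sub_const 1
    have hi : DifferentiableAt ℂ (fun w => (s w)⁻¹) t := hs.differentiableAt.inv h0
    have hψ := hκ.differentiableAt.comp t hN
    have hφ : DifferentiableAt ℝ (fun w => ((cut (‖s w‖ ^ 2 / ε) - 1 : ℝ) : ℂ)) t :=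
      Complex.ofRealCLM.differentiableAt.comp t hψ
    simp only [div_eq_mul_inv _ (s _)]
    rw [dbar_mul hφ (hi.restrictScalars ℝ), dbar_of_hol hi,
      dbar_ofReal_comp (κ := fun y => cut (y / ε) - 1) hN hκ.differentiableAt, dbar_normSq hs,
      hκ.deriv]
    push_cast
    field_simp
    ring

/-- `∂̄ ((u - h) / η)`; `dbar_mul`, `dbar_ofReal_comp`, `dbar_normSq`. -/
theorem ot_dbar (hε : 0 < ε) (hε' : ε ≤ 1 / 2) (hs : AnalyticAt ℂ s t) (h1 : ‖s t‖ ^ 2 ≤ 1)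
    {h : G → ℂ} (hh : DifferentiableAt ℂ h t) (v : G) :
    dbar (fun w => (((cut (‖s w‖ ^ 2 / ε) - 1 : ℝ) : ℂ) / s w - h w) *
        (((otE ε (‖s w‖ ^ 2))⁻¹ : ℝ) : ℂ)) t v =
      (((otE ε (‖s t‖ ^ 2))⁻¹ : ℝ) : ℂ) * (((deriv cut (‖s t‖ ^ 2 / ε) / ε : ℝ) : ℂ) +
        (((cut (‖s t‖ ^ 2 / ε) - 1 : ℝ) : ℂ) / s t - h t) *
          ((otD ε (‖s t‖ ^ 2) / otE ε (‖s t‖ ^ 2) : ℝ) : ℂ) * s t) * conj (fderiv ℂ s t v) := by
  have hx : 0 < ‖s t‖ ^ 2 + ε := by positivity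
  have hE : otE ε (‖s t‖ ^ 2) ≠ 0 := by
    have := (otE_bounds hε hε' (by positivity) h1).1
    positivity
  have hN := (LPAt.normSq hs).c2.differentiableAt (by norm_num)
  have hu := (ot_u_c2 hε hs).differentiableAt (by norm_num)
  have hκ := (OTc_dE hx).fun_inv hE
  have hψ := hκ.differentiableAt.comp t hN
  have hφ : DifferentiableAt ℝ (fun w => (((otE ε (‖s w‖ ^ 2))⁻¹ : ℝ) : ℂ)) t :=
    Complex.ofRealCLM.differentiableAt.comp t hψ
  have e : dbar (fun w => ((cut (‖s w‖ ^ 2 / ε) - 1 : ℝ) : ℂ) / s w - h w) t v =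
      ((deriv cut (‖s t‖ ^ 2 / ε) / ε : ℝ) : ℂ) * conj (fderiv ℂ s t v) := by
    simp only [sub_eq_add_neg _ (h _)]
    rw [dbar_add hu (hh.fun_neg.restrictScalars ℝ), dbar_of_hol hh.fun_neg, add_zero,
      OTc_dbar_u hε hs]
  rw [dbar_mul (hu.fun_sub (hh.restrictScalars ℝ)) hφ, e,
    dbar_ofReal_comp (κ := fun y => (otE ε y)⁻¹) hN hκ.differentiableAt, dbar_normSq hs, hκ.deriv]
  have hE' : ((otE ε (‖s t‖ ^ 2) : ℝ) : ℂ) ≠ 0 := Complex.ofReal_ne_zero.2 hE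
  generalize ((cut (‖s t‖ ^ 2 / ε) - 1 : ℝ) : ℂ) / s t - h t = U
  generalize ((deriv cut (‖s t‖ ^ 2 / ε) / ε : ℝ) : ℂ) = g
  simp only [Complex.ofReal_div, Complex.ofReal_inv, Complex.ofReal_neg, Complex.ofReal_pow]
  field_simp

end Crest.Agent.R271
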