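import Crest.Agent.R271.HC
import Crest.Agent.R271.OTc

/-! Row 271, part B: the core of the Ohsawa–Takegoshi theorem. -/

set_option autoImplicit false

namespace Crest.Agent.R271

open MeasureTheory Filter Topology
open scoped ENNReal NNReal

theorem bot_en (a : ℂ) {N : ℝ} (hN : 0 < N) :
    ‖a‖ₑ ^ 2 / ENNReal.ofReal N = ENNReal.ofReal (‖a‖ ^ 2 / N) := by
  rw [ENNReal.ofReal_div_of_pos hN, ENNReal.ofReal_pow (norm_nonneg _), ofReal_norm]

theorem bot_id (w h : ℂ) {η : ℝ} (hη : 1 ≤ η) :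
    ‖w‖ ^ 2 / η + ‖w - h‖ ^ 2 ≤ ‖w * ((η⁻¹ : ℝ) : ℂ) - h‖ ^ 2 * η + ‖w‖ ^ 2 := by
  have h0 : η ≠ 0 := by positivity
  simp only [← Complex.normSq_eq_norm_sq, Complex.normSq_apply, Complex.sub_re, Complex.sub_im,
    Complex.mul_re, Complex.mul_im, Complex.ofReal_re, Complex.ofReal_im]
  have e : ((w.re * η⁻¹ - w.im * 0 - h.re) * (w.re * η⁻¹ - w.im * 0 - h.re) +
      (w.re * 0 + w.im * η⁻¹ - h.im) * (w.re * 0 + w.im * η⁻¹ - h.im)) * η =
      (w.re * w.re + w.im * w.im) / η - 2 * (w.re * h.re + w.im * h.im) +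
        η * (h.re * h.re + h.im * h.im) := by
    field_simp
    ring
  rw [e]
  nlinarith [mul_nonneg (sub_nonneg.2 hη) (add_nonneg (mul_self_nonneg h.re) (mul_self_nonneg h.im))]

theorem bot_cut (y : ℝ) : cut y ^ 2 ≤ if y ≤ 1 then 1 else 0 := by
  split_ifs with h
  · exact pow_le_one₀ (Real.smoothTransition.nonneg _) (Real.smoothTransition.le_one _)
  · rw [cut, Real.smoothTransition.zero_of_nonpos (by linarith [not_le.1 h])]
    simp

variable {E : Type} [NormedAddCommGroup E] [NormedSpace ℂ E] [FiniteDimensional ℂ E]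
  [MeasurableSpace E] [BorelSpace E] (μ : Measure E) [μ.IsAddHaarMeasure]

/-- extension of the constant `1` from `{s = 0}`. -/
theorem ot_core : ∃ C : ℝ≥0, ∀ {Ω : Set E}, (RD.triv μ).Stein Ω → ∀ {s : E → ℂ},
    DifferentiableOn ℂ s Ω → (∀ z ∈ Ω, ‖s z‖ < 1) → ∀ {N : E → ℝ},
    (∀ z ∈ Ω, LPAt N z ∧ 0 < N z) → ∫⁻ z in Ω, (ENNReal.ofReal (N z))⁻¹ ∂μ < ∞ →
    ∀ {e B : ℝ}, 0 < e → e < 1 → 0 < B →
    ∫⁻ z in {z ∈ Ω | ‖s z‖ ≤ e}, (ENNReal.ofReal (N z))⁻¹ ∂μ ≤ ENNReal.ofReal (e ^ 2 * B) →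
    ∃ F : E → ℂ, DifferentiableOn ℂ F Ω ∧ (∀ z ∈ Ω, s z = 0 → F z = 1) ∧
      ∫⁻ z in Ω, ‖F z‖ₑ ^ 2 / ENNReal.ofReal (N z) ∂μ ≤ C * ENNReal.ofReal B := by
  obtain ⟨L, hL⟩ := h16_cut_deriv
  have hL0 : 0 ≤ L := (sq_nonneg _).trans (hL 0).1
  refine ⟨(2 + 60 * (32 * L + 1)).toNNReal, fun {Ω} hΩ {s} hs hs1 {N} hN hfin {e B} he he1 hB hY => ?_⟩
  have hO := hΩ.1
  have hOm := hO.measurableSet
  set ε : ℝ := e ^ 2 / 4 with hεd
  have hε : 0 < ε := by positivity
  have he2 : e ^ 2 ≤ 1 := pow_le_one₀ he.le he1.le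
  have hε' : ε ≤ 1 / 2 := by linarith
  have hsa : ∀ z ∈ Ω, AnalyticAt ℂ s z := fun z hz =>
    Crest.Agent.R264.SCV.analyticAt hs (hO.mem_nhds hz)
  have hx1 : ∀ z ∈ Ω, ‖s z‖ ^ 2 ≤ 1 := fun z hz => pow_le_one₀ (norm_nonneg _) (hs1 z hz).le
  set u : E → ℂ := fun z => ((cut (‖s z‖ ^ 2 / ε) - 1 : ℝ) : ℂ) / s z with hu
  set η : E → ℝ := fun z => otE ε (‖s z‖ ^ 2) with hη
  have hη12 : ∀ z ∈ Ω, 12 ≤ η z := fun z hz => (otE_bounds hε hε' (sq_nonneg _) (hx1 z hz)).1
  have hη0 : ∀ z ∈ Ω, 0 < η z := fun z hz => by linarith [hη12 z hz]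
  have hN0 : ∀ z ∈ Ω, 0 < N z := fun z hz => (hN z hz).2
  have mN : AEMeasurable N (μ.restrict Ω) := ContinuousOn.aemeasurable
    (fun z hz => (hN z hz).1.c2.continuousAt.continuousWithinAt) hOm
  have ms : AEMeasurable s (μ.restrict Ω) := hs.continuousOn.aemeasurable hOm
  have mu : AEMeasurable u (μ.restrict Ω) := ContinuousOn.aemeasurable
    (fun z hz => (ot_u_c2 hε (hsa z hz)).continuousAt.continuousWithinAt) hOm
  have mη : AEMeasurable η (μ.restrict Ω) := ContinuousOn.aemeasurable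
    (fun z hz => (ot_psi_c2 hε hε' (hsa z hz) (hx1 z hz)).continuousAt.continuousWithinAt) hOm
  set T : Set E := {z ∈ Ω | ‖s z‖ ≤ e} with hT
  have hTm : MeasurableSet T := by
    have h1 : IsOpen (Ω ∩ (fun z => ‖s z‖) ⁻¹' Set.Ioi e) :=
      hs.continuousOn.norm.isOpen_inter_preimage hO isOpen_Ioi
    have h2 : T = Ω \ (Ω ∩ (fun z => ‖s z‖) ⁻¹' Set.Ioi e) := by
      ext y
      simp only [hT, Set.mem_ofPred_eq, Set.mem_sdiff, Set.mem_inter_iff, Set.mem_preimage,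
        Set.mem_Ioi, not_and, not_lt]
      tauto
    rw [h2]
    exact hOm.diff h1.measurableSet
  have hmono : ∀ {f g : E → ℝ≥0∞}, (∀ z ∈ Ω, f z ≤ g z) →
      ∫⁻ z in Ω, f z ∂μ ≤ ∫⁻ z in Ω, g z ∂μ := fun h => setLIntegral_mono' hOm h
  -- the slab
  have hslab : ∀ c : ℝ, 0 ≤ c → ∫⁻ z in Ω, ENNReal.ofReal
      ((if ‖s z‖ ^ 2 ≤ ε then c else 0) / N z) ∂μ ≤ ENNReal.ofReal (c * (e ^ 2 * B)) := by
    intro c hc
    calc _ ≤ ∫⁻ z in Ω, T.indicator (fun z => ENNReal.ofReal c * (ENNReal.ofReal (N z))⁻¹) z ∂μ := by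
          refine hmono fun z hz => ?_
          split_ifs with h
          · have : z ∈ T := ⟨hz, le_of_sq_le_sq (by nlinarith) he.le⟩
            rw [Set.indicator_of_mem this, ENNReal.ofReal_div_of_pos (hN0 z hz), div_eq_mul_inv]
          · simp
      _ = ENNReal.ofReal c * ∫⁻ z in T, (ENNReal.ofReal (N z))⁻¹ ∂μ := by
          rw [lintegral_indicator hTm, Measure.restrict_restrict hTm,
            Set.inter_eq_left.2 fun z hz => hz.1, lintegral_const_mul' _ _ ENNReal.ofReal_ne_top]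
      _ ≤ _ := by
          rw [ENNReal.ofReal_mul hc]
          exact mul_le_mul_right hY _
  -- an approximate minimiser
  set J : (E → ℂ) → ℝ≥0∞ := fun h => ∫⁻ z in Ω, ENNReal.ofReal (‖u z - h z‖ ^ 2 / N z) ∂μ with hJ
  have hJ0 : J 0 < ∞ := by
    refine lt_of_le_of_lt (hmono (g := fun z => ENNReal.ofReal (2 / ε) * (ENNReal.ofReal (N z))⁻¹)
      fun z hz => ?_) ?_
    · rw [ENNReal.ofReal_div_of_pos (hN0 z hz), div_eq_mul_inv, Pi.zero_apply, sub_zero]
      exact mul_le_mul_left (ENNReal.ofReal_le_ofReal (ot_u_bound hε _)) _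
    · rw [lintegral_const_mul' _ _ ENNReal.ofReal_ne_top]
      exact ENNReal.mul_lt_top ENNReal.ofReal_lt_top hfin
  obtain ⟨h, hh, hJh, hmin⟩ : ∃ h : E → ℂ, DifferentiableOn ℂ h Ω ∧ J h ≠ ∞ ∧
      ∀ h', DifferentiableOn ℂ h' Ω → J h ≤ J h' + ENNReal.ofReal B := by
    set d := ⨅ (h : E → ℂ) (_ : DifferentiableOn ℂ h Ω), J h with hd
    have hdl : ∀ h', DifferentiableOn ℂ h' Ω → d ≤ J h' := fun h' hh' => iInf₂_le h' hh'
    have hdt : d ≠ ∞ := ((hdl 0 (differentiableOn_const 0)).trans_lt hJ0).ne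
    have hlt : d < d + ENNReal.ofReal B := ENNReal.lt_add_right hdt (ENNReal.ofReal_pos.2 hB).ne'
    rw [hd, iInf_lt_iff] at hlt
    obtain ⟨h, hlt⟩ := hlt
    rw [iInf_lt_iff] at hlt
    obtain ⟨hh, hlt⟩ := hlt
    exact ⟨h, hh, hlt.ne_top, fun h' hh' => hlt.le.trans (add_le_add (hdl h' hh') le_rfl)⟩
  have mh : AEMeasurable h (μ.restrict Ω) := hh.continuousOn.aemeasurable hOm
  set A : E → ℝ := fun z => ‖((deriv cut (‖s z‖ ^ 2 / ε) / ε : ℝ) : ℂ) + (u z - h z) *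
    ((otD ε (‖s z‖ ^ 2) / η z : ℝ) : ℂ) * s z‖ ^ 2 with hA
  set Lz : E → ℝ := fun z => otL ε (‖s z‖ ^ 2) with hLz
  have hLz0 : ∀ z ∈ Ω, 0 < Lz z := fun z hz => otL_pos hε hε' (sq_nonneg _) (hx1 z hz)
  have hc2 : ∀ z ∈ Ω, ContDiffAt ℝ 2 (fun w => -Real.log (η w)) z := fun z hz =>
    ((ot_psi_c2 hε hε' (hsa z hz) (hx1 z hz)).log (hη0 z hz).ne').neg
  have hc2' : ∀ z ∈ Ω, ContDiffAt ℝ 2 (fun w => Real.log (N w)) z := fun z hz =>
    (hN z hz).1.c2.log (hN0 z hz).ne'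
  have hlev : ∀ z ∈ Ω, ∀ v, Lz z * ‖fderiv ℂ s z v‖ ^ 2 ≤
      levi (fun w => Real.log (N w) + -Real.log (η w)) z v := fun z hz v => by
    rw [levi_add (hc2' z hz) (hc2 z hz), ot_levi hε hε' (hsa z hz) (hx1 z hz)]
    exact le_add_of_nonneg_left ((hN z hz).1.levi_log (hN0 z hz) v)
  have hexp : ∀ z ∈ Ω, Real.exp (Real.log (N z) + -Real.log (η z)) = N z / η z := fun z hz => by
    rw [Real.exp_add, Real.exp_neg, Real.exp_log (hN0 z hz), Real.exp_log (hη0 z hz), div_eq_mul_inv]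
  obtain ⟨h', hh', hQ⟩ := (RD.triv μ).hormander hΩ
    (u := fun z => (u z - h z) * (((η z)⁻¹ : ℝ) : ℂ))
    (φ := fun _ z => Real.log (N z) + -Real.log (η z)) (N := fun z => N z / η z)
    (H := fun _ z => A z / (η z ^ 2 * Lz z))
    (C := ∫⁻ z in Ω, ENNReal.ofReal (A z / (η z * Lz z) / N z) ∂μ)
    (fun z hz => ((ot_u_c2 hε (hsa z hz)).sub
      ((Crest.Agent.R264.SCV.analyticAt hh (hO.mem_nhds hz)).contDiffAt.restrict_scalars ℝ)).mul
      (Complex.ofRealCLM.contDiff.contDiffAt.comp z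
        ((ot_psi_c2 hε hε' (hsa z hz) (hx1 z hz)).inv (hη0 z hz).ne')))
    (fun _ => ⟨fun z hz => (hc2' z hz).add (hc2 z hz), fun z hz v =>
      (mul_nonneg (hLz0 z hz).le (sq_nonneg _)).trans (hlev z hz v)⟩)
    (fun _ _ => antitone_const) (fun z hz => by rw [hexp z hz]; exact tendsto_const_nhds)
    (fun _ => by
      have m1 : Measurable (deriv cut) := measurable_deriv _
      have m2 : AEMeasurable (fun z => deriv cut (‖s z‖ ^ 2 / ε)) (μ.restrict Ω) :=
        m1.comp_aemeasurable (by fun_prop)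
      change AEMeasurable _ (μ.restrict Ω)
      simp only [hA, hLz, otL, otD, otE]
      fun_prop)
    (fun _ z hz => div_nonneg (sq_nonneg _) (mul_nonneg (sq_nonneg _) (hLz0 z hz).le))
    (fun _ z hz v => by
      have h1 := ot_dbar hε hε' (hsa z hz) (hx1 z hz) (hh.differentiableAt (hO.mem_nhds hz)) v
      have h2 := hlev z hz v
      have h3 := hη0 z hz
      have h4 := hLz0 z hz
      change ‖dbar _ z v‖ ^ 2 ≤ _ * levi (fun w => Real.log (N w) + -Real.log (η w)) z v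
      refine le_trans (le_of_eq ?_) (mul_le_mul_of_nonneg_left h2 (by positivity))
      refine (congrArg (fun a : ℂ => ‖a‖ ^ 2) h1).trans ?_
      simp only [norm_mul, mul_pow, Complex.norm_real, Real.norm_eq_abs, sq_abs, RCLike.norm_conj]
      change (η z)⁻¹ ^ 2 * A z * _ = _
      field_simp)
    (fun _ => hmono fun z hz => le_of_eq (by
      rw [Real.exp_neg, hexp z hz]
      congr 1
      have h3 := hη0 z hz
      have h4 := hLz0 z hz
      have h5 := hN0 z hz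
      field_simp))
  have hh'' : DifferentiableOn ℂ h' Ω := (RD.triv_hol hO).1 hh'
  set X := ∫⁻ z in Ω, ENNReal.ofReal (‖u z - h z‖ ^ 2 / η z / N z) ∂μ with hX
  set Q := ∫⁻ z in Ω, ENNReal.ofReal (A z / (η z * Lz z) / N z) ∂μ with hQd
  set Z := ∫⁻ z in Ω, ENNReal.ofReal (‖s z‖ ^ 2 * ‖u z - h z‖ ^ 2 / 30 / N z) ∂μ with hZ
  have hXt : X ≠ ∞ := by
    refine ne_top_of_le_ne_top hJh (hmono fun z hz => ENNReal.ofReal_le_ofReal ?_)
    exact div_le_div_of_nonneg_right (div_le_self (sq_nonneg _) (by linarith [hη12 z hz]))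
      (hN0 z hz).le
  have s1 : X + J (h + h') ≤ Q + J h := by
    refine (le_lintegral_add _ _).trans (le_trans ?_ (add_le_add hQ le_rfl))
    change _ ≤ ∫⁻ z in Ω, _ ∂μ + _
    rw [← lintegral_add_right' _ (by fun_prop)]
    refine hmono fun z hz => ?_
    have h3 := hη0 z hz
    have h5 := hN0 z hz
    rw [bot_en _ (div_pos h5 h3), ← ENNReal.ofReal_add (by positivity) (by positivity),
      ← ENNReal.ofReal_add (by positivity) (by positivity), Pi.add_apply, ← sub_sub, ← add_div,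
      div_div_eq_mul_div, ← add_div]
    exact ENNReal.ofReal_le_ofReal (div_le_div_of_nonneg_right
      (bot_id _ _ (by linarith [hη12 z hz])) h5.le)
  have s2 : X ≤ Q + ENNReal.ofReal B := by
    refine (ENNReal.add_le_add_iff_right hJh).1 ?_
    calc X + J h ≤ X + (J (h + h') + ENNReal.ofReal B) := add_le_add le_rfl (hmin _ (hh.add hh''))
      _ = X + J (h + h') + ENNReal.ofReal B := (add_assoc _ _ _).symm
      _ ≤ Q + J h + ENNReal.ofReal B := add_le_add s1 le_rfl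
      _ = _ := add_right_comm _ _ _
  have s3 : Q + Z ≤ X + ENNReal.ofReal (32 * L * B) := by
    have e1 : 32 * L * B = 8 * L / ε * (e ^ 2 * B) := by rw [hεd]; field_simp; ring
    refine (le_lintegral_add _ _).trans (le_trans ?_
      (add_le_add le_rfl (e1 ▸ hslab (8 * L / ε) (by positivity))))
    rw [hX, ← lintegral_add_left' (by fun_prop)]
    refine hmono fun z hz => ?_
    have h3 := hη0 z hz
    have h4 := hLz0 z hz
    have h5 := hN0 z hz
    rw [← ENNReal.ofReal_add (by positivity) (by positivity),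
      ← ENNReal.ofReal_add (by positivity) (by positivity), ← add_div, ← add_div]
    refine ENNReal.ofReal_le_ofReal (div_le_div_of_nonneg_right ?_ h5.le)
    refine ot_point hε hε' rfl (hx1 z hz) _ ?_ fun hx => ?_
    · rw [div_pow]
      exact div_le_div_of_nonneg_right (hL _).1 (by positivity)
    · rw [(hL _).2 fun h => absurd ((div_le_one hε).1 h.2) (not_le.2 hx), zero_div]
  have s4 : Z ≤ ENNReal.ofReal ((32 * L + 1) * B) := by
    refine (ENNReal.add_le_add_iff_left hXt).1 ?_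
    calc X + Z ≤ Q + ENNReal.ofReal B + Z := add_le_add s2 le_rfl
      _ = Q + Z + ENNReal.ofReal B := add_right_comm _ _ _
      _ ≤ X + ENNReal.ofReal (32 * L * B) + ENNReal.ofReal B := add_le_add s3 le_rfl
      _ = _ := by
        rw [add_assoc, ← ENNReal.ofReal_add (by positivity) hB.le]
        congr 2
        ring
  refine ⟨fun z => 1 + s z * h z, (differentiableOn_const 1).add (hs.mul hh),
    fun z _ h0 => by simp [h0], ?_⟩
  calc _ ≤ ∫⁻ z in Ω, (ENNReal.ofReal 60 * ENNReal.ofReal (‖s z‖ ^ 2 * ‖u z - h z‖ ^ 2 / 30 / N z) +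
        ENNReal.ofReal ((if ‖s z‖ ^ 2 ≤ ε then 2 else 0) / N z)) ∂μ := by
        refine hmono fun z hz => ?_
        have h5 := hN0 z hz
        rw [bot_en _ h5, ← ENNReal.ofReal_mul (by norm_num),
          ← ENNReal.ofReal_add (by positivity) (by positivity), ← mul_div_assoc, ← add_div]
        refine ENNReal.ofReal_le_ofReal (div_le_div_of_nonneg_right ?_ h5.le)
        have e1 : 1 + s z * h z = (cut (‖s z‖ ^ 2 / ε) : ℂ) - s z * (u z - h z) := by
          by_cases h0 : s z = 0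
          · simp [h0, cut, Real.smoothTransition.one_of_one_le]
          · simp only [hu]
            push_cast
            field_simp
            ring
        have h6 := bot_cut (‖s z‖ ^ 2 / ε)
        simp only [div_le_one hε] at h6
        have h7 := norm_sub_le (cut (‖s z‖ ^ 2 / ε) : ℂ) (s z * (u z - h z))
        rw [← e1, norm_mul, Complex.norm_real, Real.norm_eq_abs] at h7
        have h8 := pow_le_pow_left₀ (norm_nonneg _) h7 2
        have h9 := sq_abs (cut (‖s z‖ ^ 2 / ε))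
        split_ifs at h6 ⊢ <;>
          nlinarith [sq_nonneg (|cut (‖s z‖ ^ 2 / ε)| - ‖s z‖ * ‖u z - h z‖)]
    _ ≤ ENNReal.ofReal 60 * ENNReal.ofReal ((32 * L + 1) * B) + ENNReal.ofReal (2 * (e ^ 2 * B)) := by
        rw [lintegral_add_left' (by fun_prop), lintegral_const_mul' _ _ ENNReal.ofReal_ne_top]
        exact add_le_add (mul_le_mul_right s4 _) (hslab 2 (by norm_num))
    _ ≤ _ := by
        rw [← ENNReal.ofReal_mul (by norm_num), ← ENNReal.ofReal_add (by positivity) (by positivity),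
          ← ENNReal.ofReal.eq_1, ← ENNReal.ofReal_mul (by positivity)]
        exact ENNReal.ofReal_le_ofReal (by nlinarith)

end Crest.Agent.R271
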