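import Crest.Agent.R271.LP

/-! Row 271, part B: Stein open subsets of `E` and `E × ℂ`. -/

set_option autoImplicit false
set_option linter.unusedSectionVars false
set_option linter.unusedVariables false

namespace Crest.Agent.R271

open MeasureTheory Filter Topology Set Metric
open scoped ENNReal NNReal

variable {E : Type} [NormedAddCommGroup E] [NormedSpace ℂ E] [FiniteDimensional ℂ E]
  [MeasurableSpace E] [BorelSpace E] (μ : Measure E) [μ.IsAddHaarMeasure]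
  {ι : Type} [Fintype ι]

theorem B_haar : (μ.prod (volume : Measure ℂ)).IsAddHaarMeasure := by
  have := FiniteDimensional.proper ℂ E
  infer_instance

/-- exhaustion `∑ |l_j|²` for the coordinates `l_j` of a basis (`LPAt.normSq`, `LPAt.sum`). -/
theorem B_stein_univ : (RD.triv μ).Stein (univ : Set E) := by
  have := FiniteDimensional.proper ℂ E
  let e := (Module.finBasis ℂ E).equivFunL
  refine ⟨isOpen_univ, fun w => ∑ i, ‖e w i‖ ^ 2, RD.LP.psh ?_, fun c => ?_⟩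
  · refine RD.LP.sum (N := fun i w => ‖e w i‖ ^ 2) _ fun i _ => RD.LP.normSq isOpen_univ ?_
    intro y _
    change DifferentiableAt ℂ (fun w => e w i) y
    fun_prop
  · refine Metric.isCompact_of_isClosed_isBounded ?_ ?_
    · simp only [mem_univ, true_and]
      exact isClosed_le (by fun_prop) continuous_const
    · refine ((e.symm : (Fin (Module.finrank ℂ E) → ℂ) →L[ℂ] E).lipschitz.isBounded_image
        (isBounded_closedBall (x := 0) (r := |c| + 1))).subset fun w hw => ?_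
      refine ⟨e w, ?_, by simp⟩
      rw [mem_closedBall_zero_iff, pi_norm_le_iff_of_nonneg (by positivity)]
      intro i
      have h1 : ‖e w i‖ ^ 2 ≤ c := le_trans (Finset.single_le_sum (f := fun i => ‖e w i‖ ^ 2)
        (fun _ _ => by positivity) (Finset.mem_univ i)) hw.2
      nlinarith [le_abs_self c, sq_nonneg (‖e w i‖ - 1), abs_nonneg c]

theorem Bst1_key {Ω : Set E} (hΩ : (RD.triv μ).Stein Ω) {g : E → ℝ} (hg : ContinuousOn g Ω)
    (hψ : (RD.triv μ).Psh {z ∈ Ω | 0 < g z} fun z => (g z)⁻¹) :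
    (RD.triv μ).Stein {z ∈ Ω | 0 < g z} := by
  obtain ⟨ho, ϱ, hϱ, hK⟩ := hΩ
  have hϱ1 : ∀ y ∈ Ω, ContDiffAt ℝ 2 ϱ y := hϱ.1
  have hϱ2 : ∀ y ∈ Ω, ∀ v, 0 ≤ levi ϱ y v := hϱ.2
  have hψ1 : ∀ y ∈ {z ∈ Ω | 0 < g z}, ContDiffAt ℝ 2 (fun z => (g z)⁻¹) y := hψ.1
  have hψ2 : ∀ y ∈ {z ∈ Ω | 0 < g z}, ∀ v, 0 ≤ levi (fun z => (g z)⁻¹) y v := hψ.2
  refine ⟨hg.isOpen_inter_preimage ho isOpen_Ioi, fun z => ϱ z + (g z)⁻¹, ⟨fun y hy => ?_,
    fun y hy v => ?_⟩, fun c => ?_⟩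
  · exact (hϱ1 y hy.1).add (hψ1 y hy)
  · change 0 ≤ levi (fun z => ϱ z + (g z)⁻¹) y v
    rw [levi_add (hϱ1 y hy.1) (hψ1 y hy)]
    exact add_nonneg (hϱ2 y hy.1 v) (hψ2 y hy v)
  · have hc : ContinuousOn ϱ Ω := fun y hy => (hϱ1 y hy).continuousAt.continuousWithinAt
    obtain ⟨m, hm⟩ := (hK c).bddBelow_image (hc.mono fun y hy => hy.1)
    have hM : 0 < max (c - m) 1 := lt_of_lt_of_le one_pos (le_max_right _ _)
    have hK' : IsCompact ({y ∈ Ω | ϱ y ≤ c} ∩ g ⁻¹' Ici (max (c - m) 1)⁻¹) :=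
      (hK c).of_isClosed_subset ((hg.mono fun y hy => hy.1).preimage_isClosed_of_isClosed
        (hK c).isClosed isClosed_Ici) inter_subset_left
    have hsub : {y ∈ Ω | ϱ y ≤ c} ∩ g ⁻¹' Ici (max (c - m) 1)⁻¹ ⊆ {z ∈ Ω | 0 < g z} :=
      fun y hy => ⟨hy.1.1, lt_of_lt_of_le (inv_pos.2 hM) hy.2⟩
    have hc' : ContinuousOn (fun z => ϱ z + (g z)⁻¹)
        ({y ∈ Ω | ϱ y ≤ c} ∩ g ⁻¹' Ici (max (c - m) 1)⁻¹) := fun y hy =>
      ((hϱ1 y hy.1.1).add (hψ1 y (hsub hy))).continuousAt.continuousWithinAt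
    have hK'' := hK'.of_isClosed_subset (hc'.preimage_isClosed_of_isClosed hK'.isClosed
      (isClosed_Iic (a := c))) inter_subset_left
    convert hK'' using 1
    refine Subset.antisymm (fun y hy => ?_) fun y hy => ⟨hsub hy.1, hy.2⟩
    have h1 : 0 < (g y)⁻¹ := inv_pos.2 hy.1.2
    have h2 : ϱ y + (g y)⁻¹ ≤ c := hy.2
    have h3 : ϱ y ≤ c := by linarith
    have h4 : m ≤ ϱ y := hm ⟨y, ⟨hy.1.1, h3⟩, rfl⟩
    refine ⟨⟨⟨hy.1.1, h3⟩, ?_⟩, h2⟩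
    exact inv_le_of_inv_le₀ hy.1.2 (le_trans (by linarith) (le_max_left _ _))

theorem Bst1_deriv (r : ℝ) {x : ℝ} (hx : x < r) :
    HasDerivAt (fun x => (r - x)⁻¹) ((r - x) ^ 2)⁻¹ x := by
  have h := ((hasDerivAt_id x).const_sub r).fun_inv (sub_pos.2 hx).ne'
  simpa using h

theorem Bst1_deriv2 (r : ℝ) {x : ℝ} (hx : x < r) :
    0 ≤ deriv (deriv fun x => (r - x)⁻¹) x := by
  have h1 : (deriv fun x => (r - x)⁻¹) =ᶠ[𝓝 x] fun x => (r - x)⁻¹ * (r - x)⁻¹ := by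
    filter_upwards [Iio_mem_nhds hx] with y hy
    rw [(Bst1_deriv r hy).deriv, sq, mul_inv]
  rw [h1.deriv_eq, ((Bst1_deriv r hx).fun_mul (Bst1_deriv r hx)).deriv]
  have := sub_pos.2 hx
  positivity

/-- exhaustion `ϱ + 1 / (r - N)` (`levi_add`, `levi_comp`: `x ↦ 1/(r-x)` is convex increasing;
`ϱ` is bounded below on `Ω`-sublevel sets: `{ϱ + 1/(r-N) ≤ c}` is a closed subset of `{ϱ ≤ c}`). -/
theorem B_stein_lt {Ω : Set E} (hΩ : (RD.triv μ).Stein Ω) {N : E → ℝ} (hN : ∀ z ∈ Ω, LPAt N z)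
    (r : ℝ) : (RD.triv μ).Stein {z ∈ Ω | N z < r} := by
  have e : {z ∈ Ω | N z < r} = {z ∈ Ω | 0 < r - N z} := by simp only [sub_pos]
  rw [e]
  have hκ : ∀ y ∈ {z ∈ Ω | 0 < r - N z}, ContDiffAt ℝ 2 (fun x : ℝ => (r - x)⁻¹) (N y) :=
    fun y hy => (contDiffAt_const.sub contDiffAt_id).inv hy.2.ne'
  refine Bst1_key μ hΩ (continuousOn_const.sub fun z hz =>
    (hN z hz).c2.continuousAt.continuousWithinAt) ⟨fun y hy => ?_, fun y hy v => ?_⟩
  · exact (hκ y hy).comp y (hN y hy.1).c2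
  · change 0 ≤ levi (fun z => (fun x : ℝ => (r - x)⁻¹) (N z)) y v
    have h1 : N y < r := sub_pos.1 hy.2
    rw [levi_comp (hN y hy.1).c2 (hκ y hy), (Bst1_deriv r h1).deriv]
    exact add_nonneg (mul_nonneg (by positivity) ((hN y hy.1).levi_nonneg v))
      (mul_nonneg (Bst1_deriv2 r h1) (gsq_nonneg _ _))

/-- exhaustion `ϱ + |1/f|²`; on `{ϱ ≤ c}` (compact) `ϱ ≥ -m`, so `|1/f|² ≤ c + m`. -/
theorem B_stein_ne {Ω : Set E} (hΩ : (RD.triv μ).Stein Ω) {f : E → ℂ}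
    (hf : DifferentiableOn ℂ f Ω) : (RD.triv μ).Stein {z ∈ Ω | f z ≠ 0} := by
  have e : {z ∈ Ω | f z ≠ 0} = {z ∈ Ω | 0 < ‖f z‖ ^ 2} := by
    simp only [sq_pos_iff, norm_ne_zero_iff]
  have hc : ContinuousOn (fun z => ‖f z‖ ^ 2) Ω := hf.continuousOn.norm.pow 2
  rw [e]
  refine Bst1_key μ hΩ hc ?_
  have e2 : (fun z => (‖f z‖ ^ 2)⁻¹) = fun z => ‖(f z)⁻¹‖ ^ 2 := by
    funext z; rw [norm_inv, inv_pow]
  rw [e2]
  refine RD.LP.psh (RD.LP.normSq (hc.isOpen_inter_preimage hΩ.1 isOpen_Ioi) fun y hy => ?_)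
  change DifferentiableAt ℂ (fun z => (f z)⁻¹) y
  exact (hf.differentiableAt (hΩ.1.mem_nhds hy.1)).fun_inv (norm_ne_zero_iff.1 (sq_pos_iff.1 hy.2))

/-- `W = {w | ∑ |l_j (w - z)|² < r}` for small `r`; both statements from `B_stein_lt` and
`B_stein_univ` (for `E` and for `E × ℂ`, `B_haar`). -/
theorem B_exists_W (z : E) {U : Set E} (hU : U ∈ 𝓝 z) : ∃ W : Set E, z ∈ W ∧ W ⊆ U ∧
    Bornology.IsBounded W ∧ (RD.triv μ).Stein W ∧
    (RD.triv (μ.prod (volume : Measure ℂ))).Stein (W ×ˢ univ) := by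
  have := B_haar μ
  obtain ⟨ε, hε, hball⟩ := Metric.mem_nhds_iff.1 hU
  let L : E ≃L[ℂ] (Fin (Module.finrank ℂ E) → ℂ) := (Module.finBasis ℂ E).equivFunL
  set c : ℝ := ‖(L.symm : (Fin (Module.finrank ℂ E) → ℂ) →L[ℂ] E)‖ with hc
  have hc0 : 0 ≤ c := norm_nonneg _
  set r : ℝ := ε / (c + 1) with hr
  have hr0 : 0 < r := by positivity
  set N : E → ℝ := fun w => ∑ j, ‖L (w - z) j‖ ^ 2 with hN
  have han : ∀ j w, AnalyticAt ℂ (fun w : E => L (w - z) j) w := fun j w =>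
    (((ContinuousLinearMap.proj j : (Fin (Module.finrank ℂ E) → ℂ) →L[ℂ] ℂ).comp
      (L : E →L[ℂ] (Fin (Module.finrank ℂ E) → ℂ))).analyticAt (w - z)).comp_of_eq
      (f := fun w : E => w - z) (analyticAt_id.sub analyticAt_const) rfl
  have hsub : {w ∈ (univ : Set E) | N w < r ^ 2} ⊆ ball z ε := by
    intro w hw
    have h1 : ‖L (w - z)‖ ≤ r := by
      refine (pi_norm_le_iff_of_nonneg hr0.le).2 fun j => ?_
      refine (pow_le_pow_iff_left₀ (norm_nonneg _) hr0.le two_ne_zero).1 (le_trans ?_ hw.2.le)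
      exact Finset.single_le_sum (f := fun j => ‖L (w - z) j‖ ^ 2) (fun _ _ => sq_nonneg _)
        (Finset.mem_univ j)
    have h2 := (L.symm : (Fin (Module.finrank ℂ E) → ℂ) →L[ℂ] E).le_opNorm (L (w - z))
    simp only [ContinuousLinearEquiv.coe_coe, ContinuousLinearEquiv.symm_apply_apply] at h2
    rw [mem_ball, dist_eq_norm]
    calc ‖w - z‖ ≤ c * r := h2.trans (by gcongr)
      _ < (c + 1) * r := by gcongr; linarith
      _ = ε := by rw [hr]; field_simp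
  refine ⟨{w ∈ (univ : Set E) | N w < r ^ 2}, ⟨mem_univ _, by simp [hN, hr0]⟩, hsub.trans hball,
    isBounded_ball.subset hsub,
    B_stein_lt μ (B_stein_univ μ) (fun w _ => LPAt.sum _ fun j _ => LPAt.normSq (han j w)) _, ?_⟩
  have h := B_stein_lt (μ.prod (volume : Measure ℂ)) (B_stein_univ _) (N := fun p : E × ℂ => N p.1)
    (fun p _ => LPAt.sum _ fun j _ => LPAt.normSq ((han j p.1).comp analyticAt_fst)) (r ^ 2)
  have e : {w ∈ (univ : Set E) | N w < r ^ 2} ×ˢ (univ : Set ℂ) =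
      {p ∈ (univ : Set (E × ℂ)) | N p.1 < r ^ 2} := by
    ext p
    simp
  rw [e]
  exact h

theorem B_stein_disc {W : Set E} (hW : (RD.triv (μ.prod (volume : Measure ℂ))).Stein (W ×ˢ univ)) :
    (RD.triv (μ.prod (volume : Measure ℂ))).Stein (W ×ˢ ball 0 1) := by
  have := B_haar μ
  have h := B_stein_lt (μ.prod (volume : Measure ℂ)) hW (N := fun p : E × ℂ => ‖p.2‖ ^ 2)
    (fun p _ => LPAt.normSq analyticAt_snd) 1
  have e : W ×ˢ ball (0 : ℂ) 1 = {p ∈ W ×ˢ (univ : Set ℂ) | ‖p.2‖ ^ 2 < 1} := by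
    ext p
    simp [sq_lt_one_iff_abs_lt_one]
  rw [e]
  exact h

/-- `B_stein_ne` for `ζ`, then `B_stein_lt` for `|ζ|²` and `|1/ζ|²`. -/
theorem B_stein_ann {W : Set E} (hW : (RD.triv (μ.prod (volume : Measure ℂ))).Stein (W ×ˢ univ))
    {b : ℝ} (hb : 0 < b) :
    (RD.triv (μ.prod (volume : Measure ℂ))).Stein (W ×ˢ {ζ : ℂ | b⁻¹ < ‖ζ‖ ∧ ‖ζ‖ < b}) := by
  have := B_haar μ
  have h1 := B_stein_ne (μ.prod (volume : Measure ℂ)) hW (f := fun p : E × ℂ => p.2)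
    differentiableOn_snd
  have h2 := B_stein_lt (μ.prod (volume : Measure ℂ)) h1 (N := fun p : E × ℂ => ‖p.2‖ ^ 2)
    (fun p _ => LPAt.normSq analyticAt_snd) (b ^ 2)
  have h3 := B_stein_lt (μ.prod (volume : Measure ℂ)) h2 (N := fun p : E × ℂ => ‖(p.2)⁻¹‖ ^ 2)
    (fun p hp => LPAt.normSq (analyticAt_snd.inv hp.1.2)) (b ^ 2)
  refine Eq.subst (motive := (RD.triv (μ.prod (volume : Measure ℂ))).Stein) (Eq.symm ?_) h3
  ext p
  simp only [mem_prod, mem_ofPred_eq, mem_univ, and_true,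
    pow_lt_pow_iff_left₀ (norm_nonneg _) hb.le two_ne_zero, norm_inv]
  constructor
  · rintro ⟨a1, a2, a3⟩
    have a4 : 0 < ‖p.2‖ := (inv_pos.2 hb).trans a2
    exact ⟨⟨⟨a1, norm_pos_iff.1 a4⟩, a3⟩, (pow_lt_pow_iff_left₀ (by positivity) hb.le two_ne_zero).2
      (inv_lt_of_inv_lt₀ hb a2)⟩
  · rintro ⟨⟨⟨a1, a2⟩, a3⟩, a4⟩
    exact ⟨a1, inv_lt_of_inv_lt₀ (norm_pos_iff.2 a2)
      ((pow_lt_pow_iff_left₀ (by positivity) hb.le two_ne_zero).1 a4), a3⟩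

end Crest.Agent.R271
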