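import Crest.Agent.R271.BK
import Crest.Agent.R271.BSt
import Crest.Agent.R271.BOT

/-! Row 271, part B: convexity of the exponent, lemmas. -/

set_option autoImplicit false
set_option linter.unusedSectionVars false
set_option linter.unusedVariables false

namespace Crest.Agent.R271

open MeasureTheory Filter Topology Set Metric
open scoped ENNReal NNReal

variable {E : Type} [NormedAddCommGroup E] [NormedSpace ℂ E] [FiniteDimensional ℂ E]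
  [MeasurableSpace E] [BorelSpace E] (μ : Measure E) [μ.IsAddHaarMeasure]
  {ι : Type} [Fintype ι]

/-- maximum principle (`Complex.norm_le_of_forall_mem_frontier_norm_le`) for
`ζ ↦ (f ζ * f ζ⁻¹) ^ 2` on `{r⁻¹ < ‖ζ‖ < r}`. -/
theorem add_max {b r M₁ M₂ : ℝ} (hr : 1 < r) (hb : r < b) {f : ℂ → ℂ}
    (hf : DifferentiableOn ℂ f {ζ : ℂ | b⁻¹ < ‖ζ‖ ∧ ‖ζ‖ < b})
    (h₁ : ∀ ζ : ℂ, ‖ζ‖ = r⁻¹ → ‖f ζ‖ ^ 2 ≤ M₁) (h₂ : ∀ ζ : ℂ, ‖ζ‖ = r → ‖f ζ‖ ^ 2 ≤ M₂) :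
    ‖f 1‖ ^ 4 ≤ M₁ * M₂ := by
  have hr0 : 0 < r := one_pos.trans hr
  have hb0 : 0 < b := hr0.trans hb
  have hbr : b⁻¹ < r⁻¹ := inv_strictAnti₀ hr0 hb
  have hr1 : r⁻¹ < 1 := inv_lt_one_of_one_lt₀ hr
  let U : Set ℂ := {ζ | r⁻¹ < ‖ζ‖} ∩ {ζ | ‖ζ‖ < r}
  have hcl : closure U ⊆ {ζ : ℂ | r⁻¹ ≤ ‖ζ‖} ∩ {ζ | ‖ζ‖ ≤ r} :=
    closure_minimal (fun ζ hζ => ⟨LT.lt.le (b := ‖ζ‖) hζ.1, LT.lt.le (a := ‖ζ‖) hζ.2⟩)
      ((isClosed_le continuous_const continuous_norm).inter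
        (isClosed_le continuous_norm continuous_const))
  have hUo : IsOpen U := (isOpen_lt continuous_const continuous_norm).inter
    (isOpen_lt continuous_norm continuous_const)
  have hd : DifferentiableOn ℂ (fun ζ => (f ζ * f ζ⁻¹) ^ 2) (closure U) := by
    have a1 : closure U ⊆ {ζ : ℂ | b⁻¹ < ‖ζ‖ ∧ ‖ζ‖ < b} := fun ζ hζ =>
      ⟨hbr.trans_le (hcl hζ).1, lt_of_le_of_lt (hcl hζ).2 hb⟩
    have a2 : ∀ ζ ∈ closure U, 0 < ‖ζ‖ := fun ζ hζ => (inv_pos.2 hr0).trans_le (hcl hζ).1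
    refine ((hf.mono a1).mul (hf.comp (differentiableOn_id.inv fun ζ hζ =>
      norm_pos_iff.1 (a2 ζ hζ)) fun ζ hζ => ?_)).pow 2
    have a3 := a1 hζ
    simp only [Pi.inv_apply, mem_ofPred_eq, norm_inv]
    exact ⟨inv_strictAnti₀ (a2 ζ hζ) a3.2, inv_lt_of_inv_lt₀ hb0 a3.1⟩
  have hM : ∀ ζ : ℂ, ‖ζ‖ = r⁻¹ → ‖f ζ‖ ^ 2 * ‖f ζ⁻¹‖ ^ 2 ≤ M₁ * M₂ := fun ζ hζ =>
    mul_le_mul (h₁ ζ hζ) (h₂ _ (by rw [norm_inv, hζ, inv_inv])) (sq_nonneg _)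
      ((sq_nonneg _).trans (h₁ ζ hζ))
  have key := Complex.norm_le_of_forall_mem_frontier_norm_le (f := fun ζ => (f ζ * f ζ⁻¹) ^ 2)
    (U := U) (C := M₁ * M₂) ((isBounded_ball (x := 0) (r := r)).subset fun ζ hζ => by
      simpa using hζ.2) hd.diffContOnCl (fun ζ hζ => by
      rw [norm_pow, norm_mul, mul_pow]
      obtain ⟨a1, a2⟩ := hcl (frontier_subset_closure hζ)
      rcases eq_or_lt_of_le (show r⁻¹ ≤ ‖ζ‖ from a1) with a3 | a3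
      · exact hM ζ a3.symm
      rcases eq_or_lt_of_le (show ‖ζ‖ ≤ r from a2) with a4 | a4
      · have := hM ζ⁻¹ (by rw [norm_inv, a4])
        rwa [inv_inv, mul_comm] at this
      · exact absurd (hUo.interior_eq.symm ▸ (⟨a3, a4⟩ : ζ ∈ U)) hζ.2) (z := 1)
    (subset_closure ⟨by simpa using hr1, by simpa using hr⟩)
  rw [inv_one, norm_pow, norm_mul] at key
  exact le_trans (le_of_eq (by ring)) key

/-- continuity at `θ = 1`, where the value is `4 ^ (a - c) < 1`. -/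
theorem add_param {a c : ℝ} (hac : a < c) :
    ∃ θ : ℝ, 1 < θ ∧ (4 * θ ^ 2) ^ a * ((2 / θ) ^ (-c)) ^ 2 < 1 := by
  have h1 : ContinuousAt (fun θ : ℝ => (4 * θ ^ 2) ^ a * ((2 / θ) ^ (-c)) ^ 2) 1 := by
    fun_prop (disch := norm_num)
  have h2 : (4 * (1 : ℝ) ^ 2) ^ a * ((2 / 1 : ℝ) ^ (-c)) ^ 2 < 1 := by
    rw [one_pow, mul_one, div_one, sq, ← Real.mul_rpow zero_le_two zero_le_two,
      show (2 * 2 : ℝ) = 4 by norm_num, ← Real.rpow_add (by norm_num)]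
    exact Real.rpow_lt_one_of_one_lt_of_neg (by norm_num) (by linarith)
  obtain ⟨θ, h3, h4⟩ := (((h1.eventually (gt_mem_nhds h2)).filter_mono
    (nhdsWithin_le_nhds (s := Ioi 1))).and self_mem_nhdsWithin).exists
  exact ⟨θ, h4, h3⟩

/-- `ot_core` on `E × ℂ` (`B_haar`, `B_stein_ann`) with `b = 2θ²`, `s = (ζ - 1) / (2b)`,
`e = (1 - θ⁻¹) / (2b)`, `N = aw …` (`aw_lp`, `one_le_aw`): where `‖s‖ ≤ e` we have
`θ⁻¹ ≤ ‖ζ‖ ≤ θ`, so `le_aw` with `κ = (2/θ) ^ S` and Tonelli on `W ×ˢ closedBall 1 (1 - θ⁻¹)`. -/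
theorem add_ot {W : Set E} (hWo : IsOpen W)
    (hW : (RD.triv (μ.prod (volume : Measure ℂ))).Stein (W ×ˢ univ))
    (hb : Bornology.IsBounded W) {g : ι → E → ℂ} (hg : ∀ i, DifferentiableOn ℂ (g i) W)
    {lam lam' : ι → ℝ} (h : 0 ≤ lam) (h' : 0 ≤ lam') {c : ℝ} (hc : 0 ≤ c)
    (hI : ∫⁻ w in W, ENNReal.ofReal (nw g (lam + lam') w) ^ (-c) ∂μ < ∞) {θ : ℝ} (hθ : 1 < θ) :
    ∃ C : ℝ, 0 < C ∧ ∀ S : ℕ, ∃ F : E × ℂ → ℂ,
      DifferentiableOn ℂ F (W ×ˢ {ζ : ℂ | (2 * θ ^ 2)⁻¹ < ‖ζ‖ ∧ ‖ζ‖ < 2 * θ ^ 2}) ∧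
      (∀ w ∈ W, F (w, 1) = 1) ∧
      ∫⁻ x in W ×ˢ {ζ : ℂ | (2 * θ ^ 2)⁻¹ < ‖ζ‖ ∧ ‖ζ‖ < 2 * θ ^ 2}, ‖F x‖ₑ ^ 2 / ENNReal.ofReal
        (aw g lam lam' c (fun ζ => (2 / ζ) ^ S) (fun ζ => (2 * ζ) ^ S) x) ∂(μ.prod volume) ≤
        ENNReal.ofReal (C * ((2 / θ) ^ (-c)) ^ S) := by
  have := B_haar μ
  have := FiniteDimensional.proper ℂ E
  obtain ⟨C, hC⟩ := ot_core (μ.prod (volume : Measure ℂ))
  have hθ0 : 0 < θ := by linarith
  have hθi : θ⁻¹ < 1 := inv_lt_one_of_one_lt₀ hθ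
  have hθi0 : 0 < θ⁻¹ := inv_pos.2 hθ0
  obtain ⟨b, hbd⟩ : ∃ b : ℝ, b = 2 * θ ^ 2 := ⟨_, rfl⟩
  rw [← hbd]
  have hb1 : 1 < b := by nlinarith
  have hb0 : 0 < b := by linarith
  have he : 0 < (1 - θ⁻¹) / (2 * b) := div_pos (by linarith) (by linarith)
  have he1 : (1 - θ⁻¹) / (2 * b) < 1 := (div_lt_one (by linarith)).2 (by linarith)
  obtain ⟨J, hJ0, hJ⟩ : ∃ J : ℝ, 0 < J ∧
      (∫⁻ w in W, ENNReal.ofReal (nw g (lam + lam') w) ^ (-c) ∂μ) *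
        volume (closedBall (1 : ℂ) (1 - θ⁻¹)) ≤ ENNReal.ofReal J := by
    refine ⟨_ + 1, add_pos_of_nonneg_of_pos ENNReal.toReal_nonneg one_pos,
      (ENNReal.ofReal_toReal (ENNReal.mul_ne_top hI.ne measure_closedBall_lt_top.ne)).symm.le.trans
        (ENNReal.ofReal_le_ofReal (le_add_of_nonneg_right zero_le_one))⟩
  generalize hed : (1 - θ⁻¹) / (2 * b) = e at he he1
  refine ⟨(C + 1) * (J / e ^ 2), by positivity, fun S => ?_⟩
  have hκ : 0 < (2 / θ) ^ S := by positivity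
  have hk : 0 < ((2 / θ) ^ S) ^ (-c) := by positivity
  have h2b : ‖(2 * b : ℂ)‖ = 2 * b := by
    rw [norm_mul, Complex.norm_real, Real.norm_of_nonneg hb0.le, Complex.norm_two]
  obtain ⟨F, hF, hF1, hF2⟩ := hC (B_stein_ann μ hW hb0) (s := fun x => (x.2 - 1) / (2 * b))
    (by fun_prop) (fun x hx => by
      rw [norm_div, h2b, div_lt_one (by linarith)]
      have := norm_sub_le x.2 1
      rw [norm_one] at this
      linarith [hx.2.2])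
    (N := aw g lam lam' c (fun ζ => (2 / ζ) ^ S) (fun ζ => (2 * ζ) ^ S))
    (fun x hx => by
      have h0 : x.2 ≠ 0 := norm_pos_iff.1 ((inv_pos.2 hb0).trans hx.2.1)
      exact ⟨aw_lp h h' hc (fun i => Crest.Agent.R264.SCV.analyticAt (hg i) (hWo.mem_nhds hx.1))
        ((analyticAt_const.div analyticAt_id h0).pow S) ((analyticAt_const.mul analyticAt_id).pow S)
        (pow_ne_zero _ (div_ne_zero two_ne_zero h0)) (pow_ne_zero _ (mul_ne_zero two_ne_zero h0)),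
        one_pos.trans_le (one_le_aw _ _ _ hc _ _ x)⟩)
    (by
      refine lt_of_le_of_lt (lintegral_mono (g := fun _ => 1) fun x => ?_) ?_
      · exact ENNReal.inv_le_one.2 (ENNReal.one_le_ofReal.2 (one_le_aw _ _ _ hc _ _ x))
      · rw [setLIntegral_one]
        exact (hb.prod ((isBounded_ball (x := (0 : ℂ)) (r := b)).subset fun ζ hζ =>
          mem_ball_zero_iff.2 hζ.2)).measure_lt_top)
    he he1 (B := J / e ^ 2 * ((2 / θ) ^ S) ^ (-c)) (by positivity)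
    (by
      refine (lintegral_mono_set (t := W ×ˢ closedBall (1 : ℂ) (1 - θ⁻¹)) fun x hx => ?_).trans ?_
      · refine ⟨hx.1.1, mem_closedBall_iff_norm.2 ?_⟩
        have h1 := hx.2
        rwa [norm_div, h2b, ← hed, div_le_div_iff_of_pos_right (by linarith)] at h1
      refine (setLIntegral_mono' (g := fun x => ENNReal.ofReal (((2 / θ) ^ S) ^ (-c)) *
        ENNReal.ofReal (nw g (lam + lam') x.1) ^ (-c))
        (hWo.measurableSet.prod measurableSet_closedBall) fun x hx => ?_).trans ?_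
      · have h1 : ‖x.2 - 1‖ ≤ 1 - θ⁻¹ := mem_closedBall_iff_norm.1 hx.2
        have h2 := abs_le.1 ((abs_norm_sub_norm_le x.2 1).trans h1)
        rw [norm_one] at h2
        have h3 : θ⁻¹ ≤ ‖x.2‖ := by linarith [h2.1]
        have h4 : ‖x.2‖ ≤ θ := by
          have := mul_inv_cancel₀ hθ0.ne'
          nlinarith [h2.2, sq_nonneg (θ - 1), sq_nonneg (1 - θ⁻¹)]
        have h5 := le_aw g h h' hc (p := fun ζ => (2 / ζ) ^ S) (q := fun ζ => (2 * ζ) ^ S) (x := x)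
          hκ.le (by
            rw [norm_pow, norm_div, Complex.norm_two]
            exact pow_le_pow_left₀ (by positivity)
              (div_le_div_of_nonneg_left zero_le_two (hθi0.trans_le h3) h4) S) (by
            rw [norm_pow, norm_mul, Complex.norm_two, div_eq_mul_inv]
            exact pow_le_pow_left₀ (by positivity) (by linarith) S)
        have h6 : 0 ≤ nw g (lam + lam') x.1 := by unfold nw; positivity
        refine (ENNReal.inv_le_inv.2 (ENNReal.ofReal_le_ofReal h5)).trans (le_of_eq ?_)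
        rw [← ENNReal.ofReal_rpow_of_nonneg (mul_nonneg hκ.le h6) hc, ENNReal.ofReal_mul hκ.le,
          ← ENNReal.rpow_neg, ← ENNReal.ofReal_rpow_of_pos hκ,
          ENNReal.mul_rpow_of_ne_top ENNReal.ofReal_ne_top ENNReal.ofReal_ne_top]
      · rw [← Measure.prod_restrict]
        refine (lintegral_prod_le _).trans ?_
        simp only [lintegral_const, Measure.restrict_apply_univ, mul_assoc]
        rw [lintegral_const_mul' _ _ ENNReal.ofReal_ne_top,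
          lintegral_mul_const' _ _ measure_closedBall_lt_top.ne]
        refine (mul_le_mul_right hJ _).trans (le_of_eq ?_)
        rw [← ENNReal.ofReal_mul hk.le]
        congr 1
        field_simp)
  refine ⟨F, hF, fun w hw => hF1 (w, 1) ⟨hw, ?_, ?_⟩ (by simp), hF2.trans ?_⟩
  · rw [norm_one]; exact inv_lt_one_of_one_lt₀ hb1
  · rw [norm_one]; exact hb1
  · rw [Real.rpow_pow_comm (by positivity), ← ENNReal.ofReal_coe_nnreal,
      ← ENNReal.ofReal_mul C.coe_nonneg, mul_assoc]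
    exact ENNReal.ofReal_le_ofReal (mul_le_mul_of_nonneg_right (by linarith) (by positivity))

/-- `Hmean_sq` in `ℂ` for `ζ' ↦ F (z, ζ')`, `hK` for `w ↦ F (w, ζ')`, `setLIntegral_mono_ae`
(no measurability of `V` is needed), Tonelli. -/
theorem add_side {W V : Set E} (hW : IsOpen W) (hV : V ⊆ W) {z : E} (hz : z ∈ W) {K : ℝ≥0∞}
    (hK0 : K ≠ ∞)
    (hK : ∀ F : E → ℂ, DifferentiableOn ℂ F W → ‖F z‖ₑ ^ 2 ≤ K * ∫⁻ w in V, ‖F w‖ₑ ^ 2 ∂μ)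
    {A : Set ℂ} (hA : IsOpen A) {F : E × ℂ → ℂ} (hF : DifferentiableOn ℂ F (W ×ˢ A))
    {ω : E × ℂ → ℝ} (hω : ContinuousOn ω (W ×ˢ A)) {ζ : ℂ} {ρ : ℝ} (hζ : closedBall ζ ρ ⊆ A)
    {C : ℝ} (hC : ∀ w ∈ V, ∀ ζ' ∈ ball ζ ρ, 0 < ω (w, ζ') ∧ ω (w, ζ') ≤ C) :
    volume (ball (0 : ℂ) ρ) * ‖F (z, ζ)‖ₑ ^ 2 ≤ K * ENNReal.ofReal C *
      ∫⁻ x in W ×ˢ A, ‖F x‖ₑ ^ 2 / ENNReal.ofReal (ω x) ∂(μ.prod volume) := by
  have : ProperSpace E := FiniteDimensional.proper ℂ E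
  have hb : ball ζ ρ ⊆ A := ball_subset_closedBall.trans hζ
  have hm : AEMeasurable (fun x => ‖F x‖ₑ ^ 2 / ENNReal.ofReal (ω x))
      ((μ.prod (volume : Measure ℂ)).restrict (W ×ˢ A)) :=
    ((hF.continuousOn.aemeasurable (hW.prod hA).measurableSet).enorm.pow_const 2).div
      (hω.aemeasurable (hW.prod hA).measurableSet).ennreal_ofReal
  have h1 : ∀ ζ' ∈ ball ζ ρ, ‖F (z, ζ')‖ₑ ^ 2 ≤ K * ENNReal.ofReal C *
      ∫⁻ w in W, ‖F (w, ζ')‖ₑ ^ 2 / ENNReal.ofReal (ω (w, ζ')) ∂μ := fun ζ' hζ' => by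
    have hF' : DifferentiableOn ℂ (fun w => F (w, ζ')) W :=
      hF.comp (differentiableOn_id.prodMk (differentiableOn_const _)) fun w hw => ⟨hw, hb hζ'⟩
    have hω' : ContinuousOn (fun w => ω (w, ζ')) W :=
      hω.comp (Continuous.prodMk_left ζ').continuousOn fun w hw => ⟨hw, hb hζ'⟩
    have hm' : AEMeasurable (fun w => ENNReal.ofReal C *
        (‖F (w, ζ')‖ₑ ^ 2 / ENNReal.ofReal (ω (w, ζ')))) (μ.restrict W) :=
      (((hF'.continuousOn.aemeasurable hW.measurableSet).enorm.pow_const 2).div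
        (hω'.aemeasurable hW.measurableSet).ennreal_ofReal).const_mul _
    rw [mul_assoc, ← lintegral_const_mul' _ _ ENNReal.ofReal_ne_top]
    refine (hK _ hF').trans (mul_le_mul_right ((setLIntegral_mono_ae (hm'.mono_set hV)
      (Eventually.of_forall fun w hw => ?_)).trans (lintegral_mono_set hV)) K)
    obtain ⟨h2, h3⟩ := hC w hw ζ' hζ'
    exact (ENNReal.mul_div_cancel (ENNReal.ofReal_pos.2 h2).ne' ENNReal.ofReal_ne_top).symm.trans_le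
      (mul_le_mul_left (ENNReal.ofReal_le_ofReal h3) _)
  rw [setLIntegral_prod_symm _ hm,
    ← lintegral_const_mul' _ _ (ENNReal.mul_ne_top hK0 ENNReal.ofReal_ne_top)]
  exact (Hmean_sq (μ := volume) (F := fun ζ' => F (z, ζ')) hA (hF.comp
    ((differentiableOn_const _).prodMk differentiableOn_id) fun ζ' h => ⟨hz, h⟩) hζ).trans
    ((setLIntegral_mono' measurableSet_ball h1).trans (lintegral_mono_set hb))

/-- `kprime`, `aw_le`, `add_side` (continuity of `aw` from `aw_lp`), `Complex.volume_ball`. -/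
theorem add_half {W : Set E} (hW : (RD.triv μ).Stein W) {g : ι → E → ℂ}
    (hg : ∀ i, DifferentiableOn ℂ (g i) W) {R : ℝ} (hR : ∀ i, ∀ w ∈ W, ‖g i w‖ ≤ R) {z : E}
    (hz : z ∈ W) {lam lam' : ι → ℝ} (h : 0 ≤ lam) (h' : 0 ≤ lam') {c c₁ c₂ : ℝ} (hc : 0 ≤ c)
    (hc₁ : c < c₁) (hc₂ : 0 ≤ c₂)
    (hn : ¬ IntNear μ (fun w => ENNReal.ofReal (nw g lam w) ^ (-c)) z) {ρ : ℝ} (hρ : 0 < ρ) :
    ∃ D : ℝ, 0 < D ∧ ∀ (A : Set ℂ) (p q : ℂ → ℂ) (F : E × ℂ → ℂ) (B τ : ℝ) (ζ : ℂ), IsOpen A →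
      DifferentiableOn ℂ p A → DifferentiableOn ℂ q A → (∀ ζ ∈ A, p ζ ≠ 0 ∧ q ζ ≠ 0) →
      DifferentiableOn ℂ F (W ×ˢ A) → 0 ≤ B →
      ∫⁻ x in W ×ˢ A, ‖F x‖ₑ ^ 2 / ENNReal.ofReal (aw g lam lam' c₂ p q x) ∂(μ.prod volume) ≤
        ENNReal.ofReal B →
      1 ≤ τ → closedBall ζ ρ ⊆ A → (∀ ζ' ∈ ball ζ ρ, ‖p ζ'‖ ≤ τ ∧ ‖q ζ'‖ ≤ 1) →
      ‖F (z, ζ)‖ ^ 2 ≤ D * τ ^ c₁ * B := by
  obtain ⟨C, hC⟩ := kprime μ hW hg hR hz lam hc hc₁ hn
  obtain ⟨C', hC'0, hC'⟩ := aw_le (Y := E) h h' hc₂ R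
  have hv0 : volume (ball (0 : ℂ) ρ) ≠ 0 := (measure_ball_pos volume _ hρ).ne'
  have hv1 : volume (ball (0 : ℂ) ρ) ≠ ∞ := measure_ball_lt_top.ne
  have hv : 0 < (volume (ball (0 : ℂ) ρ)).toReal := ENNReal.toReal_pos hv0 hv1
  refine ⟨(C + 1) * C' / (volume (ball (0 : ℂ) ρ)).toReal, by positivity, ?_⟩
  intro A p q F B τ ζ hA hp hq hpq hF hB hI hτ hζ hb
  have hω : ContinuousOn (aw g lam lam' c₂ p q) (W ×ˢ A) := fun x hx =>
    (aw_lp h h' hc₂ (fun i => RD.Hol.analyticAt (RD.triv μ) hW.1 ((RD.triv_hol hW.1).2 (hg i)) hx.1)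
      (hp.analyticAt (hA.mem_nhds hx.2)) (hq.analyticAt (hA.mem_nhds hx.2)) (hpq _ hx.2).1
      (hpq _ hx.2).2).c2.continuousAt.continuousWithinAt
  have h1 := add_side μ hW.1 (V := {w ∈ W | τ * nw g lam w ≤ 1}) (fun w hw => hw.1) hz
    (K := C * ENNReal.ofReal (τ ^ c₁)) (ENNReal.mul_ne_top ENNReal.coe_ne_top ENNReal.ofReal_ne_top)
    (hC τ hτ) hA hF hω hζ (C := C') fun w hw ζ' hζ' =>
      ⟨lt_of_lt_of_le one_pos (one_le_aw g lam lam' hc₂ p q _),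
        hC' g p q (w, ζ') τ (fun i => hR i w hw.1) (hb ζ' hζ').1 (hb ζ' hζ').2 hw.2⟩
  have hτ0 : 0 ≤ τ ^ c₁ := Real.rpow_nonneg (by linarith) _
  have h2 : volume (ball (0 : ℂ) ρ) * ‖F (z, ζ)‖ₑ ^ 2 ≤
      C * ENNReal.ofReal (τ ^ c₁) * ENNReal.ofReal C' * ENNReal.ofReal B := h1.trans (by gcongr)
  have h3 := ENNReal.toReal_mono (by finiteness) h2
  simp only [ENNReal.toReal_mul, ENNReal.toReal_pow, toReal_enorm, ENNReal.coe_toReal,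
    ENNReal.toReal_ofReal hτ0, ENNReal.toReal_ofReal hC'0.le, ENNReal.toReal_ofReal hB] at h3
  rw [div_mul_eq_mul_div, div_mul_eq_mul_div, le_div_iff₀ hv]
  have h4 : 0 ≤ C' * τ ^ c₁ * B := by positivity
  nlinarith

end Crest.Agent.R271
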