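import Crest.Agent.R271.LP

/-! Row 271, part B: the regularised weights. -/

set_option autoImplicit false
set_option linter.unusedSectionVars false
set_option linter.unusedVariables false

namespace Crest.Agent.R271

open MeasureTheory Filter Topology Set Metric
open scoped ENNReal NNReal

variable {E : Type} [NormedAddCommGroup E] [NormedSpace ℂ E] [FiniteDimensional ℂ E]
  [MeasurableSpace E] [BorelSpace E] (μ : Measure E) [μ.IsAddHaarMeasure]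
  {ι : Type} [Fintype ι]

/-- the regularisation of `nw`. -/
noncomputable def lM {Y : Type} (G : ι → Y → ℂ) (lam : ι → ℝ) (ε : ℝ) (x : Y) : ℝ :=
  ε + ∑ i with 0 < lam i, (‖G i x‖ ^ 2 + ε) ^ (1 / lam i)

/-- the weight of the interpolation argument. -/
noncomputable def aw {Y : Type} (g : ι → Y → ℂ) (lam lam' : ι → ℝ) (c : ℝ) (p q : ℂ → ℂ)
    (x : Y × ℂ) : ℝ :=
  (1 + ∑ i with 0 < lam i + lam' i, (1 + ‖g i x.1‖ ^ 2 *
    ((‖p x.2‖ ^ 2) ^ (lam i / 2) * (‖q x.2‖ ^ 2) ^ (lam' i / 2))) ^ (1 / (lam i + lam' i))) ^ c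

variable {Y Y' : Type}

private theorem Bw1_pow (a : ℂ) (l : ℝ) : ‖a‖ ^ (2 / l) = (‖a‖ ^ 2) ^ (1 / l) := by
  rw [← Real.rpow_natCast, ← Real.rpow_mul (norm_nonneg a)]
  congr 1
  push_cast
  ring

private theorem Bw1_sq (a b : ℂ) : ‖a‖ ^ 2 ≤ 2 * (‖b‖ ^ 2 + ‖a - b‖ ^ 2) := by
  have h : ‖a‖ ≤ ‖b‖ + ‖a - b‖ := norm_le_insert' a b
  have h2 : ‖a‖ ^ 2 ≤ (‖b‖ + ‖a - b‖) ^ 2 := by gcongr
  nlinarith [sq_nonneg (‖b‖ - ‖a - b‖)]

private theorem Bw1_unif {a : ℝ} (ha : 0 ≤ a) (S : ℝ) {η : ℝ} (hη : 0 < η) :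
    ∀ᶠ ε in 𝓝[>] (0 : ℝ), ∀ t, 0 ≤ t → t ≤ S → (t + ε) ^ a ≤ t ^ a + η := by
  have hu : UniformContinuousOn (fun t : ℝ => t ^ a) (Icc 0 (S + 1)) :=
    isCompact_Icc.uniformContinuousOn_of_continuous (Real.continuous_rpow_const ha).continuousOn
  obtain ⟨δ, hδ, H⟩ := Metric.uniformContinuousOn_iff.1 hu η hη
  filter_upwards [Ioo_mem_nhdsGT (lt_min hδ one_pos)] with ε hε t h0 hS
  have h1 := hε.1
  have h2 := hε.2.trans_le (min_le_left _ _)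
  have h3 := hε.2.trans_le (min_le_right _ _)
  have := H (t + ε) ⟨by linarith, by linarith⟩ t ⟨h0, by linarith⟩ (by
    rw [Real.dist_eq, add_sub_cancel_left, abs_of_pos h1]; exact h2)
  rw [Real.dist_eq] at this
  linarith [(abs_lt.1 this).2]

theorem lM_lp {G : ι → E → ℂ} {x : E} (hG : ∀ i, AnalyticAt ℂ (G i) x) (lam : ι → ℝ) {ε : ℝ}
    (hε : 0 < ε) : LPAt (lM G lam ε) x :=
  (LPAt.const hε.le).add (LPAt.sum _ fun i hi =>
    ((LPAt.normSq (hG i)).add (LPAt.const hε.le)).rpow (by positivity)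
      (one_div_pos.2 (Finset.mem_filter.1 hi).2).le)

theorem le_lM (G : ι → Y → ℂ) (lam : ι → ℝ) {ε : ℝ} (hε : 0 < ε) (x : Y) : ε ≤ lM G lam ε x :=
  le_add_of_nonneg_right (Finset.sum_nonneg fun i _ => by positivity)

theorem nw_le_lM (G : ι → Y → ℂ) (lam : ι → ℝ) {ε : ℝ} (hε : 0 < ε) (x : Y) :
    nw G lam x ≤ lM G lam ε x := by
  refine le_trans (Finset.sum_le_sum fun i hi => ?_) (le_add_of_nonneg_left hε.le)
  rw [Bw1_pow]
  exact Real.rpow_le_rpow (by positivity) (by linarith)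
    (one_div_pos.2 (Finset.mem_filter.1 hi).2).le

/-- uniform continuity of `x ↦ x ^ (1 / lam i)` on `[0, R² + 1]`. -/
theorem lM_le_add (lam : ι → ℝ) (R : ℝ) {η : ℝ} (hη : 0 < η) : ∃ ε : ℝ, 0 < ε ∧
    ∀ (G : ι → Y → ℂ) (x : Y), (∀ i, ‖G i x‖ ≤ R) → lM G lam ε x ≤ nw G lam x + η := by
  have hc : (0 : ℝ) < Fintype.card ι + 1 := by positivity
  have hη' : 0 < η / (Fintype.card ι + 1) := by positivity
  have h1 : ∀ᶠ ε in 𝓝[>] (0 : ℝ), ∀ i, 0 < lam i → ∀ t, 0 ≤ t → t ≤ R ^ 2 →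
      (t + ε) ^ (1 / lam i) ≤ t ^ (1 / lam i) + η / (Fintype.card ι + 1) := by
    refine Filter.eventually_all.2 fun i => ?_
    by_cases hi : 0 < lam i
    · filter_upwards [Bw1_unif (one_div_pos.2 hi).le (R ^ 2) hη'] with ε h _ using h
    · exact Filter.Eventually.of_forall fun ε h => absurd h hi
  obtain ⟨ε, h2, h3⟩ := (h1.and (Ioo_mem_nhdsGT hη')).exists
  refine ⟨ε, h3.1, fun G x hR => ?_⟩
  have h4 : ∑ i with 0 < lam i, (‖G i x‖ ^ 2 + ε) ^ (1 / lam i) ≤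
      ∑ i with 0 < lam i, (‖G i x‖ ^ (2 / lam i) + η / (Fintype.card ι + 1)) := by
    refine Finset.sum_le_sum fun i hi => ?_
    rw [Bw1_pow]
    exact h2 i (Finset.mem_filter.1 hi).2 _ (by positivity) (by gcongr; exact hR i)
  rw [Finset.sum_add_distrib, Finset.sum_const, nsmul_eq_mul] at h4
  have h5 : ((Finset.univ.filter fun i => 0 < lam i).card : ℝ) ≤ Fintype.card ι := by
    exact_mod_cast Finset.card_le_univ _
  have h6 := mul_le_mul_of_nonneg_right h5 hη'.le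
  have h7 : (Fintype.card ι + 1) * (η / (Fintype.card ι + 1)) = η := by field_simp
  have h8 := h3.2
  unfold lM nw
  linarith

/-- `|g|² ≤ 2 (|G|² + ε)`; `A = 1 + ∑ 2 ^ (1 / lam i)`. -/
theorem nw_le_mul_lM (lam : ι → ℝ) : ∃ A : ℝ, 0 < A ∧ ∀ (g : ι → Y' → ℂ) (w : Y') (G : ι → Y → ℂ)
    (x : Y) (ε : ℝ), 0 < ε → (∀ i, ‖g i w - G i x‖ ^ 2 ≤ ε) → nw g lam w ≤ A * lM G lam ε x := by
  have h0 : 0 ≤ ∑ i with 0 < lam i, (2 : ℝ) ^ (1 / lam i) :=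
    Finset.sum_nonneg fun i _ => by positivity
  refine ⟨1 + ∑ i with 0 < lam i, (2 : ℝ) ^ (1 / lam i), by positivity, fun g w G x ε hε h => ?_⟩
  have h1 : 0 ≤ lM G lam ε x := hε.le.trans (le_lM G lam hε x)
  rw [add_mul, one_mul, Finset.sum_mul]
  refine le_trans (Finset.sum_le_sum fun i hi => ?_) (le_add_of_nonneg_left h1)
  have h2 : (‖G i x‖ ^ 2 + ε) ^ (1 / lam i) ≤ lM G lam ε x :=
    le_trans (Finset.single_le_sum (f := fun i => (‖G i x‖ ^ 2 + ε) ^ (1 / lam i))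
      (fun i _ => by positivity) hi) (le_add_of_nonneg_left hε.le)
  rw [Bw1_pow]
  calc (‖g i w‖ ^ 2) ^ (1 / lam i) ≤ (2 * (‖G i x‖ ^ 2 + ε)) ^ (1 / lam i) :=
        Real.rpow_le_rpow (by positivity) (by linarith [Bw1_sq (g i w) (G i x), h i])
          (one_div_pos.2 (Finset.mem_filter.1 hi).2).le
    _ = 2 ^ (1 / lam i) * (‖G i x‖ ^ 2 + ε) ^ (1 / lam i) :=
        Real.mul_rpow (by norm_num) (by positivity)
    _ ≤ _ := by gcongr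

theorem lM_bdd (lam : ι → ℝ) (R : ℝ) : ∃ M : ℝ, 0 < M ∧ ∀ (G : ι → Y → ℂ) (x : Y) (ε : ℝ),
    0 < ε → ε ≤ 1 → (∀ i, ‖G i x‖ ≤ R) → lM G lam ε x ≤ M := by
  have h0 : 0 ≤ ∑ i with 0 < lam i, (R ^ 2 + 1) ^ (1 / lam i) :=
    Finset.sum_nonneg fun i _ => by positivity
  refine ⟨1 + ∑ i with 0 < lam i, (R ^ 2 + 1) ^ (1 / lam i), by positivity,
    fun G x ε hε hε1 h => add_le_add hε1 (Finset.sum_le_sum fun i hi => ?_)⟩
  refine Real.rpow_le_rpow (by positivity) ?_ (one_div_pos.2 (Finset.mem_filter.1 hi).2).le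
  gcongr
  exact h i

/-- `|g_i|² ≤ n ^ lam i`, `n ^ Λ ≤ n ^ lam i`, so `|G_i|² + ε ≤ 5 n ^ lam i`; `ε ≤ n ^ Λ ≤ n`. -/
theorem lM_le_mul (lam : ι → ℝ) {Λ : ℝ} (hΛ : 1 ≤ Λ) (hl : ∀ i, lam i ≤ Λ) : ∃ A : ℝ, 0 < A ∧
    ∀ (g : ι → Y' → ℂ) (w : Y') (G : ι → Y → ℂ) (x : Y) (ε n : ℝ), 0 < n → n ≤ 1 → 0 < ε →
      ε ≤ n ^ Λ → nw g lam w ≤ n → (∀ i, ‖G i x - g i w‖ ^ 2 ≤ n ^ Λ) → lM G lam ε x ≤ A * n := by
  have h0 : 0 ≤ ∑ i with 0 < lam i, (5 : ℝ) ^ (1 / lam i) :=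
    Finset.sum_nonneg fun i _ => by positivity
  refine ⟨1 + ∑ i with 0 < lam i, (5 : ℝ) ^ (1 / lam i), by positivity,
    fun g w G x ε n hn hn1 hε hεn hw h => ?_⟩
  rw [add_mul, one_mul, Finset.sum_mul]
  refine add_le_add (hεn.trans ?_) (Finset.sum_le_sum fun i hi => ?_)
  · exact (Real.rpow_le_rpow_of_exponent_ge hn hn1 hΛ).trans_eq (Real.rpow_one n)
  have hi0 := (Finset.mem_filter.1 hi).2
  have h1 : ‖g i w‖ ^ (2 / lam i) ≤ n :=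
    le_trans (Finset.single_le_sum (f := fun i => ‖g i w‖ ^ (2 / lam i))
      (fun i _ => by positivity) hi) hw
  have h2 : ‖g i w‖ ^ 2 ≤ n ^ lam i := by
    have := Real.rpow_le_rpow (by positivity) h1 hi0.le
    rwa [Bw1_pow, one_div, Real.rpow_inv_rpow (by positivity) hi0.ne'] at this
  have h3 : n ^ Λ ≤ n ^ lam i := Real.rpow_le_rpow_of_exponent_ge hn hn1 (hl i)
  calc (‖G i x‖ ^ 2 + ε) ^ (1 / lam i) ≤ (5 * n ^ lam i) ^ (1 / lam i) :=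
        Real.rpow_le_rpow (by positivity) (by linarith [Bw1_sq (G i x) (g i w), h i])
          (one_div_pos.2 hi0).le
    _ = 5 ^ (1 / lam i) * n := by
        rw [Real.mul_rpow (by norm_num) (by positivity), one_div,
          Real.rpow_rpow_inv hn.le hi0.ne']

theorem Bw2_sq {r : ℝ} (hr : 0 ≤ r) (l : ℝ) : (r ^ 2) ^ (l / 2) = r ^ l := by
  rw [← Real.rpow_natCast, ← Real.rpow_mul hr]
  congr 1
  push_cast
  ring

theorem Bw2_pow {κ r l : ℝ} (hκ : 0 ≤ κ) (hr : 0 ≤ r) (hl : 0 < l) :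
    (κ * r ^ (2 / l)) ^ l = r ^ 2 * κ ^ l := by
  rw [Real.mul_rpow hκ (by positivity), ← Real.rpow_mul hr, div_mul_cancel₀ _ hl.ne', mul_comm,
    Real.rpow_two]

theorem aw_lp {g : ι → E → ℂ} {lam lam' : ι → ℝ} (h : 0 ≤ lam) (h' : 0 ≤ lam') {c : ℝ} (hc : 0 ≤ c)
    {p q : ℂ → ℂ} {x : E × ℂ} (hg : ∀ i, AnalyticAt ℂ (g i) x.1) (hp : AnalyticAt ℂ p x.2)
    (hq : AnalyticAt ℂ q x.2) (hp0 : p x.2 ≠ 0) (hq0 : q x.2 ≠ 0) :
    LPAt (aw g lam lam' c p q) x := by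
  have hp' : LPAt (fun w : E × ℂ => ‖p w.2‖ ^ 2) x := LPAt.normSq (hp.comp analyticAt_snd)
  have hq' : LPAt (fun w : E × ℂ => ‖q w.2‖ ^ 2) x := LPAt.normSq (hq.comp analyticAt_snd)
  refine LPAt.rpow ((LPAt.const zero_le_one).add (LPAt.sum _ fun i hi => ?_)) (by positivity) hc
  have hi' := (Finset.mem_filter.1 hi).2
  have hg' : LPAt (fun w : E × ℂ => ‖g i w.1‖ ^ 2) x := LPAt.normSq ((hg i).comp analyticAt_fst)
  have h1 : 0 ≤ lam i := h i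
  have h2 : 0 ≤ lam' i := h' i
  exact LPAt.rpow ((LPAt.const zero_le_one).add (hg'.mul
    ((hp'.rpow (by positivity) (by positivity)).mul (hq'.rpow (by positivity) (by positivity)))))
    (by positivity) (by positivity)

theorem one_le_aw (g : ι → Y → ℂ) (lam lam' : ι → ℝ) {c : ℝ} (hc : 0 ≤ c) (p q : ℂ → ℂ)
    (x : Y × ℂ) : 1 ≤ aw g lam lam' c p q x := by
  exact Real.one_le_rpow (le_add_of_nonneg_right (by positivity)) hc

theorem aw_comm (g : ι → Y → ℂ) (lam lam' : ι → ℝ) (c : ℝ) (p q : ℂ → ℂ) :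
    aw g lam lam' c p q = aw g lam' lam c q p := by
  funext x
  simp only [aw, add_comm (lam' _) (lam _), mul_comm ((‖q x.2‖ ^ 2) ^ (lam' _ / 2))]

/-- `(1 + a_i) ^ (1/μ_i) ≥ (|g_i|² κ ^ μ_i) ^ (1/μ_i) = κ |g_i| ^ (2/μ_i)`. -/
theorem le_aw (g : ι → Y → ℂ) {lam lam' : ι → ℝ} (h : 0 ≤ lam) (h' : 0 ≤ lam') {c : ℝ} (hc : 0 ≤ c)
    {p q : ℂ → ℂ} {x : Y × ℂ} {κ : ℝ} (hκ : 0 ≤ κ) (hp : κ ≤ ‖p x.2‖) (hq : κ ≤ ‖q x.2‖) :
    (κ * nw g (lam + lam') x.1) ^ c ≤ aw g lam lam' c p q x := by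
  refine Real.rpow_le_rpow (mul_nonneg hκ (by unfold nw; positivity)) ?_ hc
  rw [nw, Finset.mul_sum]
  refine le_add_of_nonneg_of_le zero_le_one (Finset.sum_le_sum fun i hi => ?_)
  have hi' : 0 < lam i + lam' i := (Finset.mem_filter.1 hi).2
  have h1 : 0 ≤ lam i := h i
  have h2 : 0 ≤ lam' i := h' i
  rw [one_div, Real.le_rpow_inv_iff_of_pos (by positivity) (by positivity) hi', Pi.add_apply,
    Bw2_pow hκ (norm_nonneg _) hi', Bw2_sq (norm_nonneg _), Bw2_sq (norm_nonneg _),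
    Real.rpow_add_of_nonneg hκ h1 h2]
  refine le_add_of_nonneg_of_le zero_le_one ?_
  gcongr

/-- `a_i ≤ |g_i|² τ ^ lam i`, which is `≤ 1` if `lam i > 0` and `≤ R²` if `lam i = 0`. -/
theorem aw_le {lam lam' : ι → ℝ} (h : 0 ≤ lam) (h' : 0 ≤ lam') {c : ℝ} (hc : 0 ≤ c) (R : ℝ) :
    ∃ C : ℝ, 0 < C ∧ ∀ (g : ι → Y → ℂ) (p q : ℂ → ℂ) (x : Y × ℂ) (τ : ℝ), (∀ i, ‖g i x.1‖ ≤ R) →
      ‖p x.2‖ ≤ τ → ‖q x.2‖ ≤ 1 → τ * nw g lam x.1 ≤ 1 → aw g lam lam' c p q x ≤ C := by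
  refine ⟨(1 + ∑ i with 0 < lam i + lam' i, (1 + (1 + R ^ 2)) ^ (1 / (lam i + lam' i))) ^ c,
    by positivity, fun g p q x τ hg hp hq hτ => ?_⟩
  have hτ0 : 0 ≤ τ := (norm_nonneg _).trans hp
  refine Real.rpow_le_rpow (by positivity) (add_le_add le_rfl (Finset.sum_le_sum fun i hi => ?_)) hc
  have hi' : 0 < lam i + lam' i := (Finset.mem_filter.1 hi).2
  have h1 : 0 ≤ lam i := h i
  have h2 : 0 ≤ lam' i := h' i
  refine Real.rpow_le_rpow (by positivity) (add_le_add le_rfl ?_) (by positivity)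
  rw [Bw2_sq (norm_nonneg _), Bw2_sq (norm_nonneg _)]
  have h3 : ‖g i x.1‖ ^ 2 * (‖p x.2‖ ^ lam i * ‖q x.2‖ ^ lam' i) ≤
      ‖g i x.1‖ ^ 2 * (τ ^ lam i * 1) := by
    have := Real.rpow_le_one (norm_nonneg _) hq h2
    gcongr
  refine h3.trans ?_
  rw [mul_one]
  rcases h1.eq_or_lt with h4 | h4
  · rw [← h4, Real.rpow_zero, mul_one]
    have := pow_le_pow_left₀ (norm_nonneg _) (hg i) 2
    linarith
  · have h5 : ‖g i x.1‖ ^ (2 / lam i) ≤ nw g lam x.1 :=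
      Finset.single_le_sum (f := fun i => ‖g i x.1‖ ^ (2 / lam i)) (fun _ _ => by positivity)
        (Finset.mem_filter.2 ⟨Finset.mem_univ i, h4⟩)
    rw [← Bw2_pow hτ0 (norm_nonneg _) h4]
    refine (Real.rpow_le_one (by positivity) ((mul_le_mul_of_nonneg_left h5 hτ0).trans hτ) h1).trans ?_
    nlinarith [sq_nonneg R]

end Crest.Agent.R271
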