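import Crest.Agent.R271.HC
import Crest.Agent.R271.HMean
import Crest.Agent.R271.BW
import Crest.Agent.R271.Ex0

/-! Row 271, part B: pointwise bounds from `L²` bounds. -/

set_option autoImplicit false
set_option linter.unusedSectionVars false
set_option linter.unusedVariables false

namespace Crest.Agent.R271

open MeasureTheory Filter Topology Set Metric
open scoped ENNReal NNReal

variable {E : Type} [NormedAddCommGroup E] [NormedSpace ℂ E] [FiniteDimensional ℂ E]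
  [MeasurableSpace E] [BorelSpace E] (μ : Measure E) [μ.IsAddHaarMeasure]
  {ι : Type} [Fintype ι]

/-- `Hmean_sq` with radius `ρ / 2` bounds `F` by `K₀ A` on `ball y (3ρ)`; then the Schwarz lemma
`Complex.dist_le_div_mul_dist_of_mapsTo_ball` on `ball w' (2ρ)`. -/
theorem mv_lip {ρ : ℝ} (hρ : 0 < ρ) : ∃ K : ℝ, 0 < K ∧ ∀ {F : E → ℂ} {y : E} {A : ℝ}, 0 ≤ A →
    DifferentiableOn ℂ F (ball y (4 * ρ)) →
    ∫⁻ w in ball y (4 * ρ), ‖F w‖ₑ ^ 2 ∂μ ≤ ENNReal.ofReal (A ^ 2) →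
    ∀ w ∈ ball y ρ, ∀ w' ∈ ball y ρ, ‖F w - F w'‖ ≤ K * A * ‖w - w'‖ := by
  have : ProperSpace E := FiniteDimensional.proper ℂ E
  have hfin : μ (ball (0 : E) (ρ / 2)) ≠ ∞ := measure_ball_lt_top.ne
  have hm : 0 < μ.real (ball (0 : E) (ρ / 2)) :=
    ENNReal.toReal_pos (measure_ball_pos μ _ (by positivity)).ne' hfin
  have hs := Real.sqrt_pos.2 hm
  refine ⟨1 / (√(μ.real (ball (0 : E) (ρ / 2))) * ρ), by positivity,
    fun {F y A} hA hF hI w hw w' hw' => ?_⟩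
  have hsub : ball w' (2 * ρ) ⊆ ball y (3 * ρ) := ball_subset_ball' (by linarith [mem_ball.1 hw'])
  have hb : ∀ z ∈ ball y (3 * ρ), ‖F z‖ ≤ A / √(μ.real (ball (0 : E) (ρ / 2))) := fun z hz => by
    have h1 : closedBall z (ρ / 2) ⊆ ball y (4 * ρ) :=
      closedBall_subset_ball' (by linarith [mem_ball.1 hz])
    have h2 := ENNReal.toReal_le_of_le_ofReal (sq_nonneg A)
      (((Hmean_sq (μ := μ) isOpen_ball hF h1).trans
        (lintegral_mono_set (ball_subset_closedBall.trans h1))).trans hI)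
    rw [ENNReal.toReal_mul, ENNReal.toReal_pow, toReal_enorm, ← measureReal_def] at h2
    rw [le_div_iff₀ hs]
    refine le_of_sq_le_sq ?_ hA
    rw [mul_pow, Real.sq_sqrt hm.le, mul_comm]
    exact h2
  have h3 := Complex.dist_le_div_mul_dist_of_mapsTo_ball (c := w') (z := w) (R₁ := 2 * ρ)
    (R₂ := 2 * (A / √(μ.real (ball (0 : E) (ρ / 2)))))
    (hF.mono (hsub.trans (ball_subset_ball (by linarith)))) (fun z hz => by
      rw [mem_closedBall_iff_norm]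
      linarith [norm_sub_le (F z) (F w'), hb z (hsub hz),
        hb w' (hsub (mem_ball_self (by positivity)))])
    (by rw [mem_ball]; linarith [dist_triangle_right w w' y, mem_ball.1 hw, mem_ball.1 hw'])
  rw [dist_eq_norm, dist_eq_norm] at h3
  refine h3.trans_eq ?_
  field_simp

/-- otherwise `N ^ (-c)` is bounded near `y` (`Ex0_mono`). -/
theorem kp_zero {N : E → ℝ} {y : E} (hN : ContinuousAt N y) {c : ℝ} (hc : 0 ≤ c)
    (hn : ¬ IntNear μ (fun w => ENNReal.ofReal (N w) ^ (-c)) y) : N y ≤ 0 := by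
  have : ProperSpace E := FiniteDimensional.proper ℂ E
  refine not_lt.1 fun h => hn (Ex0_mono μ (ω' := fun _ => 0) (K := 0)
    (L := (ENNReal.ofReal (N y / 2) ^ c)⁻¹) ENNReal.zero_ne_top
    (ENNReal.inv_ne_top.2 (ENNReal.rpow_pos_of_nonneg (by simpa using h) hc).ne')
    ⟨univ, univ_mem, by simp⟩ ?_)
  filter_upwards [hN.eventually (lt_mem_nhds (half_lt_self h))] with w hw
  rw [zero_mul, zero_add, ENNReal.rpow_neg]
  gcongr

/-- otherwise `|u|² ≥ a > 0` near `y` and `N ^ (-c) ≤ (D₀ / a) |u|² / (N ^ c D)` (`Ex0_mono`). -/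
theorem kp_vanish {u : E → ℂ} {y : E} (hu : ContinuousAt u y) {N D : E → ℝ} {c D₀ : ℝ}
    (hc : 0 ≤ c) (hD : ∀ᶠ w in 𝓝 y, 0 ≤ N w ∧ D w ≤ D₀)
    (hn : ¬ IntNear μ (fun w => ENNReal.ofReal (N w) ^ (-c)) y)
    (hi : IntNear μ (fun w => ‖u w‖ₑ ^ 2 / ENNReal.ofReal (N w ^ c * D w)) y) : u y = 0 := by
  have : ProperSpace E := FiniteDimensional.proper ℂ E
  by_contra h
  have h0 : 0 < ‖u y‖ := norm_pos_iff.2 h
  have a0 : ENNReal.ofReal (‖u y‖ / 2) ^ 2 ≠ 0 := pow_ne_zero _ (by simpa using h)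
  have a1 : ENNReal.ofReal (‖u y‖ / 2) ^ 2 ≠ ∞ := ENNReal.pow_ne_top ENNReal.ofReal_ne_top
  have d0 : ENNReal.ofReal (max D₀ 1) ≠ 0 := by simp
  have d1 : ENNReal.ofReal (max D₀ 1) ≠ ∞ := ENNReal.ofReal_ne_top
  refine hn (Ex0_mono μ (K := ENNReal.ofReal (max D₀ 1) / ENNReal.ofReal (‖u y‖ / 2) ^ 2) (L := 0)
    (ENNReal.div_ne_top d1 a0) ENNReal.zero_ne_top hi ?_)
  filter_upwards [hD, hu.norm.eventually (lt_mem_nhds (half_lt_self h0))] with w hw hw'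
  calc ENNReal.ofReal (N w) ^ (-c) = ENNReal.ofReal (max D₀ 1) / ENNReal.ofReal (‖u y‖ / 2) ^ 2 *
        (ENNReal.ofReal (‖u y‖ / 2) ^ 2 / (ENNReal.ofReal (N w) ^ c * ENNReal.ofReal (max D₀ 1))) := by
        rw [ENNReal.rpow_neg, div_eq_mul_inv (ENNReal.ofReal _), div_eq_mul_inv (_ ^ 2),
          ENNReal.mul_inv (Or.inr d1) (Or.inr d0), mul_assoc, ENNReal.inv_mul_cancel_left a0 a1,
          mul_left_comm, ENNReal.mul_inv_cancel d0 d1, mul_one]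
    _ ≤ _ := by
        rw [add_zero, ENNReal.ofReal_rpow_of_nonneg hw.1 hc,
          ← ENNReal.ofReal_mul (Real.rpow_nonneg hw.1 c), ← ofReal_norm]
        gcongr
        · exact Real.rpow_nonneg hw.1 c
        · exact hw.2.trans (le_max_left _ _)

theorem Kp_sq (a h : ℂ) : ‖h‖ₑ ^ 2 ≤ 2 * ‖a‖ₑ ^ 2 + 2 * ‖a - h‖ₑ ^ 2 := by
  have h1 : ‖h‖₊ ^ 2 ≤ 2 * ‖a‖₊ ^ 2 + 2 * ‖a - h‖₊ ^ 2 := by
    rw [← NNReal.coe_le_coe]
    push_cast
    have h2 : ‖h‖ ≤ ‖a‖ + ‖a - h‖ := by simpa using norm_sub_le a (a - h)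
    nlinarith [norm_nonneg h, norm_nonneg a, norm_nonneg (a - h), sq_nonneg (‖a‖ - ‖a - h‖)]
  simp only [enorm_eq_nnnorm]
  exact_mod_cast h1

theorem Kp_div (a : ℝ≥0∞) {b d : ℝ} (hb : 0 < b) (h : d ≤ b) :
    a ≤ ENNReal.ofReal b * (a / ENNReal.ofReal d) := by
  refine (ENNReal.mul_div_cancel (ENNReal.ofReal_pos.2 hb).ne' ENNReal.ofReal_ne_top).symm.trans_le ?_
  gcongr

theorem Kp_cut (s : ℝ) : ‖(cut s : ℂ)‖ₑ ≤ 1 := by
  rw [← ofReal_norm, Complex.norm_real, cut, Real.norm_of_nonneg (Real.smoothTransition.nonneg _)]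
  exact ENNReal.ofReal_le_one.2 (Real.smoothTransition.le_one _)

/-- `N = nw g lam`, `M = lM g lam ε` with `N ≤ M ≤ N + 1/(4τ)` (`lM_le_add`).  `RD.hc` with the
weight `N ^ c` (`Adm.nw`, `Adm.rpow`), `N₀ = τ M`, `δ = c₁ - c` gives `h` with
`∫ |u|² / (N ^ c (1 + τ M) ^ δ) ≤ (C/δ) (4τ) ^ c I`, `u = cut (τ M) F - h` (`τ N ≥ 1/4` where
`τ M ≥ 1/2`).  `N y = 0` (`kp_zero`), so `cut (τ M y) = 1` and `h y = F y` (`kp_vanish`).
`Hmean_sq` for `h` on a fixed ball in `W`; `|h|² ≤ 2 |cut (τ M) F|² + 2 |u|²`, `cut (τ M) = 0` unless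
`τ N ≤ 1`, and `N ^ c (1 + τ M) ^ δ ≤ N̄ ^ c (2 + N̄) ^ δ τ ^ δ`. -/
theorem kprime {W : Set E} (hW : (RD.triv μ).Stein W) {g : ι → E → ℂ}
    (hg : ∀ i, DifferentiableOn ℂ (g i) W) {R : ℝ} (hR : ∀ i, ∀ w ∈ W, ‖g i w‖ ≤ R) {y : E}
    (hy : y ∈ W) (lam : ι → ℝ) {c c₁ : ℝ} (hc : 0 ≤ c) (hc₁ : c < c₁)
    (hn : ¬ IntNear μ (fun w => ENNReal.ofReal (nw g lam w) ^ (-c)) y) :
    ∃ C : ℝ≥0, ∀ τ : ℝ, 1 ≤ τ → ∀ F : E → ℂ, DifferentiableOn ℂ F W →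
      ‖F y‖ₑ ^ 2 ≤ C * ENNReal.ofReal (τ ^ c₁) *
        ∫⁻ w in {w ∈ W | τ * nw g lam w ≤ 1}, ‖F w‖ₑ ^ 2 ∂μ := by
  obtain ⟨C₀, hC₀⟩ := (RD.triv μ).hc
  have hWo := hW.1
  have hWm := hWo.measurableSet
  have hyW := hWo.mem_nhds hy
  have hgh : ∀ i, (RD.triv μ).Hol W (g i) := fun i => (RD.triv_hol hWo).2 (hg i)
  obtain ⟨Nb, hNb0, hNb⟩ := lM_bdd (Y := E) lam R
  have hN0 := Ex0_nw_nonneg g lam
  have hN1 : ∀ w ∈ W, nw g lam w ≤ Nb := fun w hw =>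
    (nw_le_lM g lam one_pos w).trans (hNb g w 1 one_pos le_rfl fun i => hR i w hw)
  have hNy : nw g lam y ≤ 0 := by
    refine kp_zero μ ?_ hc hn
    exact tendsto_finsetSum _ fun i hi => ((hg i).continuousOn.continuousAt hyW).norm.rpow_const
      (Or.inr (div_nonneg zero_le_two (Finset.mem_filter.1 hi).2.le))
  obtain ⟨r, hr0, hr⟩ := nhds_basis_closedBall.mem_iff.1 hyW
  have hv0 : μ (ball (0 : E) r) ≠ 0 := (measure_ball_pos μ 0 hr0).ne'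
  have hv1 : μ (ball (0 : E) r) ≠ ∞ := measure_ball_lt_top.ne
  obtain ⟨δ, rfl⟩ : ∃ δ, c₁ = c + δ := ⟨c₁ - c, by ring⟩
  have hδ : 0 < δ := by linarith
  have hK₁ : (C₀ : ℝ≥0∞) / ENNReal.ofReal δ ≠ ∞ :=
    ENNReal.div_ne_top ENNReal.coe_ne_top (ENNReal.ofReal_pos.2 hδ).ne'
  generalize hK₁' : (C₀ : ℝ≥0∞) / ENNReal.ofReal δ = K₁ at hK₁
  have hK : (μ (ball (0 : E) r))⁻¹ *
      (2 + 2 * K₁ * ENNReal.ofReal (Nb ^ c * (2 + Nb) ^ δ * 4 ^ c)) ≠ ∞ := by finiteness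
  refine ⟨ENNReal.toNNReal ((μ (ball (0 : E) r))⁻¹ *
    (2 + 2 * K₁ * ENNReal.ofReal (Nb ^ c * (2 + Nb) ^ δ * 4 ^ c))), fun τ hτ F hF => ?_⟩
  rw [ENNReal.coe_toNNReal hK]
  have hτ0 : 0 < τ := one_pos.trans_le hτ
  have hT : 1 ≤ ENNReal.ofReal (τ ^ (c + δ)) :=
    ENNReal.one_le_ofReal.2 (Real.one_le_rpow hτ (by linarith))
  set I := ∫⁻ w in {w ∈ W | τ * nw g lam w ≤ 1}, ‖F w‖ₑ ^ 2 ∂μ with hI
  rcases eq_or_ne I ∞ with hI1 | hI1
  · rw [hI1, ENNReal.mul_top]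
    · exact le_top
    · exact mul_ne_zero (mul_ne_zero (ENNReal.inv_ne_zero.2 hv1) (by simp)) (one_pos.trans_le hT).ne'
  obtain ⟨ε, hε, hM⟩ := lM_le_add (Y := E) lam R (η := 1 / (4 * τ)) (by positivity)
  have hM1 : ∀ w, τ * nw g lam w ≤ τ * lM g lam ε w := fun w =>
    mul_le_mul_of_nonneg_left (nw_le_lM g lam hε w) hτ0.le
  have hM2 : ∀ w ∈ W, τ * lM g lam ε w ≤ τ * nw g lam w + 1 / 4 := fun w hw => by
    refine (mul_le_mul_of_nonneg_left (hM g w fun i => hR i w hw) hτ0.le).trans_eq ?_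
    field_simp
  have hLP : (RD.triv μ).LP W fun w => τ * lM g lam ε w :=
    (RD.LP.const hτ0.le).mul fun w hw => lM_lp (fun i => RD.Hol.analyticAt _ hWo (hgh i) hw) lam hε
  generalize hN₀ : (fun w => τ * lM g lam ε w) = N₀ at hLP
  simp only [congrFun hN₀] at hM1 hM2
  obtain ⟨h, hh, hint⟩ := hC₀ hW ((RD.Adm.nw hWo hgh lam).rpow hc) hLP ((RD.triv_hol hWo).2 hF) hδ
  rw [RD.triv_hol hWo] at hh
  rw [hK₁'] at hint
  change ∫⁻ w in W, _ ∂μ ≤ K₁ * ∫⁻ w in _, _ ∂μ at hint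
  have hFm : AEMeasurable (fun w => ‖F w‖ₑ ^ 2) (μ.restrict W) :=
    (hF.continuousOn.aemeasurable hWm).enorm.pow_const 2
  have h1 : ∫⁻ w in {w ∈ W | 1 / 2 ≤ N₀ w ∧ N₀ w ≤ 1}, ‖F w‖ₑ ^ 2 / ENNReal.ofReal (nw g lam w ^ c) ∂μ ≤
      ENNReal.ofReal ((4 * τ) ^ c) * I := by
    rw [hI, ← lintegral_const_mul' _ _ ENNReal.ofReal_ne_top]
    refine (setLIntegral_mono_ae ((hFm.mono_set fun w hw => hw.1).const_mul _)
      (ae_of_all _ fun w hw => ?_)).trans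
      (lintegral_mono_set fun w hw => ⟨hw.1, (hM1 w).trans hw.2.2⟩)
    have h2 : (4 * τ)⁻¹ ≤ nw g lam w := by
      rw [inv_le_iff_one_le_mul₀' (by positivity)]
      linarith [hM2 w hw.1, hw.2.1]
    have h3 := Real.rpow_le_rpow (by positivity) h2 hc
    rw [Real.inv_rpow (by positivity)] at h3
    rw [ENNReal.div_eq_inv_mul]
    gcongr
    rw [← inv_inv ((4 * τ) ^ c), ENNReal.ofReal_inv_of_pos (by positivity)]
    gcongr
  have hint' := hint.trans (mul_le_mul_right h1 K₁)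
  have hcc : ContinuousOn (fun w => (cut (N₀ w) : ℂ) * F w) W :=
    (Complex.continuous_ofReal.comp_continuousOn (h16_cut_contDiff.continuous.comp_continuousOn
      (RD.C2.continuousOn _ hLP.psh.1))).mul hF.continuousOn
  have hD : ∀ w ∈ W, (1 + N₀ w) ^ δ ≤ (2 + Nb) ^ δ * τ ^ δ := fun w hw => by
    rw [← Real.mul_rpow (by positivity) hτ0.le]
    refine Real.rpow_le_rpow ?_ ?_ hδ.le
    · nlinarith [hM1 w, hN0 w]
    · nlinarith [hM2 w hw, hN1 w hw]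
  have hu := kp_vanish μ (u := fun w => (cut (N₀ w) : ℂ) * F w - h w)
    ((hcc.sub hh.continuousOn).continuousAt hyW) (D := fun w => (1 + N₀ w) ^ δ) hc
    (mem_of_superset hyW fun w hw => ⟨hN0 w, hD w hw⟩) hn
    ⟨W, hyW, hint'.trans_lt (by finiteness)⟩
  have hcut : cut (N₀ y) = 1 :=
    Real.smoothTransition.one_of_one_le (by nlinarith [hM2 y hy])
  simp only [hcut, Complex.ofReal_one, one_mul, sub_eq_zero] at hu
  have h4 : ∫⁻ w in W, ‖(cut (N₀ w) : ℂ) * F w‖ₑ ^ 2 ∂μ ≤ I := by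
    refine le_trans ?_ (lintegral_indicator_le _ _)
    rw [← lintegral_indicator hWm]
    refine lintegral_mono (Set.indicator_le fun w hw => ?_)
    by_cases h5 : τ * nw g lam w ≤ 1
    · rw [Set.indicator_of_mem (show w ∈ {w ∈ W | τ * nw g lam w ≤ 1} from ⟨hw, h5⟩), enorm_mul]
      gcongr
      exact mul_le_of_le_one_left zero_le (Kp_cut _)
    · have h6 : cut (N₀ w) = 0 :=
        Real.smoothTransition.zero_of_nonpos (by linarith [hM1 w])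
      simp [h6]
  have h5 : μ (ball (0 : E) r) * ‖F y‖ₑ ^ 2 ≤ 2 * I +
      2 * ENNReal.ofReal (Nb ^ c * ((2 + Nb) ^ δ * τ ^ δ)) *
        (K₁ * (ENNReal.ofReal ((4 * τ) ^ c) * I)) := by
    rw [hu]
    refine (Hmean_sq hWo hh hr).trans ((lintegral_mono_set (ball_subset_closedBall.trans hr)).trans ?_)
    refine le_trans ?_ (add_le_add (mul_le_mul_right h4 2) (mul_le_mul_right hint' _))
    rw [← lintegral_const_mul' _ _ ENNReal.ofNat_ne_top, ← lintegral_const_mul' _ _ (by finiteness),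
      ← lintegral_add_left' (((hcc.aemeasurable hWm).enorm.pow_const 2).const_mul 2)]
    refine setLIntegral_mono' hWm fun w hw => (Kp_sq ((cut (N₀ w) : ℂ) * F w) _).trans ?_
    rw [mul_assoc]
    refine add_le_add le_rfl (mul_le_mul_right (Kp_div _ (by positivity) ?_) 2)
    have h6 : 0 ≤ 1 + N₀ w := by nlinarith [hM1 w, hN0 w]
    exact mul_le_mul (Real.rpow_le_rpow (hN0 w) (hN1 w hw) hc) (hD w hw) (by positivity)
      (by positivity)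
  have h6 : ENNReal.ofReal (Nb ^ c * ((2 + Nb) ^ δ * τ ^ δ)) * ENNReal.ofReal ((4 * τ) ^ c) =
      ENNReal.ofReal (Nb ^ c * (2 + Nb) ^ δ * 4 ^ c) * ENNReal.ofReal (τ ^ (c + δ)) := by
    rw [← ENNReal.ofReal_mul (by positivity), ← ENNReal.ofReal_mul (by positivity),
      Real.mul_rpow (by norm_num) hτ0.le, Real.rpow_add hτ0]
    congr 1
    ring
  rw [mul_assoc, mul_assoc, ← ENNReal.mul_le_iff_le_inv hv0 hv1]
  refine h5.trans ?_
  calc _ = 2 * (1 * I) + 2 * K₁ * (ENNReal.ofReal (Nb ^ c * ((2 + Nb) ^ δ * τ ^ δ)) *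
        ENNReal.ofReal ((4 * τ) ^ c)) * I := by ring
    _ ≤ 2 * (ENNReal.ofReal (τ ^ (c + δ)) * I) + 2 * K₁ *
        (ENNReal.ofReal (Nb ^ c * (2 + Nb) ^ δ * 4 ^ c) * ENNReal.ofReal (τ ^ (c + δ))) * I := by
      rw [h6]
      gcongr
    _ = _ := by ring

end Crest.Agent.R271
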