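import Crest.Agent.R271.BLsc1
import Crest.Agent.R271.BAdd

/-! Row 271, part B: semicontinuity of the exponent. -/

set_option autoImplicit false
set_option linter.unusedSectionVars false
set_option linter.unusedVariables false

namespace Crest.Agent.R271

open MeasureTheory Filter Topology Set Metric
open scoped ENNReal NNReal

variable {E : Type} [NormedAddCommGroup E] [NormedSpace ℂ E] [FiniteDimensional ℂ E]
  [MeasurableSpace E] [BorelSpace E] (μ : Measure E) [μ.IsAddHaarMeasure]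
  {ι : Type} [Fintype ι]

theorem B_nw_cont {g : ι → E → ℂ} {W : Set E} (hg : ∀ i, ContinuousOn (g i) W) (lam : ι → ℝ) :
    ContinuousOn (nw g lam) W :=
  continuousOn_finsetSum _ fun i hi => (hg i).norm.rpow_const fun _ _ =>
    Or.inr (div_nonneg zero_le_two (Finset.mem_filter.1 hi).2.le)

theorem lsc_core {W : Set E} (hW : IsOpen W) {z : E} (hz : z ∈ W) {g₀ : ι → E → ℂ}
    (hg₀ : ∀ i, DifferentiableOn ℂ (g₀ i) W) (lam : ι → ℝ) {c c' : ℝ} (hc : 0 ≤ c) (hcc : c < c')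
    (hI : IntNear μ (fun w => ENNReal.ofReal (nw g₀ lam w) ^ (-c')) z) :
    ∃ W' : Set E, IsOpen W' ∧ z ∈ W' ∧ ∃ ε₀ : ℝ, 0 < ε₀ ∧ ∀ g : ι → E → ℂ,
      (∀ i, DifferentiableOn ℂ (g i) W) → (∀ i, ∀ w ∈ W, ‖g i w - g₀ i w‖ ≤ ε₀) →
      ∫⁻ w in W', ENNReal.ofReal (nw g lam w) ^ (-c) ∂μ < ∞ := by
  have := FiniteDimensional.proper ℂ E
  obtain ⟨U, hU, hI⟩ := hI
  obtain ⟨W₁, R, hz₁, hs, hb, hW₁, hW₁', hgd, hR⟩ := B_nhd μ
    (fun i => (RD.triv_hol (μ := μ) hW).2 (hg₀ i) |>.analyticAt _ hW hz) (inter_mem hU (hW.mem_nhds hz))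
  obtain ⟨ρ, hρ, hball, k₀, B, H⟩ := lsc_low μ hW₁.1 hW₁' hb hgd hR hz₁ lam (hc.trans hcc.le)
    ((lintegral_mono_set fun w hw => (hs hw).1).trans_lt hI)
  obtain ⟨Λ, hΛ, hl⟩ : ∃ Λ : ℝ, 1 ≤ Λ ∧ ∀ i, lam i ≤ Λ :=
    ⟨1 + ∑ i, |lam i|, le_add_of_nonneg_right (Finset.sum_nonneg fun _ _ => abs_nonneg _), fun i =>
      (le_abs_self _).trans ((Finset.single_le_sum (f := fun i => |lam i|)
        (fun _ _ => abs_nonneg _) (Finset.mem_univ i)).trans (by linarith))⟩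
  obtain ⟨k₁, hk₁⟩ := exists_nat_ge (Λ / (c' - c))
  set k := k₀ + k₁ + 1 with hk
  have hk1 : (1 : ℝ) ≤ k := by exact_mod_cast Nat.le_add_left _ _
  have hkc : c + Λ / k ≤ c' := by
    have h1 : (k₁ : ℝ) ≤ k := by exact_mod_cast (by omega : k₁ ≤ k)
    rw [div_le_iff₀ (by linarith)] at hk₁
    rw [← le_sub_iff_add_le', div_le_iff₀ (by linarith)]
    nlinarith
  obtain ⟨C, hC⟩ := lsc_fib (E := E) lam hΛ hl hc (Nat.le_add_left 1 _) hkc
  refine ⟨ball z ρ, isOpen_ball, mem_ball_self hρ, ((k : ℝ) ^ k)⁻¹, by positivity,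
    fun g hg hd => ?_⟩
  have hsW : W₁ ⊆ W := fun w hw => (hs hw).2
  have hg₁ : ∀ i, DifferentiableOn ℂ (g i) W₁ := fun i => (hg i).mono hsW
  refine (lint_of_max μ (C := μ (ball z ρ) + C * B) (((B_nw_cont (fun i => (hg₁ i).continuousOn)
    lam).mono hball).aemeasurable measurableSet_ball) c fun d hd0 hd1 => ?_).trans_lt
    (ENNReal.add_lt_top.2 ⟨measure_ball_lt_top,
      ENNReal.mul_lt_top ENNReal.coe_lt_top ENNReal.coe_lt_top⟩)
  have hε : 0 < d ^ Λ := Real.rpow_pos_of_pos hd0 _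
  have hm : AEMeasurable (fun x : E × ℂ => (ENNReal.ofReal (lM (lG g g₀ k) lam (d ^ Λ) x ^ c'))⁻¹)
      ((μ.prod volume).restrict (ball z ρ ×ˢ ball 0 (k : ℝ)⁻¹)) := by
    refine (ContinuousOn.aemeasurable (fun x hx => ?_)
      (measurableSet_ball.prod measurableSet_ball)).ennreal_ofReal.inv
    have ha : ∀ {f : E → ℂ}, DifferentiableOn ℂ f W₁ → AnalyticAt ℂ (fun y : E × ℂ => f y.1) x :=
      fun {f} hf => AnalyticAt.comp (g := f) (f := Prod.fst)
        ((RD.triv_hol (μ := μ) hW₁.1).2 hf |>.analyticAt _ hW₁.1 (hball hx.1)) analyticAt_fst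
    exact (((lM_lp (fun i => (ha (hg₁ i)).add (((analyticAt_const.mul analyticAt_snd).pow k).mul
      ((ha (hgd i)).sub (ha (hg₁ i))))) lam hε).rpow (hε.trans_le (le_lM _ _ hε _))
      (hc.trans hcc.le)).c2.continuousAt).continuousWithinAt
  calc _ ≤ ∫⁻ w in ball z ρ, (1 + C * ∫⁻ t in ball (0 : ℂ) (k : ℝ)⁻¹,
          (ENNReal.ofReal (lM (lG g g₀ k) lam (d ^ Λ) (w, t) ^ c'))⁻¹) ∂μ :=
        setLIntegral_mono' measurableSet_ball fun w hw => hC g g₀ w d hd0 hd1 fun i =>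
          (hd i w (hsW (hball hw))).trans (inv_le_one_of_one_le₀ (one_le_pow₀ hk1))
    _ = μ (ball z ρ) + C * ∫⁻ x in ball z ρ ×ˢ ball 0 (k : ℝ)⁻¹,
          (ENNReal.ofReal (lM (lG g g₀ k) lam (d ^ Λ) x ^ c'))⁻¹ ∂(μ.prod volume) := by
        rw [lintegral_add_left measurable_const, setLIntegral_one,
          lintegral_const_mul' _ _ ENNReal.coe_ne_top, setLIntegral_prod _ hm]
    _ ≤ _ := by
        gcongr
        exact H k (by omega) g hg₁ (fun i w hw => hd i w (hsW hw)) _ hε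
          (Real.rpow_le_one hd0.le hd1 (by linarith))

theorem B_ex_lsc {z : E} {V : Type} [NormedAddCommGroup V] [NormedSpace ℂ V] [FiniteDimensional ℂ V]
    (ev : V →ₗ[ℂ] (E → ℂ)) {W : Set E} (hW : IsOpen W) (hz : z ∈ W)
    (hev : ∀ s, DifferentiableOn ℂ (ev s) W) {b : ℕ → ι → V} {b₀ : ι → V} {lam : ℕ → ι → ℝ}
    {lam₀ : ι → ℝ} {y : ℕ → E} (hb : Tendsto b atTop (𝓝 b₀)) (hl : Tendsto lam atTop (𝓝 lam₀))
    (hy : Tendsto y atTop (𝓝 z)) {c : ℝ≥0∞}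
    (h : ∀ j, ex μ (fun i => ev (b j i)) (lam j) (y j) ≤ c) :
    ex μ (fun i => ev (b₀ i)) lam₀ z ≤ c := by
  have := FiniteDimensional.proper ℂ E
  have han : ∀ s, ∀ w ∈ W, AnalyticAt ℂ (ev s) w := fun s w hw =>
    (RD.triv_hol (μ := μ) hW).2 (hev s) |>.analyticAt _ hW hw
  refine le_of_forall_lt_imp_le_of_dense fun r hr => ?_
  lift r to ℝ≥0 using hr.ne_top
  by_contra hlt
  rw [not_le] at hlt
  lift c to ℝ≥0 using hlt.ne_top
  have h1 : (c : ℝ) < r := by exact_mod_cast hlt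
  have hc0 : (0 : ℝ) ≤ c := c.2
  obtain ⟨ρ, hρ, hK⟩ := Metric.nhds_basis_closedBall.mem_iff.1 (hW.mem_nhds hz)
  have hs : ball z ρ ⊆ W := ball_subset_closedBall.trans hK
  obtain ⟨C, hC, hb1⟩ := ev_bound ev (isCompact_closedBall z ρ) fun s => (hev s).continuousOn.mono hK
  obtain ⟨W', hW', hz', ε₀, hε₀, H⟩ := lsc_core μ isOpen_ball (mem_ball_self hρ)
    (g₀ := fun i => ev (b₀ i)) (fun i => (hev _).mono hs) lam₀ (c := (c + r) / 2) (c' := r)
    (by linarith) (by linarith) (intNear_of_lt_ex μ (fun i => han _ z hz) r.2 (by simpa using hr))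
  obtain ⟨t, ht, htc⟩ : ∃ t : ℝ, 1 < t ∧ t * c < (c + r) / 2 := by
    have : ContinuousAt (fun t : ℝ => t * c) 1 := by fun_prop
    obtain ⟨t, h2, h3⟩ := (((this.eventually (gt_mem_nhds (show (1 : ℝ) * c < (c + r) / 2 by
      linarith))).filter_mono (nhdsWithin_le_nhds (s := Ioi 1))).and self_mem_nhdsWithin).exists
    exact ⟨t, h3, h2⟩
  have e1 : ∀ᶠ j in atTop, ∀ i, 0 < lam₀ i → lam₀ i ≤ t * lam j i := eventually_all.2 fun i => by
    by_cases hi : 0 < lam₀ i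
    · exact ((((tendsto_pi_nhds.1 hl i).const_mul t).eventually
        (lt_mem_nhds (by nlinarith))).mono fun j hj _ => hj.le)
    · exact Eventually.of_forall fun j hj => absurd hj hi
  have e2 : ∀ᶠ j in atTop, ‖b j - b₀‖ < ε₀ / C :=
    (tendsto_iff_norm_sub_tendsto_zero.1 hb).eventually (gt_mem_nhds (div_pos hε₀ hC))
  obtain ⟨j, ⟨j1, j2⟩, j3, j4⟩ := ((e1.and e2).and ((hy.eventually (hW'.mem_nhds hz')).and
    (hy.eventually (hW.mem_nhds hz)))).exists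
  have h2 := le_ex μ ⟨W', hW'.mem_nhds j3, H (fun i => ev (b j i)) (fun i => (hev _).mono hs)
    fun i w hw => by
      have h3 := hb1 (b j i - b₀ i) w (ball_subset_closedBall hw)
      rw [map_sub, Pi.sub_apply] at h3
      have h4 : ‖b j i - b₀ i‖ ≤ ‖b j - b₀‖ := norm_le_pi_norm (b j - b₀) i
      rw [lt_div_iff₀ hC] at j2
      nlinarith⟩
  have h3 := (h2.trans (ex_mono_lam μ (fun i => han _ _ j4) (lam := t • lam j) j1)).trans
    ((ex_smul_le μ (fun i => han _ _ j4) (lam j) (by linarith)).trans (mul_le_mul_right (h j) _))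
  rw [← ENNReal.ofReal_coe_nnreal, ← ENNReal.ofReal_mul (by linarith),
    ENNReal.ofReal_le_ofReal_iff (by positivity)] at h3
  linarith

end Crest.Agent.R271
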