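import Crest.Agent.R271.BK
import Crest.Agent.R271.BSt
import Crest.Agent.R271.BOT

/-! Row 271, part B: semicontinuity of the exponent, lemmas. -/

set_option autoImplicit false
set_option linter.unusedSectionVars false
set_option linter.unusedVariables false

namespace Crest.Agent.R271

open MeasureTheory Filter Topology Set Metric
open scoped ENNReal NNReal

variable {E : Type} [NormedAddCommGroup E] [NormedSpace ℂ E] [FiniteDimensional ℂ E]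
  [MeasurableSpace E] [BorelSpace E] (μ : Measure E) [μ.IsAddHaarMeasure]
  {ι : Type} [Fintype ι]

/-- the deformation of `g` (at `t = 0`) to `g₀` (at `t = 1 / k`). -/
noncomputable def lG (g g₀ : ι → E → ℂ) (k : ℕ) (i : ι) (x : E × ℂ) : ℂ :=
  g i x.1 + ((k : ℂ) * x.2) ^ k * (g₀ i x.1 - g i x.1)

theorem LscOt_e (k : ℕ) (hk : 2 ≤ k) {ε : ℝ} (hε : 0 < ε) : ∃ e : ℝ, 0 < e ∧ e < 1 ∧
    ∀ t : ℂ, ‖t - (k : ℂ)⁻¹‖ ≤ 2 * e → ‖1 - ((k : ℂ) * t) ^ k‖ ^ 2 ≤ ε := by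
  have hk0 : (k : ℂ) ≠ 0 := by exact_mod_cast (by omega : k ≠ 0)
  have hc : ContinuousAt (fun t : ℂ => ‖1 - ((k : ℂ) * t) ^ k‖ ^ 2) (k : ℂ)⁻¹ := by fun_prop
  have h0 : ‖1 - ((k : ℂ) * (k : ℂ)⁻¹) ^ k‖ ^ 2 < ε := by
    rw [mul_inv_cancel₀ hk0]; simpa using hε
  obtain ⟨δ, hδ, h⟩ := Metric.eventually_nhds_iff.1 (hc.eventually (gt_mem_nhds h0))
  refine ⟨min (δ / 4) (1 / 2), by positivity, (min_le_right _ _).trans_lt (by norm_num),
    fun t ht => (h ?_).le⟩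
  rw [dist_eq_norm]
  have := min_le_left (δ / 4) (1 / 2)
  linarith

theorem LscOt_cont {W : Set E} {g₀ : ι → E → ℂ} (hg₀ : ∀ i, DifferentiableOn ℂ (g₀ i) W)
    (lam : ι → ℝ) : ContinuousOn (nw g₀ lam) W := by
  refine continuousOn_finsetSum _ fun i hi => ?_
  have hl : 0 < lam i := (Finset.mem_filter.1 hi).2
  exact (hg₀ i).continuousOn.norm.rpow_const fun _ _ => Or.inr (by positivity)

/-- `ot_core` on `E × ℂ` (`B_haar`, `B_stein_disc`) with `s = (t - 1/k) / 2`, `N = lM … ^ c`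
(`lM_lp`, `le_lM`), `e` so small that `‖(k t) ^ k - 1‖ ^ 2 ≤ ε` for `‖t - 1/k‖ ≤ 2 e`; there
`nw_le_mul_lM` applies (`g₀ - lG = (1 - (k t) ^ k) (g₀ - g)`); Tonelli on
`W ×ˢ closedBall (1/k) (2e)`, whose second factor has volume `4 π e²`. -/
theorem lsc_ot {W : Set E} (hWo : IsOpen W)
    (hW : (RD.triv (μ.prod (volume : Measure ℂ))).Stein (W ×ˢ univ))
    (hb : Bornology.IsBounded W) {g₀ : ι → E → ℂ} (hg₀ : ∀ i, DifferentiableOn ℂ (g₀ i) W)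
    (lam : ι → ℝ) {c : ℝ} (hc : 0 ≤ c)
    (hI : ∫⁻ w in W, ENNReal.ofReal (nw g₀ lam w) ^ (-c) ∂μ < ∞) :
    ∃ B : ℝ, 0 ≤ B ∧ ∀ k : ℕ, 2 ≤ k → ∀ g : ι → E → ℂ, (∀ i, DifferentiableOn ℂ (g i) W) →
      (∀ i, ∀ w ∈ W, ‖g i w - g₀ i w‖ ≤ 1) → ∀ ε : ℝ, 0 < ε → ∃ F : E × ℂ → ℂ,
        DifferentiableOn ℂ F (W ×ˢ ball 0 1) ∧ (∀ w ∈ W, F (w, (k : ℂ)⁻¹) = 1) ∧
        ∫⁻ x in W ×ˢ ball 0 1, ‖F x‖ₑ ^ 2 / ENNReal.ofReal (lM (lG g g₀ k) lam ε x ^ c)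
          ∂(μ.prod volume) ≤ ENNReal.ofReal B := by
  have := FiniteDimensional.proper ℂ E
  have := B_haar μ
  obtain ⟨C, hC⟩ := ot_core (μ.prod (volume : Measure ℂ))
  obtain ⟨A, hA0, hA⟩ := nw_le_mul_lM (Y := E × ℂ) (Y' := E) lam
  obtain ⟨I, hIe⟩ : ∃ I : ℝ, I = (∫⁻ w in W, ENNReal.ofReal (nw g₀ lam w) ^ (-c) ∂μ).toReal :=
    ⟨_, rfl⟩
  have hI0 : 0 ≤ I := hIe ▸ ENNReal.toReal_nonneg
  have hI1 : ∫⁻ w in W, ENNReal.ofReal (nw g₀ lam w) ^ (-c) ∂μ = ENNReal.ofReal I := by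
    rw [hIe, ENNReal.ofReal_toReal hI.ne]
  have hAc : 0 < A ^ c := Real.rpow_pos_of_pos hA0 c
  have hB0 : 0 < 4 * Real.pi * A ^ c * I + 1 := by positivity
  refine ⟨C * (4 * Real.pi * A ^ c * I + 1), by positivity, fun k hk g hg hgg ε hε => ?_⟩
  obtain ⟨e, he0, he1, he⟩ := LscOt_e k hk hε
  have hΩ : IsOpen (W ×ˢ ball (0 : ℂ) 1) := hWo.prod isOpen_ball
  have hG : ∀ i, DifferentiableOn ℂ (lG g g₀ k i) (W ×ˢ ball (0 : ℂ) 1) := by
    intro i x hx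
    have h1 : DifferentiableAt ℂ (g i) x.1 := (hg i x.1 hx.1).differentiableAt (hWo.mem_nhds hx.1)
    have h2 : DifferentiableAt ℂ (g₀ i) x.1 := (hg₀ i x.1 hx.1).differentiableAt (hWo.mem_nhds hx.1)
    have h3 : DifferentiableAt ℂ (fun x : E × ℂ => g i x.1) x := h1.comp x differentiableAt_fst
    have h4 : DifferentiableAt ℂ (fun x : E × ℂ => g₀ i x.1) x := h2.comp x differentiableAt_fst
    have h5 : DifferentiableAt ℂ (fun x : E × ℂ => ((k : ℂ) * x.2) ^ k) x := by fun_prop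
    exact (h3.add (h5.mul (h4.sub h3))).differentiableWithinAt
  have hpos : ∀ x, 0 < lM (lG g g₀ k) lam ε x := fun x => hε.trans_le (le_lM _ lam hε x)
  have hk2 : ‖(k : ℂ)⁻¹‖ ≤ 1 / 2 := by
    rw [norm_inv, Complex.norm_natCast, one_div]
    exact inv_anti₀ two_pos (by exact_mod_cast hk)
  refine Exists.elim (hC (B_stein_disc μ hW) (s := fun x => (x.2 - (k : ℂ)⁻¹) / 2)
    (by fun_prop) (fun x hx => ?_) (N := fun x => lM (lG g g₀ k) lam ε x ^ c)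
    (fun x hx => ⟨(lM_lp (fun i => Crest.Agent.R264.SCV.analyticAt (hG i) (hΩ.mem_nhds hx)) lam
      hε).rpow (hpos x) hc, Real.rpow_pos_of_pos (hpos x) c⟩) ?_ he0 he1 hB0 ?_)
    fun F ⟨hF1, hF2, hF3⟩ => ?_
  rotate_right
  · refine ⟨F, hF1, fun w hw => hF2 _ ⟨hw, ?_⟩ (by simp), hF3.trans_eq ?_⟩
    · exact mem_ball_zero_iff.2 (hk2.trans_lt (by norm_num))
    · rw [ENNReal.ofReal_mul C.coe_nonneg, ENNReal.ofReal_coe_nnreal]
  · have h1 : ‖x.2‖ < 1 := mem_ball_zero_iff.1 hx.2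
    have h2 := norm_sub_le x.2 (k : ℂ)⁻¹
    rw [norm_div, Complex.norm_two]
    linarith
  · have h1 : (μ.prod (volume : Measure ℂ)) (W ×ˢ ball (0 : ℂ) 1) < ∞ :=
      (hb.prod isBounded_ball).measure_lt_top
    refine lt_of_le_of_lt (lintegral_mono (g := fun _ => (ENNReal.ofReal (ε ^ c))⁻¹) fun x => ?_) ?_
    · exact ENNReal.inv_le_inv.2 (ENNReal.ofReal_le_ofReal
        (Real.rpow_le_rpow hε.le (le_lM _ lam hε x) hc))
    · rw [lintegral_const, Measure.restrict_apply_univ]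
      refine ENNReal.mul_lt_top (ENNReal.inv_lt_top.2 ?_) h1
      exact ENNReal.ofReal_pos.2 (Real.rpow_pos_of_pos hε c)
  · have hm : AEMeasurable (fun w => ENNReal.ofReal (A ^ c) * ENNReal.ofReal (nw g₀ lam w) ^ (-c))
        (μ.restrict W) :=
      (((LscOt_cont hg₀ lam).aemeasurable hWo.measurableSet).ennreal_ofReal.pow_const _).const_mul _
    have hsub : {z ∈ W ×ˢ ball (0 : ℂ) 1 | ‖(z.2 - (k : ℂ)⁻¹) / 2‖ ≤ e} ⊆
        W ×ˢ closedBall (k : ℂ)⁻¹ (2 * e) := by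
      intro x hx
      refine ⟨hx.1.1, mem_closedBall_iff_norm.2 ?_⟩
      have h1 := hx.2
      rw [norm_div, Complex.norm_two] at h1
      linarith
    refine (lintegral_mono_set hsub).trans ?_
    refine (setLIntegral_mono' (g := fun x : E × ℂ =>
      (ENNReal.ofReal (A ^ c) * ENNReal.ofReal (nw g₀ lam x.1) ^ (-c)) * 1)
      (hWo.measurableSet.prod measurableSet_closedBall) fun x hx => ?_).trans ?_
    · have h1 : nw g₀ lam x.1 ≤ A * lM (lG g g₀ k) lam ε x ^ (1 : ℝ) := by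
        rw [Real.rpow_one]
        refine hA g₀ x.1 _ x ε hε fun i => ?_
        have h2 : g₀ i x.1 - lG g g₀ k i x = (1 - ((k : ℂ) * x.2) ^ k) * (g₀ i x.1 - g i x.1) := by
          rw [lG]; ring
        have h3 := he x.2 (mem_closedBall_iff_norm.1 hx.2)
        have h4 := hgg i x.1 hx.1
        rw [norm_sub_rev] at h4
        rw [h2, norm_mul, mul_pow]
        have h5 : ‖g₀ i x.1 - g i x.1‖ ^ 2 ≤ 1 := pow_le_one₀ (norm_nonneg _) h4
        nlinarith [sq_nonneg ‖1 - ((k : ℂ) * x.2) ^ k‖]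
      have h2 := Ex0_pow (hpos x).le hA0 hc zero_le_one h1
      rw [one_mul, add_zero, ENNReal.rpow_neg, ENNReal.ofReal_rpow_of_nonneg (hpos x).le hc,
        ENNReal.ofReal_rpow_of_nonneg hA0.le hc] at h2
      rwa [mul_one]
    · rw [← Measure.prod_restrict, lintegral_prod_mul hm (g := fun _ => 1) aemeasurable_const,
        lintegral_const_mul' _ _ ENNReal.ofReal_ne_top, hI1, lintegral_const, one_mul,
        Measure.restrict_apply_univ, Complex.volume_closedBall, ← ENNReal.ofReal_pow (by positivity),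
        ← ENNReal.ofReal_coe_nnreal, ← ENNReal.ofReal_mul (by positivity),
        ← ENNReal.ofReal_mul (by positivity), ← ENNReal.ofReal_mul (by positivity)]
      refine ENNReal.ofReal_le_ofReal ?_
      rw [NNReal.coe_real_pi]
      nlinarith [sq_nonneg e]

/-- `ball z (4ρ) ⊆ W`, `4ρ ≤ 1`.  `‖lG‖ ≤ R + 2` on `W ×ˢ ball 0 1`, so `lM ≤ M` (`lM_bdd`) and
`∫ |F|² ≤ M ^ c B = A²` for the `F` of `lsc_ot`; `mv_lip` on `ball (z, 0) (4ρ)` (`ball_prod_same`)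
gives `‖F (w, t) - 1‖ ≤ 2 K A / k ≤ 1/2` for `‖t‖ < 1/k`, `k ≥ 4 K A`, `1/k < ρ`. -/
theorem lsc_low {W : Set E} (hWo : IsOpen W)
    (hW : (RD.triv (μ.prod (volume : Measure ℂ))).Stein (W ×ˢ univ))
    (hb : Bornology.IsBounded W) {g₀ : ι → E → ℂ} (hg₀ : ∀ i, DifferentiableOn ℂ (g₀ i) W)
    {R : ℝ} (hR : ∀ i, ∀ w ∈ W, ‖g₀ i w‖ ≤ R) {z : E} (hz : z ∈ W) (lam : ι → ℝ) {c : ℝ}
    (hc : 0 ≤ c) (hI : ∫⁻ w in W, ENNReal.ofReal (nw g₀ lam w) ^ (-c) ∂μ < ∞) :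
    ∃ ρ : ℝ, 0 < ρ ∧ ball z ρ ⊆ W ∧ ∃ (k₀ : ℕ) (B : ℝ≥0), ∀ k : ℕ, k₀ ≤ k →
      ∀ g : ι → E → ℂ, (∀ i, DifferentiableOn ℂ (g i) W) →
      (∀ i, ∀ w ∈ W, ‖g i w - g₀ i w‖ ≤ ((k : ℝ) ^ k)⁻¹) → ∀ ε : ℝ, 0 < ε → ε ≤ 1 →
        ∫⁻ x in ball z ρ ×ˢ ball 0 (k : ℝ)⁻¹, (ENNReal.ofReal (lM (lG g g₀ k) lam ε x ^ c))⁻¹
          ∂(μ.prod volume) ≤ B := by
  obtain ⟨B, hB0, hB⟩ := lsc_ot μ hWo hW hb hg₀ lam hc hI
  obtain ⟨r, hr, hrW⟩ := Metric.isOpen_iff.1 hWo z hz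
  obtain ⟨ρ, hρ, hρr, hρ1⟩ : ∃ ρ : ℝ, 0 < ρ ∧ 4 * ρ ≤ r ∧ 4 * ρ ≤ 1 :=
    ⟨min r 1 / 4, by positivity, by linarith [min_le_left r 1], by linarith [min_le_right r 1]⟩
  have := B_haar μ
  obtain ⟨K, hK, hKl⟩ := mv_lip (μ.prod (volume : Measure ℂ)) hρ
  obtain ⟨M, hM, hMb⟩ := lM_bdd (Y := E × ℂ) lam (R + 2)
  have hMc : 0 < M ^ c := Real.rpow_pos_of_pos hM c
  obtain ⟨A, hA, hA2⟩ : ∃ A : ℝ, 0 ≤ A ∧ A ^ 2 = M ^ c * B :=
    ⟨√(M ^ c * B), Real.sqrt_nonneg _, Real.sq_sqrt (by positivity)⟩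
  obtain ⟨k₀, hk₀⟩ := exists_nat_gt (2 + 4 * K * A + ρ⁻¹)
  have hsub : ball z ρ ⊆ W := (ball_subset_ball (by linarith)).trans hrW
  refine ⟨ρ, hρ, hsub, k₀, 4 * B.toNNReal, fun k hk g hg hgg ε hε hε1 => ?_⟩
  have hk' : (k₀ : ℝ) ≤ k := by exact_mod_cast hk
  have hKA : 0 ≤ 4 * K * A := by positivity
  have hρi : 0 < ρ⁻¹ := inv_pos.2 hρ
  have hk2 : (2 : ℝ) ≤ k := by linarith
  have hk0 : (0 : ℝ) < k := by linarith
  have hkρ : (k : ℝ)⁻¹ < ρ := inv_lt_of_inv_lt₀ hρ (by linarith)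
  have hkk : (1 : ℝ) ≤ (k : ℝ) ^ k := one_le_pow₀ (by linarith)
  have hg1 : ∀ i, ∀ w ∈ W, ‖g i w - g₀ i w‖ ≤ 1 := fun i w hw =>
    (hgg i w hw).trans (inv_le_one_of_one_le₀ hkk)
  obtain ⟨F, hF, hF1, hFI⟩ := hB k (by exact_mod_cast hk2) g hg hg1 ε hε
  have hΩ : MeasurableSet (W ×ˢ ball (0 : ℂ) 1) := hWo.measurableSet.prod measurableSet_ball
  have hpos : ∀ x, 0 < lM (lG g g₀ k) lam ε x := fun x => hε.trans_le (le_lM _ _ hε x)
  have hle : ∀ x ∈ W ×ˢ ball (0 : ℂ) 1, lM (lG g g₀ k) lam ε x ≤ M := by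
    intro x hx
    refine hMb _ x ε hε hε1 fun i => ?_
    have h1 : ‖g i x.1‖ ≤ R + 1 :=
      (norm_le_insert' (g i x.1) (g₀ i x.1)).trans (add_le_add (hR i _ hx.1) (hg1 i _ hx.1))
    have h2 : ‖((k : ℂ) * x.2) ^ k‖ ≤ (k : ℝ) ^ k := by
      rw [norm_pow, norm_mul, Complex.norm_natCast]
      exact pow_le_pow_left₀ (by positivity)
        (mul_le_of_le_one_right hk0.le (mem_ball_zero_iff.1 hx.2).le) k
    have h3 : ‖((k : ℂ) * x.2) ^ k * (g₀ i x.1 - g i x.1)‖ ≤ 1 := by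
      rw [norm_mul, norm_sub_rev]
      refine (mul_le_mul h2 (hgg i _ hx.1) (norm_nonneg _) (by positivity)).trans_eq ?_
      exact mul_inv_cancel₀ (by positivity)
    refine (norm_add_le _ _).trans ?_
    linarith
  have hball : ball ((z, 0) : E × ℂ) (4 * ρ) ⊆ W ×ˢ ball 0 1 := by
    rw [← ball_prod_same]
    exact Set.prod_mono ((ball_subset_ball hρr).trans hrW) (ball_subset_ball hρ1)
  have hL2 : ∫⁻ x in ball ((z, 0) : E × ℂ) (4 * ρ), ‖F x‖ₑ ^ 2 ∂(μ.prod volume) ≤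
      ENNReal.ofReal (A ^ 2) := by
    refine (lintegral_mono_set hball).trans ?_
    rw [hA2, ENNReal.ofReal_mul hMc.le]
    refine le_trans (setLIntegral_mono' hΩ (g := fun x => ENNReal.ofReal (M ^ c) *
      (‖F x‖ₑ ^ 2 / ENNReal.ofReal (lM (lG g g₀ k) lam ε x ^ c))) fun x hx => ?_) ?_
    · have h1 : ENNReal.ofReal (lM (lG g g₀ k) lam ε x ^ c) ≠ 0 :=
        (ENNReal.ofReal_pos.2 (Real.rpow_pos_of_pos (hpos x) c)).ne'
      refine le_trans (ENNReal.mul_div_cancel h1 ENNReal.ofReal_ne_top).ge ?_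
      exact mul_le_mul_left (ENNReal.ofReal_le_ofReal
        (Real.rpow_le_rpow (hpos x).le (hle x hx) hc)) _
    · rw [lintegral_const_mul' _ _ ENNReal.ofReal_ne_top]
      exact mul_le_mul_right hFI _
  have hlip := hKl hA (hF.mono hball) hL2
  have hsub' : ball z ρ ×ˢ ball (0 : ℂ) (k : ℝ)⁻¹ ⊆ W ×ˢ ball 0 1 :=
    Set.prod_mono hsub (ball_subset_ball (by linarith))
  have hlow : ∀ x ∈ ball z ρ ×ˢ ball (0 : ℂ) (k : ℝ)⁻¹, 1 ≤ 4 * ‖F x‖ₑ ^ 2 := by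
    rintro ⟨w, t⟩ ⟨hw, ht⟩
    have ht' : ‖t‖ < (k : ℝ)⁻¹ := mem_ball_zero_iff.1 ht
    have hn : ‖(k : ℂ)⁻¹‖ = (k : ℝ)⁻¹ := by rw [norm_inv, Complex.norm_natCast]
    have h1 := hlip (w, t) (by
        rw [← ball_prod_same]
        exact ⟨hw, mem_ball_zero_iff.2 (ht'.trans hkρ)⟩) (w, (k : ℂ)⁻¹) (by
        rw [← ball_prod_same]
        exact ⟨hw, mem_ball_zero_iff.2 (hn.trans_lt hkρ)⟩)
    have h2 : ‖((w, t) : E × ℂ) - (w, (k : ℂ)⁻¹)‖ ≤ 2 * (k : ℝ)⁻¹ := by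
      rw [Prod.mk_sub_mk, sub_self, Prod.norm_mk, norm_zero, max_eq_right (norm_nonneg _)]
      linarith [norm_sub_le t (k : ℂ)⁻¹]
    have h3 : K * A * (2 * (k : ℝ)⁻¹) ≤ 1 / 2 := by
      rw [← mul_assoc, ← div_eq_mul_inv, div_le_iff₀ hk0]
      linarith
    have h4 := h1.trans ((mul_le_mul_of_nonneg_left h2 (by positivity)).trans h3)
    rw [hF1 w (hsub hw), norm_sub_rev] at h4
    have h5 := norm_sub_norm_le (1 : ℂ) (F (w, t))
    rw [norm_one] at h5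
    have h6 : (1 : ℝ) ≤ 4 * ‖F (w, t)‖ ^ 2 := by nlinarith
    have h7 := ENNReal.ofReal_le_ofReal h6
    rwa [ENNReal.ofReal_one, ENNReal.ofReal_mul (by norm_num), ENNReal.ofReal_ofNat,
      ENNReal.ofReal_pow (norm_nonneg _), ofReal_norm] at h7
  refine le_trans (setLIntegral_mono' (measurableSet_ball.prod measurableSet_ball)
    (g := fun x => 4 * (‖F x‖ₑ ^ 2 / ENNReal.ofReal (lM (lG g g₀ k) lam ε x ^ c)))
    fun x hx => ?_) ?_
  · rw [div_eq_mul_inv, ← mul_assoc]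
    exact le_mul_of_one_le_left' (hlow x hx)
  · rw [lintegral_const_mul' _ _ (by norm_num)]
    push_cast
    exact mul_le_mul_right ((lintegral_mono_set hsub').trans hFI) _

/-- let `n = max (nw g lam w) d`; if `n ≤ 1`, then for `‖t‖ < n ^ (Λ / (2k)) / k` we have
`‖lG - g‖ ^ 2 ≤ n ^ Λ`, so `lM ≤ A n` (`lM_le_mul`) and the integral is at least
`π k⁻² n ^ (Λ / k) (A n) ^ (-c') ≥ π k⁻² A ^ (-c') n ^ (-c)`. -/
theorem lsc_fib (lam : ι → ℝ) {Λ : ℝ} (hΛ : 1 ≤ Λ) (hl : ∀ i, lam i ≤ Λ) {c c' : ℝ} (hc : 0 ≤ c)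
    {k : ℕ} (hk : 1 ≤ k) (hkc : c + Λ / k ≤ c') : ∃ C : ℝ≥0, ∀ (g g₀ : ι → E → ℂ) (w : E) (d : ℝ),
    0 < d → d ≤ 1 → (∀ i, ‖g i w - g₀ i w‖ ≤ 1) →
    ENNReal.ofReal (max (nw g lam w) d) ^ (-c) ≤ 1 + C * ∫⁻ t in ball (0 : ℂ) (k : ℝ)⁻¹,
      (ENNReal.ofReal (lM (lG g g₀ k) lam (d ^ Λ) (w, t) ^ c'))⁻¹ := by
  obtain ⟨A, hA, hM⟩ := lM_le_mul (Y := E × ℂ) (Y' := E) lam hΛ hl
  have hk0 : (0 : ℝ) < k := by exact_mod_cast hk
  have hΛk : 0 < Λ / k := by positivity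
  have hc' : 0 ≤ c' := by linarith
  refine ⟨Real.toNNReal (k ^ 2 * A ^ c' / Real.pi), fun g g₀ w d hd hd1 hg => ?_⟩
  set n := max (nw g lam w) d with hn
  have hn0 : 0 < n := hd.trans_le (le_max_right _ _)
  rw [ENNReal.ofReal_rpow_of_pos hn0]
  rcases le_total 1 n with h1 | h1
  · refine le_trans ?_ le_self_add
    rw [ENNReal.ofReal_le_one]
    exact Real.rpow_le_one_of_one_le_of_nonpos h1 (by linarith)
  refine le_trans ?_ le_add_self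
  set r : ℝ := n ^ (Λ / (2 * k)) / k with hr
  have hr0 : 0 < r := by positivity
  have hr1 : r ≤ (k : ℝ)⁻¹ := by
    rw [hr, ← one_div]
    exact div_le_div_of_nonneg_right (Real.rpow_le_one hn0.le h1 (by positivity)) hk0.le
  have hlow : ∀ t ∈ ball (0 : ℂ) r, ENNReal.ofReal ((A * n) ^ c')⁻¹ ≤
      (ENNReal.ofReal (lM (lG g g₀ k) lam (d ^ Λ) (w, t) ^ c'))⁻¹ := by
    intro t ht
    have hε : 0 < d ^ Λ := by positivity
    have h2 := hM g w (lG g g₀ k) (w, t) (d ^ Λ) n hn0 h1 hε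
      (Real.rpow_le_rpow hd.le (le_max_right _ _) (by linarith)) (le_max_left _ _) fun i => by
        have e : lG g g₀ k i (w, t) - g i w = ((k : ℂ) * t) ^ k * (g₀ i w - g i w) := by
          simp only [lG]; ring
        have a1 : (k : ℝ) * ‖t‖ ≤ n ^ (Λ / (2 * k)) := by
          have := (mem_ball_zero_iff.1 ht).le
          rwa [hr, le_div_iff₀ hk0, mul_comm] at this
        have a2 : ‖lG g g₀ k i (w, t) - g i w‖ ≤ (n ^ (Λ / (2 * k))) ^ k := by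
          rw [e, norm_mul, norm_pow, norm_mul, Complex.norm_natCast, norm_sub_rev]
          exact (mul_le_of_le_one_right (by positivity) (hg i)).trans
            (pow_le_pow_left₀ (by positivity) a1 k)
        refine (pow_le_pow_left₀ (norm_nonneg _) a2 2).trans_eq ?_
        rw [← pow_mul, ← Real.rpow_natCast, ← Real.rpow_mul hn0.le]
        congr 1
        push_cast
        field_simp
    rw [ENNReal.ofReal_inv_of_pos (by positivity)]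
    exact ENNReal.inv_le_inv.2 (ENNReal.ofReal_le_ofReal
      (Real.rpow_le_rpow (hε.le.trans (le_lM _ lam hε _)) h2 hc'))
  have h3 : ENNReal.ofReal (((A * n) ^ c')⁻¹ * (r ^ 2 * Real.pi)) ≤
      ∫⁻ t in ball (0 : ℂ) (k : ℝ)⁻¹,
        (ENNReal.ofReal (lM (lG g g₀ k) lam (d ^ Λ) (w, t) ^ c'))⁻¹ := by
    refine le_trans ?_ (lintegral_mono_set (ball_subset_ball hr1))
    refine le_trans (le_of_eq ?_) (setLIntegral_mono' measurableSet_ball hlow)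
    rw [setLIntegral_const, Complex.volume_ball, ENNReal.ofReal_mul (by positivity),
      ENNReal.ofReal_mul (by positivity), ENNReal.ofReal_pow hr0.le, ← NNReal.coe_real_pi,
      ENNReal.ofReal_coe_nnreal]
  refine le_trans ?_ (mul_le_mul_right h3 _)
  rw [← ENNReal.ofReal, ← ENNReal.ofReal_mul (by positivity)]
  refine ENNReal.ofReal_le_ofReal ?_
  have e1 : r ^ 2 = n ^ (Λ / k) / k ^ 2 := by
    rw [hr, div_pow, ← Real.rpow_natCast, ← Real.rpow_mul hn0.le]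
    congr 2
    push_cast
    field_simp
  have e2 : k ^ 2 * A ^ c' / Real.pi * (((A * n) ^ c')⁻¹ * (r ^ 2 * Real.pi))
      = n ^ (Λ / k - c') := by
    rw [e1, Real.mul_rpow hA.le hn0.le, Real.rpow_sub hn0]
    field_simp
  rw [e2]
  exact Real.rpow_le_rpow_of_exponent_ge hn0 h1 (by linarith)

/-- Fatou (`lintegral_liminf_le'`) along `d = 1 / (n + 1)`. -/
theorem lint_of_max {V : Set E} {N : E → ℝ} (hN : AEMeasurable N (μ.restrict V)) (c : ℝ)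
    {C : ℝ≥0∞} (h : ∀ d : ℝ, 0 < d → d ≤ 1 →
      ∫⁻ w in V, ENNReal.ofReal (max (N w) d) ^ (-c) ∂μ ≤ C) :
    ∫⁻ w in V, ENNReal.ofReal (N w) ^ (-c) ∂μ ≤ C := by
  have h1 : ∀ w, liminf (fun n : ℕ => ENNReal.ofReal (max (N w) (1 / ((n : ℝ) + 1))) ^ (-c)) atTop =
      ENNReal.ofReal (N w) ^ (-c) := fun w => by
    have h2 : Continuous fun d : ℝ => ENNReal.ofReal (max (N w) d) ^ (-c) :=
      ENNReal.continuous_rpow_const.comp
        (ENNReal.continuous_ofReal.comp (continuous_const.max continuous_id))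
    have h3 := ((h2.tendsto 0).comp tendsto_one_div_add_atTop_nhds_zero_nat).liminf_eq
    rw [ENNReal.ofReal_max, ENNReal.ofReal_zero, max_eq_left zero_le] at h3
    exact h3
  simp only [← h1]
  refine (lintegral_liminf_le' fun n => ?_).trans ?_
  · exact ((hN.max aemeasurable_const).ennreal_ofReal).pow_const _
  · refine liminf_le_of_frequently_le' (Frequently.of_forall fun n => h _ (by positivity) ?_)
    rw [div_le_one (by positivity)]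
    linarith [(Nat.cast_nonneg n : (0 : ℝ) ≤ n)]

/-- `ex_mono`: `‖g i‖ ≤ C ‖g i‖ ^ (lam' i / lam i) ≤ C (nw g lam) ^ (lam' i / 2)` near `z`. -/
theorem ex_mono_lam {g : ι → E → ℂ} {z : E} (hg : ∀ i, AnalyticAt ℂ (g i) z) {lam lam' : ι → ℝ}
    (h : ∀ i, 0 < lam' i → lam' i ≤ lam i) : ex μ g lam' z ≤ ex μ g lam z := by
  refine ex_mono μ hg fun i hi => ⟨(‖g i z‖ + 1) ^ (1 - lam' i / lam i), ?_⟩
  have hl : 0 < lam i := hi.trans_le (h i hi)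
  have hr : 0 ≤ 1 - lam' i / lam i := sub_nonneg.2 ((div_le_one hl).2 (h i hi))
  filter_upwards [(hg i).continuousAt.norm.eventually (Iic_mem_nhds (lt_add_one ‖g i z‖))] with w hw
  have h1 : ‖g i w‖ ^ (2 / lam i) ≤ nw g lam w :=
    Finset.single_le_sum (f := fun i => ‖g i w‖ ^ (2 / lam i)) (fun _ _ => by positivity)
      (Finset.mem_filter.2 ⟨Finset.mem_univ i, hl⟩)
  have h2 : ‖g i w‖ = ‖g i w‖ ^ (1 - lam' i / lam i) * (‖g i w‖ ^ (2 / lam i)) ^ (lam' i / 2) := by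
    rw [← Real.rpow_mul (norm_nonneg _), ← Real.rpow_add' (norm_nonneg _)]
    · rw [show 1 - lam' i / lam i + 2 / lam i * (lam' i / 2) = 1 by ring, Real.rpow_one]
    · rw [show 1 - lam' i / lam i + 2 / lam i * (lam' i / 2) = 1 by ring]
      exact one_ne_zero
  refine h2.trans_le (mul_le_mul (Real.rpow_le_rpow (norm_nonneg _) hw hr)
    (Real.rpow_le_rpow (by positivity) h1 (by positivity)) (by positivity) (by positivity))

/-- expand in a basis of `V`. -/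
theorem ev_bound {V : Type} [NormedAddCommGroup V] [NormedSpace ℂ V] [FiniteDimensional ℂ V]
    (ev : V →ₗ[ℂ] (E → ℂ)) {K : Set E} (hK : IsCompact K) (hev : ∀ s, ContinuousOn (ev s) K) :
    ∃ C : ℝ, 0 < C ∧ ∀ s, ∀ w ∈ K, ‖ev s w‖ ≤ C * ‖s‖ := by
  let b := Module.finBasis ℂ V
  choose M hM using fun j => hK.exists_bound_of_continuousOn (hev (b j))
  refine ⟨1 + ∑ j, ‖LinearMap.toContinuousLinearMap (b.coord j)‖ * |M j|, by positivity,
    fun s w hw => ?_⟩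
  have h1 : ev s w = ∑ j, b.repr s j * ev (b j) w := by
    conv_lhs => rw [← b.sum_repr s, map_sum, Finset.sum_apply]
    simp only [map_smul, Pi.smul_apply, smul_eq_mul]
  rw [h1, add_mul, Finset.sum_mul]
  refine (norm_sum_le _ _).trans (le_add_of_nonneg_of_le (by positivity)
    (Finset.sum_le_sum fun j _ => ?_))
  have h2 : ‖b.repr s j‖ ≤ ‖LinearMap.toContinuousLinearMap (b.coord j)‖ * ‖s‖ :=
    (LinearMap.toContinuousLinearMap (b.coord j)).le_opNorm s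
  rw [norm_mul, mul_right_comm]
  exact mul_le_mul h2 ((hM j w hw).trans (le_abs_self _)) (norm_nonneg _) (by positivity)

end Crest.Agent.R271
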