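import Crest.Agent.R271.Defs

/-! Row 271, part C: definitions for the variational argument. -/

set_option autoImplicit false

namespace Crest.Agent.R271

open Filter Topology

section
variable {S : Type} [CommRing S] [Algebra ℂ S]

/-- the Hilbert function. -/
noncomputable def rk (V : Submodule ℂ S) (k : ℕ) : ℕ := Module.finrank ℂ ↥(V ^ k)

/-- the index set of a system of bases of `V ^ k`, `k ≤ K`. -/
abbrev Idx (V : Submodule ℂ S) (K : ℕ) : Type := Σ k : Fin (K + 1), Fin (rk V k)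

/-- a system of bases. -/
def IsSys (V : Submodule ℂ S) (K : ℕ) (b : Idx V K → S) : Prop :=
  ∀ k : Fin (K + 1), (∀ i, b ⟨k, i⟩ ∈ V ^ (k : ℕ)) ∧ LinearIndependent ℂ fun i => b ⟨k, i⟩

/-- Gibbs weights. -/
noncomputable def gw {V : Submodule ℂ S} {K : ℕ} (τ : ℝ) (lam : Idx V K → ℝ) (i : Idx V K) : ℝ :=
  Real.exp (-(τ * (((i.1 : ℕ) : ℝ) + lam i)))

/-- the partition function. -/
noncomputable def part {V : Submodule ℂ S} {K : ℕ} (τ : ℝ) (lam : Idx V K → ℝ) : ℝ :=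
  ∑ i, gw τ lam i

/-- the valuation ideal `{v ≥ c}`. -/
def Val.ge (v : Val S) (c : ℝ) : Ideal S where
  carrier := {f | f = 0 ∨ c ≤ v.v f}
  zero_mem' := Or.inl rfl
  add_mem' {f g} hf hg := by
    by_cases h0 : f + g = 0
    · exact Or.inl h0
    by_cases hf0 : f = 0
    · rwa [hf0, zero_add]
    by_cases hg0 : g = 0
    · rwa [hg0, add_zero]
    exact Or.inr ((le_min (hf.resolve_left hf0) (hg.resolve_left hg0)).trans (v.add f g hf0 hg0 h0))
  smul_mem' r f hf := by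
    by_cases h0 : r * f = 0
    · exact Or.inl h0
    have hf0 : f ≠ 0 := right_ne_zero_of_mul h0
    refine Or.inr ?_
    rw [smul_eq_mul, v.mul r f (left_ne_zero_of_mul h0) hf0]
    exact (hf.resolve_left hf0).trans (le_add_of_nonneg_left (v.nonneg r))

/-- the valuation ideal `{v > c}`; `v.gt 0` is the centre. -/
def Val.gt (v : Val S) (c : ℝ) : Ideal S where
  carrier := {f | f = 0 ∨ c < v.v f}
  zero_mem' := Or.inl rfl
  add_mem' {f g} hf hg := by
    by_cases h0 : f + g = 0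
    · exact Or.inl h0
    by_cases hf0 : f = 0
    · rwa [hf0, zero_add]
    by_cases hg0 : g = 0
    · rwa [hg0, add_zero]
    exact Or.inr
      ((lt_min (hf.resolve_left hf0) (hg.resolve_left hg0)).trans_le (v.add f g hf0 hg0 h0))
  smul_mem' r f hf := by
    by_cases h0 : r * f = 0
    · exact Or.inl h0
    have hf0 : f ≠ 0 := right_ne_zero_of_mul h0
    refine Or.inr ?_
    rw [smul_eq_mul, v.mul r f (left_ne_zero_of_mul h0) hf0]
    exact (hf.resolve_left hf0).trans_le (le_add_of_nonneg_left (v.nonneg r))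

theorem Val.mem_ge {v : Val S} {c : ℝ} {f : S} : f ∈ v.ge c ↔ f = 0 ∨ c ≤ v.v f := Iff.rfl

theorem Val.mem_gt {v : Val S} {c : ℝ} {f : S} : f ∈ v.gt c ↔ f = 0 ∨ c < v.v f := Iff.rfl

/-- the elements which are `O(N ^ (c / 2))` near `z`. -/
def gI {E : Type} [TopologicalSpace E] (ev : S →ₐ[ℂ] (E → ℂ)) {z : E}
    (hev : ∀ f, ContinuousAt (ev f) z) (N : E → ℝ) (c : ℝ) : Ideal S where
  carrier := {x | ∃ C : ℝ, ∀ᶠ w in 𝓝 z, ‖ev x w‖ ≤ C * |N w| ^ (c / 2)}
  zero_mem' := ⟨0, Eventually.of_forall fun w => by simp⟩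
  add_mem' := by
    rintro f g ⟨C, hC⟩ ⟨C', hC'⟩
    refine ⟨C + C', (hC.and hC').mono fun w hw => ?_⟩
    rw [map_add, Pi.add_apply, add_mul]
    exact (norm_add_le _ _).trans (add_le_add hw.1 hw.2)
  smul_mem' r f := by
    rintro ⟨C, hC⟩
    have h1 : ∀ᶠ w in 𝓝 z, ‖ev r w‖ < ‖ev r z‖ + 1 :=
      (hev r).norm.eventually (gt_mem_nhds (lt_add_one _))
    refine ⟨(‖ev r z‖ + 1) * C, (hC.and h1).mono fun w hw => ?_⟩
    rw [smul_eq_mul, map_mul, Pi.mul_apply, norm_mul, mul_assoc]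
    exact mul_le_mul hw.2.le hw.1 (norm_nonneg _) (by positivity)

end

/-- a non-archimedean "norm" (the value at `0` is irrelevant). -/
structure NA {M Γ : Type} [AddCommGroup M] [Module ℂ M] [LinearOrder Γ] (ν : M → Γ) : Prop where
  smul : ∀ (c : ℂ) (s : M), c ≠ 0 → ν (c • s) = ν s
  add : ∀ s s' : M, s ≠ 0 → s' ≠ 0 → s + s' ≠ 0 → min (ν s) (ν s') ≤ ν (s + s')

/-- one dimensional leaves. -/
def Leaf {M Γ : Type} [AddCommGroup M] [Module ℂ M] [LinearOrder Γ] (ν : M → Γ) : Prop :=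
  ∀ s s' : M, s ≠ 0 → s' ≠ 0 → ν s = ν s' → ∃ c : ℂ, s - c • s' = 0 ∨ ν s < ν (s - c • s')

/-- an orthogonal family. -/
def Orth {M Γ ι : Type} [AddCommGroup M] [Module ℂ M] [LinearOrder Γ] [Fintype ι] (ν : M → Γ)
    (f : ι → M) : Prop :=
  ∀ (c : ι → ℂ) (i : ι), c i ≠ 0 → ν (∑ j, c j • f j) ≤ ν (f i)

/-- the lowest monomial of a power series for the degree lexicographic order. -/
noncomputable def lowT {d : ℕ} (f : MvPowerSeries (Fin d) ℂ) : DegLex (Fin d →₀ ℕ) := by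
  classical
  exact if h : {α : DegLex (Fin d →₀ ℕ) | MvPowerSeries.coeff (ofDegLex α) f ≠ 0}.Nonempty then
    wellFounded_lt.min _ h else 0

end Crest.Agent.R271
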