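import Crest.Agent.R271.Ex0

/-! Row 271, part B: ultrafilters and valuations. -/

set_option autoImplicit false

namespace Crest.Agent.R271

open MeasureTheory Filter Topology
open scoped ENNReal NNReal

variable {E : Type} [NormedAddCommGroup E] [NormedSpace ℂ E] [FiniteDimensional ℂ E]
  [MeasurableSpace E] [BorelSpace E] (μ : Measure E) [μ.IsAddHaarMeasure]
  {ι ι' : Type} [Fintype ι] [Fintype ι'] {g : ι → E → ℂ} {z : E}

section aux

omit [FiniteDimensional ℂ E] in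
theorem ExU_gm {f : E → ℂ} (hf : AnalyticAt ℂ f z) :
    ∃ f' : E → ℂ, Measurable f' ∧ f =ᶠ[𝓝 z] f' := by
  classical
  obtain ⟨O, hO, hOo, hz⟩ := eventually_nhds_iff.1 hf.eventually_analyticAt
  refine ⟨O.piecewise f 0, ContinuousOn.measurable_piecewise
    (fun w hw => (hO w hw).continuousAt.continuousWithinAt) continuousOn_const hOo.measurableSet, ?_⟩
  filter_upwards [hOo.mem_nhds hz] with w hw
  rw [Set.piecewise_eq_of_mem _ _ _ hw]

omit [NormedSpace ℂ E] [FiniteDimensional ℂ E] [μ.IsAddHaarMeasure] in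
theorem ExU_congr {ω ω' : E → ℝ≥0∞} (h : IntNear μ ω z) (e : ω =ᶠ[𝓝 z] ω') : IntNear μ ω' z := by
  obtain ⟨V, hV, hI⟩ := h
  obtain ⟨O, hO, hOo, hz⟩ := mem_nhds_iff.1 (inter_mem hV e)
  refine ⟨O, hOo.mem_nhds hz, ?_⟩
  rw [← setLIntegral_congr_fun hOo.measurableSet (f := ω) fun w hw => (hO hw).2]
  exact (lintegral_mono_set fun w hw => (hO hw).1).trans_lt hI

theorem ExU_rpow_le (x : ℝ≥0∞) {c c' : ℝ} (h0 : 0 ≤ c) (h : c ≤ c') : x ^ (-c) ≤ 1 + x ^ (-c') := by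
  rcases le_total x 1 with hx | hx
  · exact (ENNReal.rpow_le_rpow_of_exponent_ge hx (neg_le_neg h)).trans le_add_self
  · exact ((ENNReal.rpow_le_rpow_of_exponent_le hx (neg_nonpos.2 h0)).trans_eq
      (ENNReal.rpow_zero)).trans le_self_add

theorem ExU_ball : μ (Metric.ball z 1) < ∞ := by
  haveI : ProperSpace E := FiniteDimensional.proper_rclike ℂ E
  exact measure_ball_lt_top

theorem ExU_int_le {N : E → ℝ≥0∞} {A : Set E} {c c' : ℝ} (h0 : 0 ≤ c) (h : c ≤ c')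
    (hI : ∫⁻ w in A ∩ Metric.ball z 1, N w ^ (-c') ∂μ < ∞) :
    ∫⁻ w in A ∩ Metric.ball z 1, N w ^ (-c) ∂μ < ∞ := by
  refine (lintegral_mono fun w => ExU_rpow_le (N w) h0 h).trans_lt ?_
  rw [lintegral_add_left measurable_const, setLIntegral_const, one_mul]
  exact ENNReal.add_lt_top.2 ⟨(measure_mono Set.inter_subset_right).trans_lt (ExU_ball μ), hI⟩

/-- the key property of the ultrafilter. -/
def ExU_K (N : E → ℝ) (c₀ : ℝ) (z : E) (U : Ultrafilter E) : Prop :=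
  (U : Filter E) ≤ 𝓝 z ∧ ∀ c, c₀ < c → ∀ (ω ω' : E → ℝ≥0∞) (C : ℝ≥0∞), Measurable ω' →
    ω =ᶠ[𝓝 z] ω' → C ≠ ∞ → IntNear μ ω z →
      ¬ ∀ᶠ w in (U : Filter E), ENNReal.ofReal (N w) ^ (-c) ≤ C * ω w

theorem ExU_ultra {N : E → ℝ} {c₀ : ℝ} (hc₀ : 0 ≤ c₀)
    (h : ∀ c, c₀ < c → ¬ IntNear μ (fun w => ENNReal.ofReal (N w) ^ (-c)) z) :
    ∃ U : Ultrafilter E, ExU_K μ N c₀ z U := by
  let F : Filter E := Filter.comk
    (fun A => ∃ c, c₀ < c ∧ ∫⁻ w in A ∩ Metric.ball z 1, ENNReal.ofReal (N w) ^ (-c) ∂μ < ∞)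
    ⟨c₀ + 1, by linarith, by simp⟩
    (fun t ⟨c, hc, hI⟩ s hs =>
      ⟨c, hc, (lintegral_mono_set (Set.inter_subset_inter_left _ hs)).trans_lt hI⟩)
    (fun s ⟨c, hc, hI⟩ t ⟨c', hc', hI'⟩ => ⟨min c c', lt_min hc hc', by
      rw [Set.union_inter_distrib_right]
      have h0 : 0 ≤ min c c' := hc₀.trans (lt_min hc hc').le
      exact (lintegral_union_le _ _ _).trans_lt (ENNReal.add_lt_top.2
        ⟨ExU_int_le μ h0 (min_le_left _ _) hI, ExU_int_le μ h0 (min_le_right _ _) hI'⟩)⟩)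
  haveI : (F ⊓ 𝓝 z).NeBot := by
    refine inf_neBot_iff.2 fun s hs V hV => ?_
    obtain ⟨c, hc, hI⟩ := mem_comk.1 hs
    by_contra hne
    refine h c hc ⟨V ∩ Metric.ball z 1, inter_mem hV (Metric.ball_mem_nhds z one_pos), ?_⟩
    refine (lintegral_mono_set (Set.inter_subset_inter_left _ fun w hw hw' => ?_)).trans_lt hI
    exact hne ⟨w, hw', hw⟩
  have hU := Ultrafilter.of_le (F ⊓ 𝓝 z)
  refine ⟨Ultrafilter.of (F ⊓ 𝓝 z), hU.trans inf_le_right, fun c hc ω ω' C hm he hC hI hev => ?_⟩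
  obtain ⟨V, hV, hI'⟩ := ExU_congr μ hI he
  have hz := hU.trans inf_le_right
  have h1 : {w | w ∈ V ∧ ENNReal.ofReal (N w) ^ (-c) ≤ C * ω' w} ∈ Ultrafilter.of (F ⊓ 𝓝 z) := by
    filter_upwards [hev, hz hV, hz he] with w h1 h2 h3
    exact ⟨h2, by rw [← show ω w = ω' w from h3]; exact h1⟩
  have h2 : {w | w ∈ V ∧ ENNReal.ofReal (N w) ^ (-c) ≤ C * ω' w}ᶜ ∈ F := by
    refine mem_comk.2 ⟨c, hc, ?_⟩
    rw [compl_compl]
    refine (setLIntegral_mono (hm.const_mul C) fun w hw => hw.1.2).trans_lt ?_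
    refine (lintegral_mono_set (t := V) fun w hw => hw.1.1).trans_lt ?_
    rw [lintegral_const_mul _ hm]
    exact ENNReal.mul_lt_top hC.lt_top hI'
  exact (Ultrafilter.compl_mem_iff_notMem.1 (hU.trans inf_le_left h2)) h1

variable {μ} {N : E → ℝ} {c₀ : ℝ} {U : Ultrafilter E}

theorem ExU_K.tendsto (K : ExU_K μ N c₀ z U) (hc₀ : 0 ≤ c₀) (hN : ∀ᶠ w in (U : Filter E), 0 < N w) :
    Tendsto N U (𝓝[>] 0) := by
  refine tendsto_nhdsWithin_iff.2 ⟨tendsto_order.2 ⟨fun a ha => hN.mono fun w hw => ha.trans hw,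
    fun ε hε => ?_⟩, hN⟩
  by_contra hc
  rw [← Ultrafilter.eventually_not] at hc
  refine K.2 (c₀ + 1) (by linarith) (fun _ => 1) (fun _ => 1) (ENNReal.ofReal ε ^ (-(c₀ + 1)))
    measurable_const EventuallyEq.rfl ?_ ⟨_, Metric.ball_mem_nhds z one_pos, ?_⟩ (hc.mono fun w hw => ?_)
  · rw [ENNReal.ofReal_rpow_of_pos hε]; exact ENNReal.ofReal_ne_top
  · simpa using ExU_ball μ
  · rw [mul_one, ENNReal.rpow_neg, ENNReal.rpow_neg, ENNReal.inv_le_inv]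
    exact ENNReal.rpow_le_rpow (ENNReal.ofReal_le_ofReal (not_lt.1 hw)) (by linarith)

omit [FiniteDimensional ℂ E] [μ.IsAddHaarMeasure] in
theorem ExU_K.not_le (K : ExU_K μ N c₀ z U) {f : E → ℂ} (hf : AnalyticAt ℂ f z) {a c : ℝ}
    (hI : IntNear μ (fun w => ‖f w‖ₑ ^ (-(2 * a))) z) (hc : c₀ < c) :
    ¬ ∀ᶠ w in (U : Filter E), ENNReal.ofReal (N w) ^ (-c) ≤ ‖f w‖ₑ ^ (-(2 * a)) := by
  obtain ⟨f', hm, he⟩ := ExU_gm hf
  have := K.2 c hc _ (fun w => ‖f' w‖ₑ ^ (-(2 * a))) 1 (hm.enorm.pow_const _)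
    (he.mono fun w hw => by simp only [hw]) ENNReal.one_ne_top hI
  simpa only [one_mul] using this

omit [FiniteDimensional ℂ E] [μ.IsAddHaarMeasure] in
theorem ExU_K.ne_zero (K : ExU_K μ N c₀ z U) {f : E → ℂ} (hf : AnalyticAt ℂ f z)
    (hnz : ∃ c : ℝ, 0 < c ∧ IntNear μ (fun w => ‖f w‖ₑ ^ (-(2 * c))) z) :
    ∀ᶠ w in (U : Filter E), f w ≠ 0 := by
  obtain ⟨a, ha, hI⟩ := hnz
  by_contra hc
  rw [← Ultrafilter.eventually_not] at hc
  refine K.not_le hf hI (lt_add_one c₀) (hc.mono fun w hw => ?_)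
  rw [not_not.1 hw, enorm_zero, ENNReal.zero_rpow_of_neg (by linarith)]
  exact le_top

/-- `v` is the order of vanishing of `f` along `U`. -/
def ExU_V (N : E → ℝ) (U : Ultrafilter E) (f : E → ℂ) (v : ℝ) : Prop :=
  (∀ᶠ w in (U : Filter E), f w ≠ 0) ∧
    Tendsto (fun w => 2 * Real.log ‖f w‖ / Real.log (N w)) U (𝓝 v)

end aux

section aux2
variable {E : Type} {N : E → ℝ} {U : Ultrafilter E} {f f' : E → ℂ} {v v' a : ℝ}

theorem ExU_small (hN : Tendsto N U (𝓝[>] 0)) :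
    ∀ᶠ w in (U : Filter E), 0 < N w ∧ Real.log (N w) < 0 := by
  filter_upwards [hN (Ioo_mem_nhdsGT one_pos)] with w hw
  exact ⟨hw.1, Real.log_neg hw.1 hw.2⟩

theorem ExU_sq_le {x y a : ℝ} (hx : 0 < x) (hy : 0 < y) :
    x ^ 2 ≤ y ^ a ↔ 2 * Real.log x ≤ a * Real.log y := by
  rw [← Real.log_le_log_iff (by positivity) (by positivity), Real.log_pow, Real.log_rpow hy]
  norm_num

theorem ExU_le_sq {x y a : ℝ} (hx : 0 < x) (hy : 0 < y) :
    y ^ a ≤ x ^ 2 ↔ a * Real.log y ≤ 2 * Real.log x := by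
  rw [← Real.log_le_log_iff (by positivity) (by positivity), Real.log_pow, Real.log_rpow hy]
  norm_num

theorem ExU_V.le (h : ExU_V N U f v) (hN : Tendsto N U (𝓝[>] 0)) (ha : a < v) :
    ∀ᶠ w in (U : Filter E), ‖f w‖ ^ 2 ≤ N w ^ a := by
  filter_upwards [h.1, ExU_small hN, h.2 (Ioi_mem_nhds ha)] with w h1 h2 h3
  rw [ExU_sq_le (norm_pos_iff.2 h1) h2.1]
  exact ((lt_div_iff_of_neg h2.2).1 h3).le

theorem ExU_V.ge (h : ExU_V N U f v) (hN : Tendsto N U (𝓝[>] 0)) (ha : v < a) :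
    ∀ᶠ w in (U : Filter E), N w ^ a ≤ ‖f w‖ ^ 2 := by
  filter_upwards [h.1, ExU_small hN, h.2 (Iio_mem_nhds ha)] with w h1 h2 h3
  rw [ExU_le_sq (norm_pos_iff.2 h1) h2.1]
  exact ((div_lt_iff_of_neg h2.2).1 h3).le

theorem ExU_tendsto_rpow (hN : Tendsto N U (𝓝[>] 0)) (ha : 0 < a) :
    Tendsto (fun w => N w ^ a) U (𝓝 0) := by
  have := (hN.mono_right nhdsWithin_le_nhds).rpow_const (p := a) (Or.inr ha.le)
  rwa [Real.zero_rpow ha.ne'] at this

theorem ExU_V.le_of (h : ExU_V N U f v) (hN : Tendsto N U (𝓝[>] 0)) {C : ℝ}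
    (hC : ∀ᶠ w in (U : Filter E), ‖f w‖ ^ 2 ≤ C * N w ^ a) : a ≤ v := by
  by_contra hlt
  have hlt' : v < a := not_le.1 hlt
  have h1 := (ExU_tendsto_rpow hN (a := (a - v) / 2) (by linarith)).const_mul C
  rw [mul_zero] at h1
  obtain ⟨w, h2, h3, h4, h5⟩ := ((h.ge hN (a := (a + v) / 2) (by linarith)).and
    (hC.and ((ExU_small hN).and (h1 (Iio_mem_nhds one_pos))))).exists
  have e : N w ^ a = N w ^ ((a - v) / 2) * N w ^ ((a + v) / 2) := by
    rw [← Real.rpow_add h4.1]; congr 1; ring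
  have h6 : 0 < N w ^ ((a + v) / 2) := Real.rpow_pos_of_pos h4.1 _
  have h7 : C * N w ^ ((a - v) / 2) < 1 := h5
  rw [e, ← mul_assoc] at h3
  nlinarith

theorem ExU_V.mul (h : ExU_V N U f v) (h' : ExU_V N U f' v') : ExU_V N U (f * f') (v + v') := by
  refine ⟨(h.1.and h'.1).mono fun w hw => mul_ne_zero hw.1 hw.2, (h.2.add h'.2).congr' ?_⟩
  filter_upwards [h.1, h'.1] with w h1 h2
  rw [Pi.mul_apply, norm_mul, Real.log_mul (norm_ne_zero_iff.2 h1) (norm_ne_zero_iff.2 h2)]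
  ring

theorem ExU_V.add {v'' : ℝ} (h : ExU_V N U f v) (h' : ExU_V N U f' v')
    (h'' : ExU_V N U (f + f') v'') (hN : Tendsto N U (𝓝[>] 0)) : min v v' ≤ v'' := by
  refine le_of_forall_lt_imp_le_of_dense fun a ha => h''.le_of hN (C := 4) ?_
  filter_upwards [h.le hN (ha.trans_le (min_le_left _ _)), h'.le hN (ha.trans_le (min_le_right _ _))]
    with w h1 h2
  have h3 := pow_le_pow_left₀ (norm_nonneg _) (norm_add_le (f w) (f' w)) 2
  rw [Pi.add_apply]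
  nlinarith [sq_nonneg (‖f w‖ - ‖f' w‖)]

theorem ExU_V.nw_le {ι : Type} [Fintype ι] {g : ι → E → ℂ} {u : ι → ℝ}
    (h : ∀ i, ExU_V N U (g i) (u i)) (hN : Tendsto N U (𝓝[>] 0)) (ha : a < 1) :
    ∀ᶠ w in (U : Filter E), nw g u w ≤ (Fintype.card ι + 1) * N w ^ a := by
  have h1 : ∀ i, ∀ᶠ w in (U : Filter E), 0 < u i → ‖g i w‖ ^ (2 / u i) ≤ N w ^ a := fun i => by
    by_cases hi : 0 < u i
    · filter_upwards [(h i).le hN (a := a * u i) (by nlinarith), ExU_small hN] with w h1 h2 _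
      have := Real.rpow_le_rpow (sq_nonneg _) h1 (inv_pos.2 hi).le
      rwa [← Real.rpow_mul h2.1.le, mul_inv_cancel_right₀ hi.ne', ← Real.rpow_natCast,
        ← Real.rpow_mul (norm_nonneg _), Nat.cast_ofNat, ← div_eq_mul_inv] at this
    · exact Eventually.of_forall fun w hw => absurd hw hi
  filter_upwards [eventually_all.2 h1, ExU_small hN] with w h2 h3
  have h4 : 0 < N w ^ a := Real.rpow_pos_of_pos h3.1 _
  have h5 := Finset.sum_le_card_nsmul (Finset.univ.filter fun i => 0 < u i)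
    (fun i => ‖g i w‖ ^ (2 / u i)) _ fun i hi => h2 i (Finset.mem_filter.1 hi).2
  have h6 : ((Finset.univ.filter fun i => 0 < u i).card : ℝ) ≤ Fintype.card ι := by
    exact_mod_cast Finset.card_le_univ _
  rw [nsmul_eq_mul] at h5
  unfold nw
  nlinarith

end aux2

section aux3
variable {μ} {N : E → ℝ} {c₀ : ℝ} {U : Ultrafilter E}

omit [FiniteDimensional ℂ E] [MeasurableSpace E] [BorelSpace E] in
theorem ExU_V.nonneg {f : E → ℂ} {v : ℝ} (h : ExU_V N U f v) (hN : Tendsto N U (𝓝[>] 0))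
    (hU : (U : Filter E) ≤ 𝓝 z) (hf : AnalyticAt ℂ f z) : 0 ≤ v := by
  refine h.le_of hN (C := ‖f z‖ ^ 2 + 1) ?_
  have h1 : Tendsto (fun w => ‖f w‖ ^ 2) U (𝓝 (‖f z‖ ^ 2)) :=
    ((hf.continuousAt.tendsto.mono_left hU).norm).pow 2
  filter_upwards [h1 (Iio_mem_nhds (lt_add_one _))] with w hw
  rw [Real.rpow_zero, mul_one]
  exact le_of_lt hw

omit [FiniteDimensional ℂ E] [MeasurableSpace E] [BorelSpace E] in
theorem ExU_V.zero {f : E → ℂ} {v : ℝ} (h : ExU_V N U f v) (hN : Tendsto N U (𝓝[>] 0))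
    (hU : (U : Filter E) ≤ 𝓝 z) (hf : AnalyticAt ℂ f z) (hv : 0 < v) : f z = 0 := by
  have h1 : Tendsto (fun w => ‖f w‖ ^ 2) U (𝓝 (‖f z‖ ^ 2)) :=
    ((hf.continuousAt.tendsto.mono_left hU).norm).pow 2
  have h2 := le_of_tendsto_of_tendsto h1 (ExU_tendsto_rpow hN (half_pos hv))
    (h.le hN (half_lt_self hv))
  exact norm_eq_zero.1 (pow_eq_zero_iff two_ne_zero |>.1 (le_antisymm h2 (sq_nonneg _)))

omit [FiniteDimensional ℂ E] [μ.IsAddHaarMeasure] in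
theorem ExU_K.exists_V (K : ExU_K μ N c₀ z U) (hN : Tendsto N U (𝓝[>] 0)) {f : E → ℂ}
    (hf : AnalyticAt ℂ f z) (hnz : ∃ c : ℝ, 0 < c ∧ IntNear μ (fun w => ‖f w‖ₑ ^ (-(2 * c))) z) :
    ∃ v, ExU_V N U f v := by
  have h0 := K.ne_zero hf hnz
  obtain ⟨a, ha, hI⟩ := hnz
  have hup : ∀ᶠ w in (U : Filter E), 2 * Real.log ‖f w‖ / Real.log (N w) ≤ (c₀ + 1) / a := by
    have h1 := K.not_le hf hI (lt_add_one c₀)
    rw [← Ultrafilter.eventually_not] at h1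
    filter_upwards [h0, h1, ExU_small hN] with w h2 h3 h4
    have h5 := norm_pos_iff.2 h2
    rw [← ofReal_norm_eq_enorm, ENNReal.ofReal_rpow_of_pos h4.1, ENNReal.ofReal_rpow_of_pos h5,
      ENNReal.ofReal_le_ofReal_iff (by positivity), _root_.not_le,
      ← Real.log_lt_log_iff (by positivity) (Real.rpow_pos_of_pos h4.1 _), Real.log_rpow h5,
      Real.log_rpow h4.1] at h3
    rw [div_le_iff_of_neg h4.2, div_mul_eq_mul_div, div_le_iff₀ ha]
    linarith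
  have hlo : ∀ᶠ w in (U : Filter E), -1 ≤ 2 * Real.log ‖f w‖ / Real.log (N w) := by
    have h1 : Tendsto (fun w => ‖f w‖ ^ 2 * N w) U (𝓝 (‖f z‖ ^ 2 * 0)) :=
      (((hf.continuousAt.tendsto.mono_left K.1).norm).pow 2).mul (hN.mono_right nhdsWithin_le_nhds)
    rw [mul_zero] at h1
    filter_upwards [h0, h1 (Iio_mem_nhds one_pos), ExU_small hN] with w h2 h3 h4
    have h5 := norm_pos_iff.2 h2
    have h6 := Real.log_neg (mul_pos (pow_pos h5 2) h4.1) h3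
    rw [Real.log_mul (pow_pos h5 2).ne' h4.1.ne', Real.log_pow] at h6
    rw [le_div_iff_of_neg h4.2]
    push_cast at h6
    linarith
  obtain ⟨v, -, hv⟩ := (isCompact_Icc (a := (-1 : ℝ)) (b := (c₀ + 1) / a)).ultrafilter_le_nhds'
    (U.map fun w => 2 * Real.log ‖f w‖ / Real.log (N w)) (hlo.and hup)
  exact ⟨v, h0, hv⟩

omit [FiniteDimensional ℂ E] [μ.IsAddHaarMeasure] in
theorem ExU_K.not_int (K : ExU_K μ N c₀ z U) {f : E → ℂ} (hf : AnalyticAt ℂ f z)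
    (hg : ∀ i, AnalyticAt ℂ (g i) z) (u : ι → ℝ) {c c' : ℝ} (hc' : c₀ < c') {C : ℝ≥0∞} (hC : C ≠ ∞)
    (h : ∀ᶠ w in (U : Filter E), ENNReal.ofReal (N w) ^ (-c') ≤
      C * (‖f w‖ₑ ^ 2 * ENNReal.ofReal (nw g u w) ^ (-c))) :
    ¬ IntNear μ (fun w => ‖f w‖ₑ ^ 2 * ENNReal.ofReal (nw g u w) ^ (-c)) z := by
  intro hI
  obtain ⟨f', hm, he⟩ := ExU_gm hf
  choose g' hgm hge using fun i => ExU_gm (hg i)
  refine K.2 c' hc' _ (fun w => ‖f' w‖ₑ ^ 2 * ENNReal.ofReal (nw g' u w) ^ (-c)) C ?_ ?_ hC hI h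
  · refine (hm.enorm.pow_const _).mul (Measurable.pow_const (ENNReal.measurable_ofReal.comp ?_) _)
    exact Finset.measurable_sum _ fun i _ => (hgm i).norm.pow_const _
  · filter_upwards [he, eventually_all.2 hge] with w h1 h2
    simp only [nw, h1, h2]

omit [FiniteDimensional ℂ E] [μ.IsAddHaarMeasure] in
theorem ExU_K.final (K : ExU_K μ N c₀ z U) (hc₀ : 0 ≤ c₀) (hN : Tendsto N U (𝓝[>] 0)) {f : E → ℂ}
    (hf : AnalyticAt ℂ f z) (hg : ∀ i, AnalyticAt ℂ (g i) z) {v : ℝ} (hv : ExU_V N U f v)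
    {u : ι → ℝ} (hu : ∀ i, ExU_V N U (g i) (u i)) {c : ℝ} (hc : v + c₀ < c) :
    ¬ IntNear μ (fun w => ‖f w‖ₑ ^ 2 * ENNReal.ofReal (nw g u w) ^ (-c)) z := by
  have hv0 := hv.nonneg hN K.1 hf
  have hc0 : 0 < c := by linarith
  obtain ⟨η, hη0, hη⟩ : ∃ η : ℝ, 0 < η ∧ η * (c + 1) < c - v - c₀ :=
    ⟨(c - v - c₀) / 2 / (c + 1), div_pos (by linarith) (by linarith), by
      rw [div_mul_cancel₀ _ (by linarith)]; linarith⟩
  obtain ⟨k, hk⟩ : ∃ k : ℝ, k = Fintype.card ι + 1 := ⟨_, rfl⟩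
  have hk0 : 0 < k := by rw [hk]; positivity
  refine K.not_int hf hg u (c' := (1 - η) * c - (v + η)) (by linarith)
    (C := ENNReal.ofReal (k ^ c)) ENNReal.ofReal_ne_top ?_
  filter_upwards [hv.ge hN (a := v + η) (by linarith),
    ExU_V.nw_le hu hN (a := 1 - η) (by linarith), ExU_small hN] with w h1 h2 h3
  rw [← hk] at h2
  have p1 : 0 < N w ^ (1 - η) := Real.rpow_pos_of_pos h3.1 _
  have e1 : ENNReal.ofReal (N w ^ (v + η)) ≤ ‖f w‖ₑ ^ 2 := by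
    rw [← ofReal_norm_eq_enorm, ← ENNReal.ofReal_pow (norm_nonneg _)]
    exact ENNReal.ofReal_le_ofReal h1
  have e2 : ENNReal.ofReal ((k * N w ^ (1 - η)) ^ (-c)) ≤ ENNReal.ofReal (nw g u w) ^ (-c) := by
    rw [← ENNReal.ofReal_rpow_of_pos (mul_pos hk0 p1), ENNReal.rpow_neg, ENNReal.rpow_neg,
      ENNReal.inv_le_inv]
    exact ENNReal.rpow_le_rpow (ENNReal.ofReal_le_ofReal h2) hc0.le
  refine le_trans (le_of_eq ?_) (mul_le_mul' le_rfl (mul_le_mul' e1 e2))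
  rw [ENNReal.ofReal_rpow_of_pos h3.1, ← ENNReal.ofReal_mul (Real.rpow_nonneg h3.1.le _),
    ← ENNReal.ofReal_mul (Real.rpow_nonneg hk0.le _), Real.mul_rpow hk0.le p1.le,
    ← Real.rpow_mul h3.1.le, Real.rpow_neg hk0.le, mul_left_comm (N w ^ (v + η)),
    mul_inv_cancel_left₀ (Real.rpow_pos_of_pos hk0 c).ne', ← Real.rpow_add h3.1]
  congr 2
  ring

end aux3

/-- **Duality.** -/
theorem intNear_prod (hg : ∀ i, AnalyticAt ℂ (g i) z)
    (hnz : ∀ i, ∃ c : ℝ, 0 < c ∧ IntNear μ (fun w => ‖g i w‖ₑ ^ (-(2 * c))) z) {p : ι → ℝ}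
    (hp : ∀ i, 0 < p i) (h : ∀ w : ι → ℝ, 0 ≤ w → ENNReal.ofReal (∑ i, p i * w i) ≤ ex μ g w z)
    {κ : ℝ} (hκ : 0 < κ) (hκ' : κ < 1) :
    IntNear μ (fun w => (ENNReal.ofReal (∏ i, ‖g i w‖ ^ (2 * (κ * p i))))⁻¹) z := by
  by_contra hI
  obtain ⟨U, K⟩ := ExU_ultra μ (z := z) (N := fun w => ∏ i, ‖g i w‖ ^ (2 * (κ * p i))) zero_le_one
    fun c hc ⟨V, hV, hV'⟩ => hI ⟨V ∩ Metric.ball z 1, inter_mem hV (Metric.ball_mem_nhds z one_pos), by
      simp only [← ENNReal.rpow_neg_one]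
      exact ExU_int_le μ zero_le_one hc.le ((lintegral_mono_set Set.inter_subset_left).trans_lt hV')⟩
  have h0 := eventually_all.2 fun i => K.ne_zero (hg i) (hnz i)
  have hN := K.tendsto zero_le_one (h0.mono fun w hw =>
    Finset.prod_pos fun i _ => Real.rpow_pos_of_pos (norm_pos_iff.2 (hw i)) _)
  choose u hu using fun i => K.exists_V hN (hg i) (hnz i)
  have hu0 : 0 ≤ u := fun i => (hu i).nonneg hN K.1 (hg i)
  have hsum : ∑ i, κ * p i * u i = 1 := by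
    refine tendsto_nhds_unique (tendsto_finset_sum _ fun i _ => (hu i).2.const_mul (κ * p i))
      (tendsto_const_nhds.congr' ?_)
    filter_upwards [h0, ExU_small hN] with w h1 h2
    simp only [← mul_div_assoc]
    rw [← Finset.sum_div, eq_div_iff h2.2.ne, one_mul,
      Real.log_prod fun i _ => (Real.rpow_pos_of_pos (norm_pos_iff.2 (h1 i)) _).ne']
    exact Finset.sum_congr rfl fun i _ => by rw [Real.log_rpow (norm_pos_iff.2 (h1 i))]; ring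
  have hs : 1 < ∑ i, p i * u i := by
    have e : κ * ∑ i, p i * u i = 1 := by
      rw [Finset.mul_sum, ← hsum]; exact Finset.sum_congr rfl fun i _ => by ring
    by_contra hc
    nlinarith [not_lt.1 hc]
  obtain ⟨c, hc1, hc2⟩ := exists_between hs
  have h1 : ExU_V (fun w => ∏ i, ‖g i w‖ ^ (2 * (κ * p i))) U (fun _ => (1 : ℂ)) 0 :=
    ⟨Eventually.of_forall fun _ => one_ne_zero, by simp⟩
  refine K.final zero_le_one hN analyticAt_const hg h1 hu (c := c) (by linarith) ?_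
  simpa using intNear_of_lt_ex μ hg (by linarith : 0 ≤ c)
    (((ENNReal.ofReal_lt_ofReal_iff (by linarith)).2 hc2).trans_le (h u hu0))

/-- **Valuations** computing the exponent. -/
theorem exists_val {S : Type} [CommRing S] [IsDomain S] [Algebra ℂ S] (ev : S →ₐ[ℂ] (E → ℂ))
    (hev : ∀ f, AnalyticAt ℂ (ev f) z)
    (hnz : ∀ f : S, f ≠ 0 → ∃ c : ℝ, 0 < c ∧ IntNear μ (fun w => ‖ev f w‖ₑ ^ (-(2 * c))) z)
    (b : ι → S) (hb : ∀ i, b i ≠ 0) {lam : ι → ℝ} (hl : 0 ≤ lam) {c₀ : ℝ} (hc₀ : 0 ≤ c₀)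
    (h : ex μ (fun i => ev (b i)) lam z ≤ ENNReal.ofReal c₀) :
    ∃ v : Val S, (∀ i, lam i ≤ v.v (b i)) ∧ (∀ f, f ≠ 0 → 0 < v.v f → ev f z = 0) ∧
      ∀ (κ : Type) [Fintype κ] (g : κ → S) (f : S) (c : ℝ), (∀ i, g i ≠ 0) → f ≠ 0 →
        v.v f + c₀ < c → ¬ IntNear μ (fun w => ‖ev f w‖ₑ ^ 2 *
          ENNReal.ofReal (nw (fun i => ev (g i)) (fun i => v.v (g i)) w) ^ (-c)) z := by
  classical
  obtain ⟨U, K⟩ := ExU_ultra μ (z := z) (N := nw (fun i => ev (b i)) lam) hc₀ fun c hc hI =>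
    absurd ((ENNReal.ofReal_le_ofReal_iff hc₀).1 ((le_ex μ hI).trans h)) (not_le.2 hc)
  by_cases hl0 : ∃ i, 0 < lam i
  swap
  · refine ⟨⟨fun _ => 0, fun _ => le_rfl, fun _ _ _ _ => (add_zero _).symm,
      fun _ _ _ _ _ => (min_self _).le, fun _ _ => rfl⟩, fun i => not_lt.1 fun hi => hl0 ⟨i, hi⟩,
      fun f _ h0 => absurd h0 (lt_irrefl _), fun κ _ g f c _ hf hc => ?_⟩
    refine K.not_int (hev f) (fun i => hev (g i)) _ (lt_add_one c₀) ENNReal.one_ne_top ?_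
    filter_upwards [K.ne_zero (hev f) (hnz f hf)] with w hw
    have h1 : 0 < c := by simp only [zero_add] at hc; linarith
    simp only [nw, lt_irrefl, Finset.filter_false, Finset.sum_empty, ENNReal.ofReal_zero, one_mul]
    rw [ENNReal.zero_rpow_of_neg (neg_neg_of_pos h1), ENNReal.mul_top (by simpa using hw)]
    exact le_top
  have hle : ∀ i, 0 < lam i → ∀ w, ‖ev (b i) w‖ ^ (2 / lam i) ≤ nw (fun i => ev (b i)) lam w :=
    fun i hi w => Finset.single_le_sum (f := fun i => ‖ev (b i) w‖ ^ (2 / lam i))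
      (fun i _ => Real.rpow_nonneg (norm_nonneg _) _) (Finset.mem_filter.2 ⟨Finset.mem_univ _, hi⟩)
  obtain ⟨i₀, hi₀⟩ := hl0
  have hN := K.tendsto hc₀ ((K.ne_zero (hev _) (hnz _ (hb i₀))).mono fun w hw =>
    (Real.rpow_pos_of_pos (norm_pos_iff.2 hw) _).trans_le (hle i₀ hi₀ w))
  have hex : ∀ f : S, ∃ v : ℝ, 0 ≤ v ∧ (f ≠ 0 → ExU_V (nw (fun i => ev (b i)) lam) U (ev f) v) :=
    fun f => by
      by_cases hf : f = 0
      · exact ⟨0, le_rfl, fun h => absurd hf h⟩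
      · obtain ⟨v, hv⟩ := K.exists_V hN (hev f) (hnz f hf)
        exact ⟨v, hv.nonneg hN K.1 (hev f), fun _ => hv⟩
  choose v hv0 hv using hex
  have hz : ∀ f, f ≠ 0 → 0 < v f → ev f z = 0 := fun f hf h0 => (hv f hf).zero hN K.1 (hev f) h0
  refine ⟨⟨v, hv0, fun f g hf hg => ?_, fun f g hf hg hfg => ?_, fun c hc => ?_⟩, fun i => ?_, hz,
    fun κ _ g f c hg hf hc => K.final hc₀ hN (hev f) (fun i => hev (g i)) (hv f hf)
      (fun i => hv _ (hg i)) hc⟩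
  · have h1 := (hv f hf).mul (hv g hg)
    rw [← map_mul] at h1
    exact tendsto_nhds_unique (hv _ (mul_ne_zero hf hg)).2 h1.2
  · have h1 := hv _ hfg
    rw [map_add] at h1
    exact (hv f hf).add (hv g hg) h1 hN
  · refine le_antisymm (not_lt.1 fun h0 => hc ?_) (hv0 _)
    have h1 := hz _ ((map_ne_zero_iff _ (algebraMap ℂ S).injective).2 hc) h0
    rwa [AlgHom.commutes] at h1
  · rcases (hl i).eq_or_lt with h0 | h0
    · exact h0.ge.trans (hv0 _)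
    · refine (hv _ (hb i)).le_of hN (C := 1) (Eventually.of_forall fun w => ?_)
      have h1 : 0 < lam i := h0
      have := Real.rpow_le_rpow (Real.rpow_nonneg (norm_nonneg _) _) (hle i h1 w) h1.le
      rwa [← Real.rpow_mul (norm_nonneg _), div_mul_cancel₀ _ h1.ne', Real.rpow_two, ← one_mul
        (nw _ _ _ ^ _)] at this

end Crest.Agent.R271
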