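import Crest.Agent.R271.HC
import Crest.Agent.R271.ExU
import Crest.Agent.R271.ExP
import Crest.Agent.R271.BLsc

/-! Row 271, part B: calculus of integrability exponents. -/

set_option autoImplicit false

namespace Crest.Agent.R271

open MeasureTheory Filter Topology
open scoped ENNReal NNReal

variable {E : Type} [NormedAddCommGroup E] [NormedSpace ℂ E] [FiniteDimensional ℂ E]
  [MeasurableSpace E] [BorelSpace E] (μ : Measure E) [μ.IsAddHaarMeasure]
  {ι ι' : Type} [Fintype ι] [Fintype ι'] {g : ι → E → ℂ} {z : E}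

/-- **Convexity.** -/
theorem ex_add_le (hg : ∀ i, AnalyticAt ℂ (g i) z) {lam lam' : ι → ℝ} (h : 0 ≤ lam)
    (h' : 0 ≤ lam') : ex μ g (lam + lam') z ≤ ex μ g lam z + ex μ g lam' z :=
  B_ex_add_le μ hg h h'

/-- **Semicontinuity** (Demailly–Kollár). -/
theorem ex_lsc {V : Type} [NormedAddCommGroup V] [NormedSpace ℂ V] [FiniteDimensional ℂ V]
    (ev : V →ₗ[ℂ] (E → ℂ)) {W : Set E} (hW : IsOpen W) (hz : z ∈ W)
    (hev : ∀ s, DifferentiableOn ℂ (ev s) W) {b : ℕ → ι → V} {b₀ : ι → V} {lam : ℕ → ι → ℝ}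
    {lam₀ : ι → ℝ} {y : ℕ → E} (hb : Tendsto b atTop (𝓝 b₀)) (hl : Tendsto lam atTop (𝓝 lam₀))
    (hy : Tendsto y atTop (𝓝 z)) {c : ℝ≥0∞}
    (h : ∀ j, ex μ (fun i => ev (b j i)) (lam j) (y j) ≤ c) :
    ex μ (fun i => ev (b₀ i)) lam₀ z ≤ c :=
  B_ex_lsc μ ev hW hz hev hb hl hy h

end Crest.Agent.R271
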