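import Crest.Agent.R271.C0
import Crest.Agent.R271.Ex

/-! Row 271, part C: feasible pairs, the functional, valuations computing an exponent. -/

set_option autoImplicit false

namespace Crest.Agent.R271

open MeasureTheory Filter Topology
open scoped ENNReal NNReal

section
variable {E : Type} [NormedAddCommGroup E] [NormedSpace ℂ E] [MeasurableSpace E] (μ : Measure E)
  {S : Type} [CommRing S] [Algebra ℂ S] (ev : S →ₐ[ℂ] (E → ℂ)) (z₀ : E)

/-- the feasible pairs `(λ, c)`. -/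
def FS (V : Submodule ℂ S) (K : ℕ) : Set ((Idx V K → ℝ) × ℝ) :=
  {x | 0 ≤ x.1 ∧ 0 ≤ x.2 ∧ ∃ b : Idx V K → S, IsSys V K b ∧
    ex μ (fun i => ev (b i)) x.1 z₀ ≤ ENNReal.ofReal x.2}

/-- the valuation `v` has log discrepancy at most `c₀`, in the analytic sense. -/
structure Val.Comp (v : Val S) (c₀ : ℝ) : Prop where
  nonneg : 0 ≤ c₀
  cen : ∀ f, f ≠ 0 → 0 < v.v f → ev f z₀ = 0
  ni : ∀ (κ : Type) [Fintype κ] (g : κ → S) (f : S) (c : ℝ), (∀ i, g i ≠ 0) → f ≠ 0 →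
    v.v f + c₀ < c → ¬ IntNear μ (fun w => ‖ev f w‖ₑ ^ 2 *
      ENNReal.ofReal (nw (fun i => ev (g i)) (fun i => v.v (g i)) w) ^ (-c)) z₀

end

/-- the functional. -/
noncomputable def Fn {S : Type} [CommRing S] [Algebra ℂ S] {V : Submodule ℂ S} {K : ℕ} (θ τ : ℝ)
    (x : (Idx V K → ℝ) × ℝ) : ℝ :=
  x.2 + θ * Real.log (part τ x.1)

theorem CoreData.an {E : Type} [NormedAddCommGroup E] [NormedSpace ℂ E] [FiniteDimensional ℂ E]
    [MeasurableSpace E] {μ : Measure E} {S : Type} [CommRing S] [Algebra ℂ S]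
    {ev : S →ₐ[ℂ] (E → ℂ)} {W : Set E} {z₀ : E} {V : Submodule ℂ S} {a n : ℕ}
    (h : CoreData μ S ev W z₀ V a n) {z : E} (hz : z ∈ W) (f : S) : AnalyticAt ℂ (ev f) z :=
  Crest.Agent.R264.SCV.analyticAt (h.hol f) (h.isOpen.mem_nhds hz)

theorem sum_idx {S : Type} [CommRing S] [Algebra ℂ S] (V : Submodule ℂ S) (K : ℕ)
    (F : ℕ → ℕ → ℝ) : ∑ i : Idx V K, F i.1 i.2 =
      ∑ k ∈ Finset.range (K + 1), ∑ i ∈ Finset.range (rk V k), F k i := by
  rw [Fintype.sum_sigma, ← Fin.sum_univ_eq_sum_range (fun k => ∑ i ∈ Finset.range (rk V k), F k i)]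
  exact Finset.sum_congr rfl fun k _ => Fin.sum_univ_eq_sum_range (F k) _

end Crest.Agent.R271
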