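import Crest.Agent.R271.C0

/-! Row 271, part C: valuation ideals. -/

set_option autoImplicit false

namespace Crest.Agent.R271

variable {S : Type} [CommRing S] [IsDomain S] [Algebra ℂ S] (v : Val S)

theorem Val.one : v.v 1 = 0 := by
  simpa using v.const 1 one_ne_zero

theorem Val.na : NA v.v := by
  refine ⟨fun c s hc => ?_, v.add⟩
  by_cases hs : s = 0
  · rw [hs, smul_zero]
  · rw [Algebra.smul_def, v.mul _ _ ((map_ne_zero _).2 hc) hs, v.const c hc, zero_add]

theorem Val.gt_prime : (v.gt 0).IsPrime := by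
  refine ⟨(Ideal.ne_top_iff_one _).2 fun h => ?_, fun {f g} h => ?_⟩
  · rcases h with h | h
    · exact one_ne_zero h
    · exact lt_irrefl _ (v.one ▸ h)
  · by_contra hn
    simp only [Val.mem_gt, not_or, not_lt] at hn
    rcases h with h | h
    · exact mul_ne_zero hn.1.1 hn.2.1 h
    · rw [v.mul f g hn.1.1 hn.2.1] at h
      linarith [hn.1.2, hn.2.2]

theorem Val.exists_gap [IsNoetherianRing S] (c : ℝ) : ∃ γ : ℝ, 0 < γ ∧ v.gt c ≤ v.ge (c + γ) := by
  obtain ⟨G, hG⟩ := IsNoetherian.noetherian (v.gt c)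
  have h : ∀ᶠ γ in nhdsWithin (0 : ℝ) (Set.Ioi 0), ∀ g ∈ G, g ∈ v.ge (c + γ) := by
    refine (Filter.eventually_all_finset G).2 fun g hg => ?_
    rcases (hG ▸ Submodule.subset_span hg : g ∈ v.gt c) with h | h
    · exact Filter.Eventually.of_forall fun _ => Or.inl h
    · exact ((eventually_le_nhds (sub_pos.2 h)).filter_mono nhdsWithin_le_nhds).mono
        fun γ hγ => Or.inr (by linarith)
  obtain ⟨γ, h1, h2⟩ := (h.and self_mem_nhdsWithin).exists
  exact ⟨γ, h2, hG ▸ Submodule.span_le.2 h1⟩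

/-- finitely many non-zero elements generate finitely many valuation ideals. -/
theorem Val.exists_gens [IsNoetherianRing S] (Λ : Finset ℝ) : ∃ G : Finset S, (∀ g ∈ G, g ≠ 0) ∧
    ∀ c ∈ Λ, v.ge c ≤ Ideal.span {g | g ∈ G ∧ c ≤ v.v g} := by
  classical
  choose T hT using fun c => IsNoetherian.noetherian (v.ge c)
  refine ⟨(Λ.biUnion T).erase 0, fun g hg => (Finset.mem_erase.1 hg).1, fun c hc => ?_⟩
  rw [← hT c]
  refine Submodule.span_le.2 fun g hg => ?_
  by_cases h0 : g = 0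
  · subst h0
    exact Submodule.zero_mem _
  · exact Ideal.subset_span ⟨Finset.mem_erase.2 ⟨h0, Finset.mem_biUnion.2 ⟨c, hc, hg⟩⟩,
      (hT c ▸ Submodule.subset_span hg : g ∈ v.ge c).resolve_left h0⟩

theorem CVa_free (R N : Type) [CommRing R] [IsDomain R] [AddCommGroup N] [Module R N]
    [Module.Finite R N] : ∃ (ρ : ℕ) (e : Fin ρ → N) (Δ : R) (Φ : N →ₗ[R] (Fin ρ → R)),
      Δ ≠ 0 ∧ ∀ s, Δ • s = ∑ j, Φ s j • e j := by
  classical
  obtain ⟨n, g, hg⟩ := Module.Finite.exists_fin (R := R) (M := N)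
  obtain ⟨I, hI, hmax⟩ := exists_maximal_linearIndepOn R g
  have h1 : ∀ i, ∃ a : R, a ≠ 0 ∧ a • g i ∈ Submodule.span R (g '' I) := fun i => by
    by_cases hi : i ∈ I
    · exact ⟨1, one_ne_zero, by rw [one_smul]; exact Submodule.subset_span ⟨i, hi, rfl⟩⟩
    · exact hmax i hi
  choose a ha0 ha using h1
  let σ := (Fintype.equivFin I).symm
  have hli : LinearIndependent R fun j => g (σ j) := hI.linearIndependent.comp σ σ.injective
  have h2 : ∀ s : N, (∏ i, a i) • s ∈ Submodule.span R (Set.range fun j => g (σ j)) := fun s => by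
    have hs : s ∈ Submodule.span R (Set.range g) := hg ▸ Submodule.mem_top
    refine (Submodule.span_le (p := (Submodule.span R (Set.range fun j => g (σ j))).comap
      (LinearMap.lsmul R N (∏ i, a i)))).2 ?_ hs
    rintro _ ⟨i, rfl⟩
    change (∏ i, a i) • g i ∈ Submodule.span R (Set.range fun j => g (σ j))
    rw [← Finset.prod_erase_mul _ _ (Finset.mem_univ i), mul_smul]
    refine Submodule.smul_mem _ _ (Submodule.span_mono ?_ (ha i))
    rintro _ ⟨k, hk, rfl⟩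
    exact ⟨σ.symm ⟨k, hk⟩, by simp⟩
  refine ⟨_, fun j => g (σ j), ∏ i, a i, (Module.Basis.span hli).equivFun.toLinearMap ∘ₗ
    (LinearMap.lsmul R N (∏ i, a i)).codRestrict _ h2,
    Finset.prod_ne_zero_iff.2 fun i _ => ha0 i, fun s => ?_⟩
  have := congrArg Subtype.val ((Module.Basis.span hli).sum_equivFun ⟨_, h2 s⟩)
  simp only [Submodule.coe_sum, Submodule.coe_smul, Module.Basis.span_apply] at this
  exact this.symm

/-- generic freeness of the graded piece `v.ge c / v.gt c`, a finite torsion free `S / 𝔭`-module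
(compare `R188.exists_factor`). -/
theorem Val.exists_coords [IsNoetherianRing S] (c : ℝ) :
    ∃ (ρ : ℕ) (e : Fin ρ → S) (Δ : S) (Φ : v.ge c →ₗ[S] (Fin ρ → S ⧸ v.gt 0)),
      (∀ j, e j ∈ v.ge c) ∧ Δ ∉ v.gt 0 ∧ (∀ s : v.ge c, Φ s = 0 ↔ (s : S) ∈ v.gt c) ∧
      ∀ (s : v.ge c) (x : Fin ρ → S), (∀ j, Ideal.Quotient.mk _ (x j) = Φ s j) →
        Δ * s - ∑ j, x j * e j ∈ v.gt c := by
  have := v.gt_prime
  let N₀ : Submodule S (v.ge c) := Submodule.comap (v.ge c).subtype (v.gt c)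
  have htor : Module.IsTorsionBySet S (v.ge c ⧸ N₀) (v.gt 0) := by
    rintro x ⟨r, hr⟩
    obtain ⟨⟨s, hs⟩, rfl⟩ := N₀.mkQ_surjective x
    refine (Submodule.Quotient.mk_eq_zero N₀).2 (?_ : r * s ∈ v.gt c)
    by_cases h0 : r * s = 0
    · exact Or.inl h0
    have h1 := left_ne_zero_of_mul h0
    have h2 := right_ne_zero_of_mul h0
    refine Or.inr ?_
    rw [v.mul r s h1 h2]
    linarith [hr.resolve_left h1, hs.resolve_left h2]
  let _ : Module (S ⧸ v.gt 0) (v.ge c ⧸ N₀) := htor.module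
  have : IsScalarTower S (S ⧸ v.gt 0) (v.ge c ⧸ N₀) := htor.isScalarTower
  have : Module.Finite (S ⧸ v.gt 0) (v.ge c ⧸ N₀) := Module.Finite.of_restrictScalars_finite S _ _
  obtain ⟨ρ, e, Δ, Φ, hΔ, h⟩ := CVa_free (S ⧸ v.gt 0) (v.ge c ⧸ N₀)
  obtain ⟨Δ, rfl⟩ := Ideal.Quotient.mk_surjective Δ
  choose e' he' using fun j => N₀.mkQ_surjective (e j)
  have hΔ' : Δ ∉ v.gt 0 := fun h => hΔ (Ideal.Quotient.eq_zero_iff_mem.2 h)
  have key : ∀ (s : v.ge c) (x : Fin ρ → S), (∀ j, Ideal.Quotient.mk _ (x j) = Φ (N₀.mkQ s) j) →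
      Δ * s - ∑ j, x j * e' j ∈ v.gt c := fun s x hx => by
    have h1 : N₀.mkQ (Δ • s - ∑ j, x j • e' j) = 0 := by
      rw [map_sub, map_sum, map_smul, sub_eq_zero, ← htor.mk_smul, h]
      refine Finset.sum_congr rfl fun j _ => ?_
      rw [map_smul, he', ← hx, htor.mk_smul]
    have h2 : ((Δ • s - ∑ j, x j • e' j : v.ge c) : S) ∈ v.gt c :=
      (Submodule.Quotient.mk_eq_zero N₀).1 h1
    simpa only [Submodule.coe_sub, Submodule.coe_sum, Submodule.coe_smul, smul_eq_mul] using h2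
  refine ⟨ρ, fun j => e' j, Δ, Φ.restrictScalars S ∘ₗ N₀.mkQ, fun j => (e' j).2, hΔ',
    fun s => ⟨fun hs => ?_, fun hs => ?_⟩, key⟩
  · have h1 := key s 0 fun j => (map_zero _).trans (congrFun hs j).symm
    simp only [Pi.zero_apply, zero_mul, Finset.sum_const_zero, sub_zero] at h1
    rw [Val.mem_gt, not_or, not_lt] at hΔ'
    by_cases h0 : (s : S) = 0
    · exact Or.inl h0
    have h2 := h1.resolve_left (mul_ne_zero hΔ'.1 h0)
    rw [v.mul _ _ hΔ'.1 h0] at h2
    exact Or.inr (by linarith [hΔ'.2])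
  · have : N₀.mkQ s = 0 := (Submodule.Quotient.mk_eq_zero N₀).2 hs
    rw [LinearMap.comp_apply, this, map_zero]

end Crest.Agent.R271
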