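import Crest.Agent.R271.CA1a
import Crest.Agent.R271.CVa

/-! Row 271, part C: exponents of valuative weights. -/

set_option autoImplicit false

namespace Crest.Agent.R271

open MeasureTheory Filter Topology
open scoped ENNReal NNReal

variable {E : Type} [NormedAddCommGroup E] [NormedSpace ℂ E] [FiniteDimensional ℂ E]
  [MeasurableSpace E] [BorelSpace E] {μ : Measure E} [μ.IsAddHaarMeasure] {S : Type} [CommRing S]
  [IsDomain S] [Algebra ℂ S] {ev : S →ₐ[ℂ] (E → ℂ)} {W : Set E} {z₀ : E} {V : Submodule ℂ S}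
  {a n : ℕ}

/-- at `z₀` use `ni` with `f = 1`; elsewhere `bsp` gives `f ∉ 𝔭`. -/
theorem CoreData.ex_val_le (h : CoreData μ S ev W z₀ V a n) {v : Val S} {c₀ : ℝ}
    (hv : v.Comp μ ev z₀ c₀) {z : E} (hz : z ∈ W) (hp : ∀ f ∈ v.gt 0, ev f z = 0) {ι : Type}
    [Fintype ι] {g : ι → S} (hg : ∀ i, g i ≠ 0) :
    ex μ (fun i => ev (g i)) (fun i => v.v (g i)) z ≤ ENNReal.ofReal c₀ := by
  by_contra hn
  obtain ⟨c, hc0, hc1, hc2⟩ := ENNReal.lt_iff_exists_real_btwn.1 (not_le.1 hn)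
  have hc : c₀ < c := (ENNReal.ofReal_lt_ofReal_iff_of_nonneg hv.nonneg).1 hc1
  have hi := intNear_of_lt_ex μ (fun i => h.an hz (g i)) hc0 hc2
  by_cases hz0 : z = z₀
  · subst hz0
    refine hv.ni ι g 1 c hg one_ne_zero (by rw [v.one]; linarith) ?_
    simpa using hi
  · obtain ⟨f, hf1, hf2⟩ := h.bsp z hz hz0 ι g _ c (hv.nonneg.trans_lt hc) hi
    have hf : f ∉ v.gt 0 := fun hf => by
      rw [hp f hf] at hf1
      exact zero_ne_one hf1
    rw [Val.mem_gt, not_or, not_lt] at hf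
    exact hv.ni ι g f c hg hf.1 (by linarith [hf.2]) hf2

/-- Take `γ` from `Val.exists_gap` for all `c ∈ Λ`, `ε m₀ ≤ γ`, `G` from `Val.exists_gens` for
`Λ ∪ (Λ + γ)`, the family `G ⊕ t` with weights `(v, ε)`; `b i` lies in the growth ideal of order
`v (b i) + ε min (m i) m₀`.  Then `ex_mono_gI`, `ex_add_le`, `ex_single_le`, `ex_val_le`. -/
theorem CoreData.pert (h : CoreData μ S ev W z₀ V a n) {v : Val S} {c₀ : ℝ}
    (hv : v.Comp μ ev z₀ c₀) (Λ : Finset ℝ) (m₀ : ℕ) : ∃ ε₀ : ℝ, 0 < ε₀ ∧ ∀ ε : ℝ, 0 < ε → ε ≤ ε₀ →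
      ∀ z ∈ W, (∀ f ∈ v.gt 0, ev f z = 0) → ∀ (d : ℕ) (t : Fin d → S), (∀ l, ev (t l) z = 0) →
      ∀ (ι : Type) [Fintype ι] (b : ι → S) (m : ι → ℕ), (∀ i, v.v (b i) ∈ Λ) →
      (∀ i, ∃ q : S, ev q z ≠ 0 ∧
        q * b i ∈ Ideal.span (Set.range t) ^ m i * v.ge (v.v (b i)) ⊔ v.gt (v.v (b i))) →
      ex μ (fun i => ev (b i)) (fun i => v.v (b i) + ε * (min (m i) m₀ : ℕ)) z ≤
        ENNReal.ofReal (c₀ + ε * d) := by
  classical
  have := h.ft
  have : IsNoetherianRing S := Algebra.FiniteType.isNoetherianRing ℂ S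
  obtain ⟨γ, hγ, hgap⟩ : ∃ γ : ℝ, 0 < γ ∧ ∀ c ∈ Λ, v.gt c ≤ v.ge (c + γ) := by
    have h1 : ∀ᶠ γ in nhdsWithin (0 : ℝ) (Set.Ioi 0), ∀ c ∈ Λ, v.gt c ≤ v.ge (c + γ) := by
      refine (Filter.eventually_all_finset Λ).2 fun c _ => ?_
      obtain ⟨γ, hγ, h2⟩ := v.exists_gap c
      refine ((eventually_le_nhds hγ).filter_mono nhdsWithin_le_nhds).mono fun γ' hγ' f hf => ?_
      exact (h2 hf).imp id fun h3 => by linarith
    obtain ⟨γ, h2, h3⟩ := (h1.and self_mem_nhdsWithin).exists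
    exact ⟨γ, h3, h2⟩
  obtain ⟨G, hG0, hG⟩ := v.exists_gens (Λ ∪ Λ.image (· + γ))
  refine ⟨γ / (m₀ + 1), by positivity, fun ε hε hε0 z hz hp d t ht ι _ b m hb hq => ?_⟩
  have hεm : ε * m₀ ≤ γ := by
    rw [le_div_iff₀ (by positivity)] at hε0
    nlinarith
  have han : ∀ f, AnalyticAt ℂ (ev f) z := h.an hz
  have hev : ∀ f, ContinuousAt (ev f) z := fun f => (han f).continuousAt
  let g' : G ⊕ Fin d → S := Sum.elim (fun g => g) t
  let lam : G ⊕ Fin d → ℝ := Sum.elim (fun g => v.v g) fun _ => ε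
  let lam0 : G ⊕ Fin d → ℝ := Sum.elim (fun g => v.v g) fun _ => 0
  have hN := continuousAt_nw hev g' lam
  have hge : ∀ c ∈ Λ ∪ Λ.image (· + γ), 0 ≤ c →
      v.ge c ≤ gI ev hev (nw (fun i => ev (g' i)) lam) c := fun c hc hc0 =>
    (hG c hc).trans (Ideal.span_le.2 fun g hg => mem_gI hev g' (i := .inl ⟨g, hg.1⟩) hc0 hg.2)
  have hpow : ∀ k : ℕ, Ideal.span (Set.range t) ^ k ≤
      gI ev hev (nw (fun i => ev (g' i)) lam) (ε * k) := fun k => by
    induction k with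
    | zero => simp [gI_zero]
    | succ k ih =>
      rw [pow_succ, Nat.cast_succ, mul_add_one]
      refine (Ideal.mul_mono ih (Ideal.span_le.2 ?_)).trans (gI_mul hev (by positivity) hε.le)
      rintro _ ⟨l, rfl⟩
      exact mem_gI hev g' (i := .inr l) hε.le le_rfl
  have h1 : ex μ (fun i => ev (b i)) (fun i => v.v (b i) + ε * (min (m i) m₀ : ℕ)) z ≤
      ex μ (fun i => ev (g' i)) lam z := by
    refine ex_mono_gI han fun i _ => ?_
    obtain ⟨q, hq0, hq1⟩ := hq i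
    have hc0 := v.nonneg (b i)
    have hm1 : ((min (m i) m₀ : ℕ) : ℝ) ≤ m i := by exact_mod_cast min_le_left _ _
    have hm2 : ((min (m i) m₀ : ℕ) : ℝ) ≤ m₀ := by exact_mod_cast min_le_right _ _
    refine gI_cancel hev hq0 (SetLike.le_def.1 (sup_le ?_ ?_) hq1)
    · refine ((Ideal.mul_mono (hpow (m i)) (hge _ (Finset.mem_union_left _ (hb i)) hc0)).trans
        (gI_mul hev (by positivity) hc0)).trans (gI_anti hev hN (by positivity) ?_)
      nlinarith
    · refine ((hgap _ (hb i)).trans (hge _ (Finset.mem_union_right _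
        (Finset.mem_image_of_mem _ (hb i))) (by positivity))).trans
        (gI_anti hev hN (by positivity) ?_)
      nlinarith
  have hl0 : 0 ≤ lam0 := by
    rintro (g | l)
    · exact v.nonneg g
    · exact le_rfl
  have h2 : ex μ (fun i => ev (g' i)) lam0 z ≤ ENNReal.ofReal c₀ := by
    refine le_trans (ex_mono_gI han (g := fun g : G => (g : S)) (lam := fun g => v.v g) ?_)
      (h.ex_val_le hv hz hp fun g : G => hG0 g g.2)
    rintro (g | l) hi
    · exact mem_gI hev (fun g : G => (g : S)) (i := g) (v.nonneg g) le_rfl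
    · exact absurd hi (lt_irrefl _)
  have h3 : ∀ s : Finset (Fin d),
      ex μ (fun i => ev (g' i)) (lam0 + ∑ l ∈ s, Pi.single (Sum.inr l) ε) z ≤
        ENNReal.ofReal (c₀ + ε * s.card) := fun s => by
    induction s using Finset.induction_on with
    | empty => simpa using h2
    | insert l s hl ih =>
      rw [Finset.sum_insert hl, add_left_comm, add_comm, Finset.card_insert_of_notMem hl,
        Nat.cast_succ, mul_add_one, ← add_assoc,
        ENNReal.ofReal_add (add_nonneg hv.nonneg (by positivity)) hε.le]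
      refine (ex_add_le μ (fun i => han (g' i)) (add_nonneg hl0
        (Finset.sum_nonneg fun l _ => Pi.single_nonneg.2 hε.le)) (Pi.single_nonneg.2 hε.le)).trans
        (add_le_add ih (ex_single_le μ (fun i => han (g' i)) (.inr l) (ht l) hε.le))
  have h4 : lam = lam0 + ∑ l, Pi.single (Sum.inr l) ε := by
    funext i
    rcases i with g | l
    · simp [lam, lam0, Finset.sum_apply]
    · simp [lam, lam0, Finset.sum_apply, Pi.single_apply]
  have h5 := h3 Finset.univ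
  rw [← h4, Finset.card_univ, Fintype.card_fin] at h5
  exact h1.trans h5

/-- compare with the weight `N` of the family `g ⊕ {q j ≠ 0}`: the product is `O(N ^ c)`,
`c = ∑ p v(g) + η m`; use `ni` with `f = 1`. -/
theorem CoreData.not_intNear (h : CoreData μ S ev W z₀ V a n) {v : Val S} {c₀ : ℝ}
    (hv : v.Comp μ ev z₀ c₀) {ι κ : Type} [Fintype ι] [Fintype κ] {g : ι → S} (hg : ∀ i, g i ≠ 0)
    {p : ι → ℝ} (hp : ∀ i, 0 ≤ p i) {q : κ → S} {m η : ℝ} (hm : 0 ≤ m) (hη : 0 < η)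
    (hq : ∀ j, q j ∈ v.ge m) (hc : c₀ < ∑ i, p i * v.v (g i) + η * m) :
    ¬ IntNear μ (fun w => (ENNReal.ofReal
      ((∏ i, ‖ev (g i) w‖ ^ (2 * p i)) * (∑ j, ‖ev (q j) w‖ ^ 2) ^ η))⁻¹) z₀ := by
  classical
  have := FiniteDimensional.proper ℂ E
  intro hi
  have hev : ∀ f, ContinuousAt (ev f) z₀ := fun f => (h.an h.mem f).continuousAt
  let g' : ι ⊕ {j // q j ≠ 0} → S := Sum.elim g fun j => q j
  have hg' : ∀ i, g' i ≠ 0 := by
    rintro (i | j)
    · exact hg i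
    · exact j.2
  set N := nw (fun i => ev (g' i)) (fun i => v.v (g' i)) with hN
  have hN0 : ∀ w, 0 ≤ N w := Ex0_nw_nonneg _ _
  have h1 : ∀ i, g i ∈ gI ev hev N (v.v (g i)) := fun i =>
    mem_gI hev g' (i := .inl i) (v.nonneg _) le_rfl
  have h2 : ∀ j, q j ∈ gI ev hev N m := fun j => by
    by_cases h0 : q j = 0
    · rw [h0]
      exact zero_mem _
    · exact mem_gI hev g' (i := .inr ⟨j, h0⟩) hm ((hq j).resolve_left h0)
  choose C hC using h1
  choose D hD using h2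
  have hK : 0 ≤ (∏ i, |C i| ^ (2 * p i)) * (∑ j, D j ^ 2) ^ η := by positivity
  have hs : 0 ≤ ∑ i, p i * v.v (g i) :=
    Finset.sum_nonneg fun i _ => mul_nonneg (hp i) (v.nonneg _)
  have h3 : ∀ᶠ w in 𝓝 z₀, (∏ i, ‖ev (g i) w‖ ^ (2 * p i)) * (∑ j, ‖ev (q j) w‖ ^ 2) ^ η ≤
      ((∏ i, |C i| ^ (2 * p i)) * (∑ j, D j ^ 2) ^ η + 1) *
        N w ^ (∑ i, p i * v.v (g i) + η * m) := by
    filter_upwards [eventually_all.2 hC, eventually_all.2 hD] with w hw1 hw2
    simp only [abs_of_nonneg (hN0 w)] at hw1 hw2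
    have e1 : ∏ i, ‖ev (g i) w‖ ^ (2 * p i) ≤
        (∏ i, |C i| ^ (2 * p i)) * N w ^ ∑ i, p i * v.v (g i) := by
      rw [Real.rpow_sum_of_nonneg (hN0 w) fun i _ => mul_nonneg (hp i) (v.nonneg _),
        ← Finset.prod_mul_distrib]
      refine Finset.prod_le_prod (fun i _ => by positivity) fun i _ => ?_
      have := hp i
      refine (Real.rpow_le_rpow (norm_nonneg _) ((hw1 i).trans (mul_le_mul_of_nonneg_right
        (le_abs_self _) (Real.rpow_nonneg (hN0 w) _))) (by positivity)).trans (le_of_eq ?_)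
      rw [Real.mul_rpow (abs_nonneg _) (Real.rpow_nonneg (hN0 w) _), ← Real.rpow_mul (hN0 w)]
      congr 2
      ring
    have e2 : (∑ j, ‖ev (q j) w‖ ^ 2) ^ η ≤ (∑ j, D j ^ 2) ^ η * N w ^ (η * m) := by
      rw [mul_comm η, Real.rpow_mul (hN0 w),
        ← Real.mul_rpow (by positivity) (Real.rpow_nonneg (hN0 w) _)]
      refine Real.rpow_le_rpow (by positivity) ?_ hη.le
      rw [Finset.sum_mul]
      refine Finset.sum_le_sum fun j _ => ?_
      refine (pow_le_pow_left₀ (norm_nonneg _) (hw2 j) 2).trans (le_of_eq ?_)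
      rw [mul_pow, ← Real.rpow_natCast (N w ^ (m / 2)), ← Real.rpow_mul (hN0 w)]
      congr 2
      push_cast
      ring
    have e3 := Real.rpow_nonneg (hN0 w) (∑ i, p i * v.v (g i) + η * m)
    refine (mul_le_mul e1 e2 (by positivity) (by have := hN0 w; positivity)).trans ?_
    rw [mul_mul_mul_comm, ← Real.rpow_add_of_nonneg (hN0 w) hs (by positivity)]
    nlinarith
  refine hv.ni _ g' 1 _ hg' one_ne_zero (by rw [v.one, zero_add]; exact hc) ?_
  refine Ex0_mono μ (K := ENNReal.ofReal ((∏ i, |C i| ^ (2 * p i)) * (∑ j, D j ^ 2) ^ η + 1))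
    (L := 0) ENNReal.ofReal_ne_top ENNReal.zero_ne_top hi (h3.mono fun w hw => ?_)
  have := Ex0_pow (hN0 w) (by positivity) zero_le_one (by positivity) hw
  rw [mul_one, ENNReal.rpow_one, ENNReal.rpow_neg_one] at this
  simpa using this

end Crest.Agent.R271
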