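import Crest.Agent.R271.CA0

/-! Row 271, part C: growth ideals. -/

set_option autoImplicit false

namespace Crest.Agent.R271

open MeasureTheory Filter Topology
open scoped ENNReal NNReal

section gI
variable {E : Type} [TopologicalSpace E] {S : Type} [CommRing S] [Algebra ℂ S]
  {ev : S →ₐ[ℂ] (E → ℂ)} {z : E} (hev : ∀ f, ContinuousAt (ev f) z) {N : E → ℝ}

theorem gI_mul {c c' : ℝ} (hc : 0 ≤ c) (hc' : 0 ≤ c') :
    gI ev hev N c * gI ev hev N c' ≤ gI ev hev N (c + c') := by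
  refine Ideal.mul_le.2 ?_
  rintro x ⟨C, hC⟩ y ⟨C', hC'⟩
  refine ⟨C * C', (hC.and hC').mono fun w hw => ?_⟩
  rw [map_mul, Pi.mul_apply, norm_mul, add_div,
    Real.rpow_add_of_nonneg (abs_nonneg _) (by positivity) (by positivity), mul_mul_mul_comm]
  exact mul_le_mul hw.1 hw.2 (norm_nonneg _) ((norm_nonneg _).trans hw.1)

theorem gI_anti (hN : ContinuousAt N z) {c c' : ℝ} (hc : 0 ≤ c) (h : c ≤ c') :
    gI ev hev N c' ≤ gI ev hev N c := by
  rintro x ⟨C, hC⟩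
  have h1 : ∀ᶠ w in 𝓝 z, |N w| < |N z| + 1 := hN.abs.eventually (gt_mem_nhds (lt_add_one _))
  refine ⟨|C| * (|N z| + 1) ^ ((c' - c) / 2), (hC.and h1).mono fun w hw => hw.1.trans ?_⟩
  have h2 : 0 ≤ (c' - c) / 2 := by linarith
  rw [show c' / 2 = (c' - c) / 2 + c / 2 by ring,
    Real.rpow_add_of_nonneg (abs_nonneg _) h2 (by positivity), ← mul_assoc]
  exact mul_le_mul_of_nonneg_right (mul_le_mul (le_abs_self C)
    (Real.rpow_le_rpow (abs_nonneg _) hw.2.le h2) (by positivity) (abs_nonneg _)) (by positivity)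

theorem gI_zero : gI ev hev N 0 = ⊤ :=
  (Ideal.eq_top_iff_one _).2 ⟨1, Eventually.of_forall fun w => by simp⟩

theorem gI_cancel {c : ℝ} {q x : S} (hq : ev q z ≠ 0) (h : q * x ∈ gI ev hev N c) :
    x ∈ gI ev hev N c := by
  obtain ⟨C, hC⟩ := h
  have h0 : 0 < ‖ev q z‖ := norm_pos_iff.2 hq
  have h1 : ∀ᶠ w in 𝓝 z, ‖ev q z‖ / 2 < ‖ev q w‖ :=
    (hev q).norm.eventually (lt_mem_nhds (half_lt_self h0))
  refine ⟨C / (‖ev q z‖ / 2), (hC.and h1).mono fun w hw => ?_⟩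
  have h2 := hw.1
  rw [map_mul, Pi.mul_apply, norm_mul] at h2
  rw [div_mul_eq_mul_div, le_div_iff₀ (half_pos h0), mul_comm]
  exact (mul_le_mul_of_nonneg_right hw.2.le (norm_nonneg _)).trans h2

include hev in
theorem continuousAt_nw {ι : Type} [Fintype ι] (g : ι → S) (lam : ι → ℝ) :
    ContinuousAt (nw (fun i => ev (g i)) lam) z := by
  unfold nw
  exact tendsto_finsetSum _ fun i hi => ((hev (g i)).norm.rpow_const
    (Or.inr (div_nonneg zero_le_two (Finset.mem_filter.1 hi).2.le))).tendsto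

theorem mem_gI {ι : Type} [Fintype ι] (g : ι → S) {lam : ι → ℝ} {i : ι} {c : ℝ} (hc : 0 ≤ c)
    (h : c ≤ lam i) : g i ∈ gI ev hev (nw (fun i => ev (g i)) lam) c := by
  rcases (hc.trans h).eq_or_lt with h0 | h0
  · rw [show c = 0 by linarith, gI_zero]
    trivial
  refine gI_anti hev (continuousAt_nw hev g lam) hc h ⟨1, Eventually.of_forall fun w => ?_⟩
  have h1 : ‖ev (g i) w‖ ^ (2 / lam i) ≤ nw (fun i => ev (g i)) lam w :=
    Finset.single_le_sum (f := fun i => ‖ev (g i) w‖ ^ (2 / lam i))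
      (fun j _ => by positivity) (Finset.mem_filter.2 ⟨Finset.mem_univ i, h0⟩)
  rw [one_mul, abs_of_nonneg (Ex0_nw_nonneg _ _ _)]
  refine le_trans (le_of_eq ?_) (Real.rpow_le_rpow (by positivity) h1 (half_pos h0).le)
  rw [← Real.rpow_mul (norm_nonneg _), show 2 / lam i * (lam i / 2) = 1 by field_simp,
    Real.rpow_one]

end gI

variable {E : Type} [NormedAddCommGroup E] [NormedSpace ℂ E] [FiniteDimensional ℂ E]
  [MeasurableSpace E] [BorelSpace E] {μ : Measure E} [μ.IsAddHaarMeasure] {S : Type} [CommRing S]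
  [IsDomain S] [Algebra ℂ S] {ev : S →ₐ[ℂ] (E → ℂ)} {W : Set E} {z₀ : E} {V : Submodule ℂ S}
  {a n : ℕ}

omit [IsDomain S] in
theorem ex_mono_gI {z : E} (hev : ∀ f, AnalyticAt ℂ (ev f) z) {ι ι' : Type} [Fintype ι]
    [Fintype ι'] {g : ι → S} {lam : ι → ℝ} {g' : ι' → S} {lam' : ι' → ℝ}
    (h : ∀ i, 0 < lam' i →
      g' i ∈ gI ev (fun f => (hev f).continuousAt) (nw (fun i => ev (g i)) lam) (lam' i)) :
    ex μ (fun i => ev (g' i)) lam' z ≤ ex μ (fun i => ev (g i)) lam z := by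
  refine ex_mono μ (fun i => hev (g i)) fun i hi => ?_
  obtain ⟨C, hC⟩ := h i hi
  exact ⟨C, hC.mono fun w hw => by rwa [abs_of_nonneg (Ex0_nw_nonneg _ _ _)] at hw⟩

end Crest.Agent.R271
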