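import Crest.Agent.R271.C0

/-! Row 271, part C: orthonormal systems. -/

set_option autoImplicit false

namespace Crest.Agent.R271

open Filter Topology

/-- Gram–Schmidt in the order of decreasing `lam`. -/
theorem exists_orthonormal {H : Type} [NormedAddCommGroup H] [InnerProductSpace ℂ H] {r : ℕ}
    {b : Fin r → H} (hb : LinearIndependent ℂ b) (lam : Fin r → ℝ) :
    ∃ b' : Fin r → H, Orthonormal ℂ b' ∧
      ∀ i, b' i ∈ Submodule.span ℂ (b '' {j | lam i ≤ lam j}) := by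
  set σ := Tuple.sort fun i => -lam i with hσ
  have hm : Monotone ((fun i => -lam i) ∘ σ) := Tuple.monotone_sort _
  have hf : LinearIndependent ℂ (b ∘ σ) := hb.comp _ σ.injective
  refine ⟨fun i => InnerProductSpace.gramSchmidtNormed ℂ (b ∘ σ) (σ.symm i),
    (InnerProductSpace.gramSchmidtNormed_orthonormal hf).comp _ σ.symm.injective, fun i => ?_⟩
  refine Submodule.smul_mem _ _ (Submodule.span_mono ?_
    (InnerProductSpace.gramSchmidt_mem_span ℂ (b ∘ σ) (le_refl (σ.symm i))))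
  rintro _ ⟨j, hj, rfl⟩
  refine ⟨σ j, ?_, rfl⟩
  have := hm hj
  simpa using this

theorem CO_pow_mono {S : Type} [CommRing S] [Algebra ℂ S] {V : Submodule ℂ S} (h1 : (1 : S) ∈ V)
    {k K : ℕ} (h : k ≤ K) : V ^ k ≤ V ^ K := by
  induction h with
  | refl => exact le_rfl
  | step _ ih =>
    refine ih.trans fun x hx => ?_
    rw [pow_succ, ← mul_one x]
    exact Submodule.mul_mem_mul hx h1

/-- compactness of the set of orthonormal systems: `L` identifies `V ^ K` with a Euclidean space. -/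
theorem exists_compact_sys {S : Type} [CommRing S] [Algebra ℂ S] {V : Submodule ℂ S} (hV : V.FG)
    (h1 : (1 : S) ∈ V) (K : ℕ) :
    ∃ (N : ℕ) (L : EuclideanSpace ℂ (Fin N) →ₗ[ℂ] S)
      (𝒦 : Set (Idx V K → EuclideanSpace ℂ (Fin N))), IsCompact 𝒦 ∧
      (∀ b ∈ 𝒦, IsSys V K fun i => L (b i)) ∧
      ∀ b : Idx V K → S, IsSys V K b → ∀ lam : Idx V K → ℝ, ∃ b' ∈ 𝒦,
        ∀ i, L (b' i) ∈ Submodule.span ℂ (b '' {j | lam i ≤ lam j}) := by
  have hfin : Module.Finite ℂ ↥(V ^ K) := Module.Finite.iff_fg.2 (hV.pow K)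
  let e : EuclideanSpace ℂ (Fin (rk V K)) ≃ₗ[ℂ] ↥(V ^ K) :=
    LinearEquiv.ofFinrankEq _ _ (finrank_euclideanSpace_fin (𝕜 := ℂ))
  let L : EuclideanSpace ℂ (Fin (rk V K)) →ₗ[ℂ] S := (V ^ K).subtype ∘ₗ e.toLinearMap
  have hL : LinearMap.ker L = ⊥ :=
    LinearMap.ker_eq_bot.2 ((V ^ K).injective_subtype.comp e.injective)
  have hsurj : ∀ x ∈ V ^ K, ∃ y, L y = x := fun x hx => ⟨e.symm ⟨x, hx⟩, by simp [L]⟩
  refine ⟨rk V K, L, {b | ∀ k : Fin (K + 1), (∀ i, L (b ⟨k, i⟩) ∈ V ^ (k : ℕ)) ∧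
    Orthonormal ℂ fun i => b ⟨k, i⟩}, ?_, fun b hb k => ⟨(hb k).1, ?_⟩, fun b hb lam => ?_⟩
  · refine Metric.isCompact_of_isClosed_isBounded ?_ ?_
    · simp only [Set.ofPred_forall, Set.ofPred_and, orthonormal_iff_ite]
      refine isClosed_iInter fun k => IsClosed.inter (isClosed_iInter fun i => ?_)
        (isClosed_iInter fun i => isClosed_iInter fun j => isClosed_eq (by fun_prop) (by fun_prop))
      have hc : Continuous fun b : Idx V K → EuclideanSpace ℂ (Fin (rk V K)) => b ⟨k, i⟩ :=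
        continuous_apply _
      exact ((V ^ (k : ℕ)).comap L).closed_of_finiteDimensional.preimage hc
    · refine (Metric.isBounded_closedBall (x := 0) (r := 1)).subset fun b hb => ?_
      rw [mem_closedBall_zero_iff]
      exact (pi_norm_le_iff_of_nonneg zero_le_one).2 fun i => ((hb i.1).2.1 i.2).le
  · exact (hb k).2.linearIndependent.map' L hL
  · choose c hc using fun i : Idx V K =>
      hsurj (b i) (CO_pow_mono h1 (Nat.lt_succ_iff.1 i.1.2) ((hb i.1).1 i.2))
    have hli : ∀ k : Fin (K + 1), LinearIndependent ℂ fun i => c ⟨k, i⟩ := fun k => by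
      refine LinearIndependent.of_comp L ?_
      have : (L ∘ fun i => c ⟨k, i⟩) = fun i => b ⟨k, i⟩ := funext fun i => hc _
      rw [this]
      exact (hb k).2
    choose d hd1 hd2 using fun k => exists_orthonormal (hli k) fun i => lam ⟨k, i⟩
    have key : ∀ (k : Fin (K + 1)) (i : Fin (rk V k)) (W : Submodule ℂ S),
        (∀ j, lam ⟨k, i⟩ ≤ lam ⟨k, j⟩ → b ⟨k, j⟩ ∈ W) → L (d k i) ∈ W := by
      intro k i W hW
      refine (Submodule.span_le (p := W.comap L)).2 ?_ (hd2 k i)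
      rintro _ ⟨j, hj, rfl⟩
      change L (c ⟨k, j⟩) ∈ W
      rw [hc]
      exact hW j hj
    exact ⟨fun i => d i.1 i.2, fun k => ⟨fun i => key k i _ fun j _ => (hb k).1 j, hd1 k⟩,
      fun i => key i.1 i.2 _ fun j hj => Submodule.subset_span ⟨⟨i.1, j⟩, hj, rfl⟩⟩

end Crest.Agent.R271
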