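import Crest.Agent.R271.CA1a
import Crest.Agent.R271.CO

/-! Row 271, part C: existence of minimisers. -/

set_option autoImplicit false

namespace Crest.Agent.R271

open MeasureTheory Filter Topology
open scoped ENNReal NNReal

variable {E : Type} [NormedAddCommGroup E] [NormedSpace ℂ E] [FiniteDimensional ℂ E]
  [MeasurableSpace E] [BorelSpace E] {μ : Measure E} [μ.IsAddHaarMeasure] {S : Type} [CommRing S]
  [IsDomain S] [Algebra ℂ S] {ev : S →ₐ[ℂ] (E → ℂ)} {W : Set E} {z₀ : E} {V : Submodule ℂ S}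
  {a n : ℕ}

theorem rk_zero (V : Submodule ℂ S) : rk V 0 = 1 := by
  rw [rk, pow_zero, Submodule.one_eq_span, finrank_span_singleton one_ne_zero]

omit [IsDomain S] in
theorem rk_mono (hV : V.FG) (h1 : (1 : S) ∈ V) : Monotone (rk V) := by
  intro k K hk
  have := Module.Finite.iff_fg.2 (hV.pow K)
  exact Submodule.finrank_mono (CO_pow_mono h1 hk)

omit [IsDomain S] in
theorem zero_mem_FS (K : ℕ) : (0 : (Idx V K → ℝ) × ℝ) ∈ FS μ ev z₀ V K := by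
  have h := fun k : Fin (K + 1) =>
    exists_linearIndependent_of_le_finrank (R := ℂ) (M := ↥(V ^ (k : ℕ))) (n := rk V k) le_rfl
  choose f hf using h
  refine ⟨le_rfl, le_rfl, fun i => f i.1 i.2, fun k => ⟨fun i => (f k i).2,
    (hf k).map' (V ^ (k : ℕ)).subtype (Submodule.ker_subtype _)⟩, ?_⟩
  exact (ex_zero μ _ _).le.trans (zero_le)

/-- `nw ≥ ‖b i‖ ^ (2 / λ i)`, `le_ex` and `izumi`. -/
theorem CoreData.exists_bound (h : CoreData μ S ev W z₀ V a n) : ∃ C₀ : ℝ, 0 ≤ C₀ ∧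
    ∀ K : ℕ, ∀ x ∈ FS μ ev z₀ V K, ∀ i, x.1 i ≤ C₀ * x.2 * (i.1 : ℕ) := by
  obtain ⟨C₀, hC₀, H⟩ := h.izumi
  refine ⟨C₀, hC₀, ?_⟩
  rintro K ⟨lam, c⟩ ⟨-, hc, b, hb, hex⟩ ⟨k, i⟩
  simp only at hc hex ⊢
  by_contra hlt
  rw [not_le] at hlt
  have hl : 0 < lam ⟨k, i⟩ := lt_of_le_of_lt (by positivity) hlt
  have h1 : ∀ᶠ c' in 𝓝[>] c, C₀ * c' * (k : ℕ) < lam ⟨k, i⟩ :=
    (((by fun_prop : Continuous fun c' : ℝ => C₀ * c' * (k : ℕ)).tendsto c).eventually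
      (gt_mem_nhds hlt)).filter_mono nhdsWithin_le_nhds
  obtain ⟨c', h2, h3⟩ := (h1.and self_mem_nhdsWithin).exists
  have h4 : 0 < c' := hc.trans_lt h3
  have h5 := H k _ ((hb k).1 i) ((hb k).2.ne_zero i) (c' / lam ⟨k, i⟩) (by positivity) (by
    rw [div_mul_eq_mul_div, div_mul_eq_mul_div, div_lt_one hl]
    linarith)
  have h6 : IntNear μ (fun w => ENNReal.ofReal (nw (fun i => ev (b i)) lam w) ^ (-c')) z₀ := by
    refine Ex0_mono μ ENNReal.one_ne_top ENNReal.zero_ne_top h5 (Eventually.of_forall fun w => ?_)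
    have h7 : ‖ev (b ⟨k, i⟩) w‖ ^ (2 / lam ⟨k, i⟩) ≤ nw (fun i => ev (b i)) lam w :=
      Finset.single_le_sum (f := fun i => ‖ev (b i) w‖ ^ (2 / lam i)) (fun _ _ => by positivity)
        (Finset.mem_filter.2 ⟨Finset.mem_univ _, hl⟩)
    have h8 : 2 * (c' / lam ⟨k, i⟩) = 2 / lam ⟨k, i⟩ * c' := by ring
    rw [one_mul, add_zero, ENNReal.rpow_neg, ENNReal.rpow_neg, ENNReal.inv_le_inv, h8,
      ENNReal.rpow_mul, ← ofReal_norm,
      ENNReal.ofReal_rpow_of_nonneg (norm_nonneg _) (by positivity)]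
    exact ENNReal.rpow_le_rpow (ENNReal.ofReal_le_ofReal h7) h4.le
  exact absurd ((ENNReal.ofReal_le_ofReal_iff hc).1 ((le_ex μ h6).trans hex)) (not_le.2 h3)

theorem CoreData.one_le_part (h : CoreData μ S ev W z₀ V a n) {K : ℕ} {x : (Idx V K → ℝ) × ℝ}
    (hx : x ∈ FS μ ev z₀ V K) (τ : ℝ) : 1 ≤ part τ x.1 := by
  obtain ⟨C₀, -, H⟩ := h.exists_bound
  let i₀ : Idx V K := ⟨0, ⟨0, by rw [Fin.val_zero, rk_zero]; exact one_pos⟩⟩
  have h1 : x.1 i₀ = 0 := le_antisymm (by simpa [i₀] using H K x hx i₀) (hx.1 i₀)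
  refine le_trans (le_of_eq ?_) (Finset.single_le_sum (f := gw τ x.1)
    (fun _ _ => (Real.exp_pos _).le) (Finset.mem_univ i₀))
  rw [gw, h1]
  simp [i₀]

/-- `exists_compact_sys`, `ex_mono_gI`, `ex_lsc`. -/
theorem CoreData.cpt (h : CoreData μ S ev W z₀ V a n) {K : ℕ} {b : ℕ → Idx V K → S}
    (hb : ∀ j, IsSys V K (b j)) {lam : ℕ → Idx V K → ℝ} {lam₀ : Idx V K → ℝ}
    (hl : Tendsto lam atTop (𝓝 lam₀)) {z : ℕ → E} (hzW : ∀ j, z j ∈ W)
    (hz : Tendsto z atTop (𝓝 z₀)) {c : ℕ → ℝ} {c₀ : ℝ} (hc : Tendsto c atTop (𝓝 c₀))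
    (hex : ∀ j, ex μ (fun i => ev (b j i)) (lam j) (z j) ≤ ENNReal.ofReal (c j)) :
    ∃ b₀ : Idx V K → S, IsSys V K b₀ ∧
      ex μ (fun i => ev (b₀ i)) lam₀ z₀ ≤ ENNReal.ofReal c₀ := by
  obtain ⟨N, L, 𝒦, hK, h1, h2⟩ := exists_compact_sys h.fg h.one K
  choose b' hb' hsp using fun j => h2 (b j) (hb j) (lam j)
  obtain ⟨b₀, hb₀, φ, hφ, hlim⟩ := hK.tendsto_subseq hb'
  refine ⟨_, h1 b₀ hb₀, ?_⟩
  have h3 : ∀ j, ex μ (fun i => ev (L (b' j i))) (lam j) (z j) ≤ ENNReal.ofReal (c j) := fun j => by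
    refine (ex_mono_gI (h.an (hzW j)) fun i hi => ?_).trans (hex j)
    refine (Submodule.span_le (p := Submodule.restrictScalars ℂ (gI ev
      (fun f => (h.an (hzW j) f).continuousAt) (nw (fun i => ev (b j i)) (lam j)) (lam j i)))).2 ?_
      (hsp j i)
    rintro _ ⟨l, hl, rfl⟩
    exact mem_gI (fun f => (h.an (hzW j) f).continuousAt) (b j) hi.le hl
  refine ge_of_tendsto (x := 𝓝[>] c₀)
    ((ENNReal.continuous_ofReal.tendsto c₀).mono_left nhdsWithin_le_nhds) ?_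
  filter_upwards [self_mem_nhdsWithin] with C hC
  obtain ⟨J, hJ⟩ := eventually_atTop.1 (hc.eventually (gt_mem_nhds hC))
  have h4 : Tendsto (fun j => φ (j + J)) atTop atTop :=
    hφ.tendsto_atTop.comp (tendsto_add_atTop_nat J)
  exact ex_lsc μ (ev.toLinearMap ∘ₗ L) h.isOpen h.mem (fun s => h.hol _)
    (b := fun j => b' (φ (j + J))) (hlim.comp (tendsto_add_atTop_nat J)) (hl.comp h4) (hz.comp h4)
    fun j => (h3 _).trans (ENNReal.ofReal_le_ofReal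
      (hJ _ ((Nat.le_add_left J j).trans hφ.le_apply)).le)

/-- `FS` is closed (`cpt`), `Fn ≥ c`, and `FS ∩ {c ≤ C}` is bounded (`exists_bound`). -/
theorem CoreData.exists_min (h : CoreData μ S ev W z₀ V a n) (K : ℕ) {θ : ℝ} (hθ : 0 < θ) (τ : ℝ) :
    ∃ x ∈ FS μ ev z₀ V K, IsMinOn (Fn θ τ) (FS μ ev z₀ V K) x := by
  obtain ⟨C₀, hC₀, H⟩ := h.exists_bound
  have h0 : (0 : (Idx V K → ℝ) × ℝ) ∈ FS μ ev z₀ V K := zero_mem_FS K
  have h1 : ∀ x ∈ FS μ ev z₀ V K, x.2 ≤ Fn θ τ x := fun x hx =>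
    le_add_of_nonneg_right (mul_nonneg hθ.le (Real.log_nonneg (h.one_le_part hx τ)))
  have h2 : IsClosed (FS μ ev z₀ V K) := by
    refine IsSeqClosed.isClosed fun xs x hxs hx => ?_
    have a1 := (continuous_fst.tendsto x).comp hx
    have a2 := (continuous_snd.tendsto x).comp hx
    choose b hb hex using fun j => (hxs j).2.2
    exact ⟨ge_of_tendsto' a1 fun j => (hxs j).1, ge_of_tendsto' a2 fun j => (hxs j).2.1,
      h.cpt hb a1 (fun _ => h.mem) tendsto_const_nhds a2 hex⟩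
  set M := Fn θ τ (0 : (Idx V K → ℝ) × ℝ) with hM
  have h3 : IsCompact (FS μ ev z₀ V K ∩ {x | x.2 ≤ M}) := by
    refine (isCompact_Icc (a := 0) (b := (fun i : Idx V K => C₀ * M * (i.1 : ℕ), M))).of_isClosed_subset
      (h2.inter (isClosed_le continuous_snd continuous_const)) ?_
    rintro x ⟨hx, hx'⟩
    refine ⟨⟨hx.1, hx.2.1⟩, fun i => (H K x hx i).trans ?_, hx'⟩
    have : x.2 ≤ M := hx'
    simp only
    gcongr
  have h4 : ContinuousOn (Fn θ τ) (FS μ ev z₀ V K ∩ {x | x.2 ≤ M}) := by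
    refine continuousOn_snd.add (continuousOn_const.mul (ContinuousOn.log (Continuous.continuousOn ?_)
      fun x hx => (one_pos.trans_le (h.one_le_part hx.1 τ)).ne'))
    unfold part gw
    fun_prop
  obtain ⟨x, hx, hmin⟩ := h3.exists_isMinOn ⟨0, h0, h1 0 h0⟩ h4
  refine ⟨x, hx.1, fun y hy => ?_⟩
  by_cases hy' : y.2 ≤ M
  · exact hmin ⟨hy, hy'⟩
  · exact (hmin ⟨h0, h1 0 h0⟩).trans ((not_le.1 hy').le.trans (h1 y hy))

end Crest.Agent.R271
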