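import Crest.Agent.R271.C0

/-! Row 271, part C: elementary real estimates for Gibbs sums. -/

set_option autoImplicit false

namespace Crest.Agent.R271

open Filter Topology

/-- first variation (the derivative of `t ↦ log ∑ w e ^ (t Y)` at `0` is the mean of `Y`). -/
theorem gibbs_der {ι : Type} [Fintype ι] {w : ι → ℝ} (hw : 0 < ∑ i, w i) (Y : ι → ℝ) {A θ : ℝ}
    (h : ∀ᶠ t in 𝓝[>] (0 : ℝ),
      0 ≤ t * A + θ * (Real.log (∑ i, w i * Real.exp (t * Y i)) - Real.log (∑ i, w i))) :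
    0 ≤ A + θ * ((∑ i, w i * Y i) / ∑ i, w i) := by
  have h1 : HasDerivAt (fun t : ℝ => ∑ i, w i * Real.exp (t * Y i)) (∑ i, w i * Y i) 0 := by
    refine HasDerivAt.fun_sum fun i _ => ?_
    simpa using (((hasDerivAt_id (0 : ℝ)).mul_const (Y i)).exp).const_mul (w i)
  have h2 := (h1.log (by simpa using hw.ne')).sub_const (Real.log (∑ i, w i))
  have h3 := ((hasDerivAt_id (0 : ℝ)).mul_const A).add (h2.const_mul θ)
  have h4 := h3.tendsto_slope_zero_right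
  simp only [zero_mul, Real.exp_zero, mul_one, one_mul] at h4
  refine ge_of_tendsto h4 ?_
  filter_upwards [h, self_mem_nhdsWithin] with t ht ht0
  have : (0 : ℝ) < t := ht0
  simp only [Pi.add_apply, zero_add, id, zero_mul, Real.exp_zero, mul_one, sub_self, mul_zero,
    add_zero, sub_zero, smul_eq_mul]
  positivity

theorem CG_exp_neg_le {x : ℝ} (hx : 0 ≤ x) : Real.exp (-x) ≤ 1 - x + x ^ 2 / 2 := by
  have h1 := Real.quadratic_le_exp_of_nonneg hx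
  have h2 : 0 ≤ 1 - x + x ^ 2 / 2 := by nlinarith [sq_nonneg (x - 1)]
  rw [Real.exp_neg, inv_le_iff_one_le_mul₀ (Real.exp_pos x)]
  nlinarith [mul_le_mul_of_nonneg_left h1 h2, sq_nonneg (x ^ 2)]

/-- `log x ≤ x - 1`, `e ^ (-x) ≤ 1 - x + x ^ 2 / 2`. -/
theorem gibbs_quant {ι : Type} [Fintype ι] {w : ι → ℝ} (hw0 : ∀ i, 0 ≤ w i) (hw : 0 < ∑ i, w i)
    {X X' : ι → ℝ} {M δ : ℝ} (hX : ∀ i, 0 ≤ X i) (hM : ∀ i, X i ≤ M) (hX' : ∀ i, X i ≤ X' i)
    (hδ : 0 ≤ δ) :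
    Real.log (∑ i, w i * Real.exp (-(δ * X' i))) - Real.log (∑ i, w i) ≤
      -(δ * (1 - δ * M / 2) * ((∑ i, w i * X i) / ∑ i, w i)) := by
  obtain ⟨i₀, -, hi₀⟩ := Finset.exists_lt_of_sum_lt (f := fun _ : ι => (0 : ℝ)) (g := w)
    (s := Finset.univ) (by simpa using hw)
  have hS : 0 < ∑ i, w i * Real.exp (-(δ * X' i)) :=
    Finset.sum_pos' (fun i _ => mul_nonneg (hw0 i) (Real.exp_pos _).le)
      ⟨i₀, Finset.mem_univ _, mul_pos hi₀ (Real.exp_pos _)⟩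
  have h1 : ∑ i, w i * Real.exp (-(δ * X' i)) ≤
      ∑ i, w i - δ * (1 - δ * M / 2) * ∑ i, w i * X i := by
    rw [Finset.mul_sum, ← Finset.sum_sub_distrib]
    refine Finset.sum_le_sum fun i _ => ?_
    have a1 : Real.exp (-(δ * X' i)) ≤ Real.exp (-(δ * X i)) :=
      Real.exp_le_exp.2 (neg_le_neg (mul_le_mul_of_nonneg_left (hX' i) hδ))
    have a2 := CG_exp_neg_le (mul_nonneg hδ (hX i))
    have a3 : (δ * X i) ^ 2 ≤ δ ^ 2 * (X i * M) := by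
      rw [mul_pow, sq (X i)]
      exact mul_le_mul_of_nonneg_left (mul_le_mul_of_nonneg_left (hM i) (hX i)) (sq_nonneg _)
    have a4 : Real.exp (-(δ * X' i)) ≤ 1 - δ * (1 - δ * M / 2) * X i := by nlinarith
    nlinarith [mul_le_mul_of_nonneg_left a4 (hw0 i)]
  rw [← Real.log_div hS.ne' hw.ne']
  refine (Real.log_le_sub_one_of_pos (div_pos hS hw)).trans ?_
  rw [sub_le_iff_le_add, div_le_iff₀ hw]
  refine h1.trans (le_of_eq ?_)
  field_simp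
  ring

/-- pigeonhole on the grid `τ₀ (1 + η) ^ j`, `j ≤ J`, with `C / ε ≤ J η ≤ C / ε + 1`. -/
theorem envelope {A C ε : ℝ} (hA : 0 ≤ A) (hC : 0 ≤ C) (hε : 0 < ε) {τ₀ η : ℝ} (hτ₀ : 0 < τ₀)
    (hη : 0 < η) (hη1 : η ≤ 1) (Φ : ℝ → ℝ)
    (h : ∀ τ, τ₀ ≤ τ → τ ≤ τ₀ * Real.exp (C / ε + 1) → Φ τ₀ - Φ τ ≤ C + A * Real.log (τ / τ₀)) :
    ∃ τ, τ₀ ≤ τ ∧ τ * (1 + η) ≤ τ₀ * Real.exp (C / ε + 1) ∧ Φ τ - Φ (τ * (1 + η)) ≤ (A + ε) * η := by
  obtain ⟨J, hJ0, hJ1, hJ2⟩ : ∃ J : ℕ, 0 < J ∧ C ≤ J * (ε * η) ∧ J * η ≤ C / ε + 1 := by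
    have h0 : 0 ≤ C / ε := by positivity
    rcases Nat.eq_zero_or_pos ⌈C / (ε * η)⌉₊ with h1 | h1
    · refine ⟨1, one_pos, ?_, by push_cast; linarith⟩
      have := Nat.ceil_eq_zero.1 h1
      rw [div_le_iff₀ (by positivity)] at this
      have : 0 < ε * η := by positivity
      push_cast
      linarith
    · refine ⟨_, h1, (div_le_iff₀ (by positivity)).1 (Nat.le_ceil _), ?_⟩
      have h2 := mul_le_mul_of_nonneg_right
        (Nat.ceil_lt_add_one (show 0 ≤ C / (ε * η) by positivity)).le hη.le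
      have e : C / (ε * η) * η = C / ε := by field_simp
      rw [add_mul, e] at h2
      linarith
  have h1η : 1 ≤ 1 + η := by linarith
  have hpow : (1 + η) ^ J ≤ Real.exp (J * η) := by
    rw [Real.exp_nat_mul]
    exact pow_le_pow_left₀ (by linarith) (by linarith [Real.add_one_le_exp η]) J
  have hup : ∀ j, j ≤ J → τ₀ * (1 + η) ^ j ≤ τ₀ * Real.exp (C / ε + 1) := fun j hj =>
    mul_le_mul_of_nonneg_left ((pow_le_pow_right₀ h1η hj).trans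
      (hpow.trans (Real.exp_le_exp.2 hJ2))) hτ₀.le
  have hlo : ∀ j : ℕ, τ₀ ≤ τ₀ * (1 + η) ^ j := fun j =>
    le_mul_of_one_le_right hτ₀.le (one_le_pow₀ h1η)
  by_contra hcon
  push Not at hcon
  have h2 : ∑ _j ∈ Finset.range J, (A + ε) * η < ∑ j ∈ Finset.range J,
      (Φ (τ₀ * (1 + η) ^ j) - Φ (τ₀ * (1 + η) ^ (j + 1))) :=
    Finset.sum_lt_sum_of_nonempty (Finset.nonempty_range_iff.2 hJ0.ne') fun j hj => by
      have := hcon _ (hlo j) (by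
        rw [mul_assoc, ← pow_succ]; exact hup _ (Finset.mem_range.1 hj))
      rwa [mul_assoc, ← pow_succ] at this
  rw [Finset.sum_range_sub' (fun j => Φ (τ₀ * (1 + η) ^ j)), Finset.sum_const, Finset.card_range,
    nsmul_eq_mul, pow_zero, mul_one] at h2
  have h3 := h _ (hlo J) (hup J le_rfl)
  rw [mul_div_cancel_left₀ _ hτ₀.ne'] at h3
  have h4 : Real.log ((1 + η) ^ J) ≤ J * η :=
    (Real.log_le_iff_le_exp (by positivity)).2 hpow
  nlinarith [mul_le_mul_of_nonneg_left h4 hA]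

/-- polynomial times exponential. -/
theorem exists_trunc (n C h : ℕ) {τ₀ ε : ℝ} (hτ₀ : 0 < τ₀) (hε : 0 < ε) :
    ∃ K : ℕ, 4 ≤ τ₀ * K ∧ h ≤ K ∧ ∀ τ, τ₀ ≤ τ → τ ≤ 1 →
      ((C : ℝ) * (K + 1) ^ n) * Real.exp (-(τ * (K - h))) ≤ ε := by
  have t1 : Tendsto (fun K : ℕ => τ₀ * ((K : ℝ) + 1)) atTop atTop :=
    (tendsto_atTop_add_const_right _ _ tendsto_natCast_atTop_atTop).const_mul_atTop hτ₀
  have t2 := ((Real.tendsto_pow_mul_exp_neg_atTop_nhds_zero n).comp t1).const_mul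
    ((C : ℝ) * (τ₀ ^ n)⁻¹ * Real.exp (τ₀ * (h + 1)))
  rw [mul_zero] at t2
  have t3 : Tendsto (fun K : ℕ => τ₀ * (K : ℝ)) atTop atTop :=
    tendsto_natCast_atTop_atTop.const_mul_atTop hτ₀
  obtain ⟨K, h1, h2, h3⟩ := ((t3.eventually_ge_atTop 4).and ((eventually_ge_atTop h).and
    (t2.eventually_le_const hε))).exists
  refine ⟨K, h1, h2, fun τ hτ _ => le_trans ?_ h3⟩
  have hK : (0 : ℝ) ≤ K - h := sub_nonneg.2 (by exact_mod_cast h2)
  calc ((C : ℝ) * (K + 1) ^ n) * Real.exp (-(τ * (K - h)))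
      ≤ ((C : ℝ) * (K + 1) ^ n) * Real.exp (-(τ₀ * (K - h))) := by gcongr
    _ = _ := by
      have e : -(τ₀ * ((K : ℝ) - h)) = τ₀ * (h + 1) + -(τ₀ * (K + 1)) := by ring
      rw [e, Real.exp_add, Function.comp, mul_pow]
      field_simp

end Crest.Agent.R271
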