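import Crest.Agent.R271.C0

/-! Row 271, part C: elementary estimates for Gibbs sums, II. -/

set_option autoImplicit false
set_option linter.unusedVariables false

namespace Crest.Agent.R271

open Filter Topology

theorem CG2_one_le {r : ℕ → ℕ} (h0 : 1 ≤ r 0) (K : ℕ) (σ : ℝ) :
    1 ≤ ∑ k ∈ Finset.range (K + 1), Real.exp (-(σ * k)) * r k := by
  refine le_trans ?_ (Finset.single_le_sum (f := fun k : ℕ => Real.exp (-(σ * k)) * r k)
    (fun k _ => by positivity) (Finset.mem_range.2 K.succ_pos))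
  simpa using h0

theorem CG2_geom {τ : ℝ} (hτ : 0 < τ) (h1 : τ ≤ 1) (N : ℕ) :
    ∑ k ∈ Finset.range N, Real.exp (-(τ / 2)) ^ k ≤ 3 / τ := by
  have hq0 : 0 < Real.exp (-(τ / 2)) := Real.exp_pos _
  have hq : Real.exp (-(τ / 2)) * (1 + τ / 2) ≤ 1 := by
    calc _ ≤ Real.exp (-(τ / 2)) * Real.exp (τ / 2) :=
          mul_le_mul_of_nonneg_left (by linarith [Real.add_one_le_exp (τ / 2)]) hq0.le
      _ = 1 := by rw [← Real.exp_add, neg_add_cancel, Real.exp_zero]
  set q := Real.exp (-(τ / 2))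
  have h2 : τ / 3 ≤ 1 - q := by nlinarith
  have h3 := mul_neg_geom_sum q N
  have h4 : 0 ≤ ∑ k ∈ Finset.range N, q ^ k := Finset.sum_nonneg fun k _ => by positivity
  have h5 : 0 ≤ q ^ N := by positivity
  rw [le_div_iff₀ hτ]
  nlinarith

theorem CG2_term (n k : ℕ) {τ : ℝ} (hτ : 0 < τ) (h1 : τ ≤ 1) :
    Real.exp (-(τ * k)) * ((k : ℝ) + 1) ^ n ≤
      n.factorial * (2 / τ) ^ n * Real.exp 1 * Real.exp (-(τ / 2)) ^ k := by
  have h := Real.pow_div_factorial_le_exp (τ * (k + 1) / 2) (by positivity) n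
  rw [div_le_iff₀ (by positivity)] at h
  have e : ((k : ℝ) + 1) ^ n = (2 / τ) ^ n * (τ * (k + 1) / 2) ^ n := by
    rw [← mul_pow]; congr 1; field_simp
  have e2 : Real.exp (-(τ * k)) * Real.exp (τ * (k + 1) / 2) ≤
      Real.exp 1 * Real.exp (-(τ / 2)) ^ k := by
    rw [← Real.exp_nat_mul, ← Real.exp_add, ← Real.exp_add]
    exact Real.exp_le_exp.2 (by linarith)
  calc _ ≤ Real.exp (-(τ * k)) * ((2 / τ) ^ n * (Real.exp (τ * (k + 1) / 2) * n.factorial)) := by
        rw [e]; gcongr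
    _ = n.factorial * (2 / τ) ^ n * (Real.exp (-(τ * k)) * Real.exp (τ * (k + 1) / 2)) := by ring
    _ ≤ _ := by rw [mul_assoc _ (Real.exp 1)]; gcongr

theorem CG2_low (n : ℕ) {r : ℕ → ℕ} (hr : ∀ k, k ^ n ≤ n.factorial * r k) (h0 : 1 ≤ r 0) (K : ℕ)
    {σ : ℝ} (hσ : 0 < σ) (hK : 4 ≤ σ * K) :
    Real.exp (-4) / n.factorial / σ ^ (n + 1) ≤
      ∑ k ∈ Finset.range (K + 1), Real.exp (-(σ * k)) * r k := by
  have hf : (1 : ℝ) ≤ n.factorial := by exact_mod_cast n.factorial_pos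
  rcases le_total 1 σ with h1 | h1
  · refine le_trans ?_ (CG2_one_le h0 K σ)
    have : Real.exp (-4) ≤ 1 := Real.exp_le_one_iff.2 (by norm_num)
    exact div_le_one_of_le₀ ((div_le_one_of_le₀ (this.trans hf) (by positivity)).trans
      (one_le_pow₀ h1)) (by positivity)
  · set m := ⌈1 / σ⌉₊ with hm
    have m1 : 1 / σ ≤ m := Nat.le_ceil _
    have m2 : (m : ℝ) < 1 / σ + 1 := Nat.ceil_lt_add_one (by positivity)
    have m3 : σ * (2 * m) ≤ 4 := by
      have : σ * (1 / σ) = 1 := by field_simp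
      nlinarith
    have m4 : 2 * m ≤ K := by
      have : ((2 * m : ℕ) : ℝ) ≤ K := by
        push_cast
        exact le_of_mul_le_mul_left (m3.trans hK) hσ
      exact_mod_cast this
    have hsub : Finset.Ico m (2 * m) ⊆ Finset.range (K + 1) := fun k hk =>
      Finset.mem_range.2 (by have := (Finset.mem_Ico.1 hk).2; omega)
    refine le_trans ?_ (Finset.sum_le_sum_of_subset_of_nonneg hsub fun k _ _ => by positivity)
    have hterm : ∀ k ∈ Finset.Ico m (2 * m),
        Real.exp (-4) * ((m : ℝ) ^ n / n.factorial) ≤ Real.exp (-(σ * k)) * r k := by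
      intro k hk
      obtain ⟨k1, k2⟩ := Finset.mem_Ico.1 hk
      have k2' : (k : ℝ) ≤ 2 * m := by exact_mod_cast k2.le
      refine mul_le_mul (Real.exp_le_exp.2 (by nlinarith)) ?_ (by positivity) (by positivity)
      rw [div_le_iff₀' (by positivity)]
      exact_mod_cast (Nat.pow_le_pow_left k1 n).trans (hr k)
    refine le_trans ?_ (Finset.card_nsmul_le_sum _ _ _ hterm)
    rw [Nat.card_Ico, show 2 * m - m = m by omega, nsmul_eq_mul]
    calc _ = Real.exp (-4) / n.factorial * (1 / σ) ^ (n + 1) := by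
          rw [one_div, inv_pow, div_eq_mul_inv]
      _ ≤ Real.exp (-4) / n.factorial * (m : ℝ) ^ (n + 1) := by gcongr
      _ = _ := by ring

/-- `(k + 1) ^ n ≤ n! (2 / τ) ^ n e ^ (τ (k + 1) / 2)`, geometric series. -/
theorem sum_upper (n C : ℕ) : ∃ C₁ : ℝ, ∀ (r : ℕ → ℕ), (∀ k, r k ≤ C * (k + 1) ^ n) → 1 ≤ r 0 →
    ∀ (K : ℕ) (τ : ℝ), 0 < τ → τ ≤ 1 →
      Real.log (∑ k ∈ Finset.range (K + 1), Real.exp (-(τ * k)) * r k) ≤
        C₁ - (n + 1) * Real.log τ := by
  refine ⟨Real.log ((C + 1) * (n.factorial * 2 ^ n * Real.exp 1 * 3)),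
    fun r hr h0 K τ hτ h1 => ?_⟩
  have h2 : ∑ k ∈ Finset.range (K + 1), Real.exp (-(τ * k)) * r k ≤
      (C + 1) * (n.factorial * 2 ^ n * Real.exp 1 * 3) / τ ^ (n + 1) := by
    calc _ ≤ ∑ k ∈ Finset.range (K + 1), ((C : ℝ) + 1) * (n.factorial * (2 / τ) ^ n * Real.exp 1) *
          Real.exp (-(τ / 2)) ^ k := by
          refine Finset.sum_le_sum fun k _ => ?_
          have h3 : (r k : ℝ) ≤ C * (k + 1) ^ n := by exact_mod_cast hr k
          have h4 : (r k : ℝ) ≤ (C + 1) * (k + 1) ^ n := h3.trans (by gcongr; linarith)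
          calc _ ≤ Real.exp (-(τ * k)) * ((C + 1) * (k + 1) ^ n) := by gcongr
            _ = (C + 1) * (Real.exp (-(τ * k)) * (k + 1) ^ n) := by ring
            _ ≤ _ := by
              rw [mul_assoc ((C : ℝ) + 1)]
              exact mul_le_mul_of_nonneg_left (CG2_term n k hτ h1) (by positivity)
      _ ≤ ((C : ℝ) + 1) * (n.factorial * (2 / τ) ^ n * Real.exp 1) * (3 / τ) := by
          rw [← Finset.mul_sum]; gcongr; exact CG2_geom hτ h1 _
      _ = _ := by rw [div_pow]; field_simp; ring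
  refine (Real.log_le_log (one_pos.trans_le (CG2_one_le h0 K τ)) h2).trans_eq ?_
  rw [Real.log_div (by positivity) (by positivity), Real.log_pow]
  push_cast
  rfl

/-- with `σ = τ (1 + C₀ c)`: the sum is at least `e⁻⁴ σ ^ (-(n + 1)) / n!` (terms `m ≤ k < 2 m`,
`m = ⌈1 / σ⌉`, if `σ ≤ 1`; the term `k = 0` otherwise), and
`1 + C₀ c ≤ (1 + A C₀) (1 + c / A)` for `A = θ (n + 1)`. -/
theorem sum_lower (n : ℕ) {C₀ θ : ℝ} (hC₀ : 0 ≤ C₀) (hθ : 0 < θ) : ∃ C₂ : ℝ, ∀ (r : ℕ → ℕ),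
    (∀ k, k ^ n ≤ n.factorial * r k) → 1 ≤ r 0 → ∀ (K : ℕ) (τ c : ℝ), 0 < τ → τ ≤ 1 → 0 ≤ c →
      4 ≤ τ * K →
      -C₂ - θ * ((n + 1) * Real.log τ) ≤ c + θ *
        Real.log (∑ k ∈ Finset.range (K + 1), Real.exp (-(τ * (1 + C₀ * c) * k)) * r k) := by
  have hA : 0 < θ * (n + 1) := by positivity
  set A := θ * (n + 1) with hAd
  refine ⟨θ * (4 + Real.log n.factorial) + A * Real.log (1 + A * C₀),
    fun r hr h0 K τ c hτ h1 hc hK => ?_⟩
  have hp : 1 ≤ 1 + C₀ * c := le_add_of_nonneg_right (by positivity)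
  have hσ : 0 < τ * (1 + C₀ * c) := by positivity
  have hK' : 4 ≤ τ * (1 + C₀ * c) * K :=
    hK.trans (mul_le_mul_of_nonneg_right (le_mul_of_one_le_right hτ.le hp) (Nat.cast_nonneg K))
  have h2 := Real.log_le_log (by positivity) (CG2_low n hr h0 K hσ hK')
  rw [Real.log_div (by positivity) (by positivity), Real.log_div (by positivity) (by positivity),
    Real.log_exp, Real.log_pow, Real.log_mul hτ.ne' (by positivity)] at h2
  have h3 : Real.log (1 + C₀ * c) ≤ Real.log (1 + A * C₀) + c / A := by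
    have h4 : 1 + C₀ * c ≤ (1 + A * C₀) * (1 + c / A) := by
      have e : (1 + A * C₀) * (1 + c / A) = 1 + C₀ * c + (A * C₀ + c / A) := by
        field_simp; ring
      rw [e]
      exact le_add_of_nonneg_right (by positivity)
    refine (Real.log_le_log (by positivity) h4).trans ?_
    rw [Real.log_mul (by positivity) (by positivity)]
    have := Real.log_le_sub_one_of_pos (show 0 < 1 + c / A by positivity)
    linarith
  have h5 := mul_le_mul_of_nonneg_left h3 hA.le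
  rw [mul_add, mul_div_cancel₀ _ hA.ne'] at h5
  have h6 := mul_le_mul_of_nonneg_left h2 hθ.le
  push_cast at h6
  have e : θ * (-4 - Real.log n.factorial - (n + 1) * (Real.log τ + Real.log (1 + C₀ * c))) =
      -(θ * (4 + Real.log n.factorial)) - θ * ((n + 1) * Real.log τ) -
        A * Real.log (1 + C₀ * c) := by rw [hAd]; ring
  linarith

theorem CG2_age {r : ℕ → ℕ} (hr : Monotone r) {x : ℕ → ℝ} (hx0 : ∀ i, 0 ≤ x i) {deg : ℕ → ℕ}
    (τ : ℝ) (K : ℕ) (hdeg : ∀ k ≤ K, ∀ i < r k, deg i ≤ k) :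
    ∑ k ∈ Finset.range (K + 1), ∑ i ∈ Finset.range (r k), Real.exp (-(τ * k)) * x i ≤
      (Real.exp τ - 1) * ∑ k ∈ Finset.range (K + 1), ∑ i ∈ Finset.range (r k),
        Real.exp (-(τ * k)) * x i * ((k : ℝ) - deg i) +
      ∑ i ∈ Finset.range (r K), Real.exp (-(τ * K)) * x i * ((K : ℝ) + 1 - deg i) := by
  induction K with
  | zero =>
    have h : ∀ i ∈ Finset.range (r 0), (deg i : ℝ) = 0 := fun i hi => by
      exact_mod_cast Nat.le_zero.1 (hdeg 0 le_rfl i (Finset.mem_range.1 hi))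
    simp only [zero_add, Finset.range_one, Finset.sum_singleton, Nat.cast_zero]
    rw [Finset.sum_eq_zero (s := Finset.range (r 0))
      (f := fun i => Real.exp (-(τ * 0)) * x i * ((0 : ℝ) - deg i)) fun i hi => by simp [h i hi]]
    rw [mul_zero (Real.exp τ - 1), zero_add]
    exact Finset.sum_le_sum fun i hi => by simp [h i hi]
  | succ K ih =>
    have h1 := ih fun k hk => hdeg k (hk.trans K.le_succ)
    have h2 : ∑ i ∈ Finset.range (r K), Real.exp (-(τ * K)) * x i * ((K : ℝ) + 1 - deg i) ≤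
        ∑ i ∈ Finset.range (r (K + 1)), Real.exp (-(τ * K)) * x i * ((K : ℝ) + 1 - deg i) := by
      refine Finset.sum_le_sum_of_subset_of_nonneg (Finset.range_subset_range.2 (hr K.le_succ))
        fun i hi _ => mul_nonneg (mul_nonneg (Real.exp_pos _).le (hx0 i)) ?_
      have : (deg i : ℝ) ≤ K + 1 := by exact_mod_cast hdeg _ le_rfl i (Finset.mem_range.1 hi)
      linarith
    have e0 : Real.exp (-(τ * K)) = Real.exp τ * Real.exp (-(τ * (K + 1))) := by
      rw [← Real.exp_add]; congr 1; ring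
    have h3 : ∑ i ∈ Finset.range (r (K + 1)), Real.exp (-(τ * (K + 1))) * x i +
        ∑ i ∈ Finset.range (r (K + 1)), Real.exp (-(τ * K)) * x i * ((K : ℝ) + 1 - deg i) =
        (Real.exp τ - 1) * ∑ i ∈ Finset.range (r (K + 1)),
          Real.exp (-(τ * (K + 1))) * x i * ((K : ℝ) + 1 - deg i) +
        ∑ i ∈ Finset.range (r (K + 1)),
          Real.exp (-(τ * (K + 1))) * x i * ((K : ℝ) + 1 + 1 - deg i) := by
      rw [Finset.mul_sum, ← Finset.sum_add_distrib, ← Finset.sum_add_distrib]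
      exact Finset.sum_congr rfl fun i _ => by rw [e0]; ring
    rw [Finset.sum_range_succ _ (K + 1), Finset.sum_range_succ _ (K + 1), mul_add]
    push_cast
    linarith

/-- the mean age: `W k i = e ^ (-τ k) x i` for `i < r k`, age `k - deg i`. -/
theorem age_bound {r : ℕ → ℕ} (hr : Monotone r) {x : ℕ → ℝ} (hx0 : ∀ i, 0 ≤ x i)
    (hx1 : ∀ i, x i ≤ 1) {deg : ℕ → ℕ} {K : ℕ} (hdeg : ∀ k ≤ K, ∀ i < r k, deg i ≤ k) {τ : ℝ}
    (hτ : 0 < τ) :
    ∑ k ∈ Finset.range (K + 1), ∑ i ∈ Finset.range (r k), Real.exp (-(τ * k)) * x i ≤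
      (Real.exp τ - 1) * ∑ k ∈ Finset.range (K + 1), ∑ i ∈ Finset.range (r k),
        Real.exp (-(τ * k)) * x i * ((k : ℝ) - deg i) +
      (K + 1) * r K * Real.exp (-(τ * K)) := by
  refine (CG2_age hr hx0 τ K hdeg).trans (add_le_add_right ?_ _)
  refine (Finset.sum_le_card_nsmul _ _ (Real.exp (-(τ * K)) * (K + 1)) fun i hi => ?_).trans_eq ?_
  · have h1 : (deg i : ℝ) ≤ K := by exact_mod_cast hdeg K le_rfl i (Finset.mem_range.1 hi)
    have h2 : (0 : ℝ) ≤ deg i := Nat.cast_nonneg _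
    rw [mul_assoc]
    refine mul_le_mul_of_nonneg_left ?_ (Real.exp_pos _).le
    nlinarith [hx0 i, hx1 i]
  · rw [Finset.card_range, nsmul_eq_mul]
    ring

end Crest.Agent.R271
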