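import Crest.Agent.R271.CA2
import Crest.Agent.R271.CG
import Crest.Agent.R271.CG2

/-! Row 271, part C: the mean degree. -/

set_option autoImplicit false

namespace Crest.Agent.R271

open MeasureTheory Filter Topology
open scoped ENNReal NNReal

variable {E : Type} [NormedAddCommGroup E] [NormedSpace ℂ E] [FiniteDimensional ℂ E]
  [MeasurableSpace E] [BorelSpace E] {μ : Measure E} [μ.IsAddHaarMeasure] {S : Type} [CommRing S]
  [IsDomain S] [Algebra ℂ S] {ev : S →ₐ[ℂ] (E → ℂ)} {W : Set E} {z₀ : E} {V : Submodule ℂ S}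
  {a n : ℕ}

omit [IsDomain S] in
private theorem CA2b_part {K : ℕ} (σ : ℝ) :
    ∑ i : Idx V K, Real.exp (-(σ * ((i.1 : ℕ) : ℝ))) =
      ∑ k ∈ Finset.range (K + 1), Real.exp (-(σ * k)) * rk V k := by
  rw [sum_idx V K fun k _ => Real.exp (-(σ * (k : ℝ)))]
  refine Finset.sum_congr rfl fun k _ => ?_
  rw [Finset.sum_const, Finset.card_range, nsmul_eq_mul, mul_comm]

/-- `Φ τ = min (Fn θ τ)` satisfies `-C₂ - θ (n + 1) log τ ≤ Φ τ ≤ θ (C₁ - (n + 1) log τ)`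
(`sum_lower` with `exists_bound`, `sum_upper` with `zero_mem_FS`, `sum_idx`).  Apply `envelope` with
`θ ε` and `η = ε / K`, then `gibbs_quant` with `δ = τ η`, `X = k`, `X' = k + λ`, `M = K`. -/
theorem CoreData.env (h : CoreData μ S ev W z₀ V a n) {θ ε : ℝ} (hθ : 0 < θ) (hε : 0 < ε)
    (hε1 : ε ≤ 1) : ∃ C : ℝ, 0 ≤ C ∧ ∀ τ₀ : ℝ, 0 < τ₀ → τ₀ * Real.exp C ≤ 1 → ∀ K : ℕ, 4 ≤ τ₀ * K →
      ∃ τ : ℝ, τ₀ ≤ τ ∧ τ ≤ τ₀ * Real.exp C ∧ ∀ x ∈ FS μ ev z₀ V K,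
        IsMinOn (Fn θ τ) (FS μ ev z₀ V K) x →
        τ * (1 - ε) * ∑ i, gw τ x.1 i * (i.1 : ℕ) ≤ (n + 1 + ε) * part τ x.1 := by
  obtain ⟨C₀, hC₀, hb⟩ := h.exists_bound
  obtain ⟨Cu, hCu⟩ := h.hf.upper
  obtain ⟨C₁, hC₁⟩ := sum_upper n Cu
  obtain ⟨C₂, hC₂⟩ := sum_lower n hC₀ hθ
  have hr0 : 1 ≤ rk V 0 := (rk_zero V).ge
  set D : ℝ := max 0 (θ * C₁ + C₂) with hD
  have hD0 : 0 ≤ D := le_max_left _ _
  have hD1 : θ * C₁ + C₂ ≤ D := le_max_right _ _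
  refine ⟨D / (θ * ε) + 1, by positivity, fun τ₀ hτ₀ hτ1 K hK => ?_⟩
  have hK0 : (0 : ℝ) < K := by
    by_contra h0
    have : τ₀ * K ≤ 0 := mul_nonpos_of_nonneg_of_nonpos hτ₀.le (not_lt.1 h0)
    linarith
  have hK1 : (1 : ℝ) ≤ K := by
    have : 0 < K := by exact_mod_cast hK0
    exact_mod_cast this
  set η : ℝ := ε / K with hη
  have hη0 : 0 < η := by positivity
  have hη1 : η ≤ 1 := by rw [hη, div_le_one hK0]; linarith
  choose xm hxm hmin using fun τ => h.exists_min K hθ τ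
  have hup : ∀ τ, 0 < τ → τ ≤ 1 → Fn θ τ (xm τ) ≤ θ * (C₁ - (n + 1) * Real.log τ) := by
    intro τ hτ hτ'
    have h1 : Fn θ τ (xm τ) ≤ Fn θ τ (0 : (Idx V K → ℝ) × ℝ) := hmin τ (zero_mem_FS K)
    refine h1.trans ?_
    have h2 : part τ (0 : (Idx V K → ℝ) × ℝ).1 =
        ∑ k ∈ Finset.range (K + 1), Real.exp (-(τ * k)) * rk V k := by
      rw [← CA2b_part]
      simp [part, gw]
    unfold Fn
    rw [h2, Prod.snd_zero, zero_add]
    exact mul_le_mul_of_nonneg_left (hC₁ (rk V) hCu hr0 K τ hτ hτ') hθ.le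
  have hlo : ∀ τ, τ₀ ≤ τ → τ ≤ 1 → -C₂ - θ * ((n + 1) * Real.log τ) ≤ Fn θ τ (xm τ) := by
    intro τ hτ hτ'
    have hτp : 0 < τ := hτ₀.trans_le hτ
    have hc : 0 ≤ (xm τ).2 := (hxm τ).2.1
    refine (hC₂ (rk V) h.hf.lower hr0 K τ (xm τ).2 hτp hτ' hc
      (hK.trans (mul_le_mul_of_nonneg_right hτ hK0.le))).trans ?_
    unfold Fn
    refine add_le_add le_rfl (mul_le_mul_of_nonneg_left (Real.log_le_log
      (one_pos.trans_le (CG2_one_le hr0 K _)) ?_) hθ.le)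
    rw [← CA2b_part]
    refine Finset.sum_le_sum fun i _ => Real.exp_le_exp.2 (neg_le_neg ?_)
    have := hb K (xm τ) (hxm τ) i
    nlinarith [mul_le_mul_of_nonneg_left this hτp.le]
  obtain ⟨τ, hτ, hτ', hΦ⟩ := envelope (A := θ * (n + 1)) (C := D) (ε := θ * ε) (by positivity) hD0
    (by positivity) hτ₀ hη0 hη1 (fun τ => Fn θ τ (xm τ)) (fun τ hτ hτ' => by
      have h1 := hup τ₀ hτ₀ ((hτ.trans hτ').trans hτ1)
      have h2 := hlo τ hτ (hτ'.trans hτ1)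
      rw [Real.log_div (hτ₀.trans_le hτ).ne' hτ₀.ne']
      nlinarith)
  have hτp : 0 < τ := hτ₀.trans_le hτ
  have hτle : τ ≤ τ₀ * Real.exp (D / (θ * ε) + 1) := by nlinarith [mul_pos hτp hη0]
  have hτ1' : τ ≤ 1 := hτle.trans hτ1
  refine ⟨τ, hτ, hτle, fun x hx hxmin => ?_⟩
  have h1 : Fn θ τ x ≤ Fn θ τ (xm τ) := hxmin (hxm τ)
  have h2 : Fn θ (τ * (1 + η)) (xm (τ * (1 + η))) ≤ Fn θ (τ * (1 + η)) x := hmin _ hx
  have hP : 0 < part τ x.1 := one_pos.trans_le (h.one_le_part hx τ)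
  have h3 := gibbs_quant (w := gw τ x.1) (fun i => (Real.exp_pos _).le) hP
    (X := fun i => ((i.1 : ℕ) : ℝ)) (X' := fun i => ((i.1 : ℕ) : ℝ) + x.1 i) (M := K) (δ := τ * η)
    (fun i => Nat.cast_nonneg _) (fun i => by exact_mod_cast Nat.lt_succ_iff.1 i.1.2)
    (fun i => le_add_of_nonneg_right (hx.1 i)) (by positivity)
  have h4 : ∑ i, gw τ x.1 i * Real.exp (-(τ * η * (((i.1 : ℕ) : ℝ) + x.1 i))) =
      part (τ * (1 + η)) x.1 := by
    refine Finset.sum_congr rfl fun i _ => ?_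
    unfold gw
    rw [← Real.exp_add]
    congr 1
    ring
  rw [h4] at h3
  change Real.log (part (τ * (1 + η)) x.1) - Real.log (part τ x.1) ≤
    -(τ * η * (1 - τ * η * K / 2) * ((∑ i, gw τ x.1 i * ((i.1 : ℕ) : ℝ)) / part τ x.1)) at h3
  set m : ℝ := (∑ i, gw τ x.1 i * ((i.1 : ℕ) : ℝ)) / part τ x.1 with hm
  have hm0 : 0 ≤ m := div_nonneg
    (Finset.sum_nonneg fun i _ => mul_nonneg (Real.exp_pos _).le (Nat.cast_nonneg _)) hP.le
  have h5 : θ * (Real.log (part τ x.1) - Real.log (part (τ * (1 + η)) x.1)) ≤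
      θ * ((n + 1 + ε) * η) := by
    unfold Fn at h1 h2 hΦ
    nlinarith
  have h6 := le_of_mul_le_mul_left h5 hθ
  have h7 : η * K = ε := by rw [hη]; field_simp
  have h8 : 1 - ε ≤ 1 - τ * η * K / 2 := by
    rw [mul_assoc, h7]
    nlinarith
  have h9 : η * (τ * (1 - ε) * m) ≤ η * (n + 1 + ε) := by
    have : τ * η * (1 - ε) * m ≤ τ * η * (1 - τ * η * K / 2) * m := by gcongr
    nlinarith
  have h10 := le_of_mul_le_mul_left h9 hη0
  have h11 : ∑ i, gw τ x.1 i * ((i.1 : ℕ) : ℝ) = m * part τ x.1 := by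
    rw [hm]; field_simp
  rw [h11, ← mul_assoc]
  exact mul_le_mul_of_nonneg_right h10 hP.le

end Crest.Agent.R271
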