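import Crest.Agent.R271.CCa

/-! Row 271, part C: the counting inequality. -/

set_option autoImplicit false

namespace Crest.Agent.R271

private theorem CC_pow {d : ℕ} (hd : 1 ≤ d) (n : ℕ) :
    (((d.factorial : ℝ) * n) ^ (1 / d : ℝ)) ^ d = d.factorial * n := by
  rw [one_div]
  exact Real.rpow_inv_natCast_pow (by positivity) (by omega)

private theorem CC_step {d : ℕ} (hd : 1 ≤ d) {a b c : ℕ} {B : ℝ} (hB : 0 ≤ B)
    (hb : B ^ d ≤ d.factorial * b)
    (h : (a : ℝ) ^ (1 / d : ℝ) + (b : ℝ) ^ (1 / d : ℝ) ≤ (c : ℝ) ^ (1 / d : ℝ)) :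
    a * ((d.factorial : ℝ) * a) ^ (1 / d : ℝ) + (d + 1) * B * a ≤
      c * ((d.factorial : ℝ) * c) ^ (1 / d : ℝ) := by
  have hf : (0 : ℝ) < d.factorial := by positivity
  set x := ((d.factorial : ℝ) * a) ^ (1 / d : ℝ) with hx
  set y := ((d.factorial : ℝ) * c) ^ (1 / d : ℝ) with hy
  have hx0 : 0 ≤ x := by positivity
  have h1 : B ≤ ((d.factorial : ℝ) * b) ^ (1 / d : ℝ) :=
    (pow_le_pow_iff_left₀ hB (by positivity) (by omega : d ≠ 0)).1 (by rw [CC_pow hd]; exact hb)
  have h2 : x + B ≤ y := by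
    rw [hx, hy, Real.mul_rpow hf.le (Nat.cast_nonneg _), Real.mul_rpow hf.le (Nat.cast_nonneg _)]
    rw [Real.mul_rpow hf.le (Nat.cast_nonneg _)] at h1
    have := mul_le_mul_of_nonneg_left h (Real.rpow_nonneg hf.le (1 / d : ℝ))
    linarith
  have h3 : x ^ (d + 1) + (d + 1) * B * x ^ d ≤ (x + B) ^ (d + 1) := by
    have := pow_add_mul_le_add_pow hx0 (by positivity : 0 ≤ 2 * x + B) (d + 1)
    simp only [Nat.cast_add, Nat.cast_one, Nat.add_sub_cancel] at this
    linarith
  have h4 : (x + B) ^ (d + 1) ≤ y ^ (d + 1) := pow_le_pow_left₀ (by positivity) h2 _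
  rw [pow_succ, CC_pow hd] at h3
  rw [pow_succ y, CC_pow hd] at h4
  refine le_of_mul_le_mul_left ?_ hf
  linarith

private theorem CC_le {d : ℕ} (hd : 1 ≤ d) {n R : ℕ} (h : n ≤ R) :
    ((d.factorial : ℝ) * n) ^ (1 / d : ℝ) ≤ d * R := by
  refine (pow_le_pow_iff_left₀ (by positivity) (by positivity) (by omega : d ≠ 0)).1 ?_
  rw [CC_pow hd, mul_pow]
  exact_mod_cast Nat.mul_le_mul (Nat.factorial_le_pow d) (h.trans (Nat.le_self_pow (by omega) R))

/-- one fibre.  With `ψ k = (d! |G k|) ^ (1 / d)`: `ψ (k + h) ≥ ψ k + B` if `G k ≠ ∅`, so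
`|G (k + h)| ψ (k + h) ≥ |G k| ψ k + (d + 1) B |G k|`; `ψ k ≤ d R`. -/
theorem count_one {d : ℕ} (hd : 1 ≤ d) (G : ℕ → Finset (Fin d → ℕ)) (G₀ : Finset (Fin d → ℕ))
    {K h R m₀ : ℕ} (hR : ∀ k ≤ K, (G k).card ≤ R) (hm : d * R ≤ m₀) {B : ℝ} (hB : 0 ≤ B)
    (hG₀ : B ^ d ≤ d.factorial * G₀.card)
    (hs : ∀ k, k + h ≤ K → ∀ α ∈ G k, ∀ β ∈ G₀, ∀ δ : Fin d → ℕ, (∀ l, δ l ≤ 1) →
      α + β + δ ∈ G (k + h)) {τ : ℝ} (hτ : 0 < τ) :
    d * B * ∑ k ∈ Finset.range (K + 1), Real.exp (-(τ * k)) * (G k).card ≤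
      (Real.exp (τ * h) - 1) * ∑ k ∈ Finset.range (K + 1), Real.exp (-(τ * k)) *
        ∑ α ∈ G k, (((min (∑ l, α l) m₀ : ℕ) : ℝ) + (d + 1)) +
      (d * B + d * R) * ∑ k ∈ Finset.range (K + 1) with K < k + h,
        Real.exp (-(τ * k)) * (G k).card := by
  have he : 0 ≤ Real.exp (τ * h) - 1 := sub_nonneg.2 (Real.one_le_exp (by positivity))
  rcases hB.eq_or_lt with rfl | hB'
  · rw [mul_zero, zero_mul]
    positivity
  have hne : G₀.Nonempty := by
    rw [Finset.nonempty_iff_ne_empty]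
    rintro rfl
    rw [Finset.card_empty, Nat.cast_zero, mul_zero] at hG₀
    exact absurd hG₀ (not_le.2 (pow_pos hB' d))
  let T : ℕ → ℝ := fun k =>
    (d : ℝ) / (d + 1) * ((G k).card * ((d.factorial : ℝ) * (G k).card) ^ (1 / d : ℝ))
  have hT0 : ∀ k, 0 ≤ T k := fun k => by positivity
  have hstep : ∀ k, k + h ≤ K → d * B * (G k).card ≤ T (k + h) - T k := by
    intro k hk
    rcases (G k).eq_empty_or_nonempty with e | e
    · have := hT0 (k + h)
      simp only [T, e, Finset.card_empty, Nat.cast_zero, mul_zero, zero_mul, sub_zero] at this ⊢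
      exact this
    · have h1 := mul_le_mul_of_nonneg_left (CC_step hd hB hG₀ (discrete_bm hd e hne (hs k hk)))
        (by positivity : (0 : ℝ) ≤ d / (d + 1))
      have h2 : (d : ℝ) / (d + 1) * ((d + 1) * B * (G k).card) = d * B * (G k).card := by
        field_simp
      simp only [T]
      linarith
  have hTR : ∀ k ≤ K, T k ≤ d * R * (G k).card := fun k hk => by
    have h1 : (d : ℝ) / (d + 1) ≤ 1 := div_le_one_of_le₀ (by linarith) (by positivity)
    have h2 := mul_le_mul_of_nonneg_left (CC_le hd (hR k hk)) (Nat.cast_nonneg (α := ℝ) (G k).card)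
    have h3 := mul_le_of_le_one_left
      (by positivity : 0 ≤ (G k).card * ((d.factorial : ℝ) * (G k).card) ^ (1 / d : ℝ)) h1
    simp only [T]
    linarith
  set w : ℕ → ℝ := fun k => Real.exp (-(τ * k)) with hw
  have hw0 : ∀ k, 0 ≤ w k := fun k => (Real.exp_pos _).le
  have hwh : ∀ k, w k = Real.exp (τ * h) * w (k + h) := fun k => by
    simp only [hw, ← Real.exp_add, Nat.cast_add]
    congr 1; ring
  have s1 := Finset.sum_filter_add_sum_filter_not (Finset.range (K + 1)) (fun k => K < k + h)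
    (fun k => w k * (G k).card)
  have s2 := Finset.sum_filter_add_sum_filter_not (Finset.range (K + 1)) (fun k => K < k + h)
    (fun k => w k * T k)
  have s3 : ∑ k ∈ Finset.range (K + 1) with ¬ K < k + h, w (k + h) * T (k + h) ≤
      ∑ k ∈ Finset.range (K + 1), w k * T k := by
    rw [← Finset.sum_image (f := fun k => w k * T k) (g := fun k => k + h)
      (fun a _ b _ e => Nat.add_right_cancel e)]
    refine Finset.sum_le_sum_of_subset_of_nonneg (fun k hk => ?_)
      fun k _ _ => mul_nonneg (hw0 k) (hT0 k)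
    obtain ⟨j, hj, rfl⟩ := Finset.mem_image.1 hk
    have := (Finset.mem_filter.1 hj).2
    exact Finset.mem_range.2 (by omega)
  have s4 : d * B * ∑ k ∈ Finset.range (K + 1) with ¬ K < k + h, w k * (G k).card ≤
      Real.exp (τ * h) * ∑ k ∈ Finset.range (K + 1) with ¬ K < k + h, w (k + h) * T (k + h) -
        ∑ k ∈ Finset.range (K + 1) with ¬ K < k + h, w k * T k := by
    rw [Finset.mul_sum, Finset.mul_sum, ← Finset.sum_sub_distrib]
    refine Finset.sum_le_sum fun k hk => ?_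
    have := mul_le_mul_of_nonneg_left (hstep k (not_lt.1 (Finset.mem_filter.1 hk).2)) (hw0 k)
    rw [← mul_assoc (Real.exp _), ← hwh]
    linarith
  have s5 : ∑ k ∈ Finset.range (K + 1) with K < k + h, w k * T k ≤
      d * R * ∑ k ∈ Finset.range (K + 1) with K < k + h, w k * (G k).card := by
    rw [Finset.mul_sum]
    refine Finset.sum_le_sum fun k hk => ?_
    have := mul_le_mul_of_nonneg_left
      (hTR k (Nat.lt_succ_iff.1 (Finset.mem_range.1 (Finset.mem_filter.1 hk).1))) (hw0 k)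
    linarith
  have s6 : ∑ k ∈ Finset.range (K + 1), w k * T k ≤ ∑ k ∈ Finset.range (K + 1), w k *
      ∑ α ∈ G k, (((min (∑ l, α l) m₀ : ℕ) : ℝ) + (d + 1)) :=
    Finset.sum_le_sum fun k hk => mul_le_mul_of_nonneg_left (sum_min_ge hd (G k)
      ((Nat.mul_le_mul_left d (hR k (Nat.lt_succ_iff.1 (Finset.mem_range.1 hk)))).trans hm)) (hw0 k)
  have s7 := mul_le_mul_of_nonneg_left s3 (Real.exp_pos (τ * h)).le
  have s8 := mul_le_mul_of_nonneg_left s6 he
  rw [← s1]
  linarith

/-- sum `count_one` over the fibres of `i ↦ (lam i, jj i)`. -/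
theorem count_all {ι : Type} [Fintype ι] {d : ℕ} (hd : 1 ≤ d) (deg : ι → ℕ) (lam : ι → ℝ)
    (jj : ι → ℕ) (α : ι → Fin d → ℕ) (G₀ : Finset (Fin d → ℕ)) {K h R m₀ : ℕ}
    (hinj : Function.Injective fun i => (deg i, lam i, jj i, α i)) (hdeg : ∀ i, deg i ≤ K)
    (hlam : ∀ i, 0 ≤ lam i) (hR : ∀ k, (Finset.univ.filter fun i => deg i = k).card ≤ R)
    (hm : d * R ≤ m₀) {B : ℝ} (hB : 0 ≤ B) (hG₀ : B ^ d ≤ d.factorial * G₀.card)
    (hs : ∀ i, deg i + h ≤ K → ∀ β ∈ G₀, ∀ δ : Fin d → ℕ, (∀ l, δ l ≤ 1) →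
      ∃ i', deg i' = deg i + h ∧ lam i' = lam i ∧ jj i' = jj i ∧ α i' = α i + β + δ)
    {τ : ℝ} (hτ : 0 < τ) :
    d * B * ∑ i, Real.exp (-(τ * (deg i + lam i))) ≤
      (Real.exp (τ * h) - 1) * ∑ i, Real.exp (-(τ * (deg i + lam i))) *
        (((min (∑ l, α i l) m₀ : ℕ) : ℝ) + (d + 1)) +
      (d * B + d * R) * (h * R * Real.exp (-(τ * (K - h)))) := by
  classical
  let P : Finset (ℝ × ℕ) := Finset.univ.image fun i => (lam i, jj i)
  let A : ℝ × ℕ → ℕ → Finset ι := fun c k =>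
    Finset.univ.filter fun i => ((lam i, jj i), deg i) = (c, k)
  let G : ℝ × ℕ → ℕ → Finset (Fin d → ℕ) := fun c k => (A c k).image α
  have hA : ∀ c k i, i ∈ A c k ↔ (lam i, jj i) = c ∧ deg i = k := fun c k i => by
    simp only [A, Finset.mem_filter, Finset.mem_univ, true_and, Prod.mk.injEq]
  have hα : ∀ c k, Set.InjOn α (A c k) := fun c k i hi j hj e => by
    obtain ⟨a1, a2⟩ := (hA c k i).1 hi
    obtain ⟨b1, b2⟩ := (hA c k j).1 hj
    have := a1.trans b1.symm
    rw [Prod.mk.injEq] at this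
    exact hinj (by simp only [a2, b2, this.1, this.2, e])
  have hcard : ∀ c k, (G c k).card = (A c k).card := fun c k => Finset.card_image_of_injOn (hα c k)
  have key : ∀ g : ι → ℝ, ∑ c ∈ P, ∑ k ∈ Finset.range (K + 1), ∑ i ∈ A c k, g i = ∑ i, g i := by
    intro g
    rw [← Finset.sum_product' (f := fun c k => ∑ i ∈ A c k, g i)]
    exact Finset.sum_fiberwise_of_maps_to (s := Finset.univ) (t := P ×ˢ Finset.range (K + 1))
      (g := fun i => ((lam i, jj i), deg i)) (fun i _ => Finset.mem_product.2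
      ⟨Finset.mem_image_of_mem (fun i => (lam i, jj i)) (Finset.mem_univ i),
        Finset.mem_range.2 (Nat.lt_succ_of_le (hdeg i))⟩) g
  have hw : ∀ c k, ∀ i ∈ A c k, Real.exp (-(τ * (deg i + lam i))) =
      Real.exp (-(τ * c.1)) * Real.exp (-(τ * k)) := fun c k i hi => by
    obtain ⟨rfl, rfl⟩ := (hA c k i).1 hi
    rw [← Real.exp_add]
    congr 1; ring
  have one : ∀ c ∈ P, _ := fun c _ => mul_le_mul_of_nonneg_left
    (count_one hd (G c) G₀ (K := K) (h := h) (R := R) (m₀ := m₀) (fun k _ => by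
      rw [hcard]
      refine (Finset.card_le_card fun i hi => ?_).trans (hR k)
      exact Finset.mem_filter.2 ⟨Finset.mem_univ _, ((hA c k i).1 hi).2⟩) hm hB hG₀
      (fun k hk a ha β hβ δ hδ => by
        obtain ⟨i, hi, rfl⟩ := Finset.mem_image.1 ha
        obtain ⟨a1, a2⟩ := (hA c k i).1 hi
        obtain ⟨i', b1, b2, b3, b4⟩ := hs i (a2 ▸ hk) β hβ δ hδ
        exact Finset.mem_image.2 ⟨i', (hA _ _ _).2 ⟨by rw [b2, b3, a1], by rw [b1, a2]⟩, b4⟩) hτ)
    (Real.exp_pos (-(τ * c.1))).le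
  have tot := Finset.sum_le_sum one
  have e1 : ∑ c ∈ P, Real.exp (-(τ * c.1)) *
      (d * B * ∑ k ∈ Finset.range (K + 1), Real.exp (-(τ * k)) * (G c k).card) =
      d * B * ∑ i, Real.exp (-(τ * (deg i + lam i))) := by
    rw [← key, Finset.mul_sum]
    refine Finset.sum_congr rfl fun c _ => ?_
    rw [mul_left_comm, Finset.mul_sum]
    congr 1
    refine Finset.sum_congr rfl fun k _ => ?_
    rw [Finset.sum_congr rfl (hw c k), Finset.sum_const, hcard, nsmul_eq_mul]
    ring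
  have e2 : ∑ c ∈ P, Real.exp (-(τ * c.1)) * ∑ k ∈ Finset.range (K + 1), Real.exp (-(τ * k)) *
      ∑ a ∈ G c k, (((min (∑ l, a l) m₀ : ℕ) : ℝ) + (d + 1)) =
      ∑ i, Real.exp (-(τ * (deg i + lam i))) * (((min (∑ l, α i l) m₀ : ℕ) : ℝ) + (d + 1)) := by
    rw [← key]
    refine Finset.sum_congr rfl fun c _ => ?_
    rw [Finset.mul_sum]
    refine Finset.sum_congr rfl fun k _ => ?_
    rw [Finset.sum_image (hα c k), ← mul_assoc, Finset.mul_sum]
    exact Finset.sum_congr rfl fun i hi => by rw [hw c k i hi]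
  have e3 : ∑ c ∈ P, Real.exp (-(τ * c.1)) * ∑ k ∈ Finset.range (K + 1) with K < k + h,
      Real.exp (-(τ * k)) * (G c k).card ≤ h * R * Real.exp (-(τ * (K - h))) := by
    have f1 : ∀ c ∈ P, Real.exp (-(τ * c.1)) * ∑ k ∈ Finset.range (K + 1) with K < k + h,
        Real.exp (-(τ * k)) * (G c k).card ≤ ∑ k ∈ Finset.range (K + 1) with K < k + h,
          Real.exp (-(τ * (K - h))) * (A c k).card := by
      intro c hc
      obtain ⟨i, -, rfl⟩ := Finset.mem_image.1 hc
      refine (mul_le_of_le_one_left (Finset.sum_nonneg fun k _ =>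
        mul_nonneg (Real.exp_pos _).le (Nat.cast_nonneg _)) (Real.exp_le_one_iff.2 ?_)).trans
        (Finset.sum_le_sum fun k hk => ?_)
      · exact neg_nonpos.2 (mul_nonneg hτ.le (hlam i))
      · rw [hcard]
        refine mul_le_mul_of_nonneg_right (Real.exp_le_exp.2 ?_) (Nat.cast_nonneg _)
        have : (K : ℝ) < k + h := by exact_mod_cast (Finset.mem_filter.1 hk).2
        exact neg_le_neg (mul_le_mul_of_nonneg_left (by linarith) hτ.le)
    refine (Finset.sum_le_sum f1).trans ?_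
    rw [Finset.sum_comm]
    have f2 : ∀ k ∈ (Finset.range (K + 1)).filter (fun k => K < k + h),
        ∑ c ∈ P, Real.exp (-(τ * (K - h))) * ((A c k).card : ℝ) ≤
          Real.exp (-(τ * (K - h))) * R := by
      intro k _
      rw [← Finset.mul_sum]
      refine mul_le_mul_of_nonneg_left ?_ (Real.exp_pos _).le
      have := Finset.card_eq_sum_card_fiberwise (f := fun i => (lam i, jj i))
        (s := Finset.univ.filter fun i => deg i = k) (t := P)
        fun i _ => Finset.mem_image_of_mem _ (Finset.mem_univ i)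
      have e : ∀ c, ((Finset.univ.filter fun i => deg i = k).filter
          fun i => (lam i, jj i) = c) = A c k := fun c => by
        ext i
        simp only [Finset.mem_filter, Finset.mem_univ, true_and, hA, and_comm]
      simp only [e] at this
      exact_mod_cast this ▸ hR k
    refine (Finset.sum_le_sum f2).trans ?_
    rw [Finset.sum_const, nsmul_eq_mul]
    have f3 : ((Finset.range (K + 1)).filter (fun k => K < k + h)).card ≤ h := by
      refine (Finset.card_le_card (t := Finset.Ico (K + 1 - h) (K + 1)) fun k hk => ?_).trans ?_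
      · have a1 := Finset.mem_range.1 (Finset.mem_filter.1 hk).1
        have a2 := (Finset.mem_filter.1 hk).2
        exact Finset.mem_Ico.2 ⟨by omega, a1⟩
      · rw [Nat.card_Ico]; omega
    have f4 : (((Finset.range (K + 1)).filter (fun k => K < k + h)).card : ℝ) ≤ h := by
      exact_mod_cast f3
    have := mul_le_mul_of_nonneg_right f4
      (by positivity : 0 ≤ Real.exp (-(τ * (K - h))) * (R : ℝ))
    linarith
  rw [e1] at tot
  simp only [mul_add (Real.exp _), mul_left_comm (Real.exp (-(τ * _))) (Real.exp (τ * h) - 1),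
    mul_left_comm (Real.exp (-(τ * _))) (d * B + d * R), Finset.sum_add_distrib (s := P),
    ← Finset.mul_sum] at tot
  rw [e2] at tot
  exact tot.trans (add_le_add le_rfl (mul_le_mul_of_nonneg_left e3
    (add_nonneg (mul_nonneg (Nat.cast_nonneg _) hB)
      (mul_nonneg (Nat.cast_nonneg _) (Nat.cast_nonneg _)))))

end Crest.Agent.R271
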