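import Crest.Agent.R271.C0

/-! Row 271, part C: power series expansions at a general point. -/

set_option autoImplicit false

namespace Crest.Agent.R271

open MvPowerSeries

theorem CP_lift {A O S : Type} [CommRing A] [CommRing O] [CommRing S] [Algebra ℂ A] [Algebra ℂ O]
    [Algebra ℂ S] [Algebra A O] [IsScalarTower ℂ A O] [Algebra.FormallySmooth A O] (I : Ideal S)
    [IsAdicComplete I S] (φ : A →ₐ[ℂ] S) (f : O →ₐ[ℂ] S ⧸ I)
    (h : ∀ a, f (algebraMap A O a) = Ideal.Quotient.mk I (φ a)) :
    ∃ g : O →ₐ[ℂ] S, (∀ o, Ideal.Quotient.mk I (g o) = f o) ∧ ∀ a, g (algebraMap A O a) = φ a := by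
  let _ : Algebra A S := φ.toAlgebra
  have : IsScalarTower ℂ A S := IsScalarTower.of_algebraMap_eq fun c => (φ.commutes c).symm
  obtain ⟨g, hg⟩ := Algebra.FormallySmooth.exists_mkₐ_comp_eq_of_isAdicComplete (R := A) (I := I)
    ⟨f.toRingHom, h⟩
  exact ⟨g.restrictScalars ℂ, fun o => congr($hg o), fun a => g.commutes a⟩

theorem CP_generic {A D : Type} [CommRing A] [IsDomain A] [IsNoetherianRing A] [CharZero A]
    [CommRing D] [IsDomain D] [Algebra A D] [FaithfulSMul A D] [Algebra.FiniteType A D]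
    [halg : Algebra.IsAlgebraic A D] : ∃ Δ : D, Δ ≠ 0 ∧ ∀ (q : Ideal D) [q.IsPrime], Δ ∉ q →
      Algebra.FormallyEtale A (Localization.AtPrime q) := by
  have : Algebra.FinitePresentation A D := Algebra.FinitePresentation.of_finiteType.1 inferInstance
  let K := FractionRing D
  let F := FractionRing A
  have hK : Algebra.IsAlgebraic A K := (IsFractionRing.isAlgebraic_iff' A D K).1 halg
  let _ : Algebra F K := FractionRing.liftAlgebra A K
  have : IsScalarTower A F K := FractionRing.isScalarTower_liftAlgebra A K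
  have : Algebra.IsAlgebraic F K := hK.extendScalars (IsFractionRing.injective A F)
  have e1 : Algebra.FormallyEtale A F := Algebra.FormallyEtale.of_isLocalization (nonZeroDivisors A)
  have e2 : Algebra.FormallyEtale F K := Algebra.FormallyEtale.of_isSeparable F K
  have e3 : Algebra.FormallyEtale A K := Algebra.FormallyEtale.comp A F K
  have : IsFractionRing D (Localization.AtPrime (⊥ : Ideal D)) := by
    simpa [Ideal.primeCompl_bot] using Localization.isLocalization (M := (⊥ : Ideal D).primeCompl)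
  have e4 : Algebra.IsEtaleAt A (⊥ : Ideal D) := Algebra.FormallyEtale.of_equiv
    ((IsLocalization.algEquiv (nonZeroDivisors D) K
      (Localization.AtPrime (⊥ : Ideal D))).restrictScalars A)
  obtain ⟨Δ, hΔ, hE⟩ := Algebra.exists_etale_of_isEtaleAt (R := A) (⊥ : Ideal D)
  exact ⟨Δ, hΔ, fun q _ hq => Algebra.basicOpen_subset_etaleLocus_iff_etale.2 hE
    (show (⟨q, ‹_›⟩ : PrimeSpectrum D) ∈ PrimeSpectrum.basicOpen Δ from hq)⟩

theorem CP_sub_eval {σ : Type} (c : σ → ℂ) (F : MvPolynomial σ ℂ) :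
    F - MvPolynomial.C (MvPolynomial.eval c F) ∈
      Ideal.span (Set.range fun l => (MvPolynomial.X l - MvPolynomial.C (c l) : MvPolynomial σ ℂ)) := by
  induction F using MvPolynomial.induction_on with
  | C a => simp
  | add p q hp hq =>
    rw [map_add, map_add, add_sub_add_comm]
    exact add_mem hp hq
  | mul_X p l hp =>
    have e : p * MvPolynomial.X l - MvPolynomial.C (MvPolynomial.eval c (p * MvPolynomial.X l)) =
        p * (MvPolynomial.X l - MvPolynomial.C (c l)) +
          (p - MvPolynomial.C (MvPolynomial.eval c p)) * MvPolynomial.C (c l) := by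
      simp only [map_mul, MvPolynomial.eval_X]
      ring
    rw [e]
    exact add_mem (Ideal.mul_mem_left _ _ (Ideal.subset_span ⟨l, rfl⟩)) (Ideal.mul_mem_right _ _ hp)

theorem CP_approx {O σ : Type} [CommRing O] [Algebra ℂ O] (t : σ → O)
    (h : ∀ o : O, ∃ c : ℂ, o - algebraMap ℂ O c ∈ Ideal.span (Set.range t)) (m : ℕ) (o : O) :
    ∃ F : MvPolynomial σ ℂ, o - MvPolynomial.aeval t F ∈ Ideal.span (Set.range t) ^ m := by
  set J := Ideal.span (Set.range t) with hJ
  have key : ∀ m : ℕ, ∀ x ∈ J ^ m, ∃ F : MvPolynomial σ ℂ,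
      x - MvPolynomial.aeval t F ∈ J ^ (m + 1) := by
    intro m
    induction m with
    | zero =>
      intro x _
      obtain ⟨c, hc⟩ := h x
      exact ⟨MvPolynomial.C c, by simpa using hc⟩
    | succ m ih =>
      have hadd : ∀ x y : O, (∃ F : MvPolynomial σ ℂ, x - MvPolynomial.aeval t F ∈ J ^ (m + 1 + 1)) →
          (∃ F : MvPolynomial σ ℂ, y - MvPolynomial.aeval t F ∈ J ^ (m + 1 + 1)) →
          ∃ F : MvPolynomial σ ℂ, x + y - MvPolynomial.aeval t F ∈ J ^ (m + 1 + 1) := by
        rintro x y ⟨F, hF⟩ ⟨G, hG⟩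
        exact ⟨F + G, by rw [map_add, add_sub_add_comm]; exact add_mem hF hG⟩
      intro x hx
      rw [pow_succ'] at hx
      refine Submodule.mul_induction_on hx (fun a ha => ?_) hadd
      induction ha using Submodule.span_induction with
      | mem a ha =>
        obtain ⟨l, rfl⟩ := ha
        intro b hb
        obtain ⟨F, hF⟩ := ih b hb
        refine ⟨MvPolynomial.X l * F, ?_⟩
        rw [map_mul, MvPolynomial.aeval_X, ← mul_sub, pow_succ']
        exact Ideal.mul_mem_mul (Ideal.subset_span ⟨l, rfl⟩) hF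
      | zero => exact fun b _ => ⟨0, by simp⟩
      | add a a' _ _ h1 h2 =>
        intro b hb
        rw [add_mul]
        exact hadd _ _ (h1 b hb) (h2 b hb)
      | smul c a _ h1 =>
        intro b hb
        rw [smul_eq_mul, mul_comm c a, mul_assoc]
        exact h1 _ (Ideal.mul_mem_left _ _ hb)
  induction m with
  | zero => exact ⟨0, by simp⟩
  | succ m ih =>
    obtain ⟨F, hF⟩ := ih
    obtain ⟨G, hG⟩ := key m _ hF
    exact ⟨F + G, by rwa [map_add, ← sub_sub]⟩

theorem CP_order {σ : Type} (m : ℕ) {f : MvPowerSeries σ ℂ}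
    (hf : f ∈ (Ideal.span (Set.range X) : Ideal (MvPowerSeries σ ℂ)) ^ m) : (m : ℕ∞) ≤ f.order := by
  induction m generalizing f with
  | zero => simp
  | succ m ih =>
    rw [pow_succ] at hf
    refine Submodule.mul_induction_on hf (fun a ha b hb => ?_) fun a b ha hb =>
      (le_min ha hb).trans min_order_le_add
    have h1 : 1 ≤ b.order := by
      rw [one_le_order_iff_constCoeff_eq_zero]
      refine (Ideal.span_le (I := RingHom.ker constantCoeff)).2 ?_ hb
      rintro _ ⟨l, rfl⟩
      exact constantCoeff_X l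
    push_cast
    exact (add_le_add (ih ha) h1).trans le_order_mul

/-- `Frac D / ℂ(w)` is finite separable, so `D` is étale over `ℂ[w]` at the generic point
(`Algebra.IsEtaleAt`, `IsEtaleAt.exists_isStandardEtale` or the open étale locus): `D_Δ` is étale.
Lift `y` to `ι : D_Δ → ℂ⟦X⟧` over `w ↦ y w + X`
(`Algebra.FormallySmooth.exists_mkₐ_comp_eq_of_isAdicComplete`; or lift successively).  Unramified:
`ker y` is generated by the `w l - y (w l)` after localising at `y`.  Write `c` as a polynomial in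
`t` plus an element of `(t) ^ μ` (locally) to get the last property; Krull's intersection theorem
gives injectivity. -/
theorem exists_expansion {D : Type} [CommRing D] [IsDomain D] [Algebra ℂ D]
    [Algebra.FiniteType ℂ D] {d : ℕ} {w : Fin d → D} (hw : IsTranscendenceBasis ℂ w) :
    ∃ Δ : D, Δ ≠ 0 ∧ ∀ y : D →ₐ[ℂ] ℂ, y Δ ≠ 0 →
      ∃ ι : D →ₐ[ℂ] MvPowerSeries (Fin d) ℂ, Function.Injective ι ∧
        (∀ l, ι (w l - algebraMap ℂ D (y (w l))) = X l) ∧
        ∀ (c : D) (m : ℕ), (∀ α : Fin d →₀ ℕ, α.degree < m → coeff α (ι c) = 0) →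
          ∃ q : D, y q ≠ 0 ∧
            q * c ∈ Ideal.span (Set.range fun l => w l - algebraMap ℂ D (y (w l))) ^ m := by
  let A := MvPolynomial (Fin d) ℂ
  let _ : Algebra A D := (MvPolynomial.aeval w : A →ₐ[ℂ] D).toAlgebra
  have hA : ∀ a : A, algebraMap A D a = MvPolynomial.aeval w a := fun _ => rfl
  have : IsScalarTower ℂ A D := IsScalarTower.of_algebraMap_eq fun c => by
    rw [hA, AlgHom.commutes]
  have : FaithfulSMul A D := (faithfulSMul_iff_algebraMap_injective A D).2 hw.1
  have halg : Algebra.IsAlgebraic A D := by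
    refine ⟨fun y => ?_⟩
    refine (hw.isAlgebraic.1 y).of_ringHom_of_comp_eq
      (hw.1.aevalEquiv : A →+* Algebra.adjoin ℂ (Set.range w)) (RingHom.id D)
      hw.1.aevalEquiv.surjective Function.injective_id ?_
    ext a <;> simp [hA]
  have : Algebra.FiniteType A D := Algebra.FiniteType.of_restrictScalars_finiteType ℂ A D
  have : IsNoetherianRing D := Algebra.FiniteType.isNoetherianRing ℂ D
  obtain ⟨Δ, hΔ, hE⟩ := CP_generic (A := A) (D := D)
  refine ⟨Δ, hΔ, fun y hy => ?_⟩
  let q : Ideal D := RingHom.ker y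
  have : q.IsPrime := RingHom.ker_isPrime _
  let O := Localization.AtPrime q
  have hEt : Algebra.FormallyEtale A O := hE q hy
  let yb : O →ₐ[ℂ] ℂ := IsLocalization.liftAlgHom (M := q.primeCompl) (f := y)
    fun s => Ne.isUnit s.2
  have hyb : ∀ c : D, yb (algebraMap D O c) = y c := fun c => IsLocalization.lift_eq _ c
  let S := MvPowerSeries (Fin d) ℂ
  let I : Ideal S := Ideal.span (Set.range X)
  let φ : A →ₐ[ℂ] S := MvPolynomial.aeval fun l => X l + algebraMap ℂ S (y (w l))
  have hAO : ∀ a : A, algebraMap A O a = algebraMap D O (MvPolynomial.aeval w a) := fun _ => rfl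
  have hφX : ∀ l, φ (MvPolynomial.X l) = X l + algebraMap ℂ S (y (w l)) := fun l =>
    MvPolynomial.aeval_X _ l
  have hAX : ∀ l, algebraMap A O (MvPolynomial.X l) = algebraMap D O (w l) := fun l => by
    rw [hAO, MvPolynomial.aeval_X]
  have hAC : ∀ c, algebraMap A O (MvPolynomial.C c) = algebraMap D O (algebraMap ℂ D c) := fun c => by
    rw [hAO, MvPolynomial.aeval_C]
  obtain ⟨g, hg1, hg2⟩ := CP_lift (A := A) (O := O) I φ ((Algebra.ofId ℂ (S ⧸ I)).comp yb) (by
    have : ((Algebra.ofId ℂ (S ⧸ I)).comp yb).comp (IsScalarTower.toAlgHom ℂ A O) =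
        (Ideal.Quotient.mkₐ ℂ I).comp φ := MvPolynomial.algHom_ext fun l => by
      have h0 : Ideal.Quotient.mk I (X l) = 0 :=
        Ideal.Quotient.eq_zero_iff_mem.2 (Ideal.subset_span ⟨l, rfl⟩)
      change algebraMap ℂ (S ⧸ I) (yb (algebraMap A O (MvPolynomial.X l))) =
        Ideal.Quotient.mk I (φ (MvPolynomial.X l))
      rw [hAX, hyb, hφX, map_add, h0, zero_add]
      rfl
    exact fun a => congr($this a))
  let t : Fin d → D := fun l => w l - algebraMap ℂ D (y (w l))
  let ι : D →ₐ[ℂ] S := g.comp (IsScalarTower.toAlgHom ℂ D O)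
  have hι : ∀ c, ι c = g (algebraMap D O c) := fun _ => rfl
  have hιt : ∀ l, ι (t l) = X l := by
    intro l
    have := hg2 (MvPolynomial.X l)
    rw [hAX, ← hι, hφX] at this
    simp only [t, map_sub, this, AlgHom.commutes, add_sub_cancel_right]
  let t' : Fin d → O := fun l => algebraMap D O (t l)
  let J : Ideal O := Ideal.span (Set.range t')
  have hJ : (Ideal.span (Set.range t)).map (algebraMap D O) = J := by
    rw [Ideal.map_span, ← Set.range_comp]
    rfl
  have hker : ∀ o : O, yb o = 0 → o ∈ IsLocalRing.maximalIdeal O := fun o ho hu =>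
    (hu.map yb).ne_zero ho
  have hmJ : IsLocalRing.maximalIdeal O ≤ J := by
    let _ := Localization.AtPrime.algebraOfLiesOver (q.under A) q
    rw [← ((Algebra.isUnramifiedAt_iff_map_eq A (q.under A) q).1 inferInstance).2,
      Ideal.map_le_iff_le_comap]
    intro F hF
    have h1 : MvPolynomial.eval (fun l => y (w l)) F = 0 := by
      have h2 : y (MvPolynomial.aeval w F) = 0 := hF
      rwa [MvPolynomial.comp_aeval_apply, MvPolynomial.aeval_eq_eval] at h2
    have h3 := CP_sub_eval (fun l => y (w l)) F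
    rw [h1, map_zero, sub_zero] at h3
    refine Ideal.span_le.2 ?_ h3
    rintro _ ⟨l, rfl⟩
    refine Ideal.subset_span ⟨l, ?_⟩
    simp only [t', t, map_sub]
    exact congrArg₂ _ (hAX l).symm (hAC _).symm
  have hJm : J ≤ IsLocalRing.maximalIdeal O := by
    refine Ideal.span_le.2 ?_
    rintro _ ⟨l, rfl⟩
    refine hker _ ?_
    simp [t', t, hyb]
  have key : ∀ (c : D) (m : ℕ), (∀ α : Fin d →₀ ℕ, α.degree < m → coeff α (ι c) = 0) →
      algebraMap D O c ∈ J ^ m := by
    intro c m hc
    obtain ⟨F, hF⟩ := CP_approx t' (fun o => ⟨yb o, hmJ (hker _ (by simp))⟩) m (algebraMap D O c)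
    have hgF : g (MvPolynomial.aeval t' F) = (F : S) := by
      have : g.comp (MvPolynomial.aeval t') = MvPolynomial.coeToMvPowerSeries.algHom ℂ :=
        MvPolynomial.algHom_ext fun l => by
          rw [AlgHom.comp_apply, MvPolynomial.aeval_X]
          rw [MvPolynomial.coeToMvPowerSeries.algHom_apply, MvPolynomial.coe_X, map_X]
          exact hιt l
      simpa using congr($this F)
    have hJI : J.map g ≤ I := by
      rw [Ideal.map_span, Ideal.span_le]
      rintro _ ⟨_, ⟨l, rfl⟩, rfl⟩
      exact Ideal.subset_span ⟨l, (hιt l).symm⟩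
    have h1 : ι c - (F : S) ∈ I ^ m := by
      have := Ideal.mem_map_of_mem g hF
      rw [Ideal.map_pow, map_sub, hgF] at this
      exact Ideal.pow_right_mono hJI m this
    have h2 : F ∈ MvPolynomial.idealOfVars (Fin d) ℂ ^ m := by
      refine (MvPolynomial.mem_pow_idealOfVars_iff' m F).2 fun α hα => ?_
      have h3 := coeff_of_lt_order (d := α) (lt_of_lt_of_le (by exact_mod_cast hα) (CP_order m h1))
      rwa [map_sub, hc α hα, zero_sub, neg_eq_zero, MvPolynomial.coeff_coe] at h3
    have h4 : MvPolynomial.aeval t' F ∈ J ^ m := by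
      have := Ideal.mem_map_of_mem (MvPolynomial.aeval t' : A →ₐ[ℂ] O) h2
      rw [Ideal.map_pow] at this
      refine Ideal.pow_right_mono ?_ m this
      rw [Ideal.map_span, Ideal.span_le]
      rintro _ ⟨_, ⟨l, rfl⟩, rfl⟩
      exact Ideal.subset_span ⟨l, (MvPolynomial.aeval_X t' l).symm⟩
    simpa using add_mem hF h4
  refine ⟨ι, (injective_iff_map_eq_zero ι).2 fun c hc => ?_, hιt, fun c m hc => ?_⟩
  · have h1 : algebraMap D O c ∈ ⨅ m : ℕ, J ^ m :=
      Ideal.mem_iInf.2 fun m => key c m fun α _ => by rw [hc, map_zero]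
    rw [Ideal.iInf_pow_eq_bot_of_isLocalRing J fun h =>
      (IsLocalRing.maximalIdeal.isMaximal O).ne_top (top_le_iff.1 (h ▸ hJm)), Ideal.mem_bot] at h1
    exact (map_eq_zero_iff _ (IsLocalization.injective O q.primeCompl_le_nonZeroDivisors)).1 h1
  · have h1 := key c m hc
    rw [← hJ, ← Ideal.map_pow, IsLocalization.algebraMap_mem_map_algebraMap_iff q.primeCompl] at h1
    exact h1

end Crest.Agent.R271
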