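import Crest.Agent.R271.C0

/-! Row 271, part C: lowest monomials of power series. -/

set_option autoImplicit false

namespace Crest.Agent.R271

open MvPowerSeries

section
variable {d : ℕ} {f g : MvPowerSeries (Fin d) ℂ}

theorem coeff_lowT (hf : f ≠ 0) : coeff (ofDegLex (lowT f)) f ≠ 0 := by
  have h : {α : DegLex (Fin d →₀ ℕ) | coeff (ofDegLex α) f ≠ 0}.Nonempty := by
    by_contra hn
    exact hf (MvPowerSeries.ext fun α => by_contra fun h => hn ⟨toDegLex α, h⟩)
  rw [lowT, dif_pos h]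
  exact wellFounded_lt.min_mem _ h

theorem lowT_le {α : DegLex (Fin d →₀ ℕ)} (h : coeff (ofDegLex α) f ≠ 0) : lowT f ≤ α := by
  have h' : {α : DegLex (Fin d →₀ ℕ) | coeff (ofDegLex α) f ≠ 0}.Nonempty := ⟨α, h⟩
  rw [lowT, dif_pos h']
  exact wellFounded_lt.min_le h

theorem CPa_eq {α : DegLex (Fin d →₀ ℕ)} (h : coeff (ofDegLex α) f ≠ 0)
    (h' : ∀ β, coeff (ofDegLex β) f ≠ 0 → α ≤ β) : lowT f = α :=
  le_antisymm (lowT_le h) (h' _ (coeff_lowT fun h0 => h (by rw [h0, map_zero])))

theorem lowT_mul (hf : f ≠ 0) (hg : g ≠ 0) : lowT (f * g) = lowT f + lowT g := by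
  classical
  refine CPa_eq ?_ fun β hβ => ?_
  · rw [coeff_mul, Finset.sum_eq_single_of_mem (ofDegLex (lowT f), ofDegLex (lowT g))
      (Finset.HasAntidiagonal.mem_antidiagonal (n := ofDegLex (lowT f + lowT g)).2 rfl)]
    · exact mul_ne_zero (coeff_lowT hf) (coeff_lowT hg)
    · rintro ⟨a, b⟩ hab hne
      by_contra h0
      have h1 : lowT f ≤ toDegLex a := lowT_le (left_ne_zero_of_mul h0)
      have h2 : lowT g ≤ toDegLex b := lowT_le (right_ne_zero_of_mul h0)
      have h3 : toDegLex a + toDegLex b = lowT f + lowT g :=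
        Finset.HasAntidiagonal.mem_antidiagonal.1 hab
      obtain ⟨h4, h5⟩ := (add_eq_add_iff_eq_and_eq h1 h2).1 h3.symm
      exact hne (by rw [h4, h5]; rfl)
  · rw [coeff_mul] at hβ
    obtain ⟨⟨a, b⟩, hab, h0⟩ := Finset.exists_ne_zero_of_sum_ne_zero hβ
    have h1 : lowT f ≤ toDegLex a := lowT_le (left_ne_zero_of_mul h0)
    have h2 : lowT g ≤ toDegLex b := lowT_le (right_ne_zero_of_mul h0)
    have h3 : toDegLex a + toDegLex b = β := Finset.HasAntidiagonal.mem_antidiagonal.1 hab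
    exact h3 ▸ add_le_add h1 h2

theorem lowT_one : lowT (1 : MvPowerSeries (Fin d) ℂ) = 0 := by
  classical
  refine CPa_eq ?_ fun β hβ => ?_
  · exact (coeff_zero_one (σ := Fin d) (R := ℂ)).trans_ne one_ne_zero
  · rw [coeff_one] at hβ
    exact le_of_eq (show ofDegLex β = 0 from by_contra fun h => hβ (if_neg h)).symm

theorem lowT_X (l : Fin d) :
    lowT (X l : MvPowerSeries (Fin d) ℂ) = toDegLex (Finsupp.single l 1) := by
  classical
  refine CPa_eq ?_ fun β hβ => ?_
  · exact (coeff_index_single_self_X (R := ℂ) l).trans_ne one_ne_zero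
  · rw [coeff_X] at hβ
    exact le_of_eq (show ofDegLex β = Finsupp.single l 1 from
      by_contra fun h => hβ (if_neg h)).symm

theorem lowT_na : NA (lowT (d := d)) := by
  refine ⟨fun c s hc => ?_, fun s s' _ _ h => ?_⟩
  · by_cases hs : s = 0
    · rw [hs, smul_zero]
    refine CPa_eq ?_ fun β hβ => lowT_le ?_
    · rw [coeff_smul]
      exact mul_ne_zero hc (coeff_lowT hs)
    · rw [coeff_smul] at hβ
      exact right_ne_zero_of_mul hβ
  · have h1 := coeff_lowT h
    rw [map_add] at h1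
    by_cases h2 : coeff (ofDegLex (lowT (s + s'))) s = 0
    · rw [h2, zero_add] at h1
      exact (min_le_right _ _).trans (lowT_le h1)
    · exact (min_le_left _ _).trans (lowT_le h2)

theorem lowT_leaf : Leaf (lowT (d := d)) := by
  intro s s' hs hs' he
  refine ⟨coeff (ofDegLex (lowT s)) s / coeff (ofDegLex (lowT s')) s', ?_⟩
  rw [or_iff_not_imp_left]
  intro h
  have h1 := coeff_lowT h
  set β := lowT (s - (coeff (ofDegLex (lowT s)) s / coeff (ofDegLex (lowT s')) s') • s')
  rw [map_sub, coeff_smul] at h1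
  refine lt_of_le_of_ne ?_ fun h2 => h1 ?_
  · by_cases h2 : coeff (ofDegLex β) s = 0
    · rw [h2, zero_sub, neg_ne_zero] at h1
      exact he ▸ lowT_le (right_ne_zero_of_mul h1)
    · exact lowT_le h2
  · rw [← h2, he, div_mul_cancel₀ _ (coeff_lowT hs'), sub_self]

end

end Crest.Agent.R271
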