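import Crest.Agent.R271.CB
import Crest.Agent.R271.CPa
import Crest.Agent.R271.CP
import Crest.Agent.R271.CVa

/-! Row 271, part C: the refined valuation. -/

set_option autoImplicit false

namespace Crest.Agent.R271

section CVm
open MvPowerSeries
variable {d : ℕ} {F G : ℕ → MvPowerSeries (Fin d) ℂ}

/-- the lowest monomial of a sequence of power series -/
noncomputable def CV_m (F : ℕ → MvPowerSeries (Fin d) ℂ) : DegLex (Fin d →₀ ℕ) ×ₗ ℕ := by
  classical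
  exact if h : {a : DegLex (Fin d →₀ ℕ) ×ₗ ℕ |
      coeff (ofDegLex (ofLex a).1) (F (ofLex a).2) ≠ 0}.Nonempty then wellFounded_lt.min _ h
    else toLex (0, 0)

theorem CV_m_le {a : DegLex (Fin d →₀ ℕ) ×ₗ ℕ}
    (h : coeff (ofDegLex (ofLex a).1) (F (ofLex a).2) ≠ 0) : CV_m F ≤ a := by
  unfold CV_m
  rw [dif_pos ⟨a, h⟩]
  exact not_lt.1 (wellFounded_lt.not_lt_min _ h)

theorem CV_m_coeff (hF : F ≠ 0) :
    coeff (ofDegLex (ofLex (CV_m F)).1) (F (ofLex (CV_m F)).2) ≠ 0 := by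
  obtain ⟨j, hj⟩ := Function.ne_iff.1 hF
  have h : {a : DegLex (Fin d →₀ ℕ) ×ₗ ℕ |
      coeff (ofDegLex (ofLex a).1) (F (ofLex a).2) ≠ 0}.Nonempty :=
    ⟨toLex (lowT (F j), j), coeff_lowT hj⟩
  unfold CV_m
  rw [dif_pos h]
  exact wellFounded_lt.min_mem _ h

theorem CV_m_add (h : F + G ≠ 0) : min (CV_m F) (CV_m G) ≤ CV_m (F + G) := by
  have h1 := CV_m_coeff h
  rw [Pi.add_apply, map_add] at h1
  by_cases h2 : coeff (ofDegLex (ofLex (CV_m (F + G))).1) (F (ofLex (CV_m (F + G))).2) = 0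
  · rw [h2, zero_add] at h1
    exact (min_le_right _ _).trans (CV_m_le h1)
  · exact (min_le_left _ _).trans (CV_m_le h2)

theorem CV_m_lowT (hF : F ≠ 0) : F (ofLex (CV_m F)).2 ≠ 0 ∧
    lowT (F (ofLex (CV_m F)).2) = (ofLex (CV_m F)).1 := by
  have h1 := CV_m_coeff hF
  have h2 : F (ofLex (CV_m F)).2 ≠ 0 := fun h => h1 (by rw [h, map_zero])
  refine ⟨h2, le_antisymm (lowT_le h1) ?_⟩
  exact Prod.Lex.monotone_fst_ofLex
    (CV_m_le (a := toLex (lowT (F (ofLex (CV_m F)).2), (ofLex (CV_m F)).2)) (coeff_lowT h2))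

theorem CV_m_mul {g : MvPowerSeries (Fin d) ℂ} (hg : g ≠ 0) (hF : F ≠ 0) :
    CV_m (g • F) = toLex (lowT g + (ofLex (CV_m F)).1, (ofLex (CV_m F)).2) := by
  obtain ⟨h1, h2⟩ := CV_m_lowT hF
  have hgF : g • F ≠ 0 := smul_ne_zero hg hF
  refine le_antisymm (CV_m_le ?_) ?_
  · have := coeff_lowT (mul_ne_zero hg h1)
    rw [lowT_mul hg h1, h2] at this
    exact this
  · obtain ⟨h3, h4⟩ := CV_m_lowT hgF
    rw [Pi.smul_apply, smul_eq_mul] at h3 h4
    have h5 := right_ne_zero_of_mul h3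
    rw [lowT_mul hg h5] at h4
    have h6 := CV_m_le (a := toLex (lowT (F (ofLex (CV_m (g • F))).2), (ofLex (CV_m (g • F))).2))
      (coeff_lowT h5)
    rw [Prod.Lex.le_iff] at h6 ⊢
    simp only [ofLex_toLex] at h6 ⊢
    rw [← h4]
    rcases h6 with h6 | h6
    · exact Or.inl (add_lt_add_right h6 _)
    · exact Or.inr ⟨by rw [h6.1], h6.2⟩

theorem CV_lowT_monomial (a : Fin d →₀ ℕ) {c : ℂ} (hc : c ≠ 0) :
    (monomial a c : MvPowerSeries (Fin d) ℂ) ≠ 0 ∧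
      lowT (monomial a c : MvPowerSeries (Fin d) ℂ) = toDegLex a := by
  have h0 : (monomial a c : MvPowerSeries (Fin d) ℂ) ≠ 0 := fun h => by
    have := congrArg (coeff a) h
    rw [coeff_monomial_same, map_zero] at this
    exact hc this
  refine ⟨h0, ?_⟩
  have h1 := coeff_lowT h0
  by_contra h
  exact h1 (coeff_monomial_ne (fun h' => h (congrArg toDegLex h')) _)

theorem CV_m_smul {c : ℂ} (hc : c ≠ 0) (F : ℕ → MvPowerSeries (Fin d) ℂ) :
    CV_m (algebraMap ℂ (MvPowerSeries (Fin d) ℂ) c • F) = CV_m F := by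
  by_cases hF : F = 0
  · rw [hF, smul_zero]
  obtain ⟨h1, h2⟩ := CV_lowT_monomial (d := d) 0 hc
  have e : algebraMap ℂ (MvPowerSeries (Fin d) ℂ) c = monomial 0 c := rfl
  rw [e, CV_m_mul h1 hF, h2]
  have : (toDegLex (0 : Fin d →₀ ℕ)) = 0 := rfl
  rw [this, zero_add]
  rfl

theorem CV_m_leaf (hF : F ≠ 0) (hG : G ≠ 0) (h : CV_m F = CV_m G) : ∃ c : ℂ,
    F - algebraMap ℂ (MvPowerSeries (Fin d) ℂ) c • G = 0 ∨
      CV_m F < CV_m (F - algebraMap ℂ (MvPowerSeries (Fin d) ℂ) c • G) := by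
  have h1 := CV_m_coeff hF
  have h2 := CV_m_coeff hG
  rw [← h] at h2
  set c := coeff (ofDegLex (ofLex (CV_m F)).1) (F (ofLex (CV_m F)).2) /
    coeff (ofDegLex (ofLex (CV_m F)).1) (G (ofLex (CV_m F)).2) with hc
  refine ⟨c, or_iff_not_imp_left.2 fun h0 => lt_of_le_of_ne ?_ fun he => ?_⟩
  · have e : F - algebraMap ℂ (MvPowerSeries (Fin d) ℂ) c • G =
        F + algebraMap ℂ (MvPowerSeries (Fin d) ℂ) (-c) • G := by
      rw [map_neg, neg_smul, sub_eq_add_neg]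
    rw [e] at h0 ⊢
    have := CV_m_add h0
    rwa [CV_m_smul (neg_ne_zero.2 (div_ne_zero h1 h2)), ← h, min_self] at this
  · have h3 := CV_m_coeff h0
    rw [← he, Pi.sub_apply, Pi.smul_apply, algebraMap_smul, map_sub, map_smul, smul_eq_mul, hc,
      div_mul_cancel₀ _ h2, sub_self] at h3
    exact h3 rfl

theorem CV_m_degree (hF : F ≠ 0) (j : ℕ) (a : Fin d →₀ ℕ)
    (ha : a.degree < (ofDegLex (ofLex (CV_m F)).1).degree) : coeff a (F j) = 0 := by
  by_contra h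
  have h1 := Prod.Lex.monotone_fst_ofLex (CV_m_le (F := F) (a := toLex (toDegLex a, j)) h)
  exact absurd (Finsupp.DegLex.monotone_degree h1) (not_le.2 ha)

end CVm

variable {S : Type} [CommRing S] [IsDomain S] [Algebra ℂ S] (v : Val S)

omit [IsDomain S] in
theorem CV_prod_mem {V : Submodule ℂ S} {ι : Type} (s : Finset ι) {x : ι → S} (hx : ∀ l, x l ∈ V) :
    ∏ l ∈ s, x l ∈ V ^ s.card := by
  classical
  induction s using Finset.induction_on with
  | empty =>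
    rw [Finset.prod_empty, Finset.card_empty, pow_zero]
    exact Submodule.one_le.1 le_rfl
  | insert a s ha ih =>
    rw [Finset.prod_insert ha, Finset.card_insert_of_notMem ha, pow_succ']
    exact Submodule.mul_mem_mul (hx a) ih

/-- the abstract properties of the refined valuation -/
theorem CV_refine {d : ℕ} (Ψ : ℝ → S → ℕ → MvPowerSeries (Fin d) ℂ)
    (κ : S →ₐ[ℂ] MvPowerSeries (Fin d) ℂ)
    (hadd : ∀ c, ∀ s ∈ v.ge c, ∀ s' ∈ v.ge c, Ψ c (s + s') = Ψ c s + Ψ c s')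
    (hmul : ∀ c r, ∀ s ∈ v.ge c, Ψ c (r * s) = κ r • Ψ c s)
    (h0 : ∀ c, ∀ s ∈ v.ge c, Ψ c s = 0 ↔ s ∈ v.gt c) :
    NA (fun s => toLex (v.v s, CV_m (Ψ (v.v s) s))) ∧
      Leaf (fun s => toLex (v.v s, CV_m (Ψ (v.v s) s))) := by
  have hge : ∀ s, s ∈ v.ge (v.v s) := fun s => Or.inr le_rfl
  have hne : ∀ s, s ≠ 0 → Ψ (v.v s) s ≠ 0 := fun s hs h =>
    ((h0 _ s (hge s)).1 h).elim hs (lt_irrefl _)
  have key : ∀ s s', s + s' ≠ 0 → v.v s ≤ v.v s' → v.v s ≤ v.v (s + s') →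
      min (toLex (v.v s, CV_m (Ψ (v.v s) s))) (toLex (v.v s', CV_m (Ψ (v.v s') s'))) ≤
        toLex (v.v (s + s'), CV_m (Ψ (v.v (s + s')) (s + s'))) := by
    intro s s' hs h1 h2
    rcases h2.lt_or_eq with h2 | h2
    · exact (min_le_left _ _).trans (Prod.Lex.toLex_le_toLex.2 (Or.inl h2))
    have h3 := hne _ hs
    rw [← h2] at h3 ⊢
    rw [hadd _ s (hge s) s' (Or.inr h1)] at h3 ⊢
    rcases h1.lt_or_eq with h1 | h1
    · rw [(h0 _ s' (Or.inr h1.le)).2 (Or.inr h1), add_zero]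
      exact min_le_left _ _
    · rw [← h1]
      rcases min_le_iff.1 (CV_m_add h3) with h | h
      · exact (min_le_left _ _).trans (Prod.Lex.toLex_le_toLex.2 (Or.inr ⟨rfl, h⟩))
      · exact (min_le_right _ _).trans (Prod.Lex.toLex_le_toLex.2 (Or.inr ⟨rfl, h⟩))
  refine ⟨⟨fun c s hc => ?_, fun s s' hs hs' h => ?_⟩, fun s s' hs hs' h => ?_⟩
  · rw [v.na.smul c s hc, Algebra.smul_def, hmul _ _ s (hge s), AlgHom.commutes, CV_m_smul hc]
  · have h1 := v.add s s' hs hs' h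
    rcases le_total (v.v s) (v.v s') with h2 | h2
    · exact key s s' h h2 (by rwa [min_eq_left h2] at h1)
    · rw [min_comm, add_comm]
      exact key s' s (by rwa [add_comm]) h2 (by rwa [min_eq_right h2, add_comm] at h1)
  · obtain ⟨h1, h2⟩ := Prod.ext_iff.1 (toLex.injective h)
    simp only at h1 h2
    have h3 := hne s' hs'
    rw [← h1] at h2 h3
    obtain ⟨c, hc⟩ := CV_m_leaf (hne s hs) h3 h2
    have hs'' : s' ∈ v.ge (v.v s) := Or.inr h1.le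
    have hu : s - c • s' ∈ v.ge (v.v s) := by
      rw [Algebra.smul_def]
      exact Ideal.sub_mem _ (hge s) (Ideal.mul_mem_left _ _ hs'')
    have e : Ψ (v.v s) (s - c • s') =
        Ψ (v.v s) s - algebraMap ℂ (MvPowerSeries (Fin d) ℂ) c • Ψ (v.v s) s' := by
      rw [sub_eq_add_neg, ← neg_smul, Algebra.smul_def,
        hadd _ s (hge s) _ (Ideal.mul_mem_left _ _ hs''), hmul _ _ s' hs'', AlgHom.commutes, map_neg,
        neg_smul, sub_eq_add_neg]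
    refine ⟨c, or_iff_not_imp_left.2 fun hu0 => ?_⟩
    rcases (hu.resolve_left hu0).lt_or_eq with h4 | h4
    · exact Prod.Lex.toLex_lt_toLex.2 (Or.inl h4)
    · refine Prod.Lex.toLex_lt_toLex.2 (Or.inr ⟨h4, ?_⟩)
      have h5 := hne _ hu0
      simp only
      rw [← h4, e] at h5 ⊢
      exact hc.resolve_left h5

/-- The refined valuation `s ↦ (v s, min_j (lowT (ι (Φ_{v s} s j)), j))` with values in
`ℝ ×ₗ DegLex ×ₗ ℕ` is `NA` and has one dimensional leaves.  `Δ` is the product of a lift of the `Δ` of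
`exists_expansion` and of the `Δ` of `exists_coords` for the finitely many values of `v` on `V ^ K`.
`G₀` is the set of lowest monomials of `ι (V ^ h mod 𝔭)` (`Leaf.ncard`). -/
theorem Val.exists_lt [Algebra.FiniteType ℂ S] {V : Submodule ℂ S} (hV : V.FG) (h1 : (1 : S) ∈ V)
    (K h : ℕ) {d : ℕ} {w : Fin d → S} (hwV : ∀ l, w l ∈ V)
    (hw : IsTranscendenceBasis ℂ fun l => Ideal.Quotient.mk (v.gt 0) (w l)) :
    ∃ Δ : S, Δ ∉ v.gt 0 ∧ ∀ y : S →ₐ[ℂ] ℂ, (∀ f ∈ v.gt 0, y f = 0) → y Δ ≠ 0 →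
      ∃ (b : Idx V K → S) (α : Idx V K → Fin d → ℕ) (jj : Idx V K → ℕ) (G₀ : Finset (Fin d → ℕ)),
        IsSys V K b ∧ (∀ k, Orth v.v fun i => b ⟨k, i⟩) ∧
        (Function.Injective fun i => ((i.1 : ℕ), v.v (b i), jj i, α i)) ∧
        G₀.card = Module.finrank ℂ ↥((V ^ h).map (Ideal.Quotient.mkₐ ℂ (v.gt 0)).toLinearMap) ∧
        (∀ i : Idx V K, (i.1 : ℕ) + (h + d) ≤ K → ∀ β ∈ G₀, ∀ δ : Fin d → ℕ, (∀ l, δ l ≤ 1) →
          ∃ i' : Idx V K, (i'.1 : ℕ) = i.1 + (h + d) ∧ v.v (b i') = v.v (b i) ∧ jj i' = jj i ∧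
            α i' = α i + β + δ) ∧
        ∀ i, ∃ q : S, y q ≠ 0 ∧ q * b i ∈
          Ideal.span (Set.range fun l => w l - algebraMap ℂ S (y (w l))) ^ (∑ l, α i l) *
            v.ge (v.v (b i)) ⊔ v.gt (v.v (b i)) := by
  classical
  have : IsNoetherianRing S := Algebra.FiniteType.isNoetherianRing ℂ S
  have hp := v.gt_prime
  have : Algebra.FiniteType ℂ (S ⧸ v.gt 0) :=
    Algebra.FiniteType.of_surjective (Ideal.Quotient.mkₐ ℂ (v.gt 0)) (Ideal.Quotient.mkₐ_surjective ℂ _)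
  have hfin : ∀ k : ℕ, Module.Finite ℂ ↥(V ^ k) := fun k => Module.Finite.iff_fg.2 (hV.pow k)
  have hmono : Monotone fun k : ℕ => V ^ k := by
    refine monotone_nat_of_le_succ fun k s hs => ?_
    rw [pow_succ, ← mul_one s]
    exact Submodule.mul_mem_mul hs h1
  choose ρ e Δc Φ he hΔ hΦ0 hΦ1 using v.exists_coords
  obtain ⟨Δ₀, hΔ₀, hexp⟩ := exists_expansion hw
  obtain ⟨Δ₁, rfl⟩ := Ideal.Quotient.mk_surjective Δ₀
  have := hfin K
  have hΛ := v.na.finite (V ^ K)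
  refine ⟨Δ₁ * ∏ c ∈ hΛ.toFinset, Δc c, fun hm => ?_, fun y hy hyΔ => ?_⟩
  · rcases hp.mem_or_mem hm with hm | hm
    · exact hΔ₀ (Ideal.Quotient.eq_zero_iff_mem.2 hm)
    · obtain ⟨c, -, hc⟩ := Ideal.IsPrime.prod_mem_iff.1 hm
      exact hΔ c hc
  rw [map_mul, map_prod, mul_ne_zero_iff, Finset.prod_ne_zero_iff] at hyΔ
  let yb : (S ⧸ v.gt 0) →ₐ[ℂ] ℂ := Ideal.Quotient.liftₐ _ y hy
  have hyb : ∀ s, yb (Ideal.Quotient.mk _ s) = y s := fun s => rfl
  obtain ⟨ι, hι, hιX, hιq⟩ := hexp yb hyΔ.1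
  let κ : S →ₐ[ℂ] MvPowerSeries (Fin d) ℂ := ι.comp (Ideal.Quotient.mkₐ ℂ _)
  have hκ : ∀ s, κ s = ι (Ideal.Quotient.mk _ s) := fun s => rfl
  let Ψ : ℝ → S → ℕ → MvPowerSeries (Fin d) ℂ := fun c s j =>
    if h : s ∈ v.ge c ∧ j < ρ c then ι (Φ c ⟨s, h.1⟩ ⟨j, h.2⟩) else 0
  have hΨ : ∀ c (s : v.ge c) (j : Fin (ρ c)), Ψ c s j = ι (Φ c s j) := fun c s j =>
    dif_pos ⟨s.2, j.2⟩
  have hΨ' : ∀ c s j, ¬ j < ρ c → Ψ c s j = 0 := fun c s j hj => dif_neg fun h => hj h.2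
  have hadd : ∀ c, ∀ s ∈ v.ge c, ∀ s' ∈ v.ge c, Ψ c (s + s') = Ψ c s + Ψ c s' := by
    intro c s hs s' hs'
    funext j
    by_cases hj : j < ρ c
    · have := hΨ c (⟨s, hs⟩ + ⟨s', hs'⟩) ⟨j, hj⟩
      rw [map_add, Pi.add_apply, map_add, ← hΨ, ← hΨ] at this
      exact this
    · simp [hΨ' c _ j hj]
  have hmul : ∀ c r, ∀ s ∈ v.ge c, Ψ c (r * s) = κ r • Ψ c s := by
    intro c r s hs
    funext j
    by_cases hj : j < ρ c
    · have := hΨ c (r • ⟨s, hs⟩) ⟨j, hj⟩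
      rw [map_smul, Pi.smul_apply, Algebra.smul_def r (Φ c _ _), map_mul, ← hΨ] at this
      exact this
    · simp [hΨ' c _ j hj]
  have h0 : ∀ c, ∀ s ∈ v.ge c, Ψ c s = 0 ↔ s ∈ v.gt c := by
    intro c s hs
    rw [← hΦ0 c ⟨s, hs⟩]
    constructor
    · intro h
      funext j
      apply hι
      rw [← hΨ, Pi.zero_apply, map_zero]
      exact congrFun h j
    · intro h
      funext j
      by_cases hj : j < ρ c
      · have := hΨ c ⟨s, hs⟩ ⟨j, hj⟩
        rw [h, Pi.zero_apply, map_zero] at this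
        exact this
      · exact hΨ' c _ j hj
  obtain ⟨hna, hleaf⟩ := CV_refine v Ψ κ hadd hmul h0
  have hge : ∀ s, s ∈ v.ge (v.v s) := fun s => Or.inr le_rfl
  have hne : ∀ s, s ≠ 0 → Ψ (v.v s) s ≠ 0 := fun s hs h =>
    ((h0 _ s (hge s)).1 h).elim hs (lt_irrefl _)
  obtain ⟨f, hf⟩ := hna.exists_flag (fun k => V ^ k) hmono hfin K
  have hf' := fun k : Fin (K + 1) => hf k (Nat.lt_succ_iff.1 k.2)
  have hf0 : ∀ i : Idx V K, f i.2 ≠ 0 := fun i => (hf' i.1).2.1.ne_zero i.2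
  have hfV : ∀ i : Idx V K, f i.2 ∈ V ^ (i.1 : ℕ) := fun i => (hf' i.1).1 _ i.2.2
  have := hfin h
  set U := ((V ^ h).map (Ideal.Quotient.mkₐ ℂ (v.gt 0)).toLinearMap).map ι.toLinearMap with hU
  have hG := lowT_na.finite U
  refine ⟨fun i => f i.2, fun i l => ofDegLex (ofLex (CV_m (Ψ (v.v (f i.2)) (f i.2)))).1 l,
    fun i => (ofLex (CV_m (Ψ (v.v (f i.2)) (f i.2)))).2,
    hG.toFinset.image fun (a : DegLex (Fin d →₀ ℕ)) l => ofDegLex a l, fun k => ⟨fun i => hfV ⟨k, i⟩, (hf' k).2.1⟩,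
    fun k => (hf' k).2.2.map Prod.Lex.monotone_fst_ofLex, ?_, ?_, ?_, ?_⟩
  · rintro ⟨k, i⟩ ⟨k', i'⟩ hii
    simp only [Prod.mk.injEq] at hii
    obtain ⟨e1, e2, e3, e4⟩ := hii
    obtain rfl : k = k' := Fin.ext e1
    congr 1
    refine Orth.injective hleaf (hf' k).2.1 (hf' k).2.2 ?_
    refine congrArg toLex (Prod.ext e2 ?_)
    exact ofLex.injective (Prod.ext (ofDegLex.injective (Finsupp.ext (congrFun e4))) e3)
  · rw [Finset.card_image_of_injective _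
      (fun a b hab => ofDegLex.injective (Finsupp.ext (congrFun hab))),
      ← Set.ncard_eq_toFinset_card _ hG, lowT_leaf.ncard lowT_na U]
    exact (LinearEquiv.finrank_eq (Submodule.equivMapOfInjective ι.toLinearMap hι _)).symm
  · intro i hi β hβ δ hδ
    obtain ⟨a, ha, rfl⟩ := Finset.mem_image.1 hβ
    obtain ⟨_, ⟨⟨_, ⟨g, hg, rfl⟩, rfl⟩, hg0⟩, rfl⟩ := hG.mem_toFinset.1 ha
    have hg0' : κ g ≠ 0 := hg0
    let δ' : Fin d →₀ ℕ := Finsupp.equivFunOnFinite.symm δ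
    set r := g * ∏ l, (w l - algebraMap ℂ S (y (w l))) ^ δ l with hr
    obtain ⟨m1, m2⟩ := CV_lowT_monomial δ' (one_ne_zero (α := ℂ))
    have hκr : κ r = κ g * MvPowerSeries.monomial δ' 1 := by
      rw [hr, map_mul, map_prod, MvPowerSeries.monomial_one_eq, Finsupp.prod_fintype _ _ (by simp)]
      congr 1
      refine Finset.prod_congr rfl fun l _ => ?_
      rw [map_pow, ← hιX l]
      rfl
    have hκ0 : κ r ≠ 0 := by rw [hκr]; exact mul_ne_zero hg0' m1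
    have hrp : r ∉ v.gt 0 := fun h => hκ0 (by
      rw [hκ, Ideal.Quotient.eq_zero_iff_mem.2 h, map_zero])
    have hr0 : r ≠ 0 := fun h => hrp (Or.inl h)
    have hvr : v.v r = 0 := le_antisymm (not_lt.1 fun h => hrp (Or.inr h)) (v.nonneg r)
    have hvs : v.v (r * f i.2) = v.v (f i.2) := by rw [v.mul _ _ hr0 (hf0 i), hvr, zero_add]
    have hrV : r ∈ V ^ (h + d) := by
      rw [pow_add]
      refine Submodule.mul_mem_mul hg ?_
      have := CV_prod_mem (V := V) Finset.univ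
        (x := fun l => (w l - algebraMap ℂ S (y (w l))) ^ δ l) fun l => by
          rcases Nat.le_one_iff_eq_zero_or_eq_one.1 (hδ l) with h | h
          · rw [h, pow_zero]; exact h1
          · rw [h, pow_one, Algebra.algebraMap_eq_smul_one]
            exact V.sub_mem (hwV l) (V.smul_mem _ h1)
      simpa using this
    have hsV : r * f i.2 ∈ V ^ ((i.1 : ℕ) + (h + d)) := by
      rw [pow_add, mul_comm r]
      exact Submodule.mul_mem_mul (hfV i) hrV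
    obtain ⟨a1, a2, a3⟩ := hf _ hi
    have := hfin ((i.1 : ℕ) + (h + d))
    obtain ⟨i', hi'⟩ := Orth.exists_eq hna rfl (fun j => a1 _ j.2) a2 a3 hsV (mul_ne_zero hr0 (hf0 i))
    obtain ⟨e1, e2⟩ := Prod.ext_iff.1 (toLex.injective hi')
    simp only at e1 e2
    rw [hvs] at e1 e2
    rw [hmul _ _ _ (hge _), CV_m_mul hκ0 (hne _ (hf0 i)), hκr, lowT_mul hg0' m1, m2] at e2
    refine ⟨⟨⟨_, Nat.lt_succ_iff.2 hi⟩, i'⟩, rfl, e1.symm, ?_, ?_⟩
    · exact (congrArg (fun a => (ofLex a).2) e2).symm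
    · funext l
      have e3 := congrArg (fun a : DegLex (Fin d →₀ ℕ) ×ₗ ℕ => ofDegLex (ofLex a).1 l) e2
      simp only [ofLex_toLex, ofDegLex_add, Finsupp.add_apply, ofDegLex_toDegLex] at e3
      simp only [Pi.add_apply]
      rw [← e3, add_comm, ← add_assoc]
      rfl
  · intro i
    set c := v.v (f i.2) with hc
    have hcΛ : c ∈ hΛ.toFinset :=
      hΛ.mem_toFinset.2 ⟨f i.2, ⟨hmono (Nat.lt_succ_iff.1 i.1.2) (hfV i), hf0 i⟩, rfl⟩
    set m := ∑ l, ofDegLex (ofLex (CV_m (Ψ c (f i.2)))).1 l with hm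
    set I := Ideal.span (Set.range fun l => w l - algebraMap ℂ S (y (w l))) with hI
    let s : v.ge c := ⟨f i.2, hge _⟩
    have hq : ∀ j : Fin (ρ c), ∃ q : S ⧸ v.gt 0, yb q ≠ 0 ∧
        q * Φ c s j ∈ (I ^ m).map (Ideal.Quotient.mk (v.gt 0)) := by
      intro j
      obtain ⟨q, hq1, hq2⟩ := hιq (Φ c s j) m fun a ha => by
        rw [← hΨ]
        refine CV_m_degree (hne _ (hf0 i)) _ a ?_
        rw [Finsupp.degree_eq_sum (ofDegLex _)]
        exact ha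
      refine ⟨q, hq1, ?_⟩
      rw [Ideal.map_pow, hI, Ideal.map_span, ← Set.range_comp]
      exact hq2
    choose q hq1 hq2 using hq
    obtain ⟨Q, hQ⟩ := Ideal.Quotient.mk_surjective (∏ j, q j)
    have hx : ∀ j : Fin (ρ c), ∃ x ∈ I ^ m, Ideal.Quotient.mk (v.gt 0) x = Φ c (Q • s) j := by
      intro j
      refine (Ideal.mem_map_iff_of_surjective _ Ideal.Quotient.mk_surjective).1 ?_
      rw [map_smul, Pi.smul_apply, Algebra.smul_def, Ideal.Quotient.algebraMap_eq, hQ,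
        ← Finset.prod_erase_mul _ _ (Finset.mem_univ j), mul_assoc]
      exact Ideal.mul_mem_left _ _ (hq2 j)
    choose x hx1 hx2 using hx
    have h2 := hΦ1 c (Q • s) x hx2
    refine ⟨Δc c * Q, ?_, ?_⟩
    · rw [map_mul, ← hyb Q, hQ, map_prod]
      exact mul_ne_zero (hyΔ.2 c hcΛ) (Finset.prod_ne_zero_iff.2 fun j _ => hq1 j)
    · refine Submodule.mem_sup.2 ⟨∑ j, x j * e c j,
        Ideal.sum_mem _ fun j _ => Ideal.mul_mem_mul (hx1 j) (he c j), _, h2, ?_⟩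
      rw [add_sub_cancel, mul_assoc]
      rfl

end Crest.Agent.R271
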