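import Crest.Agent.R271.CA1
import Crest.Agent.R271.CA2
import Crest.Agent.R271.CG
import Crest.Agent.R271.CV
import Crest.Agent.R271.CC

/-! Row 271, part C: the valuation of a minimiser; its centre is a point. -/

set_option autoImplicit false

namespace Crest.Agent.R271

open MeasureTheory Filter Topology
open scoped ENNReal NNReal

section
variable {S : Type} [CommRing S] [Algebra ℂ S] {V : Submodule ℂ S} {K : ℕ}

theorem gw_pos (τ : ℝ) (lam : Idx V K → ℝ) (i : Idx V K) : 0 < gw τ lam i := Real.exp_pos _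

theorem IsSys.ne_zero {b : Idx V K → S} (hb : IsSys V K b) (i : Idx V K) : b i ≠ 0 :=
  (hb i.1).2.ne_zero i.2

theorem fin_pow (hV : V.FG) (k : ℕ) : Module.Finite ℂ ↥(V ^ k) :=
  Module.Finite.iff_fg.2 (hV.pow k)

theorem pow_mono_of_one (h1 : (1 : S) ∈ V) : Monotone fun k : ℕ => V ^ k := by
  refine monotone_nat_of_le_succ fun k => ?_
  intro s hs
  rw [pow_succ]
  simpa using Submodule.mul_mem_mul hs h1

theorem var_le {T : Set ((Idx V K → ℝ) × ℝ)} {θ τ : ℝ} {x : (Idx V K → ℝ) × ℝ}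
    (hmin : IsMinOn (Fn θ τ) T x) (hZ : 0 < part τ x.1) (Y : Idx V K → ℝ) (A : ℝ)
    (h : ∀ᶠ t in 𝓝[>] (0 : ℝ), (x.1 + t • Y, x.2 + t * A) ∈ T) :
    θ * τ * ∑ i, gw τ x.1 i * Y i ≤ A * part τ x.1 := by
  have key := gibbs_der (w := gw τ x.1) hZ (fun i => -(τ * Y i)) (A := A) (θ := θ) ?_
  · have e : ∑ i, gw τ x.1 i * -(τ * Y i) = -(τ * ∑ i, gw τ x.1 i * Y i) := by
      rw [Finset.mul_sum, ← Finset.sum_neg_distrib]
      exact Finset.sum_congr rfl fun i _ => by ring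
    rw [e] at key
    change 0 ≤ A + θ * (_ / part τ x.1) at key
    have := mul_nonneg key hZ.le
    rw [add_mul, mul_assoc, div_mul_cancel₀ _ hZ.ne'] at this
    nlinarith
  · refine h.mono fun t ht => ?_
    have h1 : Fn θ τ x ≤ Fn θ τ (x.1 + t • Y, x.2 + t * A) := hmin ht
    have e : part τ (x.1 + t • Y) = ∑ i, gw τ x.1 i * Real.exp (t * -(τ * Y i)) := by
      refine Finset.sum_congr rfl fun i _ => ?_
      simp only [gw, Pi.add_apply, Pi.smul_apply, smul_eq_mul]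
      rw [← Real.exp_add]
      congr 1
      ring
    simp only [Fn, e] at h1
    change 0 ≤ t * A + θ * (_ - Real.log (part τ x.1))
    linarith

end

variable {E : Type} [NormedAddCommGroup E] [NormedSpace ℂ E] [FiniteDimensional ℂ E]
  [MeasurableSpace E] [BorelSpace E] {μ : Measure E} [μ.IsAddHaarMeasure] {S : Type} [CommRing S]
  [IsDomain S] [Algebra ℂ S] {ev : S →ₐ[ℂ] (E → ℂ)} {W : Set E} {z₀ : E} {V : Submodule ℂ S}
  {a n : ℕ}

/-- every orthogonal system of `v` is a minimiser. -/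
def Val.Opt (μ : Measure E) (ev : S →ₐ[ℂ] (E → ℂ)) (z₀ : E) (V : Submodule ℂ S) (K : ℕ) (θ τ : ℝ)
    (v : Val S) (c₀ : ℝ) : Prop :=
  ∀ b : Idx V K → S, IsSys V K b → (∀ k, Orth v.v fun i => b ⟨k, i⟩) →
    IsMinOn (Fn θ τ) (FS μ ev z₀ V K) (fun i => v.v (b i), c₀)

theorem Val.Comp.cen' {v : Val S} {c₀ : ℝ} (hv : v.Comp μ ev z₀ c₀) (f : S) (hf : f ∈ v.gt 0) :
    ev f z₀ = 0 := by
  by_cases h0 : f = 0
  · simp [h0]
  · exact hv.cen f h0 (hf.resolve_left h0)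

theorem CoreData.mem_FS (h : CoreData μ S ev W z₀ V a n) {v : Val S} {c₀ : ℝ}
    (hv : v.Comp μ ev z₀ c₀) {K : ℕ} {b : Idx V K → S} (hb : IsSys V K b) :
    (fun i => v.v (b i), c₀) ∈ FS μ ev z₀ V K :=
  ⟨fun _ => v.nonneg _, hv.nonneg, b, hb, h.ex_val_le hv h.mem hv.cen' hb.ne_zero⟩

theorem CoreData.exists_opt (h : CoreData μ S ev W z₀ V a n) (K : ℕ) {θ τ : ℝ} (hθ : 0 < θ)
    (hτ : 0 < τ) : ∃ (v : Val S) (c₀ : ℝ), v.Comp μ ev z₀ c₀ ∧ v.Opt μ ev z₀ V K θ τ c₀ := by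
  obtain ⟨x, hx, hmin⟩ := h.exists_min K hθ τ
  obtain ⟨hl, hc, b, hb, hex⟩ := hx
  obtain ⟨v, h1, h2, h3⟩ := exists_val μ ev (h.an h.mem) h.nz b hb.ne_zero hl hc hex
  have hv : v.Comp μ ev z₀ x.2 := ⟨hc, h2, h3⟩
  refine ⟨v, x.2, hv, fun b' hb' ho => ?_⟩
  have hle : part τ (fun i => v.v (b' i)) ≤ part τ x.1 := by
    simp only [part]
    rw [Fintype.sum_sigma, Fintype.sum_sigma]
    refine Finset.sum_le_sum fun k _ => ?_
    have := fin_pow h.fg (k : ℕ)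
    obtain ⟨σ, hσ⟩ := Orth.exists_perm (U := V ^ (k : ℕ)) (r := rk V k) rfl (hb k).1 (hb k).2
      (hb' k).1 (hb' k).2 (ho k)
    rw [← Equiv.sum_comp σ]
    refine Finset.sum_le_sum fun i _ => ?_
    simp only [gw]
    refine Real.exp_le_exp.2 (neg_le_neg (mul_le_mul_of_nonneg_left ?_ hτ.le))
    exact add_le_add le_rfl ((h1 ⟨k, i⟩).trans (hσ i))
  have hp := h.one_le_part (h.mem_FS hv hb') τ
  intro y hy
  have h4 : Fn θ τ x ≤ Fn θ τ y := hmin hy
  change Fn θ τ _ ≤ Fn θ τ y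
  refine le_trans ?_ h4
  simp only [Fn]
  exact add_le_add le_rfl (mul_le_mul_of_nonneg_left
    (Real.log_le_log (lt_of_lt_of_le one_pos hp) hle) hθ.le)

end Crest.Agent.R271
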