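import Crest.Agent.R271.CA3

/-! Row 271, part C: a centre of positive dimension is impossible. -/

set_option autoImplicit false

namespace Crest.Agent.R271

open MeasureTheory Filter Topology
open scoped ENNReal NNReal

theorem frequently_pigeon {α β : Type} {l : Filter α} {T : Set β} (hT : T.Finite)
    {Q : α → β → Prop} (h : ∃ᶠ z in l, ∃ t ∈ T, Q z t) : ∃ t ∈ T, ∃ᶠ z in l, Q z t := by
  by_contra hc
  have h1 : ∀ t ∈ T, ∀ᶠ z in l, ¬ Q z t := fun t ht => by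
    by_contra h2
    exact hc ⟨t, ht, h2⟩
  obtain ⟨z, ⟨t, ht, hq⟩, hz⟩ := (h.and_eventually ((eventually_all_finite hT).2 h1)).exists
  exact hz t ht hq

theorem card_fibre_le {S : Type} [CommRing S] [Algebra ℂ S] {V : Submodule ℂ S} (hV : V.FG)
    (h1 : (1 : S) ∈ V) (K k : ℕ) :
    (Finset.univ.filter fun i : Idx V K => (i.1 : ℕ) = k).card ≤ rk V K := by
  rw [← Finset.card_range (rk V K)]
  refine Finset.card_le_card_of_injOn (fun i => (i.2 : ℕ)) ?_ ?_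
  · intro i _
    simp only [Finset.coe_range, Set.mem_Iio]
    exact i.2.2.trans_le (rk_mono hV h1 (Nat.lt_succ_iff.1 i.1.2))
  · rintro ⟨k₁, i₁⟩ h₁ ⟨k₂, i₂⟩ h₂ he
    simp only [Finset.coe_filter, Finset.mem_univ, true_and, Set.mem_ofPred_eq] at h₁ h₂
    obtain rfl : k₁ = k₂ := Fin.ext (h₁.trans h₂.symm)
    obtain rfl : i₁ = i₂ := Fin.ext he
    rfl

theorem nonmax_arith {d B Z R U T T' e e' s : ℝ} (hd : 1 ≤ d) (hB : 0 ≤ B) (hZ : 1 ≤ Z)
    (hR : 0 ≤ R) (hT' : T ≤ T') (hT : 0 ≤ T) (he : 0 ≤ e) (he' : e ≤ e') (hs : 0 < s)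
    (hU : s * U ≤ d * Z) (h : d * B * Z ≤ e * (U + (d + 1) * Z) + (d * B + d * R) * T) :
    B ≤ e' * (1 / s + 2) + (B + R) * T' := by
  have h1 : U ≤ d * Z * (1 / s) := by
    rw [mul_one_div, le_div_iff₀ hs]; linarith
  have h2 : U + (d + 1) * Z ≤ d * Z * (1 / s + 2) := by nlinarith
  have h3 : e * (U + (d + 1) * Z) ≤ e' * (d * Z * (1 / s + 2)) :=
    (mul_le_mul_of_nonneg_left h2 he).trans (mul_le_mul_of_nonneg_right he' (by positivity))
  have h4 : (d * B + d * R) * T ≤ d * Z * ((B + R) * T') := by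
    have : (B + R) * T ≤ Z * ((B + R) * T') :=
      (mul_le_mul_of_nonneg_left hT' (by positivity)).trans
        (le_mul_of_one_le_left (mul_nonneg (by positivity) (hT.trans hT')) hZ)
    calc (d * B + d * R) * T = d * ((B + R) * T) := by ring
      _ ≤ d * (Z * ((B + R) * T')) := mul_le_mul_of_nonneg_left this (by positivity)
      _ = _ := by ring
  have h5 : d * Z * B ≤ d * Z * (e' * (1 / s + 2) + (B + R) * T') := by nlinarith
  exact le_of_mul_le_mul_left h5 (by positivity)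

variable {E : Type} [NormedAddCommGroup E] [NormedSpace ℂ E] [FiniteDimensional ℂ E]
  [MeasurableSpace E] [BorelSpace E] {μ : Measure E} [μ.IsAddHaarMeasure] {S : Type} [CommRing S]
  [IsDomain S] [Algebra ℂ S] {ev : S →ₐ[ℂ] (E → ℂ)} {W : Set E} {z₀ : E} {V : Submodule ℂ S}
  {a n : ℕ}

theorem CoreData.nonmax (h : CoreData μ S ev W z₀ V a n) {v : Val S} {c₀ θ τ : ℝ} {K : ℕ}
    (hv : v.Comp μ ev z₀ c₀) (ho : v.Opt μ ev z₀ V K θ τ c₀) (hθ : 0 < θ) (hτ : 0 < τ)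
    (hm : ¬ (v.gt 0).IsMaximal) (H : ℕ) :
    ((a * (H - a ^ n) : ℕ) : ℝ) ≤ (Real.exp (τ * (H + n)) - 1) * (1 / (θ * τ) + 2) +
      (((a * (H - a ^ n) : ℕ) : ℝ) + rk V K) *
        ((H + n) * rk V K * Real.exp (-(τ * (K - (H + n))))) := by
  obtain ⟨d, w, hd1, hdn, hwV, hw, hsub⟩ := h.hf.sub _ v.gt_prime hm
  have := h.ft
  obtain ⟨Δ, hΔ, hlt⟩ := v.exists_lt h.fg h.one K H hwV hw
  have hfin := fin_pow h.fg K
  have hΛ := v.na.finite (V ^ K)
  set m₀ := d * rk V K with hm₀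
  let Q : E → (Idx V K → ℝ) × (Idx V K → ℕ) → Prop := fun z t =>
    z ∈ W ∧ (∀ f ∈ v.gt 0, ev f z = 0) ∧
    ∃ (b : Idx V K → S) (α : Idx V K → Fin d → ℕ) (jj : Idx V K → ℕ) (G₀ : Finset (Fin d → ℕ)),
      (IsSys V K b ∧ (∀ k, Orth v.v fun i => b ⟨k, i⟩) ∧
        (Function.Injective fun i => ((i.1 : ℕ), v.v (b i), jj i, α i)) ∧
        G₀.card = Module.finrank ℂ ↥((V ^ H).map (Ideal.Quotient.mkₐ ℂ (v.gt 0)).toLinearMap) ∧
        (∀ i : Idx V K, (i.1 : ℕ) + (H + d) ≤ K → ∀ β ∈ G₀, ∀ δ : Fin d → ℕ, (∀ l, δ l ≤ 1) →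
          ∃ i' : Idx V K, (i'.1 : ℕ) = i.1 + (H + d) ∧ v.v (b i') = v.v (b i) ∧ jj i' = jj i ∧
            α i' = α i + β + δ) ∧
        ∀ i, ∃ q : S, ev q z ≠ 0 ∧ q * b i ∈
          Ideal.span (Set.range fun l => w l - algebraMap ℂ S (ev (w l) z)) ^ (∑ l, α i l) *
            v.ge (v.v (b i)) ⊔ v.gt (v.v (b i))) ∧
      (fun i => v.v (b i)) = t.1 ∧ (fun i => min (∑ l, α i l) m₀) = t.2
  have hmemΛ : ∀ b : Idx V K → S, IsSys V K b → ∀ i, v.v (b i) ∈ v.v '' (((V ^ K : Submodule ℂ S) :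
      Set S) \ {0}) := fun b hb i =>
    ⟨b i, ⟨pow_mono_of_one h.one (Nat.lt_succ_iff.1 i.1.2) ((hb i.1).1 i.2), hb.ne_zero i⟩, rfl⟩
  have hT : ((Set.univ.pi fun _ : Idx V K => v.v '' (((V ^ K : Submodule ℂ S) : Set S) \ {0})) ×ˢ
      (Set.univ.pi fun _ : Idx V K => Set.Iic m₀)).Finite :=
    (Set.Finite.pi fun _ => hΛ).prod (Set.Finite.pi fun _ => Set.finite_Iic _)
  obtain ⟨t, -, ht⟩ := frequently_pigeon (l := 𝓝 z₀) (Q := Q) hT (by
    refine ((h.den _ v.gt_prime hv.cen' Δ hΔ).and_eventually (h.isOpen.mem_nhds h.mem)).mono ?_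
    rintro z ⟨⟨hp, hz⟩, hzW⟩
    obtain ⟨b, α, jj, G₀, hh⟩ := hlt ((Pi.evalAlgHom ℂ (fun _ => ℂ) z).comp ev) hp hz
    exact ⟨(fun i => v.v (b i), fun i => min (∑ l, α i l) m₀),
      ⟨fun i _ => hmemΛ b hh.1 i, fun i _ => Set.mem_Iic.2 (min_le_right _ _)⟩, hzW, hp, b, α, jj, G₀, hh, rfl, rfl⟩)
  obtain ⟨z, hz, hQ⟩ := exists_seq_forall_of_frequently ht
  choose hzW hzp b α jj G₀ hh hlam hu using hQ
  obtain ⟨ε₀, hε₀, hpert⟩ := h.pert hv hΛ.toFinset m₀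
  have hx := h.mem_FS hv (hh 0).1
  have hmin := ho (b 0) (hh 0).1 (hh 0).2.1
  rw [hlam 0] at hx hmin
  have hZ := h.one_le_part hx τ
  have hvar := var_le hmin (lt_of_lt_of_le one_pos hZ) (fun i => (t.2 i : ℝ)) d (by
    filter_upwards [Ioo_mem_nhdsGT hε₀] with ε hε
    refine ⟨fun i => add_nonneg (hx.1 i) (mul_nonneg hε.1.le (Nat.cast_nonneg _)),
      add_nonneg hv.nonneg (mul_nonneg hε.1.le (Nat.cast_nonneg _)), ?_⟩
    refine h.cpt (fun j => (hh j).1) tendsto_const_nhds hzW hz tendsto_const_nhds fun j => ?_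
    have := hpert ε hε.1 hε.2.le (z j) (hzW j) (hzp j) d
      (fun l => w l - algebraMap ℂ S (ev (w l) (z j))) (fun l => by simp) _ (b j)
      (fun i => ∑ l, α j i l) (fun i => hΛ.mem_toFinset.2 (hmemΛ _ (hh j).1 i)) (hh j).2.2.2.2.2
    convert this using 2
    funext i
    simp only [Pi.add_apply, Pi.smul_apply, smul_eq_mul, ← hlam j, ← hu j])
  have hB : (((a * (H - a ^ n) : ℕ) : ℝ)) ^ d ≤ d.factorial * (G₀ 0).card := by
    rw [(hh 0).2.2.2.1]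
    have h1 : (a * (H - a ^ n)) ^ d ≤ a ^ d * (H - a ^ d) ^ d := by
      rw [← mul_pow]
      exact Nat.pow_le_pow_left (Nat.mul_le_mul_left _
        (Nat.sub_le_sub_left (Nat.pow_le_pow_right h.a_pos hdn) _)) _
    exact_mod_cast h1.trans (hsub H)
  have hcount := count_all hd1 (fun i : Idx V K => (i.1 : ℕ)) (fun i => v.v (b 0 i)) (jj 0) (α 0)
    (G₀ 0) (K := K) (h := H + d) (R := rk V K) (m₀ := m₀) (hh 0).2.2.1
    (fun i => Nat.lt_succ_iff.1 i.1.2) (fun _ => v.nonneg _) (card_fibre_le h.fg h.one K) le_rfl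
    (Nat.cast_nonneg _) hB (hh 0).2.2.2.2.1 hτ
  have hdn' : (d : ℝ) ≤ n := by exact_mod_cast hdn
  refine nonmax_arith (d := d) (Z := part τ t.1) (U := ∑ i, gw τ t.1 i * t.2 i)
    (T := ((H + d : ℕ) : ℝ) * rk V K * Real.exp (-(τ * (K - ((H + d : ℕ) : ℝ)))))
    (e := Real.exp (τ * ((H + d : ℕ) : ℝ)) - 1) (by exact_mod_cast hd1) (Nat.cast_nonneg _) hZ
    (Nat.cast_nonneg _) ?_ (by positivity) ?_ ?_ (mul_pos hθ hτ) hvar ?_
  · push_cast
    gcongr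
  · exact sub_nonneg.2 (Real.one_le_exp (by positivity))
  · push_cast
    gcongr
  · convert hcount using 3
    · simp only [part, gw, ← hlam 0]
    · simp only [part, gw, ← hlam 0, ← hu 0, Finset.mul_sum, ← Finset.sum_add_distrib]
      exact Finset.sum_congr rfl fun i _ => by ring

end Crest.Agent.R271
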