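import Crest.Agent.R271.CA3

/-! Row 271, part C: the case where the centre is the point. -/

set_option autoImplicit false

namespace Crest.Agent.R271

open MeasureTheory Filter Topology
open scoped ENNReal NNReal

variable {E : Type} [NormedAddCommGroup E] [NormedSpace ℂ E] [FiniteDimensional ℂ E]
  [MeasurableSpace E] [BorelSpace E] {μ : Measure E} [μ.IsAddHaarMeasure] {S : Type} [CommRing S]
  [IsDomain S] [Algebra ℂ S] {ev : S →ₐ[ℂ] (E → ℂ)} {W : Set E} {z₀ : E} {V : Submodule ℂ S}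
  {a n : ℕ}

theorem CoreData.max (h : CoreData μ S ev W z₀ V a n) {v : Val S} {c₀ θ τ : ℝ} {K : ℕ}
    (hv : v.Comp μ ev z₀ c₀) (ho : v.Opt μ ev z₀ V K θ τ c₀) (hθ : 0 < θ) (hτ : 0 < τ)
    (hm : (v.gt 0).IsMaximal) {κ : Type} [Fintype κ] (q : κ → S) (hq : ∀ j, ev (q j) z₀ = 0)
    {η : ℝ} (hη : 0 < η) {b : Idx V K → S} (hb : IsSys V K b)
    (hob : ∀ k, Orth v.v fun i => b ⟨k, i⟩) :
    ∃ p : Idx V K → ℝ, (∀ i, 0 ≤ p i) ∧
      (∀ i, p i ≤ θ * τ * gw τ (fun i => v.v (b i)) i / part τ fun i => v.v (b i)) ∧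
      IntNear μ (fun w => (ENNReal.ofReal (∏ i, ‖ev (b i) w‖ ^ (2 * p i)))⁻¹) z₀ ∧
      ¬ IntNear μ (fun w => (ENNReal.ofReal
        ((∏ i, ‖ev (b i) w‖ ^ (2 * p i)) * (∑ j, ‖ev (q j) w‖ ^ 2) ^ η))⁻¹) z₀ := by
  have := h.ft
  have : IsNoetherianRing S := Algebra.FiniteType.isNoetherianRing ℂ S
  obtain ⟨γ, hγ, hgap⟩ := v.exists_gap 0
  have hker : v.gt 0 = RingHom.ker ((Pi.evalAlgHom ℂ (fun _ => ℂ) z₀).comp ev) :=
    hm.eq_of_le (RingHom.ker_ne_top _) fun f hf => hv.cen' f hf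
  have hq' : ∀ j, q j ∈ v.ge γ := fun j => by
    have : q j ∈ v.gt 0 := by rw [hker]; exact hq j
    simpa using hgap this
  set lam : Idx V K → ℝ := fun i => v.v (b i) with hlam
  have hx := h.mem_FS hv hb
  have hmin := ho b hb hob
  have hZ : 0 < part τ lam := lt_of_lt_of_le one_pos (h.one_le_part hx τ)
  have han : ∀ i, AnalyticAt ℂ (ev (b i)) z₀ := fun i => h.an h.mem _
  have hex : ex μ (fun i => ev (b i)) lam z₀ ≤ ENNReal.ofReal c₀ :=
    h.ex_val_le hv h.mem hv.cen' hb.ne_zero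
  set p : Idx V K → ℝ := fun i => θ * τ * gw τ lam i / part τ lam with hp
  have hp0 : ∀ i, 0 < p i := fun i => div_pos (mul_pos (mul_pos hθ hτ) (gw_pos _ _ _)) hZ
  have hsum : ∀ Y : Idx V K → ℝ, ∑ i, p i * Y i = (θ * τ * ∑ i, gw τ lam i * Y i) / part τ lam := by
    intro Y
    rw [Finset.mul_sum, Finset.sum_div]
    exact Finset.sum_congr rfl fun i _ => by simp only [hp]; ring
  have h1 : ∀ w : Idx V K → ℝ, 0 ≤ w →
      ENNReal.ofReal (∑ i, p i * w i) ≤ ex μ (fun i => ev (b i)) w z₀ := by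
    intro w hw
    by_cases ht : ex μ (fun i => ev (b i)) w z₀ = ∞
    · rw [ht]; exact le_top
    obtain ⟨A, hA, hAe⟩ : ∃ A : ℝ, 0 ≤ A ∧ ex μ (fun i => ev (b i)) w z₀ = ENNReal.ofReal A :=
      ⟨_, ENNReal.toReal_nonneg, (ENNReal.ofReal_toReal ht).symm⟩
    rw [hAe, hsum]
    refine ENNReal.ofReal_le_ofReal ((div_le_iff₀ hZ).2 (var_le hmin hZ w A ?_))
    filter_upwards [self_mem_nhdsWithin] with t ht
    have ht : 0 < t := ht
    have htw : 0 ≤ t • w := smul_nonneg ht.le hw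
    refine ⟨add_nonneg hx.1 htw, add_nonneg hv.nonneg (mul_nonneg ht.le hA), b, hb, ?_⟩
    refine (ex_add_le μ han hx.1 htw).trans ?_
    rw [ENNReal.ofReal_add hv.nonneg (mul_nonneg ht.le hA), ENNReal.ofReal_mul ht.le, ← hAe]
    exact add_le_add hex (ex_smul_le μ han w ht)
  have h2 : c₀ ≤ ∑ i, p i * lam i := by
    have := var_le hmin hZ (-lam) (-c₀) (by
      filter_upwards [Ioo_mem_nhdsGT (zero_lt_one' ℝ)] with t ht
      have ht' : 0 < 1 - t := sub_pos.2 ht.2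
      have e1 : lam + t • -lam = (1 - t) • lam := by
        rw [sub_smul, one_smul, smul_neg, sub_eq_add_neg]
      have e2 : c₀ + t * -c₀ = (1 - t) * c₀ := by ring
      change (lam + t • -lam, c₀ + t * -c₀) ∈ _
      rw [e1, e2]
      refine ⟨smul_nonneg ht'.le hx.1, mul_nonneg ht'.le hv.nonneg, b, hb, ?_⟩
      refine (ex_smul_le μ han lam ht').trans ?_
      rw [ENNReal.ofReal_mul ht'.le]
      exact mul_le_mul_right hex _)
    rw [hsum, le_div_iff₀ hZ]
    simp only [Pi.neg_apply, mul_neg, Finset.sum_neg_distrib, neg_mul, neg_le_neg_iff] at this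
    exact this
  set L := ∑ i, p i * lam i with hL
  have hL0 : 0 ≤ L := hv.nonneg.trans h2
  have hs : 0 < η * γ := mul_pos hη hγ
  set δ := η * γ / (2 * (L + η * γ)) with hδ
  have hδ0 : 0 < δ := by positivity
  have hδ1 : δ * (2 * (L + η * γ)) = η * γ := div_mul_cancel₀ _ (by positivity)
  have hδ2 : δ < 1 := by
    rw [hδ, div_lt_one (by positivity)]; linarith
  refine ⟨fun i => (1 - δ) * p i, fun i => mul_nonneg (by linarith) (hp0 i).le, fun i => ?_,
    intNear_prod μ han (fun i => h.nz _ (hb.ne_zero i)) hp0 h1 (by linarith) (by linarith), ?_⟩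
  · exact mul_le_of_le_one_left (hp0 i).le (by linarith)
  · refine h.not_intNear hv hb.ne_zero (fun i => mul_nonneg (by linarith) (hp0 i).le) hγ.le hη hq' ?_
    have e : ∑ i, (1 - δ) * p i * v.v (b i) = (1 - δ) * L := by
      rw [hL, Finset.mul_sum]
      exact Finset.sum_congr rfl fun i _ => mul_assoc _ _ _
    rw [e]
    nlinarith [mul_pos hδ0 hs, mul_nonneg hδ0.le hL0]

end Crest.Agent.R271
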