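import Crest.Agent.R271.C0

/-! Row 271, part C: orthogonal bases for non-archimedean norms. -/

set_option autoImplicit false

namespace Crest.Agent.R271

open Filter Topology

section
variable {M Γ : Type} [AddCommGroup M] [Module ℂ M] [LinearOrder Γ] {ν : M → Γ}

theorem CB_sum (hν : NA ν) (P : Γ → Prop) (hP : ∀ a b, a ≤ b → P a → P b) {ι : Type}
    (s : Finset ι) {f : ι → M} (h : ∀ i ∈ s, f i = 0 ∨ P (ν (f i))) :
    ∑ i ∈ s, f i = 0 ∨ P (ν (∑ i ∈ s, f i)) := by
  classical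
  induction s using Finset.induction_on with
  | empty => simp
  | insert a s ha ih =>
    rw [Finset.sum_insert ha]
    have h1 := h a (Finset.mem_insert_self a s)
    have h2 := ih fun i hi => h i (Finset.mem_insert_of_mem hi)
    by_cases h0 : f a + ∑ i ∈ s, f i = 0
    · exact Or.inl h0
    by_cases ha0 : f a = 0
    · rwa [ha0, zero_add]
    by_cases hs0 : ∑ i ∈ s, f i = 0
    · rwa [hs0, add_zero]
    refine Or.inr (hP _ _ (hν.add _ _ ha0 hs0 h0) ?_)
    rcases min_choice (ν (f a)) (ν (∑ i ∈ s, f i)) with e | e <;> rw [e]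
    · exact h1.resolve_left ha0
    · exact h2.resolve_left hs0

theorem CB_li (hν : NA ν) {ι : Type} {u : ι → M} (h0 : ∀ i, u i ≠ 0)
    (hinj : Function.Injective fun i => ν (u i)) : LinearIndependent ℂ u := by
  classical
  rw [linearIndependent_iff']
  intro s g hg
  by_contra hne
  push Not at hne
  have hne' : (s.filter fun i => g i ≠ 0).Nonempty := by
    obtain ⟨i, hi, hgi⟩ := hne
    exact ⟨i, Finset.mem_filter.2 ⟨hi, hgi⟩⟩
  obtain ⟨i, hi, hmin⟩ := Finset.exists_min_image _ (fun i => ν (u i)) hne'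
  obtain ⟨hi, hgi⟩ := Finset.mem_filter.1 hi
  rw [← Finset.add_sum_erase s _ hi] at hg
  have e : ∑ j ∈ s.erase i, g j • u j = (-g i) • u i := by
    rw [neg_smul]; exact eq_neg_of_add_eq_zero_right hg
  have := CB_sum hν (fun a => ν (u i) < a) (fun _ _ hab ha => ha.trans_le hab) (s.erase i)
    (f := fun j => g j • u j) fun j hj => by
      by_cases hgj : g j = 0
      · left; rw [hgj, zero_smul]
      · right
        rw [hν.smul _ _ hgj]
        obtain ⟨hji, hjs⟩ := Finset.mem_erase.1 hj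
        exact lt_of_le_of_ne (hmin j (Finset.mem_filter.2 ⟨hjs, hgj⟩)) fun h => hji (hinj h).symm
  rw [e] at this
  rcases this with h | h
  · exact smul_ne_zero (neg_ne_zero.2 hgi) (h0 i) h
  · rw [hν.smul _ _ (neg_ne_zero.2 hgi)] at h
    exact lt_irrefl _ h

theorem NA.le_sum (hν : NA ν) {ι : Type} (s : Finset ι) {f : ι → M} {γ : Γ}
    (h : ∀ i ∈ s, f i = 0 ∨ γ ≤ ν (f i)) : ∑ i ∈ s, f i = 0 ∨ γ ≤ ν (∑ i ∈ s, f i) := by
  exact CB_sum hν (fun a => γ ≤ a) (fun _ _ hab ha => ha.trans hab) s h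

/-- vectors with different values are linearly independent. -/
theorem NA.finite (hν : NA ν) (U : Submodule ℂ M) [Module.Finite ℂ U] :
    (ν '' ((U : Set M) \ {0})).Finite := by
  have hex : ∀ γ : ↥(ν '' ((U : Set M) \ {0})), ∃ u : U, (u : M) ≠ 0 ∧ ν u = γ := by
    rintro ⟨γ, u, ⟨hu, hu0⟩, rfl⟩
    exact ⟨⟨u, hu⟩, hu0, rfl⟩
  choose u hu0 hu using hex
  have hli : LinearIndependent ℂ fun γ => (u γ : M) :=
    CB_li hν hu0 fun γ γ' h => Subtype.ext (by rw [← hu γ, ← hu γ']; exact h)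
  have hli' : LinearIndependent ℂ u := LinearIndependent.of_comp U.subtype hli
  have : Finite ↥(ν '' ((U : Set M) \ {0})) := hli'.finite
  exact Set.toFinite _

/-- linearly independent and orthogonal. -/
def CB_G (ν : M → Γ) (r : ℕ) (f : ℕ → M) : Prop :=
  ∀ (c : Fin r → ℂ) (i : Fin r), c i ≠ 0 →
    ∑ j : Fin r, c j • f j ≠ 0 ∧ ν (∑ j : Fin r, c j • f j) ≤ ν (f i)

theorem CB_G_congr {r : ℕ} {f g : ℕ → M} (h : CB_G ν r f) (e : ∀ i < r, g i = f i) :
    CB_G ν r g := by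
  intro c i hc
  have e' : ∀ j : Fin r, g j = f j := fun j => e j j.2
  simp only [e']
  exact h c i hc

theorem CB_step (hν : NA ν) (U : Submodule ℂ M) [Module.Finite ℂ U] {r : ℕ} {f : ℕ → M}
    (hf : ∀ i < r, f i ∈ U) (hG : CB_G ν r f) (hr : r < Module.finrank ℂ U) :
    ∃ x ∈ U, CB_G ν (r + 1) (Function.update f r x) := by
  obtain ⟨P, hP⟩ : ∃ P : Submodule ℂ M, P = Submodule.span ℂ (Set.range fun i : Fin r => f i) :=
    ⟨_, rfl⟩
  have hPU : P ≤ U := by
    rw [hP, Submodule.span_le]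
    rintro _ ⟨i, rfl⟩
    exact hf i i.2
  have hPr : Module.finrank ℂ P ≤ r := by
    rw [hP]
    exact (finrank_range_le_card (R := ℂ) fun i : Fin r => f i).trans (Fintype.card_fin r).le
  obtain ⟨s, hsU, hsP⟩ : ∃ s ∈ U, s ∉ P := by
    by_contra h
    push Not at h
    have : U = P := le_antisymm h hPU
    rw [this] at hr
    omega
  have hne : ∀ p ∈ P, s + p ≠ 0 := fun p hp h =>
    hsP ((eq_neg_of_add_eq_zero_left h) ▸ P.neg_mem hp)
  have hfin : ((fun p => ν (s + p)) '' (P : Set M)).Finite := by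
    refine (hν.finite U).subset ?_
    rintro _ ⟨p, hp, rfl⟩
    exact ⟨s + p, ⟨U.add_mem hsU (hPU hp), hne p hp⟩, rfl⟩
  obtain ⟨_, ⟨p₀, hp₀, rfl⟩, hmax⟩ := Set.exists_max_image _ id hfin ⟨_, 0, P.zero_mem, rfl⟩
  obtain ⟨x, hx⟩ : ∃ x, x = s + p₀ := ⟨_, rfl⟩
  have hx0 : ∀ p ∈ P, x + p ≠ 0 := fun p hp => by
    rw [hx, add_assoc]; exact hne _ (P.add_mem hp₀ hp)
  have hx1 : ∀ p ∈ P, ν (x + p) ≤ ν x := fun p hp => by
    have := hmax _ ⟨p₀ + p, P.add_mem hp₀ hp, rfl⟩
    simpa only [hx, add_assoc, id] using this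
  refine ⟨x, hx ▸ U.add_mem hsU (hPU hp₀), fun c i hc => ?_⟩
  have e1 : ∀ j : Fin r, Function.update f r x (j.castSucc : ℕ) = f j := fun j =>
    Function.update_of_ne (by simpa using j.2.ne) _ _
  have e2 : Function.update f r x ((Fin.last r : Fin (r + 1)) : ℕ) = x := by simp
  rw [Fin.sum_univ_castSucc]
  simp only [e1, e2]
  obtain ⟨p, hp⟩ : ∃ p, p = ∑ j : Fin r, c j.castSucc • f j := ⟨_, rfl⟩
  have hpP : p ∈ P := by
    rw [hp, hP]
    exact Submodule.sum_mem _ fun j _ => Submodule.smul_mem _ _ (Submodule.subset_span ⟨j, rfl⟩)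
  have hGp := hG fun j => c j.castSucc
  rw [← hp] at hGp ⊢
  by_cases hl : c (Fin.last r) = 0
  · rw [hl, zero_smul, add_zero]
    rcases Fin.eq_castSucc_or_eq_last i with ⟨j, rfl⟩ | rfl
    · rw [e1]; exact hGp j hc
    · exact absurd hl hc
  · have e3 : p + c (Fin.last r) • x = c (Fin.last r) • (x + (c (Fin.last r))⁻¹ • p) := by
      rw [smul_add, smul_inv_smul₀ hl, add_comm]
    have hy0 : p + c (Fin.last r) • x ≠ 0 := by
      rw [e3]; exact smul_ne_zero hl (hx0 _ (P.smul_mem _ hpP))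
    have hy1 : ν (p + c (Fin.last r) • x) ≤ ν x := by
      rw [e3, hν.smul _ _ hl]; exact hx1 _ (P.smul_mem _ hpP)
    refine ⟨hy0, ?_⟩
    rcases Fin.eq_castSucc_or_eq_last i with ⟨j, rfl⟩ | rfl
    · rw [e1]
      obtain ⟨hp0, hp1⟩ := hGp j hc
      have hx0' : x ≠ 0 := by simpa using hx0 0 P.zero_mem
      have e4 : p + c (Fin.last r) • x + (-c (Fin.last r)) • x = p := by
        rw [neg_smul, add_neg_cancel_right]
      have := hν.add _ _ hy0 (smul_ne_zero (neg_ne_zero.2 hl) hx0') (by rw [e4]; exact hp0)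
      rw [e4, hν.smul _ _ (neg_ne_zero.2 hl), min_eq_left hy1] at this
      exact this.trans hp1
    · rw [e2]; exact hy1

theorem CB_extend (hν : NA ν) (U : Submodule ℂ M) [Module.Finite ℂ U] {r : ℕ} {f : ℕ → M}
    (hf : ∀ i < r, f i ∈ U) (hG : CB_G ν r f) (r' : ℕ) (h1 : r ≤ r')
    (h2 : r' ≤ Module.finrank ℂ U) :
    ∃ g : ℕ → M, (∀ i < r, g i = f i) ∧ (∀ i < r', g i ∈ U) ∧ CB_G ν r' g := by
  induction r', h1 using Nat.le_induction with
  | base => exact ⟨f, fun _ _ => rfl, hf, hG⟩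
  | succ n hn ih =>
    obtain ⟨g, hg1, hg2, hg3⟩ := ih (by omega)
    obtain ⟨x, hx, hx'⟩ := CB_step hν U hg2 hg3 (by omega)
    refine ⟨Function.update g n x, fun i hi => ?_, fun i hi => ?_, hx'⟩
    · rw [Function.update_of_ne (by omega)]; exact hg1 i hi
    · by_cases h : i = n
      · rw [h, Function.update_self]; exact hx
      · rw [Function.update_of_ne h]; exact hg2 i (by omega)

/-- extend an orthogonal family one vector at a time, maximising `ν` on the coset `s + span`. -/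
theorem NA.exists_flag (hν : NA ν) (U : ℕ → Submodule ℂ M) (hU : Monotone U)
    (hfin : ∀ k, Module.Finite ℂ (U k)) (K : ℕ) :
    ∃ f : ℕ → M, ∀ k ≤ K, (∀ i < Module.finrank ℂ (U k), f i ∈ U k) ∧
      LinearIndependent ℂ (fun i : Fin (Module.finrank ℂ (U k)) => f i) ∧
      Orth ν (fun i : Fin (Module.finrank ℂ (U k)) => f i) := by
  have key : ∃ f : ℕ → M, ∀ k ≤ K, (∀ i < Module.finrank ℂ (U k), f i ∈ U k) ∧
      CB_G ν (Module.finrank ℂ (U k)) f := by
    induction K with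
    | zero =>
      have := hfin 0
      obtain ⟨f, -, h2, h3⟩ := CB_extend hν (U 0) (r := 0) (f := fun _ => 0) (by simp)
        (fun c i => i.elim0) _ (Nat.zero_le _) le_rfl
      refine ⟨f, fun k hk => ?_⟩
      obtain rfl : k = 0 := by omega
      exact ⟨h2, h3⟩
    | succ K ih =>
      obtain ⟨f, hf⟩ := ih
      have := hfin (K + 1)
      have hmono : ∀ k k', k ≤ k' → Module.finrank ℂ (U k) ≤ Module.finrank ℂ (U k') :=
        fun k k' hk => by
          have := hfin k'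
          exact Submodule.finrank_mono (hU hk)
      obtain ⟨g, h1, h2, h3⟩ := CB_extend hν (U (K + 1)) (r := Module.finrank ℂ (U K)) (f := f)
        (fun i hi => hU (Nat.le_succ K) ((hf K le_rfl).1 i hi)) (hf K le_rfl).2 _
        (hmono _ _ (Nat.le_succ K)) le_rfl
      refine ⟨g, fun k hk => ?_⟩
      rcases Nat.lt_or_eq_of_le hk with hk' | rfl
      · have hk'' : k ≤ K := by omega
        have e : ∀ i < Module.finrank ℂ (U k), g i = f i := fun i hi =>
          h1 i (hi.trans_le (hmono _ _ hk''))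
        exact ⟨fun i hi => e i hi ▸ (hf k hk'').1 i hi, CB_G_congr (hf k hk'').2 e⟩
      · exact ⟨h2, h3⟩
  obtain ⟨f, hf⟩ := key
  refine ⟨f, fun k hk => ⟨(hf k hk).1, ?_, fun c i hc => ((hf k hk).2 c i hc).2⟩⟩
  rw [Fintype.linearIndependent_iff]
  intro c hc i
  by_contra hi
  exact ((hf k hk).2 c i hi).1 hc

theorem CB_coord {U : Submodule ℂ M} [Module.Finite ℂ U] {r : ℕ}
    (hr : Module.finrank ℂ U = r) {f : Fin r → M} (hf : ∀ i, f i ∈ U)
    (hfi : LinearIndependent ℂ f) {s : M} (hs : s ∈ U) : ∃ c : Fin r → ℂ, ∑ j, c j • f j = s := by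
  have h1 : Submodule.span ℂ (Set.range f) = U := by
    refine Submodule.eq_of_le_of_finrank_eq (Submodule.span_le.2 ?_) ?_
    · rintro _ ⟨i, rfl⟩; exact hf i
    · rw [finrank_span_eq_card hfi, hr, Fintype.card_fin]
  rw [← h1] at hs
  exact (Submodule.mem_span_range_iff_exists_fun ℂ).1 hs

/-- the change of basis matrix has a non-zero determinant, so some term of the Leibniz formula is
non-zero. -/
theorem Orth.exists_perm {U : Submodule ℂ M} [Module.Finite ℂ U] {r : ℕ}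
    (hr : Module.finrank ℂ U = r) {b f : Fin r → M} (hb : ∀ i, b i ∈ U)
    (hbi : LinearIndependent ℂ b) (hf : ∀ i, f i ∈ U) (hfi : LinearIndependent ℂ f)
    (ho : Orth ν f) : ∃ σ : Equiv.Perm (Fin r), ∀ i, ν (b i) ≤ ν (f (σ i)) := by
  choose A hA using fun i => CB_coord hr hf hfi (hb i)
  have h1 : LinearIndependent ℂ A := by
    refine LinearIndependent.of_comp (Fintype.linearCombination ℂ f) ?_
    convert hbi using 1
    funext i
    simp [Fintype.linearCombination_apply, hA]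
  have h2 : IsUnit (Matrix.of A) := Matrix.linearIndependent_rows_iff_isUnit.1 h1
  have h3 : (Matrix.of A).transpose.det ≠ 0 := by
    rw [Matrix.det_transpose]
    exact ((Matrix.isUnit_iff_isUnit_det _).1 h2).ne_zero
  rw [Matrix.det_apply] at h3
  obtain ⟨σ, -, hσ⟩ := Finset.exists_ne_zero_of_sum_ne_zero h3
  refine ⟨σ, fun i => ?_⟩
  have h4 : ∏ i, (Matrix.of A).transpose (σ i) i ≠ 0 := fun h => hσ (by rw [h, smul_zero])
  have h5 : A i (σ i) ≠ 0 := Finset.prod_ne_zero_iff.1 h4 i (Finset.mem_univ i)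
  rw [← hA i]
  exact ho (A i) (σ i) h5

theorem Orth.exists_eq (hν : NA ν) {U : Submodule ℂ M} [Module.Finite ℂ U] {r : ℕ}
    (hr : Module.finrank ℂ U = r) {f : Fin r → M} (hf : ∀ i, f i ∈ U)
    (hfi : LinearIndependent ℂ f) (ho : Orth ν f) {s : M} (hs : s ∈ U) (h0 : s ≠ 0) :
    ∃ i, ν s = ν (f i) := by
  obtain ⟨c, hc⟩ := CB_coord hr hf hfi hs
  have hne : (Finset.univ.filter fun i => c i ≠ 0).Nonempty := by
    by_contra h
    rw [Finset.not_nonempty_iff_eq_empty, Finset.filter_eq_empty_iff] at h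
    refine h0 (hc ▸ Finset.sum_eq_zero fun i hi => ?_)
    rw [not_not.1 (h hi), zero_smul]
  obtain ⟨i, hi, hmin⟩ := Finset.exists_min_image _ (fun i => ν (f i)) hne
  refine ⟨i, le_antisymm (hc ▸ ho c i (Finset.mem_filter.1 hi).2) ?_⟩
  have := hν.le_sum Finset.univ (f := fun j => c j • f j) (γ := ν (f i)) fun j _ => by
    by_cases hj : c j = 0
    · left; rw [hj, zero_smul]
    · right; rw [hν.smul _ _ hj]; exact hmin j (Finset.mem_filter.2 ⟨Finset.mem_univ _, hj⟩)
  rw [hc] at this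
  exact this.resolve_left h0

theorem Orth.injective (hl : Leaf ν) {ι : Type} [Fintype ι] {f : ι → M}
    (hfi : LinearIndependent ℂ f) (ho : Orth ν f) : Function.Injective fun i => ν (f i) := by
  classical
  intro i j hij
  by_contra hne
  obtain ⟨c, hc⟩ := hl (f i) (f j) (hfi.ne_zero i) (hfi.ne_zero j) hij
  obtain ⟨d, hd⟩ : ∃ d : ι → ℂ, d = Pi.single i 1 - Pi.single j c := ⟨_, rfl⟩
  have hdi : d i ≠ 0 := by simp [hd, Pi.single_eq_of_ne hne]
  have hsum : ∑ k, d k • f k = f i - c • f j := by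
    simp [hd, sub_smul, Finset.sum_sub_distrib, Pi.single_apply, ite_smul]
  rcases hc with hc | hc
  · exact hdi (Fintype.linearIndependent_iff.1 hfi d (hsum.trans hc) i)
  · exact absurd (hsum ▸ ho d i hdi) (not_le.2 hc)

theorem Orth.map {Γ' : Type} [LinearOrder Γ'] {g : Γ → Γ'} (hg : Monotone g) {ι : Type} [Fintype ι]
    {f : ι → M} (ho : Orth ν f) : Orth (fun s => g (ν s)) f := by
  exact fun c i hc => hg (ho c i hc)

theorem Leaf.ncard (hν : NA ν) (hl : Leaf ν) (U : Submodule ℂ M) [Module.Finite ℂ U] :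
    (ν '' ((U : Set M) \ {0})).ncard = Module.finrank ℂ U := by
  obtain ⟨f, hf⟩ := hν.exists_flag (fun _ => U) monotone_const (fun _ => inferInstance) 0
  obtain ⟨h1, h2, h3⟩ := hf 0 le_rfl
  have e : ν '' ((U : Set M) \ {0}) =
      (fun i : Fin (Module.finrank ℂ U) => ν (f i)) '' Set.univ := by
    ext γ
    constructor
    · rintro ⟨s, ⟨hs, hs0⟩, rfl⟩
      obtain ⟨i, hi⟩ := Orth.exists_eq hν rfl (fun i => h1 i i.2) h2 h3 hs hs0
      exact ⟨i, Set.mem_univ _, hi.symm⟩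
    · rintro ⟨i, -, rfl⟩
      exact ⟨f i, ⟨h1 i i.2, h2.ne_zero i⟩, rfl⟩
  rw [e, Set.ncard_image_of_injective _ (Orth.injective hl h2 h3), Set.ncard_univ, Nat.card_fin]

end

end Crest.Agent.R271
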