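import Crest.Agent.R271.Defs
import Crest.Agent.Lib.PL.PrekopaLeindler

/-! Row 271, part C: lattice point estimates. -/

set_option autoImplicit false

namespace Crest.Agent.R271

open MeasureTheory Set in
/-- the thickening by half open unit cubes -/
def CCa_T {d : ℕ} (A : Finset (Fin d → ℕ)) : Set (Fin d → ℝ) :=
  ⋃ α ∈ A, Set.pi univ fun l => Ico (α l : ℝ) (α l + 1)

theorem CCa_mem {d : ℕ} {A : Finset (Fin d → ℕ)} {x : Fin d → ℝ} :
    x ∈ CCa_T A ↔ ∃ α ∈ A, ∀ l, (α l : ℝ) ≤ x l ∧ x l < α l + 1 := by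
  simp [CCa_T]

theorem CCa_meas {d : ℕ} (A : Finset (Fin d → ℕ)) : MeasurableSet (CCa_T A) :=
  A.measurableSet_biUnion fun _ _ => MeasurableSet.univ_pi fun _ => measurableSet_Ico

open MeasureTheory Set in
theorem CCa_vol {d : ℕ} (A : Finset (Fin d → ℕ)) : volume (CCa_T A) = A.card := by
  rw [CCa_T, measure_biUnion_finset]
  · simp [Real.volume_pi_Ico]
  · intro α _ β _ hne
    refine disjoint_left.2 fun x h1 h2 => hne (funext fun l => ?_)
    obtain ⟨a1, a2⟩ := h1 l (mem_univ l)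
    obtain ⟨b1, b2⟩ := h2 l (mem_univ l)
    have e1 : α l < β l + 1 := by exact_mod_cast a1.trans_lt b2
    have e2 : β l < α l + 1 := by exact_mod_cast b1.trans_lt a2
    omega
  · exact fun _ _ => MeasurableSet.univ_pi fun _ => measurableSet_Ico

theorem CCa_add {d : ℕ} {A B C : Finset (Fin d → ℕ)}
    (h : ∀ α ∈ A, ∀ β ∈ B, ∀ δ : Fin d → ℕ, (∀ l, δ l ≤ 1) → α + β + δ ∈ C) {x y : Fin d → ℝ}
    (hx : x ∈ CCa_T A) (hy : y ∈ CCa_T B) : x + y ∈ CCa_T C := by
  obtain ⟨α, hα, h1⟩ := CCa_mem.1 hx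
  obtain ⟨β, hβ, h2⟩ := CCa_mem.1 hy
  refine CCa_mem.2 ⟨_, h α hα β hβ (fun l => if x l + y l < α l + β l + 1 then 0 else 1)
    fun l => by split_ifs <;> omega, fun l => ?_⟩
  obtain ⟨a1, a2⟩ := h1 l
  obtain ⟨b1, b2⟩ := h2 l
  simp only [Pi.add_apply]
  split_ifs with hc
  · push_cast
    constructor <;> linarith
  · push_cast
    constructor <;> linarith

theorem CCa_root_pow {d : ℕ} (hd : 1 ≤ d) {x : ℝ} (hx : 0 ≤ x) : (x ^ (1 / d : ℝ)) ^ d = x := by
  rw [one_div]
  exact Real.rpow_inv_natCast_pow hx (by omega)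

theorem CCa_root_le {d : ℕ} (hd : 1 ≤ d) {x y : ℝ} (hx : 0 ≤ x) (hy : 0 ≤ y) (h : x ≤ y ^ d) :
    x ^ (1 / d : ℝ) ≤ y := by
  have := Real.rpow_le_rpow hx h (by positivity : (0 : ℝ) ≤ 1 / d)
  rwa [one_div, Real.pow_rpow_inv_natCast hy (by omega), ← one_div] at this

/-- discrete Brunn–Minkowski inequality (thicken by the unit cube; `brunn_minkowski_mul`). -/
theorem discrete_bm {d : ℕ} (hd : 1 ≤ d) {A B C : Finset (Fin d → ℕ)} (hA : A.Nonempty)
    (hB : B.Nonempty) (h : ∀ α ∈ A, ∀ β ∈ B, ∀ δ : Fin d → ℕ, (∀ l, δ l ≤ 1) → α + β + δ ∈ C) :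
    (A.card : ℝ) ^ (1 / d : ℝ) + (B.card : ℝ) ^ (1 / d : ℝ) ≤ (C.card : ℝ) ^ (1 / d : ℝ) := by
  have hA0 : (0 : ℝ) < A.card := by exact_mod_cast hA.card_pos
  have hB0 : (0 : ℝ) < B.card := by exact_mod_cast hB.card_pos
  have ea := CCa_root_pow hd hA0.le
  have eb := CCa_root_pow hd hB0.le
  have ha : 0 < (A.card : ℝ) ^ (1 / d : ℝ) := Real.rpow_pos_of_pos hA0 _
  have hb : 0 < (B.card : ℝ) ^ (1 / d : ℝ) := Real.rpow_pos_of_pos hB0 _
  generalize (A.card : ℝ) ^ (1 / d : ℝ) = a at ea ha ⊢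
  generalize (B.card : ℝ) ^ (1 / d : ℝ) = b at eb hb ⊢
  have hab : 0 < a + b := by linarith
  have hs : 0 < a / (a + b) := by positivity
  have ht : 0 < b / (a + b) := by positivity
  have hst : a / (a + b) + b / (a + b) = 1 := by field_simp
  have hm : ∀ (r : ℝ) (S : Finset (Fin d → ℕ)), MeasurableSet ((r • ·) ⁻¹' CCa_T S) :=
    fun r S => (CCa_meas S).preimage (measurable_const_smul r)
  have key := Crest.Agent.Lib.PL.prekopa_leindler_pi hs ht hst
    (f := (((a / (a + b)) • ·) ⁻¹' CCa_T A).indicator 1)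
    (g := (((b / (a + b)) • ·) ⁻¹' CCa_T B).indicator 1) (h := (CCa_T C).indicator 1)
    (measurable_one.indicator (hm _ _)) (measurable_one.indicator (hm _ _))
    (measurable_one.indicator (CCa_meas C)) (by
      intro x y
      by_cases hx : x ∈ ((a / (a + b)) • ·) ⁻¹' CCa_T A
      · by_cases hy : y ∈ ((b / (a + b)) • ·) ⁻¹' CCa_T B
        · rw [Set.indicator_of_mem hx, Set.indicator_of_mem hy,
            Set.indicator_of_mem (CCa_add h hx hy)]
          simp
        · rw [Set.indicator_of_notMem hy, ENNReal.zero_rpow_of_pos ht, mul_zero]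
          exact zero_le
      · rw [Set.indicator_of_notMem hx, ENNReal.zero_rpow_of_pos hs, zero_mul]
        exact zero_le)
  have hvol : ∀ (S : Finset (Fin d → ℕ)) {c : ℝ}, 0 < c → c ^ d = S.card →
      MeasureTheory.volume (((c / (a + b)) • ·) ⁻¹' CCa_T S) = ENNReal.ofReal ((a + b) ^ d) := by
    intro S c hc e
    rw [MeasureTheory.Measure.addHaar_preimage_smul _ (by positivity), CCa_vol,
      Module.finrank_fin_fun, abs_of_pos (by positivity), ← ENNReal.ofReal_natCast, ← e,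
      ← ENNReal.ofReal_mul (by positivity)]
    congr 1
    rw [div_pow]
    field_simp
  rw [MeasureTheory.lintegral_indicator_one (hm _ _), MeasureTheory.lintegral_indicator_one (hm _ _),
    MeasureTheory.lintegral_indicator_one (CCa_meas C), hvol A ha ea, hvol B hb eb,
    ← ENNReal.rpow_add_of_nonneg _ _ hs.le ht.le, hst, ENNReal.rpow_one, CCa_vol,
    ← ENNReal.ofReal_natCast, ENNReal.ofReal_le_ofReal_iff (Nat.cast_nonneg _)] at key
  have := Real.rpow_le_rpow (by positivity) key (by positivity : (0 : ℝ) ≤ 1 / d)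
  rwa [one_div, Real.pow_rpow_inv_natCast hab.le (by omega), ← one_div] at this

theorem CCa_count {d m : ℕ} (G : Finset (Fin d → ℕ)) (h : ∀ α ∈ G, ∑ l, α l ≤ m) :
    d.factorial * G.card ≤ (m + d) ^ d := by
  have h1 : G.card ≤ ((Finset.univ : Finset (Fin (d + 1))).finsuppAntidiag m).card := by
    refine Finset.card_le_card_of_injOn (fun α => Finsupp.equivFunOnFinite.symm
      (Fin.cons (m - ∑ l, α l) α : Fin (d + 1) → ℕ)) (fun α hα => ?_) fun α _ β _ e => ?_
    · have := h α hα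
      simp only [Finset.mem_coe, Finset.mem_finsuppAntidiag, Finsupp.equivFunOnFinite_symm_apply_apply,
        Fin.sum_univ_succ, Fin.cons_zero, Fin.cons_succ, Finset.subset_univ, and_true]
      omega
    · exact (Fin.cons_injective2 (Finsupp.equivFunOnFinite.symm.injective e)).2
  rw [Finset.card_finsuppAntidiag_nat_eq_choose, Finset.card_univ, Fintype.card_fin,
    show d + 1 + m - 1 = m + d by omega, Nat.choose_symm_add] at h1
  calc d.factorial * G.card ≤ d.factorial * (m + d).choose d := Nat.mul_le_mul_left _ h1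
    _ = (m + d).descFactorial d := (Nat.descFactorial_eq_factorial_mul_choose _ _).symm
    _ ≤ (m + d) ^ d := Nat.descFactorial_le_pow _ _

theorem CCa_step {d : ℕ} (hd : 1 ≤ d) {c : ℝ} (hc : 0 ≤ c) (n : ℕ) :
    (d : ℝ) / (d + 1) * ((n + 1) * (c * (n + 1)) ^ (1 / d : ℝ)) ≤
      (c * (n + 1)) ^ (1 / d : ℝ) + (d : ℝ) / (d + 1) * (n * (c * n) ^ (1 / d : ℝ)) := by
  have hd0 : (0 : ℝ) < d := by exact_mod_cast hd
  have hN : (0 : ℝ) < n + 1 := by positivity
  have h1 := one_add_mul_self_le_rpow_one_add (s := -(1 / (n + 1) : ℝ))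
    (neg_le_neg ((div_le_one hN).2 (by linarith [Nat.cast_nonneg (α := ℝ) n])))
    (p := 1 + 1 / d) (by have : (0 : ℝ) ≤ 1 / d := by positivity
                         linarith)
  have e : (1 : ℝ) + -(1 / (n + 1)) = n / (n + 1) := by
    field_simp
    ring
  have h0 : (0 : ℝ) ≤ n / (n + 1) := by positivity
  rw [e, Real.rpow_add_of_nonneg h0 zero_le_one (by positivity), Real.rpow_one] at h1
  have e2 : (c * n) ^ (1 / d : ℝ) = (c * (n + 1)) ^ (1 / d : ℝ) * (n / (n + 1)) ^ (1 / d : ℝ) := by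
    rw [← Real.mul_rpow (by positivity) h0]
    congr 1
    field_simp
  have hw : 0 ≤ (c * (n + 1)) ^ (1 / d : ℝ) := by positivity
  rw [e2]
  generalize (c * (n + 1)) ^ (1 / d : ℝ) = w at hw ⊢
  generalize ((n : ℝ) / (n + 1)) ^ (1 / d : ℝ) = v at h1 ⊢
  have h2 : (d : ℝ) / (d + 1) * (n + 1) ≤ 1 + d / (d + 1) * (n * v) := by
    have h3 := mul_le_mul_of_nonneg_left h1 (by positivity : (0 : ℝ) ≤ d / (d + 1) * (n + 1))
    have e3 : (d : ℝ) / (d + 1) * (n + 1) * (1 + (1 + 1 / d) * -(1 / (n + 1))) =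
        d / (d + 1) * (n + 1) - 1 := by
      field_simp
      ring
    have e4 : (d : ℝ) / (d + 1) * (n + 1) * (n / (n + 1) * v) = d / (d + 1) * (n * v) := by
      field_simp
    rw [e3, e4] at h3
    linarith
  nlinarith [mul_le_mul_of_nonneg_right h2 hw]

/-- there are at most `(m + d - 1) ^ d / d!` points with `|α| < m`. -/
theorem sum_min_ge {d : ℕ} (hd : 1 ≤ d) (G : Finset (Fin d → ℕ)) {m₀ : ℕ} (hm : d * G.card ≤ m₀) :
    (d : ℝ) / (d + 1) * (G.card * ((d.factorial : ℝ) * G.card) ^ (1 / d : ℝ)) ≤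
      ∑ α ∈ G, (((min (∑ l, α l) m₀ : ℕ) : ℝ) + (d + 1)) := by
  induction G using Finset.induction_on_max_value (fun α : Fin d → ℕ => ∑ l, α l) with
  | empty => simp
  | insert α G hα hmax ih =>
    rw [Finset.card_insert_of_notMem hα] at hm
    have h1 := ih ((Nat.mul_le_mul_left d (Nat.le_succ _)).trans hm)
    have h2 := CCa_count (m := ∑ l, α l) (insert α G) fun β hβ => by
      rcases Finset.mem_insert.1 hβ with rfl | hβ
      · exact le_rfl
      · exact hmax β hβ
    rw [Finset.card_insert_of_notMem hα] at h2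
    have h3 : d.factorial * (G.card + 1) ≤ m₀ ^ d := by
      refine le_trans ?_ (Nat.pow_le_pow_left hm d)
      rw [mul_pow]
      exact Nat.mul_le_mul (Nat.factorial_le_pow d) (Nat.le_self_pow (by omega) _)
    have h4 : d.factorial * (G.card + 1) ≤ (min (∑ l, α l) m₀ + (d + 1)) ^ d := by
      rcases le_total (∑ l, α l) m₀ with h | h
      · rw [min_eq_left h]
        exact h2.trans (Nat.pow_le_pow_left (by omega) d)
      · rw [min_eq_right h]
        exact h3.trans (Nat.pow_le_pow_left (by omega) d)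
    have h5 : ((d.factorial : ℝ) * (G.card + 1)) ^ (1 / d : ℝ) ≤
        ((min (∑ l, α l) m₀ : ℕ) : ℝ) + (d + 1) :=
      CCa_root_le hd (by positivity) (by positivity) (by exact_mod_cast h4)
    have h6 := CCa_step hd (c := d.factorial) (Nat.cast_nonneg _) G.card
    rw [Finset.sum_insert hα, Finset.card_insert_of_notMem hα, Nat.cast_add, Nat.cast_one]
    linarith

end Crest.Agent.R271
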