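import Crest.Agent.R271.CA2b
import Crest.Agent.R271.CA4
import Crest.Agent.R271.CA5

/-! Row 271, part C: the variational argument. -/

set_option autoImplicit false

namespace Crest.Agent.R271

open MeasureTheory Filter Topology
open scoped ENNReal NNReal

theorem core_eps (n : ℕ) {ε : ℝ} (hε : 0 < ε) : ∃ e : ℝ, 0 < e ∧ e ≤ 1 / 2 ∧
    (1 + e) * ((n + 1 + e) / (1 - e)) - (1 - e) + e ≤ n + ε := by
  have hc : ContinuousAt (fun e : ℝ => (1 + e) * ((n + 1 + e) / (1 - e)) - (1 - e) + e) 0 := by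
    refine ContinuousAt.add (ContinuousAt.sub (ContinuousAt.mul (by fun_prop)
      (ContinuousAt.div (by fun_prop) (by fun_prop) (by norm_num))) (by fun_prop)) (by fun_prop)
  have h1 := hc.eventually (gt_mem_nhds (a := (n : ℝ) + ε) (by simp [hε]))
  obtain ⟨e, he, he'⟩ := ((h1.filter_mono nhdsWithin_le_nhds).and
    (Ioo_mem_nhdsGT (show (0 : ℝ) < 1 / 2 by norm_num))).exists
  exact ⟨e, he'.1, he'.2.le, he.le⟩

theorem core_H (n a : ℕ) (ha : 1 ≤ a) {e : ℝ} (he : 0 < e) (he1 : e ≤ 1 / 2) : ∃ H : ℕ,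
    ((H : ℝ) + n) / ((1 + e) / a) + 2 ≤ ((a * (H - a ^ n) : ℕ) : ℝ) := by
  obtain ⟨H, hH⟩ := exists_nat_ge ((n + (2 + (a : ℝ) ^ n) * 2) / e)
  rw [div_le_iff₀ he] at hH
  have hA : (0 : ℝ) ≤ (a : ℝ) ^ n := by positivity
  have hn : (0 : ℝ) ≤ n := Nat.cast_nonneg _
  have hH0 : (0 : ℝ) ≤ H := Nat.cast_nonneg _
  have h1 : a ^ n ≤ H := by
    have : (a : ℝ) ^ n ≤ H := by nlinarith
    exact_mod_cast this
  refine ⟨H, ?_⟩
  have ha' : (1 : ℝ) ≤ a := by exact_mod_cast ha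
  rw [Nat.cast_mul, Nat.cast_sub h1, Nat.cast_pow, div_div_eq_mul_div]
  have h2 : ((H : ℝ) + n) / (1 + e) + 2 ≤ H - (a : ℝ) ^ n := by
    rw [← le_sub_iff_add_le, div_le_iff₀ (by positivity)]
    nlinarith
  calc ((H : ℝ) + n) * a / (1 + e) + 2 ≤ a * (((H : ℝ) + n) / (1 + e) + 2) := by
        rw [mul_add, ← mul_div_assoc, mul_comm (a : ℝ)]; linarith
    _ ≤ _ := mul_le_mul_of_nonneg_left h2 (by positivity)

theorem core_exp {x : ℝ} (h0 : 0 ≤ x) (h1 : x ≤ 1) : Real.exp x - 1 ≤ x + x ^ 2 := by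
  have := (abs_le.1 (Real.abs_exp_sub_one_sub_id_le (x := x) (by rwa [abs_of_nonneg h0]))).2
  linarith

theorem core_tau {M θ e : ℝ} (hM : 0 ≤ M) (hθ : 0 < θ) (he : 0 < e) : ∃ τ₁ : ℝ, 0 < τ₁ ∧ τ₁ ≤ e ∧
    ∀ τ, 0 < τ → τ ≤ τ₁ → (Real.exp (τ * M) - 1) * (1 / (θ * τ) + 2) ≤ M / θ + 1 := by
  set D := M ^ 2 / θ + 2 * M + 2 * M ^ 2 + 1 with hD
  have hD1 : 0 ≤ M ^ 2 / θ := by positivity
  have hD0 : 0 < D := by positivity
  refine ⟨min e (1 / D), by positivity, min_le_left _ _, fun τ hτ hτ₁ => ?_⟩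
  have h1 : τ * D ≤ 1 := by
    have := hτ₁.trans (min_le_right _ _)
    rwa [le_div_iff₀ hD0] at this
  have h2 : τ * M ≤ 1 := by nlinarith [mul_nonneg hτ.le hM, mul_nonneg hτ.le (sq_nonneg M)]
  have h3 : τ ≤ 1 := by nlinarith [mul_nonneg hτ.le hM, mul_nonneg hτ.le (sq_nonneg M)]
  refine (mul_le_mul_of_nonneg_right (core_exp (by positivity) h2) (by positivity)).trans ?_
  have e1 : (τ * M + (τ * M) ^ 2) * (1 / (θ * τ) + 2) =
      M / θ + τ * (M ^ 2 / θ + 2 * M + 2 * τ * M ^ 2) := by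
    field_simp
    ring
  rw [e1]
  have h4 : τ * (M ^ 2 / θ + 2 * M + 2 * τ * M ^ 2) ≤ τ * D :=
    mul_le_mul_of_nonneg_left (by nlinarith [sq_nonneg M]) hτ.le
  linarith

theorem core_trunc (n C B M : ℕ) {τ₀ e : ℝ} (hτ₀ : 0 < τ₀) (he : 0 < e) : ∃ K : ℕ, 4 ≤ τ₀ * K ∧
    ∀ τ, τ₀ ≤ τ → τ ≤ 1 → ∀ R : ℕ, R ≤ C * (K + 1) ^ n →
      ((B : ℝ) + R) * (M * R * Real.exp (-(τ * (K - M)))) ≤ e ∧
      ((K : ℝ) + 1) * R * Real.exp (-(τ * K)) ≤ e := by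
  obtain ⟨K, h1, -, h2⟩ := exists_trunc (2 * n + 1) ((B + C) * M * C + C) M hτ₀ he
  refine ⟨K, h1, fun τ hτ hτ1 R hR => ?_⟩
  have h3 := h2 τ hτ hτ1
  have hP : 1 ≤ (K + 1) ^ n := Nat.one_le_pow _ _ (Nat.succ_pos _)
  have e1 : (K + 1) ^ (2 * n + 1) = (K + 1) ^ n * (K + 1) ^ n * (K + 1) := by ring
  constructor
  · refine le_trans ?_ h3
    rw [← mul_assoc]
    refine mul_le_mul_of_nonneg_right ?_ (Real.exp_pos _).le
    have : (B + R) * (M * R) ≤ ((B + C) * M * C + C) * (K + 1) ^ (2 * n + 1) := by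
      have a1 : B + R ≤ (B + C) * (K + 1) ^ n := by nlinarith
      calc (B + R) * (M * R) ≤ ((B + C) * (K + 1) ^ n) * (M * (C * (K + 1) ^ n)) := by gcongr
        _ = ((B + C) * M * C) * ((K + 1) ^ n * (K + 1) ^ n * 1) := by ring
        _ ≤ _ := by rw [e1]; gcongr <;> omega
    exact_mod_cast this
  · refine le_trans ?_ h3
    have hτ0 : 0 < τ := hτ₀.trans_le hτ
    refine mul_le_mul ?_ (Real.exp_le_exp.2 (by nlinarith [(Nat.cast_nonneg M : (0 : ℝ) ≤ M)]))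
      (Real.exp_pos _).le (by positivity)
    have : (K + 1) * R ≤ ((B + C) * M * C + C) * (K + 1) ^ (2 * n + 1) := by
      calc (K + 1) * R ≤ (K + 1) * (C * (K + 1) ^ n) := by gcongr
        _ = C * ((K + 1) ^ n * 1 * (K + 1)) := by ring
        _ ≤ _ := by rw [e1]; gcongr; omega
    exact_mod_cast this

theorem core_arith {n ε e τ Z A X P : ℝ} (he : 0 < e) (he1 : e ≤ 1 / 2) (hZ : 1 ≤ Z)
    (hε : (1 + e) * ((n + 1 + e) / (1 - e)) - (1 - e) + e ≤ n + ε)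
    (h1 : τ * (1 - e) * X ≤ (n + 1 + e) * Z) (h2 : Z ≤ τ * (1 + e) * A + e)
    (h3 : P * Z ≤ (1 + e) * τ * (X - A)) : P + e ≤ n + ε := by
  have a1 : τ * X ≤ (n + 1 + e) / (1 - e) * Z := by
    rw [div_mul_eq_mul_div, le_div_iff₀ (by linarith)]; linarith
  have a2 : (1 + e) * (τ * X) ≤ (1 + e) * ((n + 1 + e) / (1 - e) * Z) :=
    mul_le_mul_of_nonneg_left a1 (by linarith)
  have a3 : P * Z ≤ ((1 + e) * ((n + 1 + e) / (1 - e)) - (1 - e)) * Z := by nlinarith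
  have := le_of_mul_le_mul_right a3 (by linarith)
  linarith

theorem core {E : Type} [NormedAddCommGroup E] [NormedSpace ℂ E] [FiniteDimensional ℂ E]
    [MeasurableSpace E] [BorelSpace E] {μ : Measure E} [μ.IsAddHaarMeasure] {S : Type} [CommRing S]
    [IsDomain S] [Algebra ℂ S] {ev : S →ₐ[ℂ] (E → ℂ)} {W : Set E} {z₀ : E} {V : Submodule ℂ S}
    {a n : ℕ} (h : CoreData μ S ev W z₀ V a n) (hn : 1 ≤ n) {κ : Type} [Fintype κ] [Nonempty κ]
    (q : κ → S) (hq : ∀ j, ev (q j) z₀ = 0) {ε : ℝ} (hε : 0 < ε) :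
    ∃ (ι : Type) (_ : Fintype ι) (s : ι → S) (k : ι → ℕ) (p : ι → ℝ) (η : ℝ), 0 < η ∧
      (∀ i, s i ∈ V ^ k i) ∧ (∀ i, 0 ≤ p i) ∧ a * (∑ i, p i * k i + η) ≤ n + ε ∧
      IntNear μ (fun w => (ENNReal.ofReal (∏ i, ‖ev (s i) w‖ ^ (2 * p i)))⁻¹) z₀ ∧
      ¬ IntNear μ (fun w => (ENNReal.ofReal
        ((∏ i, ‖ev (s i) w‖ ^ (2 * p i)) * (∑ j, ‖ev (q j) w‖ ^ 2) ^ η))⁻¹) z₀ := by
  classical
  obtain ⟨e, he, he1, heε⟩ := core_eps n hε
  have ha : (0 : ℝ) < a := by exact_mod_cast h.a_pos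
  set θ : ℝ := (1 + e) / a with hθd
  have hθ : 0 < θ := by positivity
  obtain ⟨C, hC, henv⟩ := h.env hθ he (by linarith)
  obtain ⟨H, hH⟩ := core_H n a h.a_pos he he1
  obtain ⟨τ₁, hτ₁, hτ₁e, htau⟩ := core_tau (M := (H : ℝ) + n) (by positivity) hθ he
  obtain ⟨Cu, hCu⟩ := h.hf.upper
  have hτ₀ : 0 < τ₁ * Real.exp (-C) := by positivity
  have e0 : τ₁ * Real.exp (-C) * Real.exp C = τ₁ := by
    rw [mul_assoc, ← Real.exp_add]; simp
  obtain ⟨K, hK, htr⟩ := core_trunc n Cu (a * (H - a ^ n)) (H + n) hτ₀ he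
  obtain ⟨τ, hτa, hτb, hdeg⟩ := henv _ hτ₀ (by rw [e0]; linarith) K hK
  rw [e0] at hτb
  have hτ : 0 < τ := hτ₀.trans_le hτa
  obtain ⟨t1, t2⟩ := htr τ hτa (by linarith) (rk V K) (hCu K)
  obtain ⟨v, c₀, hv, ho⟩ := h.exists_opt K hθ hτ
  have hm : (v.gt 0).IsMaximal := by
    by_contra hm
    have h1 := h.nonmax hv ho hθ hτ hm H
    have h2 := htau τ hτ hτb
    rw [Nat.cast_add] at t1
    rw [← hθd] at hH
    have := hH.trans (h1.trans (add_le_add h2 t1))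
    linarith
  obtain ⟨f, hf⟩ := v.na.exists_flag (fun k => V ^ k) (pow_mono_of_one h.one) (fin_pow h.fg) K
  let b : Idx V K → S := fun i => f i.2
  have hb : IsSys V K b := fun k =>
    ⟨fun i => (hf k (Nat.lt_succ_iff.1 k.2)).1 i i.2, (hf k (Nat.lt_succ_iff.1 k.2)).2.1⟩
  have hob : ∀ k, Orth v.v fun i => b ⟨k, i⟩ := fun k => (hf k (Nat.lt_succ_iff.1 k.2)).2.2
  obtain ⟨p, hp0, hp, hi, hni⟩ := h.max hv ho hθ hτ hm q hq (η := e / a) (by positivity) hb hob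
  let deg : ℕ → ℕ := fun i => if hi : ∃ k, i < rk V k then Nat.find hi else 0
  have hd1 : ∀ k i, i < rk V k → deg i ≤ k ∧ i < rk V (deg i) := fun k i hi => by
    have : ∃ k, i < rk V k := ⟨k, hi⟩
    simp only [deg, dif_pos this]
    exact ⟨Nat.find_min' this hi, Nat.find_spec this⟩
  refine ⟨Idx V K, inferInstance, b, fun i => deg i.2, p, e / a, by positivity, fun i => ?_, hp0,
    ?_, hi, hni⟩
  · have := hd1 _ _ i.2.2
    exact (hf _ (this.1.trans (Nat.lt_succ_iff.1 i.1.2))).1 _ this.2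
  set lam : Idx V K → ℝ := fun i => v.v (b i) with hlam
  have hx := h.mem_FS hv hb
  have hZ : 1 ≤ part τ lam := h.one_le_part hx τ
  have hZ0 : 0 < part τ lam := lt_of_lt_of_le one_pos hZ
  have hage := age_bound (rk_mono h.fg h.one) (x := fun i => Real.exp (-(τ * v.v (f i))))
    (fun _ => (Real.exp_pos _).le)
    (fun i => Real.exp_le_one_iff.2 (neg_nonpos.2 (mul_nonneg hτ.le (v.nonneg _)))) (deg := deg)
    (K := K) (fun k _ i hi => (hd1 k i hi).1) hτ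
  rw [← sum_idx V K fun k i => Real.exp (-(τ * k)) * Real.exp (-(τ * v.v (f i))),
    ← sum_idx V K fun k i => Real.exp (-(τ * k)) * Real.exp (-(τ * v.v (f i))) *
      ((k : ℝ) - deg i)] at hage
  have hgw : ∀ i : Idx V K, Real.exp (-(τ * (i.1 : ℕ))) * Real.exp (-(τ * v.v (f i.2))) =
      gw τ lam i := fun i => by
    rw [← Real.exp_add, gw]
    congr 1
    simp only [hlam, b]
    ring
  simp only [hgw] at hage
  have hA : 0 ≤ ∑ i : Idx V K, gw τ lam i * (((i.1 : ℕ) : ℝ) - deg i.2) :=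
    Finset.sum_nonneg fun i _ => mul_nonneg (gw_pos _ _ _).le
      (sub_nonneg.2 (by exact_mod_cast (hd1 _ _ i.2.2).1))
  rw [mul_add, mul_div_cancel₀ _ ha.ne']
  refine core_arith he he1 hZ heε (hdeg _ hx (ho b hb hob))
    (A := ∑ i : Idx V K, gw τ lam i * (((i.1 : ℕ) : ℝ) - deg i.2)) ?_ ?_
  · refine hage.trans (add_le_add (mul_le_mul_of_nonneg_right ?_ hA) t2)
    have := core_exp hτ.le (by linarith)
    nlinarith
  · rw [← Finset.sum_sub_distrib, Finset.mul_sum, Finset.sum_mul, Finset.mul_sum]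
    refine Finset.sum_le_sum fun i _ => ?_
    have h1 := (le_div_iff₀ hZ0).1 (hp i)
    have h2 : (a : ℝ) * θ = 1 + e := by rw [hθd]; field_simp
    calc (a : ℝ) * (p i * deg i.2) * part τ lam = a * deg i.2 * (p i * part τ lam) := by ring
      _ ≤ a * deg i.2 * (θ * τ * gw τ lam i) := mul_le_mul_of_nonneg_left h1 (by positivity)
      _ = _ := by rw [← h2]; ring

end Crest.Agent.R271
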