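import Crest.Agent.R271.DD1

/-! Row 271, part D: density of Zariski open subsets of subvarieties. -/

set_option autoImplicit false

namespace Crest.Agent.R271

open MeasureTheory Filter Topology
open scoped ENNReal NNReal

theorem DD_alg {R : Type} [CommRing R] [IsDomain R] [Algebra ℂ R] [Algebra.FiniteType ℂ R]
    (φ₀ : R →ₐ[ℂ] ℂ) {Δ : R} (hΔ : Δ ≠ 0) : ∃ l : Filter (R →ₐ[ℂ] ℂ), l.NeBot ∧
      (∀ s, Tendsto (fun φ => φ s) l (𝓝 (φ₀ s))) ∧ ∀ᶠ φ in l, φ Δ ≠ 0 := by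
  obtain ⟨d, g, hg, hint⟩ := exists_integral_inj_algHom_of_fg ℂ R
  letI : Algebra (MvPolynomial (Fin d) ℂ) R := g.toRingHom.toAlgebra
  haveI : IsScalarTower ℂ (MvPolynomial (Fin d) ℂ) R :=
    IsScalarTower.of_algebraMap_eq fun c => (g.commutes c).symm
  haveI : Algebra.IsIntegral (MvPolynomial (Fin d) ℂ) R := ⟨hint⟩
  have hi : Function.Injective (algebraMap (MvPolynomial (Fin d) ℂ) R) := hg
  obtain ⟨θ, hθ, hsep⟩ := DD_sep (d := d) φ₀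
  obtain ⟨a, ha, hna⟩ := DD_norm hi hΔ
  have hθi : IsIntegral (MvPolynomial (Fin d) ℂ) θ := Algebra.IsIntegral.isIntegral θ
  have hP := minpoly.monic hθi
  have hd := (minpoly.natDegree_pos hθi).ne'
  choose ρ hρ1 hρ2 using fun z : Fin d → ℂ => DD_root (hP.map (MvPolynomial.eval z))
    (by rwa [hP.natDegree_map]) (φ₀ θ)
  choose φ hφ1 hφ2 using fun z => DD_lift hi θ z (ρ z) (hρ1 z)
  have hev : ∀ z : Fin d → ℂ, ((minpoly (MvPolynomial (Fin d) ℂ) θ).map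
      (MvPolynomial.eval z)).eval (φ₀ θ) = MvPolynomial.eval z
        ((minpoly (MvPolynomial (Fin d) ℂ) θ).eval (MvPolynomial.C (φ₀ θ))) := fun z => by
    rw [Polynomial.eval_map, ← Polynomial.eval₂_at_apply, MvPolynomial.eval_C]
  have hρ : Tendsto ρ (𝓝 (ALpt d φ₀)) (𝓝 (φ₀ θ)) := by
    have h1 := ((MvPolynomial.continuous_eval ((minpoly (MvPolynomial (Fin d) ℂ) θ).eval
      (MvPolynomial.C (φ₀ θ)))).tendsto (ALpt d φ₀)).norm
    rw [← hev, ← AL_aeval, minpoly.aeval, map_zero, norm_zero] at h1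
    rw [Metric.tendsto_nhds]
    intro ε hε
    filter_upwards [h1.eventually (eventually_lt_nhds
      (pow_pos hε (minpoly (MvPolynomial (Fin d) ℂ) θ).natDegree))] with z hz
    have h2 := hρ2 z
    rw [hP.natDegree_map, hev] at h2
    rw [dist_comm, dist_eq_norm]
    exact lt_of_pow_lt_pow_left₀ _ hε.le (h2.trans_lt hz)
  haveI : (𝓝[{z | MvPolynomial.eval z a ≠ 0}] (ALpt d φ₀)).NeBot :=
    mem_closure_iff_nhdsWithin_neBot.1 (Measure.dense_of_ae (AL_null ha) _)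
  have hU := Ultrafilter.of_le (𝓝[{z | MvPolynomial.eval z a ≠ 0}] (ALpt d φ₀))
  have hU' := hU.trans nhdsWithin_le_nhds
  obtain ⟨ψ, hψ⟩ := DD_ultra (d := d) (Ultrafilter.of _) φ (z := ALpt d φ₀)
    (by simp only [hφ1]; exact hU')
  have e : ψ = φ₀ := by
    refine hsep ψ (funext fun i => tendsto_nhds_unique (hψ _) ?_) ?_
    · refine ((continuous_apply i).continuousAt.mono_left hU').congr fun z => ?_
      exact (congrFun (hφ1 z) i).symm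
    · rwa [tendsto_nhds_unique (hψ θ) (by simp only [hφ2]; exact hρ.mono_left hU')]
  refine ⟨Filter.map φ (Ultrafilter.of (𝓝[{z | MvPolynomial.eval z a ≠ 0}] (ALpt d φ₀))),
    inferInstance, fun s => e ▸ hψ s, ?_⟩
  rw [eventually_map]
  filter_upwards [hU self_mem_nhdsWithin] with z hz
  exact hna _ (by rwa [hφ1])

variable {n : ℕ} {S : Type} [CommRing S] [IsDomain S] [Algebra ℂ S] {t : Fin n → S} {Y : Type}
  [TopologicalSpace Y] [T2Space Y] [SecondCountableTopology Y] [MeasurableSpace Y] [BorelSpace Y]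
  {X : RD (Fin n → ℂ) Y volume} {ev : Y → (S →ₐ[ℂ] ℂ)}

theorem PtD.den [Algebra.FiniteType ℂ S] (h : PtD t X ev) {𝔭 : Ideal S} (hp : 𝔭.IsPrime) {y₀ : Y}
    (h0 : ∀ f ∈ 𝔭, ev y₀ f = 0) {Δ : S} (hΔ : Δ ∉ 𝔭) :
    ∃ᶠ y in 𝓝 y₀, (∀ f ∈ 𝔭, ev y f = 0) ∧ ev y Δ ≠ 0 := by
  haveI : Algebra.FiniteType ℂ (S ⧸ 𝔭) :=
    .of_surjective (Ideal.Quotient.mkₐ ℂ 𝔭) (Ideal.Quotient.mkₐ_surjective ℂ 𝔭)
  obtain ⟨l, hl, h1, h2⟩ := DD_alg (Ideal.Quotient.liftₐ 𝔭 (ev y₀) h0)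
    (Δ := Ideal.Quotient.mk 𝔭 Δ) (by rwa [Ne, Ideal.Quotient.eq_zero_iff_mem])
  choose f hf using fun φ : (S ⧸ 𝔭) →ₐ[ℂ] ℂ => h.bij.2 (φ.comp (Ideal.Quotient.mkₐ ℂ 𝔭))
  have h3 : Tendsto f l (𝓝 y₀) := h.tendsto fun s => by
    simp only [hf]
    exact h1 (Ideal.Quotient.mk 𝔭 s)
  refine h3.frequently (h2.mono fun φ hφ => ⟨fun g hg => ?_, ?_⟩).frequently
  · rw [hf]
    change φ (Ideal.Quotient.mk 𝔭 g) = 0
    rw [Ideal.Quotient.eq_zero_iff_mem.2 hg, map_zero]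
  · rw [hf]
    exact hφ

end Crest.Agent.R271
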