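import Crest.Agent.R271.DP

/-! Row 271, part D: the topology of the space of points. -/

set_option autoImplicit false
set_option linter.unusedSectionVars false

namespace Crest.Agent.R271

open MeasureTheory Filter Topology
open scoped ENNReal NNReal

variable {n : ℕ} {S : Type} [CommRing S] [Algebra ℂ S] {t : Fin n → S} {Y : Type}
  [TopologicalSpace Y] [MeasurableSpace Y] [BorelSpace Y]
  {X : RD (Fin n → ℂ) Y volume} {ev : Y → (S →ₐ[ℂ] ℂ)}

theorem PtD.cont (h : PtD t X ev) (s : S) : Continuous fun y => ev y s :=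
  continuousOn_univ.1 (RD.C2.continuousOn X (RD.Hol.c2 X isOpen_univ (h.hol s)))

/-- the topology is the topology of pointwise convergence -/
theorem PtD.tendsto [Algebra.FiniteType ℂ S] (h : PtD t X ev) {ι : Type} {l : Filter ι} {f : ι → Y}
    {y : Y} (hf : ∀ s, Tendsto (fun i => ev (f i) s) l (𝓝 (ev y s))) : Tendsto f l (𝓝 y) := by
  obtain ⟨G, hG⟩ := (inferInstance : Algebra.FiniteType ℂ S).out
  have hK := h.cpt G (fun k => (k : S)) (by simpa using hG) (∑ k : G, ‖ev y k‖ ^ 2 + 1)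
  refine hK.tendsto_nhds_of_unique_mapClusterPt ?_ fun x _ hx => h.bij.1 (AlgHom.ext fun s => ?_)
  · exact (tendsto_finset_sum _ fun (k : G) _ => (hf k).norm.pow 2).eventually
      (eventually_le_nhds (lt_add_one _))
  · have h1 : MapClusterPt (ev x s) l fun i => ev (f i) s :=
      hx.continuousAt_comp (f := fun y => ev y s) (h.cont s).continuousAt
    exact eq_of_nhds_neBot (h1.clusterPt.mono (hf s))

theorem h85_quot {R : Type} [CommRing R] [Algebra ℂ R] (Q : Ideal R) [Q.IsMaximal]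
    [Algebra.IsIntegral ℂ (R ⧸ Q)] :
    ∃ φ : R →ₐ[ℂ] ℂ, ∀ r, algebraMap ℂ (R ⧸ Q) (φ r) = Ideal.Quotient.mk Q r := by
  let e : ℂ ≃ₐ[ℂ] (R ⧸ Q) := AlgEquiv.ofBijective (Algebra.ofId ℂ (R ⧸ Q))
    IsAlgClosed.algebraMap_bijective_of_isIntegral
  exact ⟨(e.symm : (R ⧸ Q) →ₐ[ℂ] ℂ).comp (Ideal.Quotient.mkₐ ℂ Q),
    fun r => e.apply_symm_apply (Ideal.Quotient.mk Q r)⟩

/-- integral extensions: points lift (lying over) -/
theorem DD_over {B R : Type} [CommRing B] [CommRing R] [Algebra ℂ B] [Algebra ℂ R] [Algebra B R]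
    [IsScalarTower ℂ B R] [Algebra.IsIntegral B R] (hi : Function.Injective (algebraMap B R))
    (ψ : B →ₐ[ℂ] ℂ) : ∃ φ : R →ₐ[ℂ] ℂ, ∀ b, φ (algebraMap B R b) = ψ b := by
  have hP : (RingHom.ker ψ).IsMaximal :=
    RingHom.ker_isMaximal_of_surjective ψ fun c => ⟨algebraMap ℂ B c, ψ.commutes c⟩
  obtain ⟨Q, hQ, hQ'⟩ := Ideal.exists_ideal_over_maximal_of_isIntegral (S := R) (RingHom.ker ψ)
    (by rw [(RingHom.injective_iff_ker_eq_bot _).1 hi]; exact bot_le)
  have key : ∀ b, Ideal.Quotient.mk Q (algebraMap B R b) = algebraMap ℂ (R ⧸ Q) (ψ b) := by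
    intro b
    have : b - algebraMap ℂ B (ψ b) ∈ RingHom.ker ψ := by simp [RingHom.mem_ker]
    rw [← hQ', Ideal.mem_comap, map_sub, ← IsScalarTower.algebraMap_apply] at this
    exact Ideal.Quotient.eq.2 this
  have hint : Algebra.IsIntegral ℂ (R ⧸ Q) := by
    refine ⟨fun x => ?_⟩
    obtain ⟨r, rfl⟩ := Ideal.Quotient.mk_surjective x
    obtain ⟨p, hp, hp'⟩ := Algebra.IsIntegral.isIntegral (R := B) r
    refine ⟨p.map (ψ : B →+* ℂ), hp.map _, ?_⟩
    have e : (algebraMap ℂ (R ⧸ Q)).comp (ψ : B →+* ℂ) =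
        (Ideal.Quotient.mk Q).comp (algebraMap B R) := RingHom.ext fun b => (key b).symm
    rw [Polynomial.eval₂_map, e, ← Polynomial.hom_eval₂, hp', map_zero]
  obtain ⟨φ, hφ⟩ := h85_quot Q
  refine ⟨φ, fun b => (algebraMap ℂ (R ⧸ Q)).injective ?_⟩
  rw [hφ, key]

/-- Nullstellensatz: `S ⧸ 𝔪` is finite over `ℂ` (`finite_of_finite_type_of_isJacobsonRing`),
`IsAlgClosed.algebraMap_bijective_of_isIntegral` -/
theorem DD_point [Algebra.FiniteType ℂ S] {s : S} (hs : ¬ IsUnit s) :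
    ∃ φ : S →ₐ[ℂ] ℂ, φ s = 0 := by
  obtain ⟨Q, hQ, hs'⟩ := exists_max_ideal_of_mem_nonunits (mem_nonunits_iff.2 hs)
  letI := Ideal.Quotient.field Q
  have : Module.Finite ℂ (S ⧸ Q) := finite_of_finite_type_of_isJacobsonRing ℂ (S ⧸ Q)
  obtain ⟨φ, hφ⟩ := h85_quot Q
  refine ⟨φ, (algebraMap ℂ (S ⧸ Q)).injective ?_⟩
  rw [hφ, map_zero]
  exact Ideal.Quotient.eq_zero_iff_mem.2 hs'

end Crest.Agent.R271
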