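import Crest.Agent.R271.DD0
import Crest.Agent.R271.AL3

/-! Row 271, part D: finite covers of affine space are open (algebraic lemmas). -/

set_option autoImplicit false
set_option linter.unusedSectionVars false

namespace Crest.Agent.R271

open Filter Topology Polynomial

/-- `p(τ) = ∏ (τ - ρ)`; take the root `ρ` closest to `τ` -/
theorem DD_root {p : ℂ[X]} (hp : p.Monic) (hd : p.natDegree ≠ 0) (τ : ℂ) :
    ∃ ρ : ℂ, p.eval ρ = 0 ∧ ‖τ - ρ‖ ^ p.natDegree ≤ ‖p.eval τ‖ := by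
  have hs := IsAlgClosed.splits p
  have hc : p.roots.card = p.natDegree := hs.natDegree_eq_card_roots.symm
  have hne : p.roots.toFinset.Nonempty := by
    rw [Multiset.toFinset_nonempty]
    intro h
    rw [h] at hc
    exact hd hc.symm
  obtain ⟨ρ, hρ, hmin⟩ := Finset.exists_min_image p.roots.toFinset (fun ρ => ‖τ - ρ‖) hne
  refine ⟨ρ, (mem_roots hp.ne_zero).1 (Multiset.mem_toFinset.1 hρ), ?_⟩
  rw [hs.eval_eq_prod_roots_of_monic hp, ← hc]
  have key : ∀ m : Multiset ℂ, (∀ x ∈ m, ‖τ - ρ‖ ≤ ‖τ - x‖) →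
      ‖τ - ρ‖ ^ m.card ≤ ‖(m.map (τ - ·)).prod‖ := by
    intro m
    induction m using Multiset.induction_on with
    | empty => simp
    | cons a m ih =>
      intro h
      rw [Multiset.card_cons, Multiset.map_cons, Multiset.prod_cons, norm_mul, pow_succ']
      exact mul_le_mul (h a (Multiset.mem_cons_self _ _))
        (ih fun x hx => h x (Multiset.mem_cons_of_mem hx)) (by positivity) (norm_nonneg _)
  exact key _ fun x hx => hmin x (Multiset.mem_toFinset.2 hx)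

variable {d : ℕ} {R : Type} [CommRing R] [Algebra ℂ R] [Algebra (MvPolynomial (Fin d) ℂ) R]
  [IsScalarTower ℂ (MvPolynomial (Fin d) ℂ) R] [Algebra.IsIntegral (MvPolynomial (Fin d) ℂ) R]

/-- an element separating `φ₀` from the other points of its fibre: for generators `γ_k` with monic equations
`P_k`, `θ = ∏_k ∏ (γ_k - ρ)`, `ρ` running through the roots `≠ φ₀ γ_k` of `P_k` specialised at `ALpt d φ₀`
(`AL_aeval`). -/
theorem DD_sep [Algebra.FiniteType ℂ R] (φ₀ : R →ₐ[ℂ] ℂ) : ∃ θ : R, φ₀ θ ≠ 0 ∧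
    ∀ φ : R →ₐ[ℂ] ℂ, ALpt d φ = ALpt d φ₀ → φ θ ≠ 0 → φ = φ₀ := by
  classical
  obtain ⟨s, hs⟩ := Algebra.FiniteType.out (R := ℂ) (A := R)
  have hint : ∀ γ : R, ∃ P : (MvPolynomial (Fin d) ℂ)[X], P.Monic ∧ aeval γ P = 0 := fun γ =>
    Algebra.IsIntegral.isIntegral (R := MvPolynomial (Fin d) ℂ) γ
  choose P hP hP0 using hint
  set Z : R → Finset ℂ := fun γ =>
    (((P γ).map (MvPolynomial.eval (ALpt d φ₀))).roots.toFinset).erase (φ₀ γ) with hZ
  refine ⟨∏ γ ∈ s, ∏ ρ ∈ Z γ, (γ - algebraMap ℂ R ρ), ?_, fun φ hφ h => ?_⟩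
  · simp only [map_prod, map_sub, AlgHom.commutes, Algebra.algebraMap_self, RingHom.id_apply]
    refine Finset.prod_ne_zero_iff.2 fun γ _ => Finset.prod_ne_zero_iff.2 fun ρ hρ => ?_
    exact sub_ne_zero.2 (Finset.ne_of_mem_erase hρ).symm
  · simp only [map_prod, map_sub, AlgHom.commutes, Algebra.algebraMap_self, RingHom.id_apply] at h
    refine AlgHom.ext_of_adjoin_eq_top hs fun γ hγ => ?_
    by_contra hne
    have h1 := Finset.prod_ne_zero_iff.1 (Finset.prod_ne_zero_iff.1 h γ hγ) (φ γ)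
      (Finset.mem_erase.2 ⟨hne, ?_⟩)
    · exact h1 (sub_self _)
    · rw [Multiset.mem_toFinset, mem_roots ((hP γ).map _).ne_zero, IsRoot.def, ← hφ, ← AL_aeval,
        hP0, map_zero]

/-- `minpoly.equivAdjoin`, `AdjoinRoot.lift`, then `DD_over` with `B = Algebra.adjoin _ {θ}` -/
theorem DD_lift [IsDomain R] (hi : Function.Injective (algebraMap (MvPolynomial (Fin d) ℂ) R)) (θ : R)
    (z : Fin d → ℂ) (τ : ℂ)
    (h : ((minpoly (MvPolynomial (Fin d) ℂ) θ).map (MvPolynomial.eval z)).eval τ = 0) :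
    ∃ φ : R →ₐ[ℂ] ℂ, ALpt d φ = z ∧ φ θ = τ := by
  have := (faithfulSMul_iff_algebraMap_injective _ _).2 hi
  have hx : IsIntegral (MvPolynomial (Fin d) ℂ) θ := Algebra.IsIntegral.isIntegral θ
  rw [eval_map] at h
  let ψ₀ : Algebra.adjoin (MvPolynomial (Fin d) ℂ) {θ} →+* ℂ :=
    (AdjoinRoot.lift (MvPolynomial.eval z) τ h).comp
      (minpoly.equivAdjoin hx).symm.toRingEquiv.toRingHom
  have h1 : ∀ a, ψ₀ (algebraMap (MvPolynomial (Fin d) ℂ) _ a) = MvPolynomial.eval z a := fun a => by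
    change AdjoinRoot.lift _ _ h ((minpoly.equivAdjoin hx).symm (algebraMap _ _ a)) = _
    rw [AlgEquiv.commutes, AdjoinRoot.algebraMap_eq, AdjoinRoot.lift_of]
  have h2 : ψ₀ ⟨θ, Algebra.self_mem_adjoin_singleton _ θ⟩ = τ := by
    have e : (minpoly.equivAdjoin hx).symm ⟨θ, Algebra.self_mem_adjoin_singleton _ θ⟩ =
        AdjoinRoot.root _ := by
      rw [AlgEquiv.symm_apply_eq, minpoly.coe_equivAdjoin, AdjoinRoot.Minpoly.toAdjoin,
        AdjoinRoot.liftAlgHom_root]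
    change AdjoinRoot.lift _ _ h ((minpoly.equivAdjoin hx).symm _) = _
    rw [e, AdjoinRoot.lift_root]
  have : Algebra.IsIntegral (Algebra.adjoin (MvPolynomial (Fin d) ℂ) {θ}) R :=
    Algebra.IsIntegral.tower_top (MvPolynomial (Fin d) ℂ)
  obtain ⟨φ, hφ⟩ := DD_over (B := Algebra.adjoin (MvPolynomial (Fin d) ℂ) {θ}) (R := R)
    Subtype.val_injective { ψ₀ with
      commutes' := fun c => (congrArg ψ₀ (IsScalarTower.algebraMap_apply ℂ
        (MvPolynomial (Fin d) ℂ) _ c)).trans ((h1 _).trans (MvPolynomial.eval_C c)) }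
  exact ⟨φ, funext fun i => (hφ (algebraMap (MvPolynomial (Fin d) ℂ) _ (MvPolynomial.X i))).trans
    ((h1 _).trans (MvPolynomial.eval_X i)), (hφ _).trans h2⟩

/-- bounded families of points converge along ultrafilters (`AL_integral`, `IsCompact.ultrafilter_le_nhds`;
the limits form an algebra homomorphism by uniqueness of limits) -/
theorem DD_ultra {ι : Type} (U : Ultrafilter ι) (φ : ι → (R →ₐ[ℂ] ℂ)) {z : Fin d → ℂ}
    (hz : Tendsto (fun i => ALpt d (φ i)) U (𝓝 z)) :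
    ∃ ψ : R →ₐ[ℂ] ℂ, ∀ s, Tendsto (fun i => φ i s) U (𝓝 (ψ s)) := by
  have h : ∀ s, ∃ c : ℂ, Tendsto (fun i => φ i s) U (𝓝 c) := fun s => by
    obtain ⟨C, N, hC, hs⟩ := AL_integral (n := d) (Algebra.IsIntegral.isIntegral s)
    obtain ⟨c, -, hc⟩ := (isCompact_closedBall (0 : ℂ) (C * (1 + (‖z‖ + 1)) ^ N)).ultrafilter_le_nhds'
      (U.map fun i => φ i s) (by
        refine (hz.norm.eventually_le_const (lt_add_one _)).mono fun i hi => ?_
        exact mem_closedBall_zero_iff.2 ((hs _).trans (mul_le_mul_of_nonneg_left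
          (pow_le_pow_left₀ (by positivity) (add_le_add_right hi 1) N) hC.le)))
    exact ⟨c, hc⟩
  choose ψ hψ using h
  have hc : ∀ c : ℂ, ψ (algebraMap ℂ R c) = c := fun c =>
    tendsto_nhds_unique (hψ _) (by simp)
  exact ⟨{ toFun := ψ
           map_one' := by simpa using hc 1
           map_mul' := fun a b => tendsto_nhds_unique (hψ _)
             (by simpa only [map_mul] using (hψ a).mul (hψ b))
           map_zero' := by simpa using hc 0
           map_add' := fun a b => tendsto_nhds_unique (hψ _)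
             (by simpa only [map_add] using (hψ a).add (hψ b))
           commutes' := hc }, hψ⟩

/-- `IsAlgebraic.exists_nonzero_dvd` (or `exists_nonzero_eq_adjoin_mul`): `Δ ∣ a ≠ 0`, `AL_alg` -/
theorem DD_norm [IsDomain R] (hi : Function.Injective (algebraMap (MvPolynomial (Fin d) ℂ) R)) {Δ : R}
    (hΔ : Δ ≠ 0) : ∃ a : MvPolynomial (Fin d) ℂ, a ≠ 0 ∧
      ∀ φ : R →ₐ[ℂ] ℂ, MvPolynomial.eval (ALpt d φ) a ≠ 0 → φ Δ ≠ 0 := by
  obtain ⟨a, ha, b, hb⟩ := (Algebra.IsIntegral.isIntegral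
    (R := MvPolynomial (Fin d) ℂ) Δ).isAlgebraic.exists_nonzero_dvd
    (mem_nonZeroDivisors_of_ne_zero hΔ)
  refine ⟨a, ha, fun φ h h0 => h ?_⟩
  rw [← AL_alg, hb, map_mul, h0, zero_mul]

end Crest.Agent.R271
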