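import Crest.Agent.R271.F0

/-! Row 271, part F: comparison of degrees. -/

set_option autoImplicit false

namespace Crest.Agent.R271

open Module

variable {F : Type} [Field F] [Algebra ℂ F]

theorem F4_tends {x : ℕ → ℕ} {a e : ℕ} (h1 : ∀ k, a * k ≤ x k + e) (h2 : ∀ k, x k ≤ a * k + e) :
    Filter.Tendsto (fun k : ℕ => (x k : ℝ) / k) Filter.atTop (nhds a) := by
  have h0 := tendsto_const_div_atTop_nhds_zero_nat (e : ℝ)
  have l1 := (tendsto_const_nhds (x := (a : ℝ))).sub h0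
  have l2 := (tendsto_const_nhds (x := (a : ℝ))).add h0
  rw [sub_zero] at l1
  rw [add_zero] at l2
  refine tendsto_of_tendsto_of_tendsto_of_le_of_le' l1 l2 ?_ ?_
  · filter_upwards [Filter.eventually_gt_atTop 0] with k hk
    have hk' : (0 : ℝ) < k := by exact_mod_cast hk
    have : (a : ℝ) * k ≤ x k + e := by exact_mod_cast h1 k
    rw [sub_le_iff_le_add, ← add_div, le_div_iff₀ hk']
    exact this
  · filter_upwards [Filter.eventually_gt_atTop 0] with k hk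
    have hk' : (0 : ℝ) < k := by exact_mod_cast hk
    have : (x k : ℝ) ≤ a * k + e := by exact_mod_cast h2 k
    rw [div_le_iff₀ hk', add_mul, div_mul_cancel₀ _ hk'.ne']
    exact this

theorem F4_finrank_mul {u : F} (hu : u ≠ 0) (X : Submodule ℂ F) :
    finrank ℂ ↥(Submodule.span ℂ {u} * X) = finrank ℂ X := by
  have e : Submodule.span ℂ {u} * X = X.map (LinearMap.mulLeft ℂ u) := by
    ext y
    simp [Submodule.mem_span_singleton_mul]
  rw [e]
  exact (Submodule.equivMapOfInjective _ (mul_right_injective₀ hu) X).finrank_eq.symm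

/-- `δ' (a k + 1 - δ') ^ d ≤ δ (a' k + c + c₀) ^ d` for all `k`; divide by `k ^ d`, `k → ∞`. -/
theorem FDeg.le_of {V V' : Submodule ℂ F} {d δ δ' a a' c : ℕ} (h : FDeg V d δ) (h' : FDeg V' d δ')
    (hc : ∀ k : ℕ, finrank ℂ ↥(V' ^ (a * k)) ≤ finrank ℂ ↥(V ^ (a' * k + c))) :
    δ' * a ^ d ≤ δ * a' ^ d := by
  obtain ⟨c₀, hc₀⟩ := h.upper
  have key : ∀ k : ℕ, δ' * (a * k + 1 - δ') ^ d ≤ δ * (a' * k + c + c₀) ^ d := fun k =>
    (h'.lower δ' le_rfl _).trans ((Nat.mul_le_mul_left _ (hc k)).trans (hc₀ _))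
  have l1 := ((F4_tends (x := fun k => a * k + 1 - δ') (a := a) (e := δ' + 1) (fun k => by omega)
    (fun k => by omega)).pow d).const_mul (δ' : ℝ)
  have l2 := ((F4_tends (x := fun k => a' * k + c + c₀) (a := a') (e := c + c₀) (fun k => by omega)
    (fun k => by omega)).pow d).const_mul (δ : ℝ)
  have := le_of_tendsto_of_tendsto' l1 l2 fun k => by
    rw [div_pow, div_pow, ← mul_div_assoc, ← mul_div_assoc]
    exact div_le_div_of_nonneg_right (by exact_mod_cast key k) (by positivity)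
  exact_mod_cast this

/-- `F_den` for generators of `W`: multiplication by `q` embeds `W * V ^ m` in `V ^ (m + c)`. -/
theorem F_mul_le {V W : Submodule ℂ F} (hV : V.FG) (h1 : (1 : F) ∈ V) (hg : ∀ f, FQ V f)
    (hW : W.FG) : ∃ c : ℕ, ∀ m : ℕ, finrank ℂ ↥(W * V ^ m) ≤ finrank ℂ ↥(V ^ (m + c)) := by
  obtain ⟨s, rfl⟩ := hW
  obtain ⟨q, hq, c, -, hc⟩ := F_den h1 s fun f _ => hg f
  have h2 : Submodule.span ℂ {q} * Submodule.span ℂ (s : Set F) ≤ V ^ c := by
    rw [Submodule.span_mul_span, Submodule.span_le]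
    rintro _ ⟨x, rfl, y, hy, rfl⟩
    exact hc y hy
  refine ⟨c, fun m => ?_⟩
  have := F_fin hV (m + c)
  rw [← F4_finrank_mul hq]
  refine Submodule.finrank_mono ?_
  rw [← mul_assoc, add_comm, pow_add]
  gcongr

/-- multiplication by `u ≠ 0` is a linear automorphism -/
theorem F_finrank_mul {u : F} (hu : u ≠ 0) (X : Submodule ℂ F) :
    finrank ℂ ↥(Submodule.span ℂ {u} * X) = finrank ℂ X := by
  exact F4_finrank_mul hu X

/-- `dim V' ^ (a k) = dim (u' V' ^ a) ^ k ≤ dim W ^ k ≤ dim W ^ (N + k) ≤ dim (u ^ k W ^ N V ^ (a' k))`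
(`IsRed.pow_le`, `F_pow_mono`, `Submodule.span_singleton_pow`/`span_pow`). -/
theorem F_cmp {V V' W : Submodule ℂ F} {a a' : ℕ} {u u' : F} (hV : V.FG) (h1 : (1 : F) ∈ V)
    (hg : ∀ f, FQ V f) (hW : W.FG) (hW1 : (1 : F) ∈ W) (hu : u ≠ 0) (hu' : u' ≠ 0)
    (h : IsRed (Submodule.span ℂ {u} * V ^ a') W) (h' : Submodule.span ℂ {u'} * V' ^ a ≤ W) :
    ∃ c : ℕ, ∀ k : ℕ, finrank ℂ ↥(V' ^ (a * k)) ≤ finrank ℂ ↥(V ^ (a' * k + c)) := by
  obtain ⟨N, hN⟩ := h.pow_le
  obtain ⟨c, hc⟩ := F_mul_le hV h1 hg (hW.pow N)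
  refine ⟨c, fun k => le_trans ?_ (hc (a' * k))⟩
  have f1 : Module.Finite ℂ ↥(Submodule.span ℂ {u ^ k} * (W ^ N * V ^ (a' * k))) :=
    Module.Finite.iff_fg.2 ((Submodule.fg_span_singleton _).mul ((hW.pow N).mul (hV.pow _)))
  rw [← F_finrank_mul (pow_ne_zero k hu'), ← F_finrank_mul (pow_ne_zero k hu) (W ^ N * _)]
  refine Submodule.finrank_mono ?_
  rw [← Set.singleton_pow, ← Set.singleton_pow, ← Submodule.span_pow, ← Submodule.span_pow]
  calc Submodule.span ℂ {u'} ^ k * V' ^ (a * k) = (Submodule.span ℂ {u'} * V' ^ a) ^ k := by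
        rw [mul_pow, pow_mul]
    _ ≤ W ^ k := pow_le_pow_left' h' k
    _ ≤ W ^ (N + k) := F_pow_mono hW1 (Nat.le_add_left _ _)
    _ ≤ W ^ N * (Submodule.span ℂ {u} * V ^ a') ^ k := hN k
    _ = _ := by rw [mul_pow, pow_mul, mul_left_comm]

end Crest.Agent.R271
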