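import Crest.Agent.R271.F3
import Crest.Agent.R271.F4

/-! Row 271, part F: Hilbert functions. -/

set_option autoImplicit false

namespace Crest.Agent.R271

open Module

theorem F_field {F : Type} [Field F] [Algebra ℂ F] {V V' W : Submodule ℂ F} {a a' : ℕ} {u : F}
    (hV : V.FG) (h1 : (1 : F) ∈ V) (hg : ∀ f, FQ V f) (hV' : V'.FG) (hW : W.FG) (hle : V ≤ V')
    (hc : Nat.Coprime a a') (hu : u ≠ 0) (r1 : IsRed (V ^ a') W)
    (r2 : IsRed (Submodule.span ℂ {u} * V' ^ a) W) :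
    ∃ (d : ℕ) (y : Fin d → F) (δ : ℕ), (∀ l, y l ∈ V) ∧ IsTranscendenceBasis ℂ y ∧ FDeg V d δ ∧
      a ^ d ≤ δ := by
  have hg' : ∀ f, FQ V' f := fun f => by
    obtain ⟨p, hp, q, hq, h⟩ := hg f
    exact ⟨p, Algebra.adjoin_mono hle hp, q, Algebra.adjoin_mono hle hq, h⟩
  obtain ⟨d, y, δ, hy, hb, hδ⟩ := F_exists_deg hV h1 hg
  obtain ⟨d', y', δ', -, hb', hδ'⟩ := F_exists_deg hV' (hle h1) hg'
  obtain rfl : d = d' := by simpa using hb.cardinalMk_eq hb'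
  refine ⟨d, y, δ, hy, hb, hδ, ?_⟩
  have hW1 : (1 : F) ∈ W :=
    r1.1 (F_pow_mono h1 (Nat.zero_le a') (by simp [Submodule.one_le.1 le_rfl]))
  have r1' : IsRed (Submodule.span ℂ {(1 : F)} * V ^ a') W := by
    rwa [← Submodule.one_eq_span, one_mul]
  obtain ⟨c, e1⟩ := F_cmp hV h1 hg hW hW1 one_ne_zero hu r1' r2.1
  obtain ⟨c', e2⟩ := F_cmp hV' (hle h1) hg' hW hW1 hu one_ne_zero r2 r1'.1
  have e : δ * a' ^ d = δ' * a ^ d := le_antisymm (hδ'.le_of hδ e2) (hδ.le_of hδ' e1)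
  exact Nat.le_of_dvd hδ.pos
    ((Nat.Coprime.pow d d hc).dvd_of_dvd_mul_right (e ▸ Dvd.intro_left δ' rfl))

theorem F_quot {S A : Type} [CommRing S] [Algebra ℂ S] [CommRing A] [IsDomain A] [Algebra ℂ A]
    (π : S →ₐ[ℂ] A) (hπ : Function.Surjective π) {V : Submodule ℂ S} {a : ℕ}
    (h : ProjData S V a) : ∃ (d : ℕ) (w : Fin d → S) (δ : ℕ), (∀ l, w l ∈ V) ∧
      IsTranscendenceBasis ℂ (fun l => π (w l)) ∧ 1 ≤ δ ∧ a ^ d ≤ δ ∧
      (∀ δ' ≤ δ, ∀ k : ℕ,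
        δ' * (k + 1 - δ') ^ d ≤ d.factorial * finrank ℂ ↥((V ^ k).map π.toLinearMap)) ∧
      ∃ c : ℕ, ∀ k : ℕ,
        d.factorial * finrank ℂ ↥((V ^ k).map π.toLinearMap) ≤ δ * (k + c) ^ d := by
  let ι : A →ₐ[ℂ] FractionRing A := IsScalarTower.toAlgHom ℂ A (FractionRing A)
  have hι : Function.Injective ι := IsFractionRing.injective A (FractionRing A)
  let φ : S →ₐ[ℂ] FractionRing A := ι.comp π
  obtain ⟨j, hj, hju, hloc⟩ := h.loc
  obtain ⟨V', W, a', u, hV', hW, hle, -, hc, hu, r1, r2⟩ := h.cmp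
  have hA : ∀ p ∈ Algebra.adjoin ℂ (V : Set S),
      φ p ∈ Algebra.adjoin ℂ (V.map φ.toLinearMap : Set (FractionRing A)) := fun p hp => by
    rw [Submodule.map_coe, AlgHom.coe_toLinearMap, ← AlgHom.map_adjoin]
    exact ⟨p, hp, rfl⟩
  have hg : ∀ f, FQ (V.map φ.toLinearMap) f := fun f => by
    obtain ⟨x, y, hy, rfl⟩ := IsFractionRing.div_surjective A f
    obtain ⟨s, rfl⟩ := hπ x
    obtain ⟨s', rfl⟩ := hπ y
    obtain ⟨m, hm⟩ := hloc s
    obtain ⟨m', hm'⟩ := hloc s'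
    have h0 : φ s' ≠ 0 := IsFractionRing.to_map_ne_zero_of_mem_nonZeroDivisors hy
    have hj0 : φ j ≠ 0 := (hju.map φ).ne_zero
    refine ⟨_, hA _ (mul_mem (pow_mem hj m') hm), _, hA _ (mul_mem (pow_mem hj m) hm'), ?_, ?_⟩
    · simp only [map_mul, map_pow]
      exact mul_ne_zero (pow_ne_zero _ hj0) (mul_ne_zero (pow_ne_zero _ hj0) h0)
    · change φ s / φ s' * _ = _
      simp only [map_mul, map_pow]
      field_simp
  have r1' := r1.map φ
  have r2' := r2.map φ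
  rw [Submodule.map_pow] at r1'
  rw [Submodule.map_mul, Submodule.map_pow, Submodule.map_span, Set.image_singleton] at r2'
  obtain ⟨d, y, δ, hy, hb, hδ, ha⟩ := F_field (h.fg.map _) ⟨1, h.one, map_one φ⟩ hg (hV'.map _)
    (hW.map _) (Submodule.map_mono hle) hc (hu.map φ).ne_zero r1' r2'
  choose w hw e using hy
  have hr : ∀ k : ℕ, finrank ℂ ↥((V ^ k).map π.toLinearMap) =
      finrank ℂ ↥(V.map φ.toLinearMap ^ k) := fun k => by
    rw [← Submodule.map_pow, (Submodule.equivMapOfInjective ι.toLinearMap hι _).finrank_eq,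
      ← Submodule.map_comp]
    rfl
  refine ⟨d, w, δ, hw, IsTranscendenceBasis.of_comp ι hι ?_, hδ.pos, ha, ?_, ?_⟩
  · rw [← funext e] at hb
    exact hb
  · simpa only [hr] using hδ.lower
  · simpa only [hr] using hδ.upper

theorem hfData_of {S : Type} [CommRing S] [IsDomain S] [Algebra ℂ S] [Algebra.FiniteType ℂ S]
    {V : Submodule ℂ S} {a : ℕ} (h : ProjData S V a) {n : ℕ} {t : Fin n → S}
    (ht : IsTranscendenceBasis ℂ t) : HFData S V a n := by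
  obtain ⟨d, w, δ, -, hb, h1, -, lo, c, up⟩ := F_quot (AlgHom.id ℂ S) Function.surjective_id h
  obtain rfl : d = n := by simpa using hb.cardinalMk_eq ht
  have hid : ∀ k : ℕ, (V ^ k).map (AlgHom.id ℂ S).toLinearMap = V ^ k := fun k =>
    Submodule.map_id _
  replace lo := fun δ' h k => hid k ▸ lo δ' h k
  replace up := fun k => hid k ▸ up k
  refine ⟨⟨δ * (c + 1) ^ d, fun k => ?_⟩, fun k => by simpa using lo 1 h1 k, fun 𝔭 hp hm => ?_⟩
  · calc finrank ℂ ↥(V ^ k) ≤ d.factorial * finrank ℂ ↥(V ^ k) :=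
          Nat.le_mul_of_pos_left _ d.factorial_pos
      _ ≤ δ * (k + c) ^ d := up k
      _ ≤ δ * ((c + 1) * (k + 1)) ^ d := by
          gcongr
          nlinarith [Nat.zero_le (c * k)]
      _ = _ := by rw [mul_pow, mul_assoc]
  · obtain ⟨e, v, δ', hv, hb', -, ha, lo', -⟩ :=
      F_quot (Ideal.Quotient.mkₐ ℂ 𝔭) (Ideal.Quotient.mkₐ_surjective ℂ 𝔭) h
    refine ⟨e, v, Nat.one_le_iff_ne_zero.2 ?_, ?_, hv, hb', fun k => le_trans ?_ (lo' _ ha k)⟩
    · rintro rfl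
      have := hb'.isEmpty_iff_isAlgebraic.1 inferInstance
      exact hm (Ideal.Quotient.maximal_of_isField 𝔭
        (isField_of_isIntegral_of_isField' (Field.toIsField ℂ)))
    · have h2 := (AlgebraicIndependent.of_comp (Ideal.Quotient.mkₐ ℂ 𝔭) hb'.1).cardinalMk_le_trdeg
      rw [← ht.cardinalMk_eq_trdeg] at h2
      simpa using h2
    · gcongr
      exact Nat.le_succ k

end Crest.Agent.R271
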