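import Crest.Agent.R271.DF2
import Crest.Agent.R271.DI
import Crest.Agent.R271.DD
import Crest.Agent.R271.Core
import Crest.Agent.R271.HF

/-! Row 271, part D: the square integrable section. -/

set_option autoImplicit false

namespace Crest.Agent.R271

open MeasureTheory Filter Topology
open scoped ENNReal NNReal

variable {n : ℕ} {S : Type} [CommRing S] [IsDomain S] [Algebra ℂ S] {t : Fin n → S} {Y : Type}
  [TopologicalSpace Y] [T2Space Y] [SecondCountableTopology Y] [MeasurableSpace Y] [BorelSpace Y]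
  {X : RD (Fin n → ℂ) Y volume} {ev : Y → (S →ₐ[ℂ] ℂ)}

theorem PtD.coreData (h : PtD t X ev) (het : SE t) (hn : 1 ≤ n) {V : Submodule ℂ S} {a : ℕ}
    (hV : ProjData S V a) (x : Y) :
    CoreData volume S (AlgHom.pi fun w => ev ((X.ch x).symm w)) (X.ch x).target
      (X.π x) V a n := by
  have := het.ft
  have hx := X.mem x
  refine ⟨het.ft, (X.ch x).open_target, X.π_mem hx, fun f z hz => ?_, hV.fg, hV.one, hV.a_pos,
    hfData_of hV het.tb, fun f hf => ?_, ?_, ?_, ?_⟩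
  · have := RD.Hol.differentiableAt X (h.hol f) ((X.ch x).map_target hz) (Set.mem_univ _)
    rw [X.π_symm hz] at this
    exact this.differentiableWithinAt
  · obtain ⟨C₀, h0, hC⟩ := h.izumi het (V := Submodule.span ℂ {f}) (Submodule.fg_span_singleton f)
    refine ⟨1 / (C₀ + 1), by positivity, (X.intNear_iff hx _).1
      (hC 1 f (by simpa using Submodule.mem_span_singleton_self f) hf _ (by positivity) ?_ x)⟩
    rw [Nat.cast_one, mul_one, one_div, inv_mul_lt_one₀ (by positivity)]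
    exact lt_add_one _
  · obtain ⟨C₀, h0, hC⟩ := h.izumi het hV.fg
    exact ⟨C₀, h0, fun k s hs hs0 c hc hc' => (X.intNear_iff hx _).1 (hC k s hs hs0 c hc hc' x)⟩
  · intro z hz hne ι _ g lam c hc hi
    have hy := (X.ch x).map_target hz
    obtain ⟨f, h1, h2⟩ := h.bsp het hn (x := x) (y := (X.ch x).symm z)
      (fun e => hne ((X.π_symm hz).symm.trans (congrArg X.π e))) g lam hc
      ((X.intNear_iff hy _).2 (by rw [X.π_symm hz]; exact hi))
    exact ⟨f, h1, (X.intNear_iff hx _).1 h2⟩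
  · intro 𝔭 hp h0 Δ hΔ
    have := h.den hp (y₀ := x) (fun f hf => by simpa [X.symm_π hx] using h0 f hf) hΔ
    rw [← X.map_nhds, frequently_map]
    refine (this.and_eventually ((X.ch x).open_source.mem_nhds hx)).mono fun y hy => ?_
    simpa [X.symm_π hy.2] using hy.1

theorem PtD.final (h : PtD t X ev) (het : SE t) (hn : 1 ≤ n) (x : Y) {V : Submodule ℂ S} {a : ℕ}
    (hV : ProjData S V a) {κ : Type} [Fintype κ] {v : κ → S}
    (hv : Submodule.span ℂ (Set.range v) = V) (σ : Sˣ) {m : ℕ} (hm : n + 1 ≤ m) :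
    ∃ f : S, ev x f = 1 ∧ ∫⁻ y, ‖ev y f‖ₑ ^ 2 /
      ENNReal.ofReal ((∑ k, ‖ev y ((σ : S) * v k)‖ ^ 2) ^ ((m : ℝ) / a)) ∂X.ν < ∞ := by
  have := het.ft
  have hx := X.mem x
  have ha : (0 : ℝ) < a := by exact_mod_cast hV.a_pos
  have : Nonempty κ := by
    by_contra hne
    rw [not_nonempty_iff] at hne
    have := hV.one
    rw [← hv, Set.range_eq_empty, Submodule.span_empty] at this
    exact one_ne_zero ((Submodule.mem_bot ℂ).1 this)
  have h1 : (1 : S) ∈ Submodule.span ℂ (Set.range v) := hv ▸ hV.one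
  let q : κ → S := fun j => v j - algebraMap ℂ S (ev x (v j))
  have h0 : ∀ j, ev x (q j) = 0 := fun j => by simp [q]
  have hq : ∀ j, q j ∈ Submodule.span ℂ (Set.range v) := fun j => sub_mem
    (Submodule.subset_span ⟨j, rfl⟩)
    (by rw [Algebra.algebraMap_eq_smul_one]; exact Submodule.smul_mem _ _ h1)
  obtain ⟨ι, _, s, k, p, η, hη, hs, hp, hdeg, hi, hni⟩ := core (h.coreData het hn hV x) hn q
    (fun j => by simpa [X.symm_π hx] using h0 j) (ε := 1 / 2) (by norm_num)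
  replace hi : IntNear X.ν (fun w => (ENNReal.ofReal (∏ i, ‖ev w (s i)‖ ^ (2 * p i)))⁻¹) x :=
    (X.intNear_iff hx _).2 hi
  replace hni : ¬ IntNear X.ν (fun w => (ENNReal.ofReal
      ((∏ i, ‖ev w (s i)‖ ^ (2 * p i)) * (∑ j, ‖ev w (q j)‖ ^ 2) ^ η))⁻¹) x :=
    fun hh => hni ((X.intNear_iff hx _).1 hh)
  set e : ℝ := (m : ℝ) / a with he
  have he0 : 0 ≤ e := by positivity
  have hVq : Algebra.adjoin ℂ (V : Set S) ≤ Algebra.adjoin ℂ (Set.range q) := by
    rw [← hv, Algebra.adjoin_span, Algebra.adjoin_le_iff]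
    rintro _ ⟨j, rfl⟩
    have : v j = q j + algebraMap ℂ S (ev x (v j)) := by simp [q]
    rw [this]
    exact add_mem (Algebra.subset_adjoin ⟨_, rfl⟩) (Subalgebra.algebraMap_mem _ _)
  obtain ⟨j, hj, hju, hloc⟩ := hV.loc
  have hb := h.basis' (hVq hj) hju (fun f => (hloc f).imp fun _ hf => hVq hf) h0
  have hσ : ∀ w, ev w (σ : S) * ev w ((σ⁻¹ : Sˣ) : S) = 1 := fun w => by
    rw [← map_mul, σ.mul_inv, map_one]
  have hσ0 : ∀ w, ev w (σ : S) ≠ 0 := fun w => left_ne_zero_of_mul_eq_one (hσ w)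
  have n1 : ∀ w, 0 ≤ ∏ i, ‖ev w (s i)‖ ^ (2 * p i) := fun w =>
    Finset.prod_nonneg fun i _ => by positivity
  obtain ⟨B₁, hB₁, b1⟩ := h.bdd ((PG.norm ((σ⁻¹ : Sˣ) : S)).rpow (c := 2 * e) (by positivity)) x
  obtain ⟨B₂, hB₂, b2⟩ := h.bdd ((PG.norm (σ : S)).rpow (c := 2 * e) (by positivity)) x
  have : LocallyCompactSpace Y := by
    refine ⟨fun y U hU => ?_⟩
    obtain ⟨K, hK, hKU, hKc⟩ := local_compact_nhds (x := X.π y)
      (inter_mem ((X.ch y).open_target.mem_nhds (X.π_mem (X.mem y)))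
        (show (X.ch y).symm ⁻¹' U ∈ 𝓝 (X.π y) from
          ((X.ch y).continuousAt_symm (X.π_mem (X.mem y))).preimage_mem_nhds
            (by rwa [X.symm_π (X.mem y)])))
    refine ⟨(X.ch y).symm '' K, ?_, ?_, hKc.image_of_continuousOn
      ((X.ch y).continuousOn_symm.mono fun w hw => (hKU hw).1)⟩
    · have := (X.ch y).symm.image_mem_nhds (X.π_mem (X.mem y)) hK
      rwa [X.symm_π (X.mem y)] at this
    · rintro _ ⟨w, hw, rfl⟩
      exact (hKU hw).2
  obtain ⟨K, hK, hKx⟩ := exists_compact_mem_nhds x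
  obtain ⟨A, F, hA, hF, hFx, hfin⟩ := X.ext h.stein
    (N' := fun w => (∏ i, ‖ev w (s i)‖ ^ (2 * p i)) * ‖ev w (σ : S)‖ ^ (2 * e))
    ((RD.Adm.prod _ fun i _ => RD.Adm.norm_rpow isOpen_univ (h.hol _)
      (mul_nonneg zero_le_two (hp i))).mul (RD.Adm.norm_rpow isOpen_univ (h.hol _) (by positivity)))
    (h.lp q) (by simp [h0]) hb hη.le (δ := 1 / (2 * a)) (by positivity)
    (hi.mono' ENNReal.ofReal_ne_top (b1.mono fun w hw => inv_le_of_le_mul hB₁ (by
      have e1 : ‖ev w ((σ⁻¹ : Sˣ) : S)‖ ^ (2 * e) * ‖ev w (σ : S)‖ ^ (2 * e) = 1 := by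
        rw [← Real.mul_rpow (norm_nonneg _) (norm_nonneg _), ← norm_mul, mul_comm, hσ, norm_one,
          Real.one_rpow]
      calc _ = ‖ev w ((σ⁻¹ : Sˣ) : S)‖ ^ (2 * e) *
            ((∏ i, ‖ev w (s i)‖ ^ (2 * p i)) * ‖ev w (σ : S)‖ ^ (2 * e)) := by
            rw [mul_left_comm, e1, mul_one]
        _ ≤ _ := mul_le_mul_of_nonneg_right hw (mul_nonneg (n1 w) (by positivity)))))
    (fun hh => hni (hh.mono' ENNReal.ofReal_ne_top (b2.mono fun w hw => inv_le_of_le_mul hB₂ (by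
      rw [mul_right_comm, mul_comm B₂]
      exact mul_le_mul_of_nonneg_left hw (mul_nonneg (n1 w) (by positivity)))))) hKx
  obtain ⟨C, hC⟩ := growth_le (ev := ev) h1 (s := s) (k := k) (hv ▸ hs) hp hq (σ : S) hη.le
    (δ := 1 / (2 * a)) (e := e) (by positivity) hA.le (by
      have hm' : (n : ℝ) + 1 ≤ m := by exact_mod_cast hm
      rw [he, le_div_iff₀ ha, add_mul, mul_comm]
      have : 1 / (2 * (a : ℝ)) * a = 1 / 2 := by field_simp
      linarith)
  have hpos : ∀ w, 0 < ∑ k, ‖ev w ((σ : S) * v k)‖ ^ 2 := fun w => by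
    refine lt_of_le_of_ne (by positivity) fun h0 => ?_
    have h2 := (Finset.sum_eq_zero_iff_of_nonneg fun _ _ => sq_nonneg _).1 h0.symm
    have h3 : Submodule.span ℂ (Set.range v) ≤ LinearMap.ker (ev w).toLinearMap := by
      rw [Submodule.span_le]
      rintro _ ⟨j, rfl⟩
      simpa [hσ0 w] using h2 j (Finset.mem_univ _)
    simpa using h3 h1
  have hint := X.lint_lt_top
    (continuousOn_univ.1 (RD.C2.continuousOn X (RD.Hol.c2 X isOpen_univ hF)))
    ((continuous_finset_sum _ fun j _ => (h.cont ((σ : S) * v j)).norm.pow 2).rpow_const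
      fun _ => Or.inr he0) (fun w => Real.rpow_pos_of_pos (hpos w) e) hC hK hfin
  obtain ⟨f, hf⟩ := h.alg2 het hF
    ((PG.sum _ fun j _ => (PG.norm ((σ : S) * v j)).pow 2).rpow he0) isCompact_empty
    (by rwa [Set.compl_empty, Measure.restrict_univ])
  exact ⟨f, by rw [← hf, hFx], by simpa only [hf, Pi.pow_apply] using hint⟩

end Crest.Agent.R271
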