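import Crest.Agent.R271.HC

/-! Row 271, part D: holomorphic functions with prescribed value at a singular point of a weight. -/

set_option autoImplicit false

namespace Crest.Agent.R271

open MeasureTheory Filter Topology
open scoped ENNReal NNReal

variable {E Y : Type} [NormedAddCommGroup E] [NormedSpace ℂ E] [FiniteDimensional ℂ E]
  [MeasurableSpace E] [BorelSpace E] {μ : Measure E} [μ.IsAddHaarMeasure]
  [TopologicalSpace Y] [T2Space Y] [SecondCountableTopology Y] [MeasurableSpace Y] [BorelSpace Y]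

theorem DF0_inv {a b D : ℝ} {K : ℝ≥0∞} (hD : 0 < D) (hK : ENNReal.ofReal D ≤ K)
    (h : b ≤ D * a) : (ENNReal.ofReal a)⁻¹ ≤ K * (ENNReal.ofReal b)⁻¹ := by
  have h0 : ENNReal.ofReal D ≠ 0 := (ENNReal.ofReal_pos.2 hD).ne'
  calc (ENNReal.ofReal a)⁻¹ = ENNReal.ofReal D * (ENNReal.ofReal (D * a))⁻¹ := by
        rw [ENNReal.ofReal_mul hD.le, ENNReal.mul_inv (Or.inl h0) (Or.inl ENNReal.ofReal_ne_top),
          ← mul_assoc, ENNReal.mul_inv_cancel h0 ENNReal.ofReal_ne_top, one_mul]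
    _ ≤ _ := mul_le_mul' hK (ENNReal.inv_le_inv.2 (ENNReal.ofReal_le_ofReal h))

/-- `RD.hc` with `F = 1`, `N = N' N₁ ^ η`, `N₀ = A N₁`, `A = 1 / r` where `{N₁ ≤ r}` lies in `U` and in
a neighbourhood where `1 / N'` is integrable.  If `h y ≠ 1` then `1 / N` is integrable near `y`.
`cut = 0` on `[1, ∞)`. -/
theorem RD.ext (X : RD E Y μ) (hS : X.Stein Set.univ) {N' N₁ : Y → ℝ} (hN' : X.Adm Set.univ N')
    (hN₁ : X.LP Set.univ N₁) {y : Y} (h0 : N₁ y = 0)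
    (hb : ∀ U ∈ 𝓝 y, ∃ r : ℝ, 0 < r ∧ {w | N₁ w ≤ r} ⊆ U) {η δ : ℝ} (hη : 0 ≤ η) (hδ : 0 < δ)
    (hi : IntNear X.ν (fun w => (ENNReal.ofReal (N' w))⁻¹) y)
    (hni : ¬ IntNear X.ν (fun w => (ENNReal.ofReal (N' w * N₁ w ^ η))⁻¹) y) {U : Set Y}
    (hU : U ∈ 𝓝 y) : ∃ (A : ℝ) (h : Y → ℂ), 0 < A ∧ X.Hol Set.univ h ∧ h y = 1 ∧
      ∫⁻ w in Uᶜ, ‖h w‖ₑ ^ 2 / ENNReal.ofReal (N' w * N₁ w ^ η * (1 + A * N₁ w) ^ δ) ∂X.ν < ∞ := by
  obtain ⟨V, hV, hVi⟩ := hi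
  obtain ⟨r, hr, hsub⟩ := hb (U ∩ V) (inter_mem hU hV)
  obtain ⟨C, hC⟩ := X.hc
  have hA : 0 < r⁻¹ := inv_pos.2 hr
  have hc1 : Continuous N₁ := continuousOn_univ.1 (RD.C2.continuousOn X hN₁.psh.1)
  have hn1 : ∀ w, 0 ≤ N₁ w := fun w => hN₁.adm.nonneg (Set.mem_univ w)
  have hn' : ∀ w, 0 ≤ N' w := fun w => hN'.nonneg (Set.mem_univ w)
  obtain ⟨h, hh, hI⟩ := hC hS (hN'.mul (hN₁.adm.rpow hη)) ((RD.LP.const hA.le).mul hN₁)
    (F := fun _ => 1) (fun _ _ => differentiableAt_const _) hδ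
  have hch : Continuous h := continuousOn_univ.1 (RD.C2.continuousOn X (RD.Hol.c2 X isOpen_univ hh))
  have hfin : ∫⁻ w, ‖(cut (r⁻¹ * N₁ w) : ℂ) * 1 - h w‖ₑ ^ 2 /
      ENNReal.ofReal (N' w * N₁ w ^ η * (1 + r⁻¹ * N₁ w) ^ δ) ∂X.ν < ∞ := by
    rw [Measure.restrict_univ] at hI
    refine hI.trans_lt (ENNReal.mul_lt_top (ENNReal.div_lt_top ENNReal.coe_ne_top
      (ENNReal.ofReal_pos.2 hδ).ne') ?_)
    have hm : MeasurableSet {w ∈ (Set.univ : Set Y) | 1 / 2 ≤ r⁻¹ * N₁ w ∧ r⁻¹ * N₁ w ≤ 1} :=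
      MeasurableSet.univ.inter
        ((isClosed_Icc.preimage (continuous_const.mul hc1)).measurableSet)
    refine lt_of_le_of_lt (setLIntegral_mono' (g := fun w => ENNReal.ofReal (((r / 2) ^ η)⁻¹) *
      (ENNReal.ofReal (N' w))⁻¹) hm fun w hw => ?_) ?_
    · have h1 : r / 2 ≤ N₁ w := by
        have := hw.2.1
        rw [le_inv_mul_iff₀ hr] at this
        linarith
      have h2 : (r / 2) ^ η ≤ N₁ w ^ η := Real.rpow_le_rpow (by positivity) h1 hη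
      have h3 : 0 < (r / 2) ^ η := by positivity
      rw [enorm_one, one_pow, one_div]
      refine DF0_inv (inv_pos.2 h3) le_rfl ?_
      rw [le_inv_mul_iff₀ h3, mul_comm]
      exact mul_le_mul_of_nonneg_left h2 (hn' w)
    · rw [lintegral_const_mul' _ _ ENNReal.ofReal_ne_top]
      refine ENNReal.mul_lt_top ENNReal.ofReal_lt_top
        ((lintegral_mono_set fun w hw => (hsub ?_).2).trans_lt hVi)
      have := hw.2.2
      rwa [inv_mul_le_iff₀ hr, mul_one] at this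
  refine ⟨r⁻¹, h, hA, hh, by_contra fun hne => hni ?_, ?_⟩
  · have hu : Continuous fun w => (cut (r⁻¹ * N₁ w) : ℂ) * 1 - h w :=
      ((Complex.continuous_ofReal.comp (h16_cut_contDiff.continuous.comp
        (continuous_const.mul hc1))).mul continuous_const).sub hch
    have hD : Continuous fun w => (1 + r⁻¹ * N₁ w) ^ δ :=
      (continuous_const.add (continuous_const.mul hc1)).rpow_const fun _ => Or.inr hδ.le
    have hu0 : 0 < ‖(cut (r⁻¹ * N₁ y) : ℂ) * 1 - h y‖ ^ 2 := by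
      have : cut 0 = 1 := Real.smoothTransition.one_of_one_le (by norm_num)
      rw [h0, mul_zero, this, Complex.ofReal_one, mul_one]
      exact pow_pos (norm_pos_iff.2 (sub_ne_zero.2 (Ne.symm hne))) 2
    obtain ⟨K, hK0, hK⟩ : ∃ K : ℝ, 0 ≤ K ∧
        (1 + r⁻¹ * N₁ y) ^ δ < K * ‖(cut (r⁻¹ * N₁ y) : ℂ) * 1 - h y‖ ^ 2 := by
      have := hn1 y
      refine ⟨((1 + r⁻¹ * N₁ y) ^ δ + 1) / ‖(cut (r⁻¹ * N₁ y) : ℂ) * 1 - h y‖ ^ 2,
        by positivity, ?_⟩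
      rw [div_mul_cancel₀ _ hu0.ne']
      exact lt_add_one _
    have ho : IsOpen {w | (1 + r⁻¹ * N₁ w) ^ δ < K * ‖(cut (r⁻¹ * N₁ w) : ℂ) * 1 - h w‖ ^ 2} :=
      isOpen_lt hD (continuous_const.mul (hu.norm.pow 2))
    refine ⟨_, ho.mem_nhds hK, lt_of_le_of_lt (setLIntegral_mono' (g := fun w => ENNReal.ofReal K *
      (‖(cut (r⁻¹ * N₁ w) : ℂ) * 1 - h w‖ₑ ^ 2 /
        ENNReal.ofReal (N' w * N₁ w ^ η * (1 + r⁻¹ * N₁ w) ^ δ))) ho.measurableSet
      fun w hw => ?_) ?_⟩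
    · have := hn1 w
      rw [div_eq_mul_inv, ← mul_assoc]
      refine DF0_inv (D := (1 + r⁻¹ * N₁ w) ^ δ) (by positivity) ?_ (mul_comm _ _).le
      rw [← ofReal_norm, ← ENNReal.ofReal_pow (norm_nonneg _), ← ENNReal.ofReal_mul hK0]
      exact ENNReal.ofReal_le_ofReal (le_of_lt hw)
    · rw [lintegral_const_mul' _ _ ENNReal.ofReal_ne_top]
      exact ENNReal.mul_lt_top ENNReal.ofReal_lt_top
        ((setLIntegral_le_lintegral _ _).trans_lt hfin)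
  · have ho : IsOpen {w | r < N₁ w} := isOpen_lt continuous_const hc1
    have hs : Uᶜ ⊆ {w | r < N₁ w} := fun w hw => not_le.1 fun h1 : N₁ w ≤ r => hw (hsub h1).1
    refine lt_of_le_of_lt ((lintegral_mono_set hs).trans ((setLIntegral_mono' ho.measurableSet
        fun w hw => le_of_eq ?_).trans (setLIntegral_le_lintegral _ _))) hfin
    have h1 : 1 ≤ r⁻¹ * N₁ w := by
      rw [le_inv_mul_iff₀ hr, mul_one]
      exact le_of_lt hw
    have h2 : cut (r⁻¹ * N₁ w) = 0 := Real.smoothTransition.zero_of_nonpos (by linarith)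
    rw [h2, Complex.ofReal_zero, zero_mul, zero_sub, enorm_neg]

/-- split the integral along the compact set `K`. -/
theorem RD.lint_lt_top (X : RD E Y μ) {h : Y → ℂ} (hh : Continuous h) {P ω : Y → ℝ}
    (hP : Continuous P) (hP0 : ∀ w, 0 < P w) {C : ℝ} (hω : ∀ w, ω w ≤ C * P w) {K : Set Y}
    (hK : IsCompact K) (hf : ∫⁻ w in Kᶜ, ‖h w‖ₑ ^ 2 / ENNReal.ofReal (ω w) ∂X.ν < ∞) :
    ∫⁻ w, ‖h w‖ₑ ^ 2 / ENNReal.ofReal (P w) ∂X.ν < ∞ := by
  have := FiniteDimensional.proper ℂ E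
  have := X.locFin
  rw [← lintegral_add_compl _ hK.measurableSet]
  refine ENNReal.add_lt_top.2 ⟨?_, ?_⟩
  · have hc : Continuous fun w => ‖h w‖ ^ 2 / P w := (hh.norm.pow 2).div hP fun w => (hP0 w).ne'
    obtain ⟨B, hB⟩ := hK.bddAbove_image hc.continuousOn
    refine lt_of_le_of_lt (setLIntegral_mono' (g := fun _ => ENNReal.ofReal B) hK.measurableSet
      fun w hw => ?_) ?_
    · rw [← ofReal_norm, ← ENNReal.ofReal_pow (norm_nonneg _),
        ← ENNReal.ofReal_div_of_pos (hP0 w)]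
      exact ENNReal.ofReal_le_ofReal (hB ⟨w, hw, rfl⟩)
    · rw [setLIntegral_const]
      exact ENNReal.mul_lt_top ENNReal.ofReal_lt_top hK.measure_lt_top
  · refine lt_of_le_of_lt (lintegral_mono (g := fun w => ENNReal.ofReal (max C 1) *
      (‖h w‖ₑ ^ 2 / ENNReal.ofReal (ω w))) fun w => ?_) ?_
    · simp only [div_eq_mul_inv]
      rw [mul_left_comm]
      exact mul_le_mul_right (DF0_inv (one_pos.trans_le (le_max_right C 1)) le_rfl
        ((hω w).trans (mul_le_mul_of_nonneg_right (le_max_left C 1) (hP0 w).le))) _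
    · rw [lintegral_const_mul' _ _ ENNReal.ofReal_ne_top]
      exact ENNReal.mul_lt_top ENNReal.ofReal_lt_top hf

end Crest.Agent.R271
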