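import Crest.Agent.R271.Defs

/-! Row 271, part D: growth estimates. -/

set_option autoImplicit false

namespace Crest.Agent.R271

open MeasureTheory Filter Topology
open scoped ENNReal NNReal

variable {S Y : Type} [CommRing S] [Algebra ℂ S] (ev : Y → (S →ₐ[ℂ] ℂ))

/-- polynomial growth. -/
def PG (P : Y → ℝ) : Prop :=
  (∀ y, 0 ≤ P y) ∧ ∃ (T : Finset S) (M : ℕ) (C : ℝ), ∀ y, P y ≤ C * (1 + ∑ s ∈ T, ‖ev y s‖ ^ 2) ^ M

variable {ev}

theorem DF1_one_le (T : Finset S) (y : Y) : 1 ≤ 1 + ∑ s ∈ T, ‖ev y s‖ ^ 2 :=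
  le_add_of_nonneg_right (Finset.sum_nonneg fun _ _ => sq_nonneg _)

theorem DF1_two {P Q : Y → ℝ} (hP : PG ev P) (hQ : PG ev Q) : ∃ (T : Finset S) (M : ℕ) (C : ℝ),
    ∀ y, P y ≤ C * (1 + ∑ s ∈ T, ‖ev y s‖ ^ 2) ^ M ∧ Q y ≤ C * (1 + ∑ s ∈ T, ‖ev y s‖ ^ 2) ^ M := by
  classical
  obtain ⟨-, T, M, C, h⟩ := hP
  obtain ⟨-, T', M', C', h'⟩ := hQ
  have key : ∀ (y : Y) (T₁ T₂ : Finset S) (M₁ M₂ : ℕ) (C₁ C₂ : ℝ), T₁ ⊆ T₂ → M₁ ≤ M₂ → |C₁| ≤ C₂ →
      C₁ * (1 + ∑ s ∈ T₁, ‖ev y s‖ ^ 2) ^ M₁ ≤ C₂ * (1 + ∑ s ∈ T₂, ‖ev y s‖ ^ 2) ^ M₂ :=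
    fun y T₁ T₂ M₁ M₂ C₁ C₂ hT hM hC => mul_le_mul ((le_abs_self _).trans hC)
      ((pow_le_pow_right₀ (DF1_one_le T₁ y) hM).trans (by gcongr)) (by positivity)
      ((abs_nonneg _).trans hC)
  exact ⟨T ∪ T', M + M', |C| + |C'|, fun y => ⟨(h y).trans (key y _ _ _ _ _ _
    Finset.subset_union_left (by omega) (le_add_of_nonneg_right (abs_nonneg _))), (h' y).trans
    (key y _ _ _ _ _ _ Finset.subset_union_right (by omega)
      (le_add_of_nonneg_left (abs_nonneg _)))⟩⟩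

theorem PG.const {c : ℝ} (hc : 0 ≤ c) : PG ev fun _ => c :=
  ⟨fun _ => hc, ∅, 0, c, fun _ => by simp⟩

theorem PG.norm (s : S) : PG ev fun y => ‖ev y s‖ :=
  ⟨fun _ => norm_nonneg _, {s}, 1, 1, fun y => by
    rw [Finset.sum_singleton]; nlinarith [sq_nonneg (‖ev y s‖ - 1)]⟩

theorem PG.add {P Q : Y → ℝ} (hP : PG ev P) (hQ : PG ev Q) : PG ev fun y => P y + Q y := by
  obtain ⟨T, M, C, h⟩ := DF1_two hP hQ
  exact ⟨fun y => add_nonneg (hP.1 y) (hQ.1 y), T, M, 2 * C, fun y => by linarith [(h y).1, (h y).2]⟩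

theorem PG.mul {P Q : Y → ℝ} (hP : PG ev P) (hQ : PG ev Q) : PG ev fun y => P y * Q y := by
  obtain ⟨T, M, C, h⟩ := DF1_two hP hQ
  exact ⟨fun y => mul_nonneg (hP.1 y) (hQ.1 y), T, M + M, C * C, fun y =>
    (mul_le_mul (h y).1 (h y).2 (hQ.1 y) ((hP.1 y).trans (h y).1)).trans_eq (by ring)⟩

theorem PG.pow {P : Y → ℝ} (hP : PG ev P) (k : ℕ) : PG ev fun y => P y ^ k := by
  induction k with
  | zero => simpa only [pow_zero] using PG.const zero_le_one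
  | succ k ih => simpa only [pow_succ] using ih.mul hP

theorem PG.rpow {P : Y → ℝ} (hP : PG ev P) {c : ℝ} (hc : 0 ≤ c) : PG ev fun y => P y ^ c := by
  obtain ⟨-, T, M, C, h⟩ := ((PG.const zero_le_one).add hP).pow ⌈c⌉₊
  refine ⟨fun y => Real.rpow_nonneg (hP.1 y) c, T, M, C, fun y => le_trans ?_ (h y)⟩
  simp only [← Real.rpow_natCast]
  exact (Real.rpow_le_rpow (hP.1 y) (le_add_of_nonneg_left zero_le_one) hc).trans
    (Real.rpow_le_rpow_of_exponent_le (le_add_of_nonneg_right (hP.1 y)) (Nat.le_ceil c))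

theorem PG.sum {ι : Type} (T : Finset ι) {P : ι → Y → ℝ} (hP : ∀ i ∈ T, PG ev (P i)) :
    PG ev fun y => ∑ i ∈ T, P i y := by
  classical
  induction T using Finset.induction_on with
  | empty => simpa only [Finset.sum_empty] using PG.const le_rfl
  | insert a T ha ih =>
    simpa only [Finset.sum_insert ha] using (hP a (Finset.mem_insert_self _ _)).add
      (ih fun i hi => hP i (Finset.mem_insert_of_mem hi))

theorem PG.nw {ι : Type} [Fintype ι] (g : ι → S) (lam : ι → ℝ) :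
    PG ev (nw (fun i y => ev y (g i)) lam) :=
  PG.sum _ fun i hi => (PG.norm (g i)).rpow (div_pos two_pos (Finset.mem_filter.1 hi).2).le

/-- `0 ≤ f ≤ C N ^ a` -/
def DF1_B (N : Y → ℝ) (a : ℝ) (f : Y → ℝ) : Prop :=
  (∀ y, 0 ≤ f y) ∧ ∃ C, 0 ≤ C ∧ ∀ y, f y ≤ C * N y ^ a

section
variable {N f g : Y → ℝ} {a b : ℝ}

theorem DF1_B.const (N : Y → ℝ) {c : ℝ} (hc : 0 ≤ c) : DF1_B N 0 fun _ => c :=
  ⟨fun _ => hc, c, hc, fun _ => by simp⟩

theorem DF1_B.mono (h : DF1_B N a f) (h0 : ∀ y, 0 ≤ g y) (hg : ∀ y, g y ≤ f y) : DF1_B N a g :=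
  ⟨h0, h.2.imp fun _ hC => ⟨hC.1, fun y => (hg y).trans (hC.2 y)⟩⟩

theorem DF1_B.add (h : DF1_B N a f) (h' : DF1_B N a g) : DF1_B N a fun y => f y + g y := by
  obtain ⟨h0, C, hC, h⟩ := h
  obtain ⟨h0', C', hC', h'⟩ := h'
  exact ⟨fun y => add_nonneg (h0 y) (h0' y), C + C', add_nonneg hC hC', fun y => by
    linarith [h y, h' y]⟩

theorem DF1_B.mul (hN : ∀ y, 0 < N y) (h : DF1_B N a f) (h' : DF1_B N b g) :
    DF1_B N (a + b) fun y => f y * g y := by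
  obtain ⟨h0, C, hC, h⟩ := h
  obtain ⟨h0', C', hC', h'⟩ := h'
  exact ⟨fun y => mul_nonneg (h0 y) (h0' y), C * C', mul_nonneg hC hC', fun y =>
    (mul_le_mul (h y) (h' y) (h0' y) ((h0 y).trans (h y))).trans_eq
      (by rw [Real.rpow_add (hN y)]; ring)⟩

theorem DF1_B.rpow (hN : ∀ y, 0 ≤ N y) (h : DF1_B N a f) (hb : 0 ≤ b) :
    DF1_B N (a * b) fun y => f y ^ b := by
  obtain ⟨h0, C, hC, h⟩ := h
  exact ⟨fun y => Real.rpow_nonneg (h0 y) b, C ^ b, Real.rpow_nonneg hC b, fun y =>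
    (Real.rpow_le_rpow (h0 y) (h y) hb).trans_eq
      (by rw [Real.mul_rpow hC (Real.rpow_nonneg (hN y) a), Real.rpow_mul (hN y)])⟩

theorem DF1_B.up (hN : ∀ y, 0 < N y) {c : ℝ} (hc0 : 0 ≤ c) (hc : ∀ y, 1 ≤ c * N y)
    (h : DF1_B N a f) (hab : a ≤ b) : DF1_B N b f := by
  have h1 : DF1_B N (b - a) fun _ => 1 := ⟨fun _ => zero_le_one, c ^ (b - a),
    Real.rpow_nonneg hc0 _, fun y => (Real.one_le_rpow (hc y) (sub_nonneg.2 hab)).trans_eq
      (Real.mul_rpow hc0 (hN y).le)⟩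
  simpa only [one_mul, sub_add_cancel] using h1.mul hN h

theorem DF1_B.sum {ι : Type} (T : Finset ι) {F : ι → Y → ℝ} (h : ∀ i ∈ T, DF1_B N a (F i)) :
    DF1_B N a fun y => ∑ i ∈ T, F i y := by
  classical
  induction T using Finset.induction_on with
  | empty => exact ⟨fun _ => le_rfl, 0, le_rfl, fun _ => by simp⟩
  | insert i T hi ih =>
    simpa only [Finset.sum_insert hi] using (h i (Finset.mem_insert_self _ _)).add
      (ih fun i hi => h i (Finset.mem_insert_of_mem hi))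

theorem DF1_B.prod (hN : ∀ y, 0 < N y) {ι : Type} (T : Finset ι) {F : ι → Y → ℝ} {a : ι → ℝ}
    (h : ∀ i ∈ T, DF1_B N (a i) (F i)) : DF1_B N (∑ i ∈ T, a i) fun y => ∏ i ∈ T, F i y := by
  classical
  induction T using Finset.induction_on with
  | empty => simpa only [Finset.sum_empty, Finset.prod_empty] using DF1_B.const N zero_le_one
  | insert i T hi ih =>
    simpa only [Finset.sum_insert hi, Finset.prod_insert hi] using
      (h i (Finset.mem_insert_self _ _)).mul hN (ih fun i hi => h i (Finset.mem_insert_of_mem hi))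

end

/-- With `Q = ∑ ‖v j‖ ^ 2`: `Q ≥ c > 0` since `1 ∈ V`, `‖s‖ ^ 2 ≤ C Q ^ k` for `s ∈ V ^ k`. -/
theorem growth_le {κ ι : Type} [Fintype κ] [Fintype ι] {v : κ → S}
    (h1 : (1 : S) ∈ Submodule.span ℂ (Set.range v)) {s : ι → S} {k : ι → ℕ}
    (hs : ∀ i, s i ∈ Submodule.span ℂ (Set.range v) ^ k i) {p : ι → ℝ} (hp : ∀ i, 0 ≤ p i)
    {q : κ → S} (hq : ∀ j, q j ∈ Submodule.span ℂ (Set.range v)) (σ : S) {η δ A e : ℝ} (hη : 0 ≤ η)
    (hδ : 0 ≤ δ) (hA : 0 ≤ A) (he : ∑ i, p i * k i + η + δ ≤ e) : ∃ C : ℝ, ∀ y,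
      (∏ i, ‖ev y (s i)‖ ^ (2 * p i)) * ‖ev y σ‖ ^ (2 * e) * (∑ j, ‖ev y (q j)‖ ^ 2) ^ η *
        (1 + A * ∑ j, ‖ev y (q j)‖ ^ 2) ^ δ ≤ C * (∑ j, ‖ev y (σ * v j)‖ ^ 2) ^ e := by
  obtain ⟨N, hN⟩ : ∃ N : Y → ℝ, N = fun y => √(∑ j, ‖ev y (v j)‖ ^ 2) := ⟨_, rfl⟩
  have hN0 : ∀ y, 0 ≤ N y := fun y => hN ▸ Real.sqrt_nonneg _
  have b1 : ∀ f ∈ Submodule.span ℂ (Set.range v), DF1_B N 1 fun y => ‖ev y f‖ := fun f hf => by
    refine ⟨fun _ => norm_nonneg _, ?_⟩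
    obtain ⟨c, rfl⟩ := (Submodule.mem_span_range_iff_exists_fun ℂ).1 hf
    refine ⟨∑ j, ‖c j‖, by positivity, fun y => ?_⟩
    simp only [map_sum, Finset.sum_mul, Real.rpow_one, hN]
    refine norm_sum_le_of_le _ fun j _ => ?_
    rw [map_smul, norm_smul]
    exact mul_le_mul_of_nonneg_left (Real.le_sqrt_of_sq_le (Finset.single_le_sum
      (f := fun j => ‖ev y (v j)‖ ^ 2) (fun _ _ => sq_nonneg _) (Finset.mem_univ j))) (norm_nonneg _)
  obtain ⟨-, c, hc0, hc⟩ := b1 1 h1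
  simp only [map_one, norm_one, Real.rpow_one] at hc
  have hN1 : ∀ y, 0 < N y := fun y => pos_of_mul_pos_right (zero_lt_one.trans_le (hc y)) hc0
  have b2 : ∀ (n : ℕ), ∀ f ∈ Submodule.span ℂ (Set.range v) ^ n, DF1_B N n fun y => ‖ev y f‖ := by
    intro n f hf
    induction hf using Submodule.pow_induction_on_left' with
    | algebraMap r => exact ⟨fun _ => norm_nonneg _, ‖r‖, norm_nonneg _, fun y => by simp⟩
    | add f g i _ _ h h' =>
      exact (h.add h').mono (fun _ => norm_nonneg _) fun y => by rw [map_add]; exact norm_add_le _ _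
    | mem_mul m hm i f _ h =>
      simpa only [map_mul, norm_mul, Nat.cast_succ, add_comm (i : ℝ)] using (b1 m hm).mul hN1 h
  have b3 : DF1_B N 2 fun y => ∑ j, ‖ev y (q j)‖ ^ 2 := DF1_B.sum _ fun j _ => by
    simpa only [sq, one_add_one_eq_two] using (b1 _ (hq j)).mul hN1 (b1 _ (hq j))
  have b4 : DF1_B N 2 fun y => 1 + A * ∑ j, ‖ev y (q j)‖ ^ 2 := by
    simpa only [zero_add] using ((DF1_B.const N zero_le_one).up hN1 hc0 hc zero_le_two).add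
      (by simpa only [zero_add] using (DF1_B.const N hA).mul hN1 b3)
  obtain ⟨-, C, -, hC⟩ := (((DF1_B.prod hN1 Finset.univ fun i _ => (b2 _ _ (hs i)).rpow hN0
    (mul_nonneg zero_le_two (hp i))).mul hN1 (b3.rpow hN0 hη)).mul hN1 (b4.rpow hN0 hδ)).up hN1 hc0 hc
    (b := 2 * e) (by
      rw [Finset.sum_congr rfl fun i _ => show (k i : ℝ) * (2 * p i) = 2 * (p i * k i) by ring,
        ← Finset.mul_sum]
      linarith)
  refine ⟨C, fun y => ?_⟩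
  have h2 := mul_le_mul_of_nonneg_left (hC y) (Real.rpow_nonneg (norm_nonneg (ev y σ)) (2 * e))
  simp only [map_mul, norm_mul, mul_pow, ← Finset.mul_sum]
  rw [Real.mul_rpow (sq_nonneg _) (by positivity), ← Real.rpow_two ‖ev y σ‖,
    ← Real.rpow_mul (norm_nonneg _)]
  rw [Real.rpow_mul (hN0 y), Real.rpow_two, hN, Real.sq_sqrt (by positivity)] at h2
  linarith

end Crest.Agent.R271
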