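import Crest.Agent.R271.LPa

/-! Row 271, part B: calculus of Levi forms. -/

set_option autoImplicit false

namespace Crest.Agent.R271

open MeasureTheory Filter Topology
open scoped ENNReal NNReal

namespace RD
variable {E Y : Type} [NormedAddCommGroup E] [NormedSpace ℂ E] [FiniteDimensional ℂ E]
  [MeasurableSpace E] [BorelSpace E] {μ : Measure E}
  [TopologicalSpace Y] [MeasurableSpace Y] [BorelSpace Y] {X : RD E Y μ} {Ω : Set Y}

theorem LP.normSq (hΩ : IsOpen Ω) {f : Y → ℂ} (hf : X.Hol Ω f) : X.LP Ω fun y => ‖f y‖ ^ 2 := by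
  exact fun y hy => LPAt.normSq (Hol.analyticAt X hΩ hf hy)

theorem LP.const {c : ℝ} (hc : 0 ≤ c) : X.LP Ω fun _ => c := by
  exact fun y _ => LPAt.const hc

theorem LP.add {M N : Y → ℝ} (hM : X.LP Ω M) (hN : X.LP Ω N) : X.LP Ω fun y => M y + N y := by
  exact fun y hy => (hM y hy).add (hN y hy)

theorem LP.mul {M N : Y → ℝ} (hM : X.LP Ω M) (hN : X.LP Ω N) : X.LP Ω fun y => M y * N y := by
  exact fun y hy => (hM y hy).mul (hN y hy)

theorem LP.rpow {N : Y → ℝ} (hN : X.LP Ω N) (h0 : ∀ y ∈ Ω, 0 < N y) {c : ℝ} (hc : 0 ≤ c) :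
    X.LP Ω fun y => N y ^ c := by
  exact fun y hy => (hN y hy).rpow (by rw [X.loc_π N (X.mem y)]; exact h0 y hy) hc

theorem LP.sum {ι : Type} (s : Finset ι) {N : ι → Y → ℝ} (hN : ∀ i ∈ s, X.LP Ω (N i)) :
    X.LP Ω fun y => ∑ i ∈ s, N i y := by
  exact fun y hy => LPAt.sum s (N := fun i => X.loc (N i) y) fun i hi => hN i hi y hy

theorem LP.psh {N : Y → ℝ} (hN : X.LP Ω N) : X.Psh Ω N := by
  exact ⟨fun y hy => (hN y hy).c2, fun y hy => (hN y hy).levi_nonneg⟩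

theorem LP.psh_log {N : Y → ℝ} (hN : X.LP Ω N) (h0 : ∀ y ∈ Ω, 0 < N y) :
    X.Psh Ω fun y => Real.log (N y) := by
  have h1 : ∀ y ∈ Ω, 0 < X.loc N y (X.π y) := fun y hy => by
    rw [X.loc_π N (X.mem y)]
    exact h0 y hy
  exact ⟨fun y hy => (hN y hy).c2.log (h1 y hy).ne', fun y hy => (hN y hy).levi_log (h1 y hy)⟩

theorem LP.adm {N : Y → ℝ} (hN : X.LP Ω N) : X.Adm Ω N := by
  have h0 : ∀ y ∈ Ω, 0 ≤ N y := fun y hy => by
    have := (hN y hy).nonneg
    rwa [X.loc_π N (X.mem y)] at this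
  refine ⟨fun j y => N y + 1 / ((j : ℝ) + 1), fun j => hN.add (LP.const (by positivity)),
    fun j y hy => by have := h0 y hy; positivity, fun y _ j k hjk => ?_, fun y _ => ?_⟩
  · have : (j : ℝ) ≤ k := Nat.cast_le.2 hjk
    dsimp only
    gcongr
  · simpa using tendsto_const_nhds.add (tendsto_one_div_add_atTop_nhds_zero_nat (𝕜 := ℝ))

theorem Adm.nonneg {N : Y → ℝ} (hN : X.Adm Ω N) {y : Y} (hy : y ∈ Ω) : 0 ≤ N y := by
  obtain ⟨M, -, h1, -, h2⟩ := hN
  exact ge_of_tendsto' (h2 y hy) fun j => (h1 j y hy).le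

theorem Adm.add {M N : Y → ℝ} (hM : X.Adm Ω M) (hN : X.Adm Ω N) : X.Adm Ω fun y => M y + N y := by
  obtain ⟨A, a1, a2, a3, a4⟩ := hM
  obtain ⟨B, b1, b2, b3, b4⟩ := hN
  exact ⟨fun j y => A j y + B j y, fun j => (a1 j).add (b1 j),
    fun j y hy => add_pos (a2 j y hy) (b2 j y hy), fun y hy => (a3 y hy).add (b3 y hy),
    fun y hy => (a4 y hy).add (b4 y hy)⟩

theorem Adm.mul {M N : Y → ℝ} (hM : X.Adm Ω M) (hN : X.Adm Ω N) : X.Adm Ω fun y => M y * N y := by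
  obtain ⟨A, a1, a2, a3, a4⟩ := hM
  obtain ⟨B, b1, b2, b3, b4⟩ := hN
  exact ⟨fun j y => A j y * B j y, fun j => (a1 j).mul (b1 j),
    fun j y hy => mul_pos (a2 j y hy) (b2 j y hy),
    fun y hy j k hjk => mul_le_mul (a3 y hy hjk) (b3 y hy hjk) (b2 k y hy).le (a2 j y hy).le,
    fun y hy => (a4 y hy).mul (b4 y hy)⟩

theorem Adm.rpow {N : Y → ℝ} (hN : X.Adm Ω N) {c : ℝ} (hc : 0 ≤ c) :
    X.Adm Ω fun y => N y ^ c := by
  obtain ⟨A, a1, a2, a3, a4⟩ := hN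
  exact ⟨fun j y => A j y ^ c, fun j => (a1 j).rpow (a2 j) hc,
    fun j y hy => Real.rpow_pos_of_pos (a2 j y hy) c,
    fun y hy j k hjk => Real.rpow_le_rpow (a2 k y hy).le (a3 y hy hjk) hc,
    fun y hy => (a4 y hy).rpow_const (Or.inr hc)⟩

theorem Adm.sum {ι : Type} (s : Finset ι) {N : ι → Y → ℝ} (hN : ∀ i ∈ s, X.Adm Ω (N i)) :
    X.Adm Ω fun y => ∑ i ∈ s, N i y := by
  classical
  induction s using Finset.induction_on with
  | empty => simpa using (LP.const (X := X) (Ω := Ω) le_rfl).adm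
  | insert i s hi ih =>
    simp only [Finset.sum_insert hi]
    exact (hN i (Finset.mem_insert_self _ _)).add
      (ih fun j hj => hN j (Finset.mem_insert_of_mem hj))

theorem Adm.prod {ι : Type} (s : Finset ι) {N : ι → Y → ℝ} (hN : ∀ i ∈ s, X.Adm Ω (N i)) :
    X.Adm Ω fun y => ∏ i ∈ s, N i y := by
  classical
  induction s using Finset.induction_on with
  | empty => simpa using (LP.const (X := X) (Ω := Ω) zero_le_one).adm
  | insert i s hi ih =>
    simp only [Finset.prod_insert hi]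
    exact (hN i (Finset.mem_insert_self _ _)).mul
      (ih fun j hj => hN j (Finset.mem_insert_of_mem hj))

theorem Adm.norm_rpow (hΩ : IsOpen Ω) {f : Y → ℂ} (hf : X.Hol Ω f) {c : ℝ} (hc : 0 ≤ c) :
    X.Adm Ω fun y => ‖f y‖ ^ c := by
  have h := (LP.normSq hΩ hf).adm.rpow (c := c / 2) (by positivity)
  have e : (fun y => (‖f y‖ ^ 2) ^ (c / 2)) = fun y => ‖f y‖ ^ c := funext fun y => by
    rw [← Real.rpow_natCast, ← Real.rpow_mul (norm_nonneg _)]
    congr 1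
    push_cast
    ring
  rwa [e] at h

theorem Adm.nw (hΩ : IsOpen Ω) {ι : Type} [Fintype ι] {g : ι → Y → ℂ} (hg : ∀ i, X.Hol Ω (g i))
    (lam : ι → ℝ) : X.Adm Ω (nw g lam) := by
  exact Adm.sum _ fun i hi => Adm.norm_rpow hΩ (hg i)
    (div_nonneg zero_le_two (Finset.mem_filter.1 hi).2.le)

end RD

end Crest.Agent.R271
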