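import Crest.Agent.R271.DD0
import Crest.Agent.R271.LP

/-! Row 271, part D: topology of the space of points. -/

set_option autoImplicit false

namespace Crest.Agent.R271

open MeasureTheory Filter Topology
open scoped ENNReal NNReal

variable {n : ℕ} {S : Type} [CommRing S] [Algebra ℂ S] {t : Fin n → S} {Y : Type}
  [TopologicalSpace Y] [T2Space Y] [SecondCountableTopology Y] [MeasurableSpace Y] [BorelSpace Y]
  {X : RD (Fin n → ℂ) Y volume} {ev : Y → (S →ₐ[ℂ] ℂ)}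

theorem PtD.lp (h : PtD t X ev) {κ : Type} [Fintype κ] (γ : κ → S) :
    X.LP Set.univ fun y => ∑ k, ‖ev y (γ k)‖ ^ 2 := by
  exact RD.LP.sum Finset.univ fun k _ => RD.LP.normSq isOpen_univ (h.hol (γ k))

theorem PtD.stein [Algebra.FiniteType ℂ S] (h : PtD t X ev) : X.Stein Set.univ := by
  obtain ⟨s, hs⟩ := Algebra.FiniteType.out (R := ℂ) (A := S)
  refine ⟨isOpen_univ, _, RD.LP.psh (h.lp fun k : s => (k : S)), fun c => ?_⟩
  have := h.cpt s (fun k : s => (k : S)) (by rw [← hs]; simp) c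
  simpa only [Set.mem_univ, true_and] using this

/-- the compact sets `{∑ ‖γ k‖ ^ 2 ≤ r}` decrease to `{y}`. -/
theorem PtD.basis (h : PtD t X ev) {κ : Type} [Fintype κ] {γ : κ → S}
    (hγ : Algebra.adjoin ℂ (Set.range γ) = ⊤) {y : Y} (h0 : ∀ k, ev y (γ k) = 0) :
    ∀ U ∈ 𝓝 y, ∃ r : ℝ, 0 < r ∧ {w | ∑ k, ‖ev w (γ k)‖ ^ 2 ≤ r} ⊆ U := by
  intro U hU
  obtain ⟨U', hU'U, hU'o, hyU'⟩ := mem_nhds_iff.1 hU
  have hc : Continuous fun w => ∑ k, ‖ev w (γ k)‖ ^ 2 :=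
    continuous_finsetSum _ fun k _ => (h.cont (γ k)).norm.pow 2
  have hK := (h.cpt κ γ hγ 1).diff hU'o
  rcases ({w | ∑ k, ‖ev w (γ k)‖ ^ 2 ≤ 1} \ U').eq_empty_or_nonempty with he | hne
  · exact ⟨1, one_pos, (Set.diff_eq_empty.1 he).trans hU'U⟩
  · obtain ⟨w0, hw0, hmin⟩ := hK.exists_isMinOn hne hc.continuousOn
    have hpos : 0 < ∑ k, ‖ev w0 (γ k)‖ ^ 2 := by
      refine lt_of_le_of_ne (Finset.sum_nonneg fun k _ => by positivity) fun h1 => hw0.2 ?_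
      have h2 := (Finset.sum_eq_zero_iff_of_nonneg fun k _ => by positivity).1 h1.symm
      have h3 : ev w0 = ev y := by
        refine AlgHom.ext_of_adjoin_eq_top hγ ?_
        rintro _ ⟨k, rfl⟩
        rw [h0 k]
        simpa using h2 k (Finset.mem_univ k)
      rw [h.bij.1 h3]
      exact hyU'
    refine ⟨min 1 ((∑ k, ‖ev w0 (γ k)‖ ^ 2) / 2), by positivity, fun w hw => hU'U ?_⟩
    by_contra hwU
    have h1 : ∑ k, ‖ev w (γ k)‖ ^ 2 ≤ min 1 ((∑ k, ‖ev w0 (γ k)‖ ^ 2) / 2) := hw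
    have h2 : ∑ k, ‖ev w0 (γ k)‖ ^ 2 ≤ ∑ k, ‖ev w (γ k)‖ ^ 2 :=
      hmin ⟨h1.trans (min_le_left _ _), hwU⟩
    have h3 := h1.trans (min_le_right _ _)
    linarith

/-- `S` is generated by the `q k` and `j⁻¹ - j⁻¹(y)`.  For `f ∈ ℂ[q]`, `ev w f → ev y f` as
`∑ ‖ev w (q k)‖ ^ 2 → 0` (induction on `adjoin`, along the filter `comap _ (𝓝 0)`); hence also for
`f = j⁻¹`. -/
theorem PtD.basis' (h : PtD t X ev) {κ : Type} [Fintype κ] {q : κ → S} {j : S}
    (hj : j ∈ Algebra.adjoin ℂ (Set.range q)) (hu : IsUnit j)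
    (hq : ∀ f : S, ∃ m : ℕ, j ^ m * f ∈ Algebra.adjoin ℂ (Set.range q)) {y : Y}
    (h0 : ∀ k, ev y (q k) = 0) :
    ∀ U ∈ 𝓝 y, ∃ r : ℝ, 0 < r ∧ {w | ∑ k, ‖ev w (q k)‖ ^ 2 ≤ r} ⊆ U := by
  intro U hU
  obtain ⟨u, rfl⟩ := hu
  let N : Y → ℝ := fun w => ∑ k, ‖ev w (q k)‖ ^ 2
  have hN : Tendsto N (comap N (𝓝 0)) (𝓝 0) := tendsto_comap
  have hq0 : ∀ k, Tendsto (fun w => ev w (q k)) (comap N (𝓝 0)) (𝓝 0) := by
    intro k
    rw [tendsto_zero_iff_norm_tendsto_zero]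
    have h1 : Tendsto (fun w => √(N w)) (comap N (𝓝 0)) (𝓝 0) := by
      simpa using hN.sqrt
    refine squeeze_zero (fun w => norm_nonneg _) (fun w => Real.le_sqrt_of_sq_le ?_) h1
    exact Finset.single_le_sum (f := fun k => ‖ev w (q k)‖ ^ 2) (fun k _ => by positivity)
      (Finset.mem_univ k)
  have hadj : ∀ f ∈ Algebra.adjoin ℂ (Set.range q),
      Tendsto (fun w => ev w f) (comap N (𝓝 0)) (𝓝 (ev y f)) := by
    intro f hf
    induction hf using Algebra.adjoin_induction with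
    | mem x hx =>
      obtain ⟨k, rfl⟩ := hx
      rw [h0 k]
      exact hq0 k
    | algebraMap c =>
      simp only [AlgHom.commutes]
      exact tendsto_const_nhds
    | add a b _ _ ha hb =>
      simp only [map_add]
      exact ha.add hb
    | mul a b _ _ ha hb =>
      simp only [map_mul]
      exact ha.mul hb
  have hinv : ∀ w, ev w (u⁻¹ : Sˣ) = (ev w u)⁻¹ := by
    intro w
    refine eq_inv_of_mul_eq_one_left ?_
    rw [← map_mul, Units.inv_mul, map_one]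
  have hne : ev y u ≠ 0 := (u.isUnit.map (ev y)).ne_zero
  have hi : Tendsto (fun w => ev w (u⁻¹ : Sˣ)) (comap N (𝓝 0)) (𝓝 (ev y (u⁻¹ : Sˣ))) := by
    simp only [hinv]
    exact (hadj _ hj).inv₀ hne
  let γ : Option κ → S := fun o => o.elim ((u⁻¹ : Sˣ) - algebraMap ℂ S (ev y (u⁻¹ : Sˣ))) q
  have hγ : Algebra.adjoin ℂ (Set.range γ) = ⊤ := by
    refine top_le_iff.1 fun f _ => ?_
    obtain ⟨m, hm⟩ := hq f
    have h1 : Algebra.adjoin ℂ (Set.range q) ≤ Algebra.adjoin ℂ (Set.range γ) := by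
      refine Algebra.adjoin_mono ?_
      rintro _ ⟨k, rfl⟩
      exact ⟨some k, rfl⟩
    have h2 : ((u⁻¹ : Sˣ) : S) ∈ Algebra.adjoin ℂ (Set.range γ) := by
      have h3 : γ none ∈ Algebra.adjoin ℂ (Set.range γ) := Algebra.subset_adjoin ⟨none, rfl⟩
      have h4 := add_mem h3 (Subalgebra.algebraMap_mem _ (ev y (u⁻¹ : Sˣ)))
      simpa only [γ, Option.elim, sub_add_cancel] using h4
    have h5 : f = ((u⁻¹ : Sˣ) : S) ^ m * ((u : S) ^ m * f) := by
      rw [← mul_assoc, ← mul_pow, Units.inv_mul, one_pow, one_mul]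
    rw [h5]
    exact mul_mem (pow_mem h2 m) (h1 hm)
  have hγ0 : ∀ o, ev y (γ o) = 0 := by
    rintro (_ | k)
    · simp [γ]
    · exact h0 k
  obtain ⟨r, hr, hrU⟩ := h.basis hγ hγ0 U hU
  have ht : Tendsto (fun w => ∑ o, ‖ev w (γ o)‖ ^ 2) (comap N (𝓝 0)) (𝓝 0) := by
    have h1 : ∀ o, Tendsto (fun w => ev w (γ o)) (comap N (𝓝 0)) (𝓝 0) := by
      rintro (_ | k)
      · have := hi.sub_const (ev y (u⁻¹ : Sˣ))
        rw [sub_self] at this
        refine this.congr fun w => ?_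
        simp [γ]
      · exact hq0 k
    simpa using tendsto_finsetSum Finset.univ fun o _ => (h1 o).norm.pow 2
  have hev : U ∈ comap N (𝓝 0) :=
    mem_of_superset (ht.eventually (ge_mem_nhds hr)) hrU
  obtain ⟨V, hV, hVU⟩ := mem_comap.1 hev
  obtain ⟨ε, hε, hεV⟩ := Metric.mem_nhds_iff.1 hV
  refine ⟨ε / 2, by positivity, fun w hw => hVU (hεV ?_)⟩
  have h1 : N w ≤ ε / 2 := hw
  have h2 : 0 ≤ N w := Finset.sum_nonneg fun k _ => by positivity
  rw [mem_ball_zero_iff, Real.norm_eq_abs, abs_of_nonneg h2]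
  linarith

end Crest.Agent.R271
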