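import Crest.Agent.R271.DF0
import Crest.Agent.R271.DF1
import Crest.Agent.R271.DF1b
import Crest.Agent.R271.DX
import Crest.Agent.R271.AL
import Crest.Agent.R271.Ex0

/-! Row 271, part D: separating points by sections of multiplier ideals. -/

set_option autoImplicit false

namespace Crest.Agent.R271

open MeasureTheory Filter Topology
open scoped ENNReal NNReal

theorem IntNear.mono' {Y : Type} [TopologicalSpace Y] [MeasurableSpace Y] [OpensMeasurableSpace Y]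
    {ν : Measure Y} {ω ω' : Y → ℝ≥0∞} {y : Y} (h : IntNear ν ω' y) {K : ℝ≥0∞} (hK : K ≠ ∞)
    (hle : ∀ᶠ w in 𝓝 y, ω w ≤ K * ω' w) : IntNear ν ω y := by
  obtain ⟨V, hV, hi⟩ := h
  obtain ⟨O, hO, hOo, hz⟩ := mem_nhds_iff.1 (hle.and hV)
  refine ⟨O, hOo.mem_nhds hz, ?_⟩
  calc ∫⁻ w in O, ω w ∂ν ≤ ∫⁻ w in O, K * ω' w ∂ν :=
        setLIntegral_mono' hOo.measurableSet fun w hw => (hO hw).1
    _ = K * ∫⁻ w in O, ω' w ∂ν := lintegral_const_mul' _ _ hK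
    _ < ∞ := ENNReal.mul_lt_top hK.lt_top
        ((lintegral_mono_set fun w hw => (hO hw).2).trans_lt hi)

theorem inv_le_of_le_mul {a b B : ℝ} (hB : 0 < B) (h : a ≤ B * b) :
    (ENNReal.ofReal b)⁻¹ ≤ ENNReal.ofReal B * (ENNReal.ofReal a)⁻¹ := by
  have h0 : ENNReal.ofReal B ≠ 0 := (ENNReal.ofReal_pos.2 hB).ne'
  have h1 : (ENNReal.ofReal B * ENNReal.ofReal b)⁻¹ ≤ (ENNReal.ofReal a)⁻¹ := by
    rw [← ENNReal.ofReal_mul hB.le]
    exact ENNReal.inv_le_inv.2 (ENNReal.ofReal_le_ofReal h)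
  rw [ENNReal.mul_inv (Or.inl h0) (Or.inl ENNReal.ofReal_ne_top)] at h1
  calc (ENNReal.ofReal b)⁻¹ = ENNReal.ofReal B * ((ENNReal.ofReal B)⁻¹ * (ENNReal.ofReal b)⁻¹) := by
        rw [← mul_assoc, ENNReal.mul_inv_cancel h0 ENNReal.ofReal_ne_top, one_mul]
    _ ≤ _ := mul_le_mul_right h1 _

theorem ofReal_rpow_neg {a c : ℝ} (ha : 0 ≤ a) (hc : 0 ≤ c) :
    ENNReal.ofReal a ^ (-c) = (ENNReal.ofReal (a ^ c))⁻¹ := by
  rw [ENNReal.rpow_neg, ENNReal.ofReal_rpow_of_nonneg ha hc]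

variable {n : ℕ} {S : Type} [CommRing S] [IsDomain S] [Algebra ℂ S] {t : Fin n → S} {Y : Type}
  [TopologicalSpace Y] [T2Space Y] [SecondCountableTopology Y] [MeasurableSpace Y] [BorelSpace Y]
  {X : RD (Fin n → ℂ) Y volume} {ev : Y → (S →ₐ[ℂ] ℂ)}

omit [IsDomain S] in
theorem PtD.bdd (h : PtD t X ev) {P : Y → ℝ} (hP : PG ev P) (y : Y) :
    ∃ B : ℝ, 0 < B ∧ ∀ᶠ w in 𝓝 y, P w ≤ B := by
  obtain ⟨h0, T, M, C, hC⟩ := hP
  have hc : Continuous fun w => C * (1 + ∑ s ∈ T, ‖ev w s‖ ^ 2) ^ M :=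
    continuous_const.mul ((continuous_const.add
      (continuous_finset_sum _ fun s _ => (h.cont s).norm.pow 2)).pow M)
  refine ⟨_ + 1, lt_of_le_of_lt ((h0 y).trans (hC y)) (lt_add_one _), ?_⟩
  exact (hc.continuousAt.eventually (gt_mem_nhds (lt_add_one _))).mono fun w hw =>
    (hC w).trans hw.le

theorem PtD.alg2 (h : PtD t X ev) (het : SE t) {f : Y → ℂ} (hf : X.Hol Set.univ f) {ω : Y → ℝ}
    (hω : PG ev ω) {K : Set Y} (hK : IsCompact K)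
    (hi : ∫⁻ w in Kᶜ, ‖f w‖ₑ ^ 2 / ENNReal.ofReal (ω w) ∂X.ν < ∞) : ∃ g : S, ∀ y, f y = ev y g := by
  obtain ⟨-, T, M, C, hC⟩ := hω
  refine alg t het X ev h.bij h.π h.hol (fun k : T => (k : S)) hf (M := M) ?_
  have e : ∀ y, (1 + ∑ k : T, ‖ev y (k : S)‖ ^ 2) ^ (M : ℝ) = (1 + ∑ s ∈ T, ‖ev y s‖ ^ 2) ^ M :=
    fun y => by rw [Real.rpow_natCast, Finset.sum_coe_sort T fun s => ‖ev y s‖ ^ 2]
  simp only [e]
  exact X.lint_lt_top
    (continuousOn_univ.1 (RD.C2.continuousOn X (RD.Hol.c2 X isOpen_univ hf)))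
    ((continuous_const.add (continuous_finset_sum _ fun s _ => (h.cont s).norm.pow 2)).pow M)
    (fun w => by positivity) hC hK hi

omit [IsDomain S] in
theorem PtD.not_intNear (h : PtD t X ev) (hn : 1 ≤ n) {κ : Type} [Fintype κ] {γ : κ → S} {y : Y}
    (h0 : ∀ k, ev y (γ k) = 0) {P : Y → ℝ} (hP : PG ev P) :
    ¬ IntNear X.ν (fun w => (ENNReal.ofReal (P w * (∑ k, ‖ev w (γ k)‖ ^ 2) ^ (n : ℝ)))⁻¹) y := by
  intro hi
  obtain ⟨B, hB, hPB⟩ := h.bdd hP y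
  have h1 : ∀ k, ∃ C : ℝ, ∀ᶠ w in 𝓝 y, ‖ev w (γ k)‖ ≤ C * ‖X.π w - X.π y‖ := fun k => by
    obtain ⟨C, hC⟩ := ((h.hol (γ k) y (Set.mem_univ _)).isBigO_sub.comp_tendsto
      (X.continuous_π.tendsto y)).bound
    refine ⟨C, ?_⟩
    filter_upwards [hC, (X.ch y).open_source.mem_nhds (X.mem y)] with w hw hs
    simpa only [Function.comp, X.loc_π _ hs, X.loc_π _ (X.mem y), h0 k, sub_zero] using hw
  choose C hC using h1
  have : Nonempty (Fin n) := ⟨⟨0, hn⟩⟩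
  refine not_intNear_norm volume (X.π y) ?_
  have h2 : IntNear X.ν (fun w => (‖X.π w - X.π y‖ₑ ^ (2 * n))⁻¹) y := by
    refine hi.mono' (K := ENNReal.ofReal (B * (∑ k, C k ^ 2 + 1) ^ n)) ENNReal.ofReal_ne_top ?_
    filter_upwards [hPB, eventually_all.2 hC] with w h3 h4
    rw [← ofReal_norm, ← ENNReal.ofReal_pow (norm_nonneg _)]
    refine inv_le_of_le_mul (by positivity) ?_
    rw [Real.rpow_natCast, mul_assoc, pow_mul, ← mul_pow]
    refine mul_le_mul h3 (pow_le_pow_left₀ (by positivity) ?_ _) (by positivity) hB.le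
    rw [add_mul, Finset.sum_mul]
    refine le_trans (Finset.sum_le_sum fun k _ => ?_) (le_add_of_nonneg_right (by positivity))
    rw [← mul_pow]
    exact pow_le_pow_left₀ (norm_nonneg _) (h4 k) 2
  refine ((X.intNear_iff (X.mem y) _).1 h2).mono' ENNReal.one_ne_top ?_
  filter_upwards [(X.ch y).open_target.mem_nhds (X.π_mem (X.mem y))] with w hw
  simp [RD.loc, X.π_symm hw]

theorem PtD.bsp (h : PtD t X ev) (het : SE t) (hn : 1 ≤ n) {x y : Y} (hxy : y ≠ x) {ι : Type}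
    [Fintype ι] (g : ι → S) (lam : ι → ℝ) {c : ℝ} (hc : 0 < c)
    (hi : IntNear X.ν (fun w => ENNReal.ofReal (nw (fun i w => ev w (g i)) lam w) ^ (-c)) y) :
    ∃ f : S, ev y f = 1 ∧ IntNear X.ν
      (fun w => ‖ev w f‖ₑ ^ 2 * ENNReal.ofReal (nw (fun i w => ev w (g i)) lam w) ^ (-c)) x := by
  have := het.ft
  obtain ⟨T, hT⟩ := Algebra.FiniteType.out (R := ℂ) (A := S)
  let γ : T → S := fun k => k - algebraMap ℂ S (ev y k)
  have hγ : Algebra.adjoin ℂ (Set.range γ) = ⊤ := by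
    rw [eq_top_iff, ← hT, Algebra.adjoin_le_iff]
    intro s hs
    have : s = γ ⟨s, hs⟩ + algebraMap ℂ S (ev y s) := by simp [γ]
    rw [this]
    exact add_mem (Algebra.subset_adjoin ⟨_, rfl⟩) (Subalgebra.algebraMap_mem _ _)
  have h0 : ∀ k, ev y (γ k) = 0 := fun k => by simp [γ]
  have hb := h.basis hγ h0
  obtain ⟨r, hr, hrx⟩ := hb {x}ᶜ (isOpen_compl_singleton.mem_nhds hxy)
  have hK := h.cpt _ γ hγ r
  have hc1 : Continuous fun w => ∑ k, ‖ev w (γ k)‖ ^ 2 :=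
    continuous_finset_sum _ fun s _ => (h.cont _).norm.pow 2
  have p1 : PG ev fun w => nw (fun i w => ev w (g i)) lam w ^ c := (PG.nw g lam).rpow hc.le
  have p2 : PG ev fun w => ∑ k, ‖ev w (γ k)‖ ^ 2 := PG.sum _ fun k _ => (PG.norm _).pow 2
  simp only [ofReal_rpow_neg (Ex0_nw_nonneg _ _ _) hc.le] at hi ⊢
  obtain ⟨A, F, hA, hF, hFy, hfin⟩ := X.ext h.stein
    ((RD.Adm.nw isOpen_univ (fun i => h.hol (g i)) lam).rpow hc.le) (h.lp γ) (by simp [h0]) hb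
    (Nat.cast_nonneg n) one_pos hi (h.not_intNear hn h0 p1)
    (U := {w | ∑ k, ‖ev w (γ k)‖ ^ 2 ≤ r})
    (hc1.continuousAt.eventually (ge_mem_nhds (by simpa [h0] using hr)))
  have p3 : PG ev fun w => (∑ k, ‖ev w (γ k)‖ ^ 2) ^ (n : ℝ) := p2.rpow (Nat.cast_nonneg n)
  have p4 : PG ev fun w => (1 + A * ∑ k, ‖ev w (γ k)‖ ^ 2) ^ (1 : ℝ) :=
    ((PG.const zero_le_one).add ((PG.const hA.le).mul p2)).rpow zero_le_one
  obtain ⟨f, hf⟩ := h.alg2 het hF ((p1.mul p3).mul p4) hK hfin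
  refine ⟨f, by rw [← hf, hFy], ?_⟩
  obtain ⟨B, hB, hB'⟩ := h.bdd (p3.mul p4) x
  refine IntNear.mono' ⟨_, hK.isClosed.isOpen_compl.mem_nhds fun hx => hrx hx rfl, hfin⟩
    (K := ENNReal.ofReal B) ENNReal.ofReal_ne_top (hB'.mono fun w hw => ?_)
  rw [hf, div_eq_mul_inv, mul_left_comm]
  refine mul_le_mul_right (inv_le_of_le_mul hB ?_) _
  rw [mul_assoc, mul_comm B]
  exact mul_le_mul_of_nonneg_left hw (p1.1 w)

end Crest.Agent.R271
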