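import Crest.Agent.R271.RDB

/-! Row 271, part D: the points of a standard étale algebra as a Riemann domain (definitions). -/

set_option autoImplicit false

namespace Crest.Agent.R271

open MeasureTheory Filter Topology
open scoped ENNReal NNReal

/-- `S` is standard étale over affine space, via `t`. -/
abbrev SE {n : ℕ} {S : Type} [CommRing S] [Algebra ℂ S] (t : Fin n → S) : Prop :=
  @Algebra.IsStandardEtale (MvPolynomial (Fin n) ℂ) S _ _
    (MvPolynomial.aeval t : MvPolynomial (Fin n) ℂ →ₐ[ℂ] S).toRingHom.toAlgebra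

/-- `Y` is the space of points of `S`. -/
structure PtD {n : ℕ} {S : Type} [CommRing S] [Algebra ℂ S] (t : Fin n → S) {Y : Type}
    [TopologicalSpace Y] [MeasurableSpace Y] (X : RD (Fin n → ℂ) Y volume)
    (ev : Y → (S →ₐ[ℂ] ℂ)) : Prop where
  bij : Function.Bijective ev
  π : ∀ y i, X.π y i = ev y (t i)
  hol : ∀ s, X.Hol Set.univ fun y => ev y s
  cpt : ∀ (κ : Type) [Fintype κ] (γ : κ → S), Algebra.adjoin ℂ (Set.range γ) = ⊤ →
    ∀ r : ℝ, IsCompact {y | ∑ k, ‖ev y (γ k)‖ ^ 2 ≤ r}

end Crest.Agent.R271
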