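import Crest.Agent.R271.DP

/-! Row 271, part D: the space of points of a `ℂ`-algebra. -/

set_option autoImplicit false

namespace Crest.Agent.R271

open MeasureTheory Filter Topology Set
open scoped ENNReal NNReal

/-- the complex points of `S`, with the topology of pointwise convergence. -/
def XPt (S : Type) [CommRing S] [Algebra ℂ S] : Type := S →ₐ[ℂ] ℂ

namespace XPt
variable {S : Type} [CommRing S] [Algebra ℂ S]

/-- the underlying algebra homomorphism. -/
def ev (y : XPt S) : S →ₐ[ℂ] ℂ := y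

noncomputable instance top : TopologicalSpace (XPt S) :=
  TopologicalSpace.induced (fun y : XPt S => (y.ev : S → ℂ)) inferInstance

noncomputable instance meas : MeasurableSpace (XPt S) := borel _

instance bor : BorelSpace (XPt S) := ⟨rfl⟩

theorem isEmbedding : IsEmbedding (fun y : XPt S => (y.ev : S → ℂ)) :=
  ⟨⟨rfl⟩, fun _ _ h => DFunLike.coe_injective (F := S →ₐ[ℂ] ℂ) h⟩

instance t2 : T2Space (XPt S) := isEmbedding.t2Space

@[fun_prop]
theorem continuous_ev (s : S) : Continuous fun y : XPt S => y.ev s :=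
  (continuous_apply s).comp isEmbedding.continuous

theorem continuousOn_iff {Z : Type} [TopologicalSpace Z] {f : Z → XPt S} {A : Set Z} :
    ContinuousOn f A ↔ ∀ s, ContinuousOn (fun a => (f a).ev s) A := by
  rw [isEmbedding.continuousOn_iff, continuousOn_pi]; rfl

theorem isClosed_range : IsClosed (range fun y : XPt S => (y.ev : S → ℂ)) := by
  have : (range fun y : XPt S => (y.ev : S → ℂ)) =
      (⋂ a, ⋂ b, {f : S → ℂ | f (a + b) = f a + f b}) ∩
        ((⋂ a, ⋂ b, {f : S → ℂ | f (a * b) = f a * f b}) ∩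
          ⋂ c : ℂ, {f : S → ℂ | f (algebraMap ℂ S c) = c}) := by
    ext f
    simp only [mem_range, mem_inter_iff, mem_iInter, mem_setOf_eq]
    constructor
    · rintro ⟨y, rfl⟩
      exact ⟨fun a b => map_add y.ev a b, fun a b => map_mul y.ev a b, fun c => y.ev.commutes c⟩
    · rintro ⟨h1, h2, h3⟩
      exact ⟨(⟨⟨⟨⟨f, by simpa using h3 1⟩, h2⟩, by simpa using h3 0, h1⟩, h3⟩ : S →ₐ[ℂ] ℂ), rfl⟩
  rw [this]
  refine IsClosed.inter ?_ (IsClosed.inter ?_ ?_)
  · exact isClosed_iInter fun a => isClosed_iInter fun b => isClosed_eq (by fun_prop) (by fun_prop)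
  · exact isClosed_iInter fun a => isClosed_iInter fun b => isClosed_eq (by fun_prop) (by fun_prop)
  · exact isClosed_iInter fun c => isClosed_eq (by fun_prop) (by fun_prop)

theorem isCompact_of_bdd {A : Set (XPt S)} (hA : IsClosed A)
    (hb : ∀ s : S, ∃ B : ℝ, ∀ y ∈ A, ‖y.ev s‖ ≤ B) : IsCompact A := by
  choose B hB using hb
  have hc : IsClosedEmbedding (fun y : XPt S => (y.ev : S → ℂ)) := ⟨isEmbedding, isClosed_range⟩
  have hK : IsCompact (Set.pi univ fun s : S => Metric.closedBall (0 : ℂ) (B s)) :=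
    isCompact_univ_pi fun s => isCompact_closedBall _ _
  refine (hc.isCompact_preimage hK).of_isClosed_subset hA fun y hy s _ => ?_
  simpa using hB s y hy

theorem bdd_adjoin {A : Set (XPt S)} {G : Set S} (hb : ∀ s ∈ G, ∃ B : ℝ, ∀ y ∈ A, ‖y.ev s‖ ≤ B) :
    ∀ s ∈ Algebra.adjoin ℂ G, ∃ B : ℝ, ∀ y ∈ A, ‖y.ev s‖ ≤ B := by
  intro s hs
  induction hs using Algebra.adjoin_induction with
  | mem x hx => exact hb x hx
  | algebraMap r => exact ⟨‖r‖, fun y _ => by simp⟩
  | add x x' _ _ h h' =>
    obtain ⟨B, hB⟩ := h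
    obtain ⟨B', hB'⟩ := h'
    exact ⟨B + B', fun y hy => by
      rw [map_add]; exact (norm_add_le _ _).trans (add_le_add (hB y hy) (hB' y hy))⟩
  | mul x x' _ _ h h' =>
    obtain ⟨B, hB⟩ := h
    obtain ⟨B', hB'⟩ := h'
    exact ⟨B * B', fun y hy => by
      rw [map_mul, norm_mul]
      exact mul_le_mul (hB y hy) (hB' y hy) (norm_nonneg _) ((norm_nonneg _).trans (hB y hy))⟩

theorem isCompact_gen {κ : Type} [Fintype κ] {γ : κ → S} (h : Algebra.adjoin ℂ (range γ) = ⊤)
    (r : ℝ) : IsCompact {y : XPt S | ∑ k, ‖y.ev (γ k)‖ ^ 2 ≤ r} := by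
  refine isCompact_of_bdd (isClosed_le (by fun_prop) continuous_const) fun s =>
    bdd_adjoin (G := range γ) ?_ s (h ▸ Algebra.mem_top)
  rintro _ ⟨k, rfl⟩
  refine ⟨√r, fun y hy => Real.le_sqrt_of_sq_le (le_trans ?_ hy)⟩
  exact Finset.single_le_sum (f := fun k => ‖y.ev (γ k)‖ ^ 2) (fun _ _ => by positivity)
    (Finset.mem_univ k)

theorem isInducing_gen {ι : Type} {γ : ι → S} (h : Algebra.adjoin ℂ (range γ) = ⊤) :
    IsInducing fun (y : XPt S) (i : ι) => y.ev (γ i) := by
  have hs : ∀ s : S, ∃ P : MvPolynomial ι ℂ, MvPolynomial.aeval γ P = s := fun s => by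
    have : s ∈ (MvPolynomial.aeval γ : MvPolynomial ι ℂ →ₐ[ℂ] S).range := by
      rw [← Algebra.adjoin_range_eq_range_aeval, h]; exact Algebra.mem_top
    exact this
  choose P hP using hs
  have hc : Continuous fun (u : ι → ℂ) (s : S) => MvPolynomial.eval u (P s) :=
    continuous_pi fun s => MvPolynomial.continuous_eval _
  refine IsInducing.of_comp (continuous_pi fun i => continuous_ev _) hc ?_
  have : ((fun (u : ι → ℂ) (s : S) => MvPolynomial.eval u (P s)) ∘
      fun (y : XPt S) (i : ι) => y.ev (γ i)) = fun y : XPt S => (y.ev : S → ℂ) := by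
    funext y s
    conv_rhs => rw [← hP s, ← AlgHom.comp_apply, MvPolynomial.comp_aeval]
    rfl
  rw [this]
  exact isEmbedding.isInducing

instance secondCountable [h : Algebra.FiniteType ℂ S] : SecondCountableTopology (XPt S) := by
  obtain ⟨s, hs⟩ := h.out
  have : Algebra.adjoin ℂ (range fun i : s => (i : S)) = ⊤ := by
    rw [← hs]; congr 1; ext; simp
  exact (isInducing_gen this).secondCountableTopology

end XPt

end Crest.Agent.R271
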