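import Crest.Agent.R271.DP

/-! Row 271, part D: finite type and transcendence basis. -/

set_option autoImplicit false

namespace Crest.Agent.R271

variable {n : ℕ} {S : Type} [CommRing S] [Algebra ℂ S] {t : Fin n → S}

theorem SE.ft (het : SE t) : Algebra.FiniteType ℂ S := by
  letI : Algebra (MvPolynomial (Fin n) ℂ) S :=
    (MvPolynomial.aeval t : MvPolynomial (Fin n) ℂ →ₐ[ℂ] S).toRingHom.toAlgebra
  haveI : IsScalarTower ℂ (MvPolynomial (Fin n) ℂ) S :=
    IsScalarTower.of_algebraMap_eq fun c =>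
      ((MvPolynomial.aeval t : MvPolynomial (Fin n) ℂ →ₐ[ℂ] S).commutes c).symm
  haveI := het
  exact Algebra.FiniteType.trans (S := MvPolynomial (Fin n) ℂ) inferInstance inferInstance

theorem SE.tb [IsDomain S] (het : SE t) : IsTranscendenceBasis ℂ t := by
  letI : Algebra (MvPolynomial (Fin n) ℂ) S :=
    (MvPolynomial.aeval t : MvPolynomial (Fin n) ℂ →ₐ[ℂ] S).toRingHom.toAlgebra
  haveI : IsScalarTower ℂ (MvPolynomial (Fin n) ℂ) S :=
    IsScalarTower.of_algebraMap_eq fun c =>
      ((MvPolynomial.aeval t : MvPolynomial (Fin n) ℂ →ₐ[ℂ] S).commutes c).symm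
  haveI := het
  have hinj : Function.Injective (algebraMap (MvPolynomial (Fin n) ℂ) S) :=
    FaithfulSMul.algebraMap_injective _ _
  have hind : AlgebraicIndependent ℂ t := hinj
  obtain ⟨P⟩ := het.nonempty_standardEtalePresentation
  have hx : IsIntegral (MvPolynomial (Fin n) ℂ) P.x :=
    ⟨P.f, P.monic_f, by simpa [Polynomial.aeval_def] using P.hasMap.1⟩
  have hp : ∀ p : Polynomial (MvPolynomial (Fin n) ℂ),
      IsIntegral (MvPolynomial (Fin n) ℂ) (Polynomial.aeval P.x p) := fun p =>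
    .of_mem_of_fg _ hx.fg_adjoin_singleton _ (Polynomial.aeval_mem_adjoin_singleton _ _)
  have halg : Algebra.IsAlgebraic (MvPolynomial (Fin n) ℂ) S := ⟨fun s => by
    obtain ⟨p, k, h⟩ := P.exists_mul_aeval_x_g_pow_eq_aeval_x s
    refine IsAlgebraic.of_mul (y := Polynomial.aeval P.x P.g ^ k)
      (mem_nonZeroDivisors_of_ne_zero (P.hasMap.2.pow k).ne_zero) ((hp _).pow k).isAlgebraic ?_
    rw [mul_comm, h]
    exact (hp p).isAlgebraic⟩
  rw [hind.isTranscendenceBasis_iff_isAlgebraic]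
  refine ⟨fun s => ?_⟩
  refine (halg.isAlgebraic s).ringHom_of_comp_eq hind.aevalEquiv.toRingEquiv.toRingHom (RingHom.id S)
    hind.aevalEquiv.injective ?_
  ext c <;> simp [RingHom.algebraMap_toAlgebra]

end Crest.Agent.R271
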