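import Mathlib

/-! Row 271 (Fujita freeness): definitions. -/

set_option autoImplicit false

namespace Crest.Agent.R271

open MeasureTheory Filter Topology
open scoped ENNReal NNReal

section germ
variable {E : Type} [NormedAddCommGroup E] [NormedSpace ℂ E]

/-- the Levi form `∑ φ_{j k̄} v_j v̄_k`. -/
noncomputable def levi (φ : E → ℝ) (t v : E) : ℝ :=
  (fderiv ℝ (fderiv ℝ φ) t v v +
    fderiv ℝ (fderiv ℝ φ) t (Complex.I • v) (Complex.I • v)) / 4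

/-- `|∂φ(v)|²` for a real function `φ`. -/
noncomputable def gsq (φ : E → ℝ) (t v : E) : ℝ :=
  (fderiv ℝ φ t v ^ 2 + fderiv ℝ φ t (Complex.I • v) ^ 2) / 4

/-- `∂̄u(v)` (conjugate linear in `v`). -/
noncomputable def dbar (u : E → ℂ) (t v : E) : ℂ :=
  (fderiv ℝ u t v + Complex.I * fderiv ℝ u t (Complex.I • v)) / 2

/-- the germ of `N ≥ 0` at `t` is logarithmically plurisubharmonic. -/
structure LPAt (N : E → ℝ) (t : E) : Prop where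
  c2 : ContDiffAt ℝ 2 N t
  nonneg : 0 ≤ N t
  levi_nonneg : ∀ v, 0 ≤ levi N t v
  gsq_le : ∀ v, gsq N t v ≤ N t * levi N t v

end germ

/-- a Riemann domain over `E`: a space with a local homeomorphism to `E`, and the pulled back
measure. -/
structure RD (E Y : Type) [TopologicalSpace E] [MeasurableSpace E] (μ : Measure E)
    [TopologicalSpace Y] [MeasurableSpace Y] where
  π : Y → E
  ch : Y → OpenPartialHomeomorph Y E
  mem : ∀ y, y ∈ (ch y).source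
  coe : ∀ y, ⇑(ch y) = π
  ν : Measure Y
  lint : ∀ F : Y → ℝ≥0∞, Measurable F → ∫⁻ y, F y ∂ν = ∫⁻ t, ∑' y : π ⁻¹' {t}, F y ∂μ

/-- `E` as a Riemann domain over itself. -/
noncomputable def RD.triv {E : Type} [TopologicalSpace E] [MeasurableSpace E] (μ : Measure E) :
    RD E E μ where
  π := id
  ch _ := OpenPartialHomeomorph.refl E
  mem _ := Set.mem_univ _
  coe _ := rfl
  ν := μ
  lint F _ := by
    refine lintegral_congr fun t => ?_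
    exact (tsum_singleton t F).symm

namespace RD
variable {E Y : Type} [NormedAddCommGroup E] [NormedSpace ℂ E] [MeasurableSpace E] {μ : Measure E}
  [TopologicalSpace Y] [MeasurableSpace Y] (X : RD E Y μ)

/-- the local expression of `f` in the chart at `y`. -/
def loc {F : Type} (f : Y → F) (y : Y) : E → F := f ∘ (X.ch y).symm

/-- `f` is of class `C²` on `Ω`. -/
def C2 {F : Type} [NormedAddCommGroup F] [NormedSpace ℝ F] (Ω : Set Y) (f : Y → F) : Prop :=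
  ∀ y ∈ Ω, ContDiffAt ℝ 2 (X.loc f y) (X.π y)

/-- `f` is holomorphic on (the open set) `Ω`. -/
def Hol (Ω : Set Y) (f : Y → ℂ) : Prop :=
  ∀ y ∈ Ω, DifferentiableAt ℂ (X.loc f y) (X.π y)

/-- `φ` is `C²` and plurisubharmonic on `Ω`. -/
def Psh (Ω : Set Y) (φ : Y → ℝ) : Prop :=
  X.C2 Ω φ ∧ ∀ y ∈ Ω, ∀ v, 0 ≤ levi (X.loc φ y) (X.π y) v

/-- `N` is logarithmically plurisubharmonic on `Ω`. -/
def LP (Ω : Set Y) (N : Y → ℝ) : Prop := ∀ y ∈ Ω, LPAt (X.loc N y) (X.π y)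

/-- an admissible singular weight: a decreasing limit of positive `LP` functions. -/
def Adm (Ω : Set Y) (N : Y → ℝ) : Prop :=
  ∃ M : ℕ → Y → ℝ, (∀ j, X.LP Ω (M j)) ∧ (∀ j, ∀ y ∈ Ω, 0 < M j y) ∧
    (∀ y ∈ Ω, Antitone fun j => M j y) ∧ ∀ y ∈ Ω, Tendsto (fun j => M j y) atTop (𝓝 (N y))

/-- `Ω` is open and has a plurisubharmonic exhaustion function. -/
def Stein (Ω : Set Y) : Prop :=
  IsOpen Ω ∧ ∃ ϱ : Y → ℝ, X.Psh Ω ϱ ∧ ∀ c : ℝ, IsCompact {y ∈ Ω | ϱ y ≤ c}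

end RD

/-- the cut-off function: `1` on `(-∞, 1/2]`, `0` on `[1, ∞)`. -/
noncomputable def cut (s : ℝ) : ℝ := Real.smoothTransition (2 - 2 * s)

/-- `ω` is integrable near `z`. -/
def IntNear {Y : Type} [TopologicalSpace Y] [MeasurableSpace Y] (ν : Measure Y) (ω : Y → ℝ≥0∞)
    (z : Y) : Prop :=
  ∃ V ∈ 𝓝 z, ∫⁻ w in V, ω w ∂ν < ∞

/-- the weight `∑_{λ_i > 0} |g_i| ^ (2 / λ_i)`. -/
noncomputable def nw {Y ι : Type} [Fintype ι] (g : ι → Y → ℂ) (lam : ι → ℝ) (w : Y) : ℝ :=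
  ∑ i with 0 < lam i, ‖g i w‖ ^ (2 / lam i)

/-- the integrability exponent of the weight `nw g lam` at `z`. -/
noncomputable def ex {Y ι : Type} [TopologicalSpace Y] [MeasurableSpace Y] [Fintype ι]
    (ν : Measure Y) (g : ι → Y → ℂ) (lam : ι → ℝ) (z : Y) : ℝ≥0∞ :=
  ⨆ (c : ℝ≥0) (_ : IntNear ν (fun w => ENNReal.ofReal (nw g lam w) ^ (-(c : ℝ))) z), (c : ℝ≥0∞)

/-- a real valued valuation which is trivial on `ℂ` (the value at `0` is irrelevant). -/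
structure Val (S : Type) [CommRing S] [Algebra ℂ S] where
  v : S → ℝ
  nonneg : ∀ f, 0 ≤ v f
  mul : ∀ f g, f ≠ 0 → g ≠ 0 → v (f * g) = v f + v g
  add : ∀ f g, f ≠ 0 → g ≠ 0 → f + g ≠ 0 → min (v f) (v g) ≤ v (f + g)
  const : ∀ c : ℂ, c ≠ 0 → v (algebraMap ℂ S c) = 0

/-- `U` is a reduction of `W`. -/
def IsRed {S : Type} [CommRing S] [Algebra ℂ S] (U W : Submodule ℂ S) : Prop :=
  U ≤ W ∧ ∃ N : ℕ, W ^ (N + 1) ≤ W ^ N * U

/-- `V` is the linear system of a projective embedding by `a L`, on an open set `Spec S`; `V'` is a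
second one, by `a' L`. -/
structure ProjData (S : Type) [CommRing S] [Algebra ℂ S] (V : Submodule ℂ S) (a : ℕ) : Prop where
  fg : V.FG
  one : (1 : S) ∈ V
  a_pos : 1 ≤ a
  loc : ∃ j ∈ Algebra.adjoin ℂ (V : Set S), IsUnit j ∧
    ∀ f : S, ∃ m : ℕ, j ^ m * f ∈ Algebra.adjoin ℂ (V : Set S)
  cmp : ∃ (V' W : Submodule ℂ S) (a' : ℕ) (u : S), V'.FG ∧ W.FG ∧ V ≤ V' ∧ 1 ≤ a' ∧
    Nat.Coprime a a' ∧ IsUnit u ∧ IsRed (V ^ a') W ∧ IsRed (Submodule.span ℂ {u} * V' ^ a) W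

/-- the Hilbert function estimates. -/
structure HFData (S : Type) [CommRing S] [Algebra ℂ S] (V : Submodule ℂ S) (a n : ℕ) : Prop where
  upper : ∃ C : ℕ, ∀ k : ℕ, Module.finrank ℂ ↥(V ^ k) ≤ C * (k + 1) ^ n
  lower : ∀ k : ℕ, k ^ n ≤ n.factorial * Module.finrank ℂ ↥(V ^ k)
  sub : ∀ 𝔭 : Ideal S, 𝔭.IsPrime → ¬ 𝔭.IsMaximal → ∃ (d : ℕ) (w : Fin d → S), 1 ≤ d ∧ d ≤ n ∧
    (∀ l, w l ∈ V) ∧ IsTranscendenceBasis ℂ (fun l => Ideal.Quotient.mk 𝔭 (w l)) ∧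
    ∀ h : ℕ, a ^ d * (h - a ^ d) ^ d ≤ d.factorial *
      Module.finrank ℂ ↥((V ^ h).map (Ideal.Quotient.mkₐ ℂ 𝔭).toLinearMap)

/-- the hypotheses of the variational argument: `S` is a ring of holomorphic functions on `W ∋ z₀`. -/
structure CoreData {E : Type} [NormedAddCommGroup E] [NormedSpace ℂ E] [MeasurableSpace E]
    (μ : Measure E) (S : Type) [CommRing S] [Algebra ℂ S] (ev : S →ₐ[ℂ] (E → ℂ)) (W : Set E)
    (z₀ : E) (V : Submodule ℂ S) (a n : ℕ) : Prop where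
  ft : Algebra.FiniteType ℂ S
  isOpen : IsOpen W
  mem : z₀ ∈ W
  hol : ∀ f, DifferentiableOn ℂ (ev f) W
  fg : V.FG
  one : (1 : S) ∈ V
  a_pos : 1 ≤ a
  hf : HFData S V a n
  nz : ∀ f : S, f ≠ 0 → ∃ c : ℝ, 0 < c ∧ IntNear μ (fun w => ‖ev f w‖ₑ ^ (-(2 * c))) z₀
  izumi : ∃ C₀ : ℝ, 0 ≤ C₀ ∧ ∀ k : ℕ, ∀ s ∈ V ^ k, s ≠ 0 → ∀ c : ℝ, 0 < c → c * C₀ * k < 1 →
    IntNear μ (fun w => ‖ev s w‖ₑ ^ (-(2 * c))) z₀
  bsp : ∀ z ∈ W, z ≠ z₀ → ∀ (ι : Type) [Fintype ι] (g : ι → S) (lam : ι → ℝ) (c : ℝ), 0 < c →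
    IntNear μ (fun w => ENNReal.ofReal (nw (fun i => ev (g i)) lam w) ^ (-c)) z →
    ∃ f : S, ev f z = 1 ∧ IntNear μ
      (fun w => ‖ev f w‖ₑ ^ 2 * ENNReal.ofReal (nw (fun i => ev (g i)) lam w) ^ (-c)) z₀
  den : ∀ 𝔭 : Ideal S, 𝔭.IsPrime → (∀ f ∈ 𝔭, ev f z₀ = 0) → ∀ Δ ∉ 𝔭,
    ∃ᶠ z in 𝓝 z₀, (∀ f ∈ 𝔭, ev f z = 0) ∧ ev Δ z ≠ 0

/-- an affine open subset of a variety with function field `K` which is standard étale over affine
space. -/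
structure Chart (K : Type) [Field K] [Algebra ℂ K] (n : ℕ) where
  S : Subalgebra ℂ K
  t : Fin n → S
  frac : ∀ f : K, ∃ p q : S, (q : K) ≠ 0 ∧ f * q = p
  et : @Algebra.IsStandardEtale (MvPolynomial (Fin n) ℂ) S _ _
    (MvPolynomial.aeval t : MvPolynomial (Fin n) ℂ →ₐ[ℂ] S).toRingHom.toAlgebra

end Crest.Agent.R271
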