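import Crest.Agent.R271.Defs

/-! Row 271, part E: charts and Kähler differentials. -/

set_option autoImplicit false

namespace Crest.Agent.R271

variable {K : Type} [Field K] [Algebra ℂ K] {n : ℕ}

theorem EC_basis (c : Chart K n) : ∃ b : Module.Basis (Fin n) c.S (Ω[c.S⁄ℂ]),
    ∀ i, b i = KaehlerDifferential.D ℂ c.S (c.t i) := by
  let : Algebra (MvPolynomial (Fin n) ℂ) c.S :=
    (MvPolynomial.aeval c.t : MvPolynomial (Fin n) ℂ →ₐ[ℂ] c.S).toRingHom.toAlgebra
  have : IsScalarTower ℂ (MvPolynomial (Fin n) ℂ) c.S := IsScalarTower.of_algebraMap_eq fun x =>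
    ((MvPolynomial.aeval c.t : MvPolynomial (Fin n) ℂ →ₐ[ℂ] c.S).commutes x).symm
  have := c.et
  refine ⟨(KaehlerDifferential.isBaseChange_of_formallyEtale ℂ (MvPolynomial (Fin n) ℂ) c.S).basis
    (KaehlerDifferential.mvPolynomialBasis ℂ (Fin n)), fun i => ?_⟩
  rw [IsBaseChange.basis_apply, KaehlerDifferential.mvPolynomialBasis_apply,
    KaehlerDifferential.map_D]
  congr 1
  exact MvPolynomial.aeval_X c.t i

theorem EC_finiteType (c : Chart K n) : Algebra.FiniteType ℂ c.S := by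
  let : Algebra (MvPolynomial (Fin n) ℂ) c.S :=
    (MvPolynomial.aeval c.t : MvPolynomial (Fin n) ℂ →ₐ[ℂ] c.S).toRingHom.toAlgebra
  have : IsScalarTower ℂ (MvPolynomial (Fin n) ℂ) c.S := IsScalarTower.of_algebraMap_eq fun x =>
    ((MvPolynomial.aeval c.t : MvPolynomial (Fin n) ℂ →ₐ[ℂ] c.S).commutes x).symm
  have := c.et
  exact Algebra.FiniteType.trans (S := MvPolynomial (Fin n) ℂ) inferInstance inferInstance

theorem EC_frac (c : Chart K n) : IsFractionRing c.S K := by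
  refine IsFractionRing.of_field _ _ fun z => ?_
  obtain ⟨p, q, hq, h⟩ := c.frac z
  exact ⟨p, q, (eq_div_iff hq).2 h⟩

/-- `K` is formally étale over `ℂ[t]`. -/
theorem Chart.exists_basis (c : Chart K n) : ∃ b : Module.Basis (Fin n) K (Ω[K⁄ℂ]),
    ∀ i, b i = KaehlerDifferential.D ℂ K (c.t i) := by
  obtain ⟨b, hb⟩ := EC_basis c
  have := EC_frac c
  have := Algebra.FormallyEtale.of_isLocalization (Rₘ := K) (nonZeroDivisors c.S)
  refine ⟨(KaehlerDifferential.isBaseChange_of_formallyEtale ℂ c.S K).basis b, fun i => ?_⟩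
  rw [IsBaseChange.basis_apply, hb, KaehlerDifferential.map_D]
  rfl

/-- `Ω[c.S⁄ℂ]` is spanned by the `d t i` (unramified); `φ b * r = φ s` gives
`φ b • d r = d (φ s) - r • d (φ b)`. -/
theorem Chart.span_top (c : Chart K n) {R : Type} [CommRing R] [Algebra ℂ R] (φ : c.S →ₐ[ℂ] R)
    (h : ∀ r : R, ∃ b s : c.S, IsUnit (φ b) ∧ φ b * r = φ s) :
    Submodule.span R (Set.range fun i => KaehlerDifferential.D ℂ R (φ (c.t i))) = ⊤ := by
  obtain ⟨b, hb⟩ := EC_basis c
  let : Algebra c.S R := φ.toRingHom.toAlgebra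
  have : IsScalarTower ℂ c.S R := IsScalarTower.of_algebraMap_eq fun x => (φ.commutes x).symm
  have h1 : ∀ s : c.S, KaehlerDifferential.D ℂ R (φ s) ∈
      Submodule.span R (Set.range fun i => KaehlerDifferential.D ℂ R (φ (c.t i))) := by
    intro s
    have e1 : ∀ s : c.S, KaehlerDifferential.D ℂ R (φ s)
        = KaehlerDifferential.map ℂ ℂ c.S R (KaehlerDifferential.D ℂ c.S s) := fun s =>
      (KaehlerDifferential.map_D ℂ ℂ c.S R s).symm
    rw [e1, ← b.sum_repr (KaehlerDifferential.D ℂ c.S s), map_sum]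
    refine Submodule.sum_mem _ fun i _ => ?_
    rw [map_smul, hb, ← e1]
    exact Submodule.smul_of_tower_mem _ _ (Submodule.subset_span ⟨i, rfl⟩)
  rw [eq_top_iff, ← KaehlerDifferential.span_range_derivation, Submodule.span_le]
  rintro _ ⟨r, rfl⟩
  obtain ⟨u, s, hu, hs⟩ := h r
  have h2 : φ u • KaehlerDifferential.D ℂ R r
      = KaehlerDifferential.D ℂ R (φ s) - r • KaehlerDifferential.D ℂ R (φ u) := by
    rw [← hs, Derivation.leibniz, add_sub_cancel_right]
  refine (Submodule.smul_mem_iff_of_isUnit _ hu).1 ?_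
  rw [h2]
  exact Submodule.sub_mem _ (h1 s) (Submodule.smul_mem _ _ (h1 u))

/-- a point of the chart in the closure of a given prime (Nullstellensatz). -/
theorem Chart.exists_pt (c : Chart K n) {R : Subalgebra ℂ K} [IsLocalRing R] (h : c.S ≤ R) :
    ∃ y : c.S →ₐ[ℂ] ℂ, ∀ f : c.S, y f ≠ 0 → (f : K) ≠ 0 ∧ (f : K)⁻¹ ∈ R := by
  have := EC_finiteType c
  have hne : (IsLocalRing.maximalIdeal R).comap (Subalgebra.inclusion h) ≠ ⊤ :=
    Ideal.IsPrime.ne_top inferInstance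
  obtain ⟨m, hm, hle⟩ := Ideal.exists_le_maximal _ hne
  let := Ideal.Quotient.field m
  have := finite_of_finite_type_of_isJacobsonRing ℂ (c.S ⧸ m)
  let e : ℂ ≃ₐ[ℂ] (c.S ⧸ m) := AlgEquiv.ofBijective (Algebra.ofId ℂ (c.S ⧸ m))
    IsAlgClosed.algebraMap_bijective_of_isIntegral
  refine ⟨(e.symm : (c.S ⧸ m) →ₐ[ℂ] ℂ).comp (Ideal.Quotient.mkₐ ℂ m), fun f hf => ?_⟩
  have h1 : f ∉ m := fun hfm => hf (by
    simp only [AlgHom.comp_apply, Ideal.Quotient.mkₐ_eq_mk, Ideal.Quotient.eq_zero_iff_mem.2 hfm,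
      map_zero])
  have h2 : IsUnit (Subalgebra.inclusion h f) := by
    by_contra hu
    exact h1 (hle ((IsLocalRing.mem_maximalIdeal _).2 hu))
  obtain ⟨g, hg⟩ := h2.exists_right_inv
  have h3 : (f : K) * g = 1 := congrArg Subtype.val hg
  refine ⟨left_ne_zero_of_mul_eq_one h3, ?_⟩
  rw [← eq_inv_of_mul_eq_one_right h3]
  exact g.2

end Crest.Agent.R271
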