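import Crest.Agent.R271.EDefs

/-! Row 271, part E: localisations inside `K` and charts. -/

set_option autoImplicit false

namespace Crest.Agent.R271

variable {K : Type} [Field K] [Algebra ℂ K] {n : ℕ}

theorem ELoc.refl (B : Subalgebra ℂ K) : ELoc B B := by
  exact ⟨le_rfl, fun f hf => ⟨1, B.one_mem, one_ne_zero, by rw [inv_one]; exact B.one_mem,
    by rwa [mul_one]⟩⟩

theorem ELoc.trans {A B C : Subalgebra ℂ K} (h : ELoc A B) (h' : ELoc B C) : ELoc A C := by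
  refine ⟨h.1.trans h'.1, fun f hf => ?_⟩
  obtain ⟨q, hq, hq0, hqi, hfq⟩ := h'.2 f hf
  obtain ⟨r, hr, hr0, hri, hqr⟩ := h.2 q hq
  obtain ⟨u, hu, hu0, hui, hfu⟩ := h.2 _ hfq
  refine ⟨q * r * u, A.mul_mem hqr hu, mul_ne_zero (mul_ne_zero hq0 hr0) hu0, ?_, ?_⟩
  · rw [mul_inv, mul_inv]
    exact C.mul_mem (C.mul_mem hqi (h'.1 hri)) (h'.1 hui)
  · convert A.mul_mem hfu hr using 1
    ring

theorem ELoc.mono {B B' R : Subalgebra ℂ K} (h : ELoc B R) (hB : B ≤ B') (hR : B' ≤ R) :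
    ELoc B' R := by
  refine ⟨hR, fun f hf => ?_⟩
  obtain ⟨q, hq, hq0, hqi, hfq⟩ := h.2 f hf
  exact ⟨q, hB hq, hq0, hqi, hB hfq⟩

/-- common denominators. -/
theorem ELoc.den {B R : Subalgebra ℂ K} (h : ELoc B R) (F : Finset K) (hF : ∀ f ∈ F, f ∈ R) :
    ∃ q ∈ B, q ≠ 0 ∧ q⁻¹ ∈ R ∧ ∀ f ∈ F, f * q ∈ B := by
  classical
  induction F using Finset.induction_on with
  | empty => exact ⟨1, B.one_mem, one_ne_zero, by rw [inv_one]; exact R.one_mem, by simp⟩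
  | insert a F _ ih =>
    obtain ⟨q, hq, hq0, hqi, hfq⟩ := ih fun f hf => hF f (Finset.mem_insert_of_mem hf)
    obtain ⟨r, hr, hr0, hri, har⟩ := h.2 a (hF a (Finset.mem_insert_self _ _))
    refine ⟨q * r, B.mul_mem hq hr, mul_ne_zero hq0 hr0, by rw [mul_inv]; exact R.mul_mem hqi hri,
      fun f hf => ?_⟩
    rcases Finset.mem_insert.1 hf with rfl | hf
    · convert B.mul_mem har hq using 1
      ring
    · rw [← mul_assoc]
      exact B.mul_mem (hfq f hf) hr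

/-- `B[1/g]` inside `K`. -/
def Eaway (B : Subalgebra ℂ K) (g : K) (hg : g ∈ B) : Subalgebra ℂ K where
  carrier := {f | ∃ m : ℕ, g ^ m * f ∈ B}
  mul_mem' := by
    rintro f f' ⟨m, hm⟩ ⟨m', hm'⟩
    exact ⟨m + m', by convert B.mul_mem hm hm' using 1; ring⟩
  add_mem' := by
    rintro f f' ⟨m, hm⟩ ⟨m', hm'⟩
    exact ⟨m + m', by
      convert B.add_mem (B.mul_mem (B.pow_mem hg m') hm) (B.mul_mem (B.pow_mem hg m) hm') using 1
      ring⟩
  algebraMap_mem' c := ⟨0, by simp⟩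

theorem mem_Eaway {B : Subalgebra ℂ K} {g : K} {hg : g ∈ B} {f : K} :
    f ∈ Eaway B g hg ↔ ∃ m : ℕ, g ^ m * f ∈ B := Iff.rfl

theorem le_Eaway (B : Subalgebra ℂ K) (g : K) (hg : g ∈ B) : B ≤ Eaway B g hg :=
  fun f hf => ⟨0, by simpa using hf⟩

theorem inv_mem_Eaway (B : Subalgebra ℂ K) (g : K) (hg : g ∈ B) : g⁻¹ ∈ Eaway B g hg := by
  refine ⟨1, ?_⟩
  rcases eq_or_ne g 0 with rfl | h0
  · simp
  · rw [pow_one, mul_inv_cancel₀ h0]
    exact B.one_mem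

theorem Eaway_le {B R : Subalgebra ℂ K} {g : K} (hg : g ∈ B) (h0 : g ≠ 0) (hB : B ≤ R)
    (hi : g⁻¹ ∈ R) : Eaway B g hg ≤ R := by
  rintro f ⟨m, hm⟩
  have := R.mul_mem (R.pow_mem hi m) (hB hm)
  rwa [← mul_assoc, ← mul_pow, inv_mul_cancel₀ h0, one_pow, one_mul] at this

theorem Eaway_fg {B : Subalgebra ℂ K} {g : K} (hg : g ∈ B) (h0 : g ≠ 0) (hB : B.FG) :
    (Eaway B g hg).FG := by
  classical
  obtain ⟨T, hT⟩ := hB
  refine ⟨insert g⁻¹ T, le_antisymm (Algebra.adjoin_le ?_) (Eaway_le hg h0 ?_ ?_)⟩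
  · intro f hf
    rcases Finset.mem_insert.1 (Finset.mem_coe.1 hf) with rfl | hf
    · exact inv_mem_Eaway B g hg
    · exact le_Eaway B g hg (hT ▸ Algebra.subset_adjoin hf)
  · rw [← hT]
    exact Algebra.adjoin_mono (Finset.coe_subset.2 (Finset.subset_insert _ _))
  · exact Algebra.subset_adjoin (Finset.mem_coe.2 (Finset.mem_insert_self _ _))

theorem Eaway_isLocalization (B : Subalgebra ℂ K) (g : B) (h0 : g ≠ 0) :
    @IsLocalization.Away B _ g (Eaway B g g.2) _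
      (Subalgebra.inclusion (le_Eaway B g g.2)).toRingHom.toAlgebra := by
  let _ : Algebra B (Eaway B g g.2) := (Subalgebra.inclusion (le_Eaway B g g.2)).toRingHom.toAlgebra
  have h0' : (g : K) ≠ 0 := fun h => h0 (Subtype.ext h)
  refine IsLocalization.Away.mk g ?_ ?_ ?_
  · exact IsUnit.of_mul_eq_one ⟨(g : K)⁻¹, inv_mem_Eaway B g g.2⟩
      (Subtype.ext (mul_inv_cancel₀ h0'))
  · rintro ⟨f, m, hm⟩
    exact ⟨m, ⟨_, hm⟩, Subtype.ext (mul_comm _ _)⟩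
  · intro a b hab
    exact ⟨0, by rw [Subalgebra.inclusion_injective (le_Eaway B g g.2) hab]⟩

/-- étale algebras are of finite type. -/
theorem Chart.fg (c : Chart K n) : c.S.FG := by
  let _ : Algebra (MvPolynomial (Fin n) ℂ) c.S :=
    (MvPolynomial.aeval c.t : MvPolynomial (Fin n) ℂ →ₐ[ℂ] c.S).toRingHom.toAlgebra
  have := c.et
  have : IsScalarTower ℂ (MvPolynomial (Fin n) ℂ) c.S :=
    IsScalarTower.of_algebraMap_eq' (MvPolynomial.aeval c.t).comp_algebraMap.symm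
  have : Algebra.FiniteType ℂ c.S :=
    Algebra.FiniteType.trans (S := MvPolynomial (Fin n) ℂ) inferInstance inferInstance
  exact (Subalgebra.fg_iff_finiteType _).2 this

theorem E_chart_of_smooth_aux (B : Subalgebra ℂ K) (hfrac : ∀ f : K, ∃ q : B, q ≠ 0 ∧ f * q ∈ B)
    (g : B) (φ : MvPolynomial (Fin n) ℂ →ₐ[ℂ] B)
    (h : @Algebra.IsStandardEtale (MvPolynomial (Fin n) ℂ) (Eaway B g g.2) _ _
      ((Subalgebra.inclusion (le_Eaway B g g.2)).comp φ).toRingHom.toAlgebra) :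
    ∃ c : Chart K n, c.S = Eaway B g g.2 ∧ ∀ i, (c.t i : K) = φ (MvPolynomial.X i) := by
  refine ⟨⟨Eaway B g g.2, fun i => Subalgebra.inclusion (le_Eaway B g g.2) (φ (MvPolynomial.X i)),
    fun f => ?_, ?_⟩, rfl, fun i => rfl⟩
  · obtain ⟨q, hq, hf⟩ := hfrac f
    exact ⟨⟨_, le_Eaway B g g.2 hf⟩, ⟨q, le_Eaway B g g.2 q.2⟩, fun h => hq (Subtype.ext h), rfl⟩
  · have e : (MvPolynomial.aeval fun i => Subalgebra.inclusion (le_Eaway B g g.2)
        (φ (MvPolynomial.X i))) = (Subalgebra.inclusion (le_Eaway B g g.2)).comp φ :=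
      MvPolynomial.algHom_ext fun i => by simp
    rw [e]
    exact h

/-- `Algebra.IsStandardEtale.of_isLocalizationAway`. -/
theorem Chart.away (c : Chart K n) {g : K} (hg : g ∈ c.S) (h0 : g ≠ 0) :
    ∃ c' : Chart K n, c'.S = Eaway c.S g hg ∧ ∀ i, (c'.t i : K) = c.t i := by
  obtain ⟨c', h1, h2⟩ := E_chart_of_smooth_aux c.S (fun f => by
    obtain ⟨p, q, hq, h⟩ := c.frac f
    exact ⟨q, fun h0 => hq (congrArg Subtype.val h0), h ▸ p.2⟩) ⟨g, hg⟩ (MvPolynomial.aeval c.t) (by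
      let _ : Algebra (MvPolynomial (Fin n) ℂ) c.S :=
        (MvPolynomial.aeval c.t : MvPolynomial (Fin n) ℂ →ₐ[ℂ] c.S).toRingHom.toAlgebra
      let _ : Algebra c.S (Eaway c.S g hg) :=
        (Subalgebra.inclusion (le_Eaway c.S g hg)).toRingHom.toAlgebra
      let _ : Algebra (MvPolynomial (Fin n) ℂ) (Eaway c.S g hg) :=
        ((Subalgebra.inclusion (le_Eaway c.S g hg)).comp
          (MvPolynomial.aeval c.t)).toRingHom.toAlgebra
      have := c.et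
      have : IsScalarTower (MvPolynomial (Fin n) ℂ) c.S (Eaway c.S g hg) :=
        IsScalarTower.of_algebraMap_eq' rfl
      have := Eaway_isLocalization c.S ⟨g, hg⟩ fun h => h0 (congrArg Subtype.val h)
      exact Algebra.IsStandardEtale.of_isLocalizationAway (⟨g, hg⟩ : c.S))
  exact ⟨c', h1, fun i => by rw [h2, MvPolynomial.aeval_X]⟩

/-- `exists_etale_mvPolynomial`, `Algebra.IsEtaleAt.exists_isStandardEtale`,
`Algebra.IsStandardEtale.of_equiv`. -/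
theorem E_chart_of_smooth (B : Subalgebra ℂ K) (hfrac : ∀ f : K, ∃ q : B, q ≠ 0 ∧ f * q ∈ B)
    [Algebra.IsStandardSmoothOfRelativeDimension n ℂ B] (𝔭 : Ideal B) [𝔭.IsPrime] :
    ∃ g : B, g ∉ 𝔭 ∧ ∃ c : Chart K n, c.S = Eaway B g g.2 := by
  obtain ⟨φ, hφ⟩ := Algebra.IsStandardSmoothOfRelativeDimension.exists_etale_mvPolynomial n ℂ B
  let _ : Algebra (MvPolynomial (Fin n) ℂ) B := φ.toRingHom.toAlgebra
  have : Algebra.Etale (MvPolynomial (Fin n) ℂ) B := hφ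
  obtain ⟨g, hg, H⟩ := Algebra.IsEtaleAt.exists_isStandardEtale (R := MvPolynomial (Fin n) ℂ) 𝔭
  have h0 : g ≠ 0 := fun h => hg (h ▸ 𝔭.zero_mem)
  obtain ⟨c, hc, -⟩ := E_chart_of_smooth_aux B hfrac g φ (by
    let _ : Algebra B (Eaway B g g.2) :=
      (Subalgebra.inclusion (le_Eaway B g g.2)).toRingHom.toAlgebra
    let _ : Algebra (MvPolynomial (Fin n) ℂ) (Eaway B g g.2) :=
      ((Subalgebra.inclusion (le_Eaway B g g.2)).comp φ).toRingHom.toAlgebra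
    have : IsScalarTower (MvPolynomial (Fin n) ℂ) B (Eaway B g g.2) :=
      IsScalarTower.of_algebraMap_eq' rfl
    have := Eaway_isLocalization B g h0
    exact Algebra.IsStandardEtale.of_equiv ((IsLocalization.algEquiv (Submonoid.powers g)
      (Localization.Away g) (Eaway B g g.2)).restrictScalars (MvPolynomial (Fin n) ℂ)))
  exact ⟨g, hg, c, hc⟩

/-- a common principal localisation.  `B ∪ F ⊆ S[1/g₁]` with `g₁ ∈ S` a unit of `R`; `S[1/g₁] ⊆ B[1/j]`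
with `j ∈ B` a unit of `R`; `g₁ ^ m j = j₂ ∈ S`; take `S' = S[1/(g₁ j₂)] = B[1/j]`. -/
theorem Chart.common (c : Chart K n) {B R : Subalgebra ℂ K} (hB : B.FG) (hBR : ELoc B R)
    (hc : ELoc c.S R) (F : Finset K) (hF : ∀ f ∈ F, f ∈ R) :
    ∃ (c' : Chart K n) (j : K), (∀ i, (c'.t i : K) = c.t i) ∧ ELoc c'.S R ∧ B ≤ c'.S ∧
      (∀ f ∈ F, f ∈ c'.S) ∧ j ∈ B ∧ j ≠ 0 ∧ j⁻¹ ∈ c'.S ∧ ∀ f ∈ c'.S, ∃ m : ℕ, j ^ m * f ∈ B := by
  classical
  obtain ⟨T, hT⟩ := hB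
  have hTB : ∀ f ∈ T, f ∈ B := fun f hf => hT ▸ Algebra.subset_adjoin hf
  obtain ⟨g, hg, hg0, hgi, hfg⟩ := hc.den (T ∪ F) fun f hf => by
    rcases Finset.mem_union.1 hf with hf | hf
    · exact hBR.1 (hTB f hf)
    · exact hF f hf
  obtain ⟨c₁, hc₁, ht₁⟩ := c.away hg hg0
  have h1 : ∀ f ∈ T ∪ F, f ∈ c₁.S := fun f hf => by
    rw [hc₁]
    exact ⟨1, by rw [pow_one, mul_comm]; exact hfg f hf⟩
  have hB1 : B ≤ c₁.S := by
    rw [← hT]
    exact Algebra.adjoin_le fun f hf => h1 f (Finset.mem_union_left _ hf)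
  have h1R : c₁.S ≤ R := by rw [hc₁]; exact Eaway_le hg hg0 hc.1 hgi
  have hS1 : c.S ≤ c₁.S := by rw [hc₁]; exact le_Eaway _ _ _
  obtain ⟨T₁, hT₁⟩ := c₁.fg
  obtain ⟨j, hj, hj0, hji, hfj⟩ := hBR.den T₁ fun f hf => h1R (hT₁ ▸ Algebra.subset_adjoin hf)
  have h1B : c₁.S ≤ Eaway B j hj := by
    rw [← hT₁]
    exact Algebra.adjoin_le fun f hf => ⟨1, by rw [pow_one, mul_comm]; exact hfj f hf⟩
  obtain ⟨c', hc', ht'⟩ := c₁.away (hB1 hj) hj0
  have h1' : c₁.S ≤ c'.S := by rw [hc']; exact le_Eaway _ _ _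
  refine ⟨c', j, fun i => (ht' i).trans (ht₁ i), hc.mono (hS1.trans h1') ?_, hB1.trans h1',
    fun f hf => h1' (h1 f (Finset.mem_union_right _ hf)), hj, hj0, ?_, fun f hf => ?_⟩
  · rw [hc']; exact Eaway_le _ hj0 h1R hji
  · rw [hc']; exact inv_mem_Eaway _ _ _
  · rw [hc'] at hf
    exact Eaway_le _ hj0 h1B (inv_mem_Eaway B j hj) hf

theorem Chart.shrink (c : Chart K n) {R : Subalgebra ℂ K} (hc : ELoc c.S R) (F : Finset K)
    (hF : ∀ f ∈ F, f ∈ R) : ∃ c' : Chart K n, ELoc c'.S R ∧ ∀ f ∈ F, f ∈ c'.S := by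
  obtain ⟨c', -, -, h1, -, h2, -⟩ := c.common c.fg hc hc F hF
  exact ⟨c', h1, h2⟩

end Crest.Agent.R271
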