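import Crest.Agent.R271.Defs

/-! Row 271, part E: an abstract model of a smooth proper variety with function field `K`. -/

set_option autoImplicit false

namespace Crest.Agent.R271

section
variable {K : Type} [Field K] [Algebra ℂ K]

/-- `R` is a localisation of `B` inside `K`. -/
def ELoc (B R : Subalgebra ℂ K) : Prop :=
  B ≤ R ∧ ∀ f ∈ R, ∃ q ∈ B, q ≠ 0 ∧ q⁻¹ ∈ R ∧ f * q ∈ B

end

/-- local rings, prime divisors, orders of vanishing and affine open sets. -/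
structure EDat (K : Type) [Field K] [Algebra ℂ K] (X : Type) where
  O : X → Subalgebra ℂ K
  P : X → Prop
  ord : K → X → ℤ
  Aff : Set X → Prop

namespace EDat
variable {K : Type} [Field K] [Algebra ℂ K] {X : Type} [TopologicalSpace X] (M : EDat K X)

/-- prime divisors. -/
abbrev PD : Type := {z : X // M.P z}

/-- `f` is a nonzero section of `a L`. -/
def S (L : M.PD → ℤ) (a : ℕ) (f : K) : Prop :=
  f ≠ 0 ∧ ∀ z : M.PD, 0 ≤ M.ord f z.1 + a * L z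

/-- the rational section `f` of `a L` generates at `x`. -/
def N (L : M.PD → ℤ) (a : ℕ) (f : K) (x : X) : Prop :=
  ∀ z : M.PD, z.1 ⤳ x → M.ord f z.1 + a * L z = 0

/-- a base point free family of sections of `a L`. -/
def Fam (L : M.PD → ℤ) (a : ℕ) (T : Finset K) : Prop :=
  (∀ s ∈ T, M.S L a s) ∧ ∀ y, ∃ s ∈ T, M.N L a s y

/-- a base point free family of sections of `a L` with affine non-vanishing loci. -/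
def AFam (L : M.PD → ℤ) (a : ℕ) (T : Finset K) : Prop :=
  (∀ s ∈ T, M.S L a s ∧ M.Aff {y | M.N L a s y}) ∧ ∀ y, ∃ s ∈ T, M.N L a s y

/-- `L` is ample. -/
def Ample (L : M.PD → ℤ) : Prop :=
  ∀ x, ∃ a : ℕ, 0 < a ∧ ∃ s, M.S L a s ∧ M.N L a s x ∧ M.Aff {y | M.N L a s y}

/-- `φ` identifies `U` with the spectrum of `B`. -/
structure IsSp (U : Set X) (B : Subalgebra ℂ K) (φ : X → Ideal B) : Prop where
  frac : ∀ f : K, ∃ q : B, q ≠ 0 ∧ f * q ∈ B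
  prime : ∀ y ∈ U, (φ y).IsPrime
  inj : Set.InjOn φ U
  surj : ∀ 𝔭 : Ideal B, 𝔭.IsPrime → ∃ y ∈ U, φ y = 𝔭
  mem : ∀ y ∈ U, ∀ f : K, f ∈ M.O y ↔ ∃ q : B, q ∉ φ y ∧ f * q ∈ B
  spec : ∀ y ∈ U, ∀ z ∈ U, z ⤳ y ↔ φ z ≤ φ y
  ht : ∀ y ∈ U, M.P y ↔ (φ y).height = 1

/-- the facts which come directly from the scheme. -/
structure Pre (n : ℕ) : Prop where
  cpt : CompactSpace X
  ord_mul : ∀ {f g : K} (z : X), f ≠ 0 → g ≠ 0 → M.ord (f * g) z = M.ord f z + M.ord g z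
  ord_spec : ∀ {z : X}, M.P z → ∀ ϖ ∈ M.O z, ϖ ≠ 0 → ϖ⁻¹ ∉ M.O z →
    (∀ f ∈ M.O z, f⁻¹ ∉ M.O z → f / ϖ ∈ M.O z) →
    M.ord ϖ z = 1 ∧ ∀ f : K, f ≠ 0 → (0 ≤ M.ord f z ↔ f ∈ M.O z)
  aff : ∀ {U : Set X}, M.Aff U → U.Nonempty →
    ∃ (B : Subalgebra ℂ K) (φ : X → Ideal B), B.FG ∧ M.IsSp U B φ
  sm : ∀ x, ∃ (U : Set X) (B : Subalgebra ℂ K) (φ : X → Ideal B), IsOpen U ∧ x ∈ U ∧
    M.IsSp U B φ ∧ Algebra.IsStandardSmoothOfRelativeDimension n ℂ B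
  val : ∀ A : ValuationSubring K, (∀ c : ℂ, algebraMap ℂ K c ∈ A) → ∃ ξ, ∀ f ∈ M.O ξ, f ∈ A

/-- the facts used in the proof of the theorem. -/
structure Mod (n : ℕ) : Prop where
  cpt : CompactSpace X
  ord_mul : ∀ {f g : K} (z : X), f ≠ 0 → g ≠ 0 → M.ord (f * g) z = M.ord f z + M.ord g z
  ord_nonneg : ∀ {z : X}, M.P z → ∀ {f : K}, f ≠ 0 → (0 ≤ M.ord f z ↔ f ∈ M.O z)
  P_eq : ∀ {z z' : X}, M.P z → M.P z' → z' ⤳ z → z' = z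
  spec : ∀ {z x : X}, z ⤳ x → ELoc (M.O x) (M.O z)
  hartogs : ∀ {x : X} {f : K}, f ≠ 0 → (∀ z, M.P z → z ⤳ x → 0 ≤ M.ord f z) → f ∈ M.O x
  princ : ∀ {x z : X}, M.P z → z ⤳ x →
    ∃ p : K, p ≠ 0 ∧ M.ord p z = 1 ∧ ∀ z', M.P z' → z' ⤳ x → z' ≠ z → M.ord p z' = 0
  fin : ∀ {f : K}, f ≠ 0 → {z | M.P z ∧ M.ord f z ≠ 0}.Finite
  val : ∀ A : ValuationSubring K, (∀ c : ℂ, algebraMap ℂ K c ∈ A) → ∃ ξ, ∀ f ∈ M.O ξ, f ∈ A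
  pt : ∀ x, ∃ x₀, x ⤳ x₀ ∧ ∃ ev : M.O x₀ →ₐ[ℂ] ℂ, ∀ f : M.O x₀, ev f ≠ 0 → (f : K)⁻¹ ∈ M.O x₀
  aff : ∀ {U : Set X}, M.Aff U → U.Nonempty → ∃ B : Subalgebra ℂ K, B.FG ∧
    (∀ y ∈ U, ELoc B (M.O y)) ∧ (∀ f : K, (∀ y ∈ U, f ∈ M.O y) → f ∈ B) ∧
    ∀ y ∈ U, ∀ z ∈ U, ¬ z ⤳ y → ∃ h ∈ B, h ≠ 0 ∧ h⁻¹ ∈ M.O y ∧ h⁻¹ ∉ M.O z
  chart : ∀ y, ∃ c : Chart K n, ELoc c.S (M.O y)

end EDat

end Crest.Agent.R271
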