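import Crest.Agent.R271.EP
import Crest.Agent.R271.EC
import Crest.Agent.R271.Ana

/-! Row 271, part E: Fujita freeness in a model. -/

set_option autoImplicit false

namespace Crest.Agent.R271

open Filter Topology

namespace Geo
variable {K : Type} [Field K] [Algebra ℂ K] {P : Type} [TopologicalSpace P] {Z : Type} {n : ℕ}
  (G : Geo K P Z n)

theorem bpf (hn : 1 ≤ n) {L D : Z →₀ ℤ} (hL : G.Ample L)
    {coef : Module.Basis (Fin n) K (Ω[K⁄ℂ]) → K}
    (hlaw : ∀ b b', coef b' * (b.toMatrix b').det = coef b) (h0 : ∃ b, coef b ≠ 0)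
    (hD : G.Can D coef) {m : ℕ} (hm : n + 1 ≤ m) (x : P) :
    ∃ f, G.Sec (D + m • L) f ∧ G.NV (D + m • L) f x := by
  obtain ⟨c, V, a, σ, l, hV, l0, hcx, hat, hlx, hsec⟩ := G.proj hL x
  have := G.isLocal x
  obtain ⟨y, hy⟩ := c.exists_pt hcx
  obtain ⟨f, hf1, hpole⟩ := ana hn c y hV σ hm
  obtain ⟨f0, hfi⟩ := hy f (by rw [hf1]; exact one_ne_zero)
  obtain ⟨b, hb⟩ := c.exists_basis
  have hne : ∀ b, coef b ≠ 0 := fun b => by
    obtain ⟨b₀, h0⟩ := h0
    exact left_ne_zero_of_mul (by rwa [hlaw b₀ b])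
  have lm : l ^ m ≠ 0 := pow_ne_zero _ l0
  have hord : ∀ z, G.ord z (f * l ^ m / coef b) + (D + m • L) z =
      G.ord z f - G.ord z (coef b) + D z + m * (G.ord z l + L z) := fun z => by
    rw [G.ord_div z (mul_ne_zero f0 lm) (hne b), G.ord_mul z _ _ f0 lm, G.ord_pow z l0]
    simp only [Finsupp.add_apply, Finsupp.smul_apply, nsmul_eq_mul]
    ring
  refine ⟨f * l ^ m / coef b, ⟨div_ne_zero (mul_ne_zero f0 lm) (hne b), fun z => ?_⟩,
    fun z hz => ?_⟩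
  swap
  · rw [hord, hlx z hz, hD z c b (hat z hz) hb, G.ord_eq_zero hz f0 (hcx f.2) hfi]
    simp
  obtain ⟨-, -, -, -, U, hU, hzU, -⟩ := hL (G.pt z)
  obtain ⟨t, ht⟩ := G.chart U hU _ hzU
  obtain ⟨c₀, -, -, hc₀, -⟩ := ht _ univ_mem
  obtain ⟨b', hb'⟩ := c₀.exists_basis
  have hA : coef b * (b'.toMatrix b).det = coef b' := hlaw b' b
  have d0 : (b'.toMatrix b).det ≠ 0 := right_ne_zero_of_mul (by rw [hA]; exact hne b')
  obtain ⟨ϖ, p0, hp⟩ := G.locgen (Finsupp.single z 1) (G.pt z)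
  have hp1 : G.ord z ϖ = 1 := by simpa using hp z specializes_rfl
  set e₁ := G.ord z (f * (b'.toMatrix b).det) with he₁
  set e₂ := -(a * (G.ord z l + L z)) with he₂
  have fd : (f : K) * (b'.toMatrix b).det ≠ 0 := mul_ne_zero f0 d0
  have pz : ∀ e : ℤ, ϖ ^ e ≠ 0 := fun e => zpow_ne_zero e p0
  have u0 : f * (b'.toMatrix b).det / ϖ ^ e₁ ≠ 0 := div_ne_zero fd (pz _)
  have hu : G.ord z (f * (b'.toMatrix b).det / ϖ ^ e₁) = 0 := by
    rw [G.ord_div z fd (pz _), G.ord_zpow z p0, hp1, mul_one, sub_self]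
  obtain ⟨N, v, hv⟩ := Submodule.fg_iff_exists_fin_generating_family.1 hV.fg
  have hr : ∀ k, (((σ : c.S) * v k : c.S) : K) / ϖ ^ e₂ ∈ G.O (G.pt z) := fun k => by
    by_cases h1 : (((σ : c.S) * v k : c.S) : K) = 0
    · rw [h1, zero_div]; exact zero_mem _
    have h2 := ((G.mem_secs.1 (hsec _ (hv ▸ Submodule.subset_span ⟨k, rfl⟩))).resolve_left
      (mul_ne_zero h1 (pow_ne_zero _ l0))).2 z
    rw [G.ord_mul z _ _ h1 (pow_ne_zero _ l0), G.ord_pow z l0, Finsupp.smul_apply,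
      nsmul_eq_mul] at h2
    rw [G.mem_O_pt z (div_ne_zero h1 (pz _)), G.ord_div z h1 (pz _), G.ord_zpow z p0, hp1, he₂]
    linarith
  obtain ⟨c', j, U'', hc', -, hzU', hsub, hS, -, -, -, -, hat'⟩ := ht
    {w | ϖ ∈ G.O w ∧ f * (b'.toMatrix b).det / ϖ ^ e₁ ∈ G.O w ∧
      (f * (b'.toMatrix b).det / ϖ ^ e₁)⁻¹ ∈ G.O w ∧
      ∀ k, (((σ : c.S) * v k : c.S) : K) / ϖ ^ e₂ ∈ G.O w}
    (inter_mem ((G.isOpen_O _).mem_nhds ((G.mem_O_pt z p0).2 (by rw [hp1]; exact zero_le_one)))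
      (inter_mem ((G.isOpen_O _).mem_nhds ((G.mem_O_pt z u0).2 hu.ge))
        (inter_mem ((G.isOpen_O _).mem_nhds ((G.mem_O_pt z (inv_ne_zero u0)).2
          (by rw [G.ord_inv z u0, hu, neg_zero])))
          (eventually_all.2 fun k => (G.isOpen_O _).mem_nhds (hr k)))))
  have hle : c'.S ≤ G.O (G.pt z) := fun g hg => (hS g).1 hg _ hzU'
  have hb'' : ∀ i, b' i = KaehlerDifferential.D ℂ K (c'.t i) := fun i => by
    rw [hb', hc₀, hc']
  have m1 : ϖ ∈ c'.S := (hS _).2 fun w hw => (hsub hw).2.1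
  have m2 := (hS _).2 fun w hw => (hsub hw).2.2.1
  have m3 := (hS _).2 fun w hw => (hsub hw).2.2.2.1
  have key := hpole c' (b'.toMatrix b) (fun i => by
      simp only [← hb, ← hb'']
      exact (b'.sum_toMatrix_smul_self b i).symm)
    ⟨ϖ, m1⟩ (fun h => p0 (congrArg Subtype.val h)) (fun ⟨w, hw⟩ => by
      have h1 : ϖ * ((w⁻¹ : c'.Sˣ) : c'.S) = 1 := by
        have := congrArg Subtype.val w.mul_inv
        rwa [hw] at this
      have h2 := G.ord_eq_zero (z := z) specializes_rfl p0 (hle m1)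
        (by rw [← eq_inv_of_mul_eq_one_right h1]; exact hle (Subtype.property _))
      rw [hp1] at h2
      exact one_ne_zero h2)
    ⟨⟨_, m2⟩, ⟨_, m3⟩, Subtype.ext (mul_inv_cancel₀ u0), Subtype.ext (inv_mul_cancel₀ u0)⟩ e₁ e₂
    (div_mul_cancel₀ _ (pz _)).symm fun s hs => by
      rw [← hv] at hs
      induction hs using Submodule.span_induction with
      | mem s hs =>
        obtain ⟨k, rfl⟩ := hs
        exact ⟨⟨_, (hS _).2 fun w hw => (hsub hw).2.2.2.2 k⟩, (div_mul_cancel₀ _ (pz _)).symm⟩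
      | zero => exact ⟨0, by simp⟩
      | add s s' _ _ h1 h2 =>
        obtain ⟨r, h1⟩ := h1
        obtain ⟨r', h2⟩ := h2
        exact ⟨r + r', by rw [mul_add, Subalgebra.coe_add, h1, h2, Subalgebra.coe_add, add_mul]⟩
      | smul d s _ h1 =>
        obtain ⟨r, h1⟩ := h1
        exact ⟨d • r, by rw [mul_smul_comm, Subalgebra.coe_smul, h1, Subalgebra.coe_smul,
          smul_mul_assoc]⟩
  rw [hord, hD z c' b' ⟨hle, hat' _ hzU'⟩ hb'', ← hA, G.ord_mul z _ _ (hne b) d0]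
  rw [G.ord_mul z _ _ f0 d0] at he₁
  have ha : (0 : ℤ) < a := by exact_mod_cast hV.a_pos
  have h3 : a * (-1 : ℤ) < a * (e₁ + m * (G.ord z l + L z)) := by rw [he₂] at key; linarith
  have h4 := lt_of_mul_lt_mul_left h3 ha.le
  omega

end Geo

end Crest.Agent.R271
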