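import Crest.Agent.R271.Defs

/-! Row 271, part E: an abstract model of a smooth proper variety (points, prime divisors, local
rings inside the function field). -/

set_option autoImplicit false

namespace Crest.Agent.R271

open Filter Topology

/-- `P` = points, `Z` = prime divisors, `O x` = local ring at `x`, `Aff` = affine open sets. -/
structure Geo (K : Type) [Field K] [Algebra ℂ K] (P : Type) [TopologicalSpace P] (Z : Type)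
    (n : ℕ) where
  pt : Z → P
  ord : Z → K → ℤ
  O : P → Subalgebra ℂ K
  Aff : Set P → Prop
  ord_mul : ∀ z f g, f ≠ 0 → g ≠ 0 → ord z (f * g) = ord z f + ord z g
  mem_O : ∀ x f, f ≠ 0 → (f ∈ O x ↔ ∀ z, pt z ⤳ x → 0 ≤ ord z f)
  isLocal : ∀ x, IsLocalRing (O x)
  prime_eq : ∀ z z', pt z ⤳ pt z' → z = z'
  fin : ∀ f, f ≠ 0 → {z | ord z f ≠ 0}.Finite
  locgen : ∀ (D : Z →₀ ℤ) (x : P), ∃ l, l ≠ 0 ∧ ∀ z, pt z ⤳ x → ord z l = D z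
  cpt : CompactSpace P
  centre : ∀ A : ValuationSubring K, (∀ c : ℂ, algebraMap ℂ K c ∈ A) → ∃ x, ∀ f ∈ O x, f ∈ A
  aff_fg : ∀ U, Aff U → U.Nonempty → (⨅ x ∈ U, O x).FG
  aff_sep : ∀ U, Aff U → ∀ x ∈ U, ∀ z, pt z ∈ U → ¬ pt z ⤳ x →
    ∃ b ∈ ⨅ x ∈ U, O x, b ≠ 0 ∧ b⁻¹ ∈ O x ∧ 0 < ord z b
  chart : ∀ U, Aff U → ∀ x ∈ U, ∃ t : Fin n → K, ∀ U' ∈ 𝓝 x,
    ∃ (c : Chart K n) (j : K) (U'' : Set P), (∀ i, (c.t i : K) = t i) ∧ IsOpen U'' ∧ x ∈ U'' ∧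
      U'' ⊆ U ∩ U' ∧ (∀ f, f ∈ c.S ↔ ∀ y ∈ U'', f ∈ O y) ∧ j ∈ ⨅ x ∈ U, O x ∧ j ≠ 0 ∧ j⁻¹ ∈ c.S ∧
      (∀ f ∈ c.S, ∃ m : ℕ, j ^ m * f ∈ ⨅ x ∈ U, O x) ∧
      ∀ y ∈ U'', ∀ f ∈ O y, ∃ b ∈ c.S, b ≠ 0 ∧ b⁻¹ ∈ O y ∧ b * f ∈ c.S

namespace Geo
variable {K : Type} [Field K] [Algebra ℂ K] {P : Type} [TopologicalSpace P] {Z : Type} {n : ℕ}
  (G : Geo K P Z n)

/-- sections of `O(D)`. -/
def Sec (D : Z →₀ ℤ) (f : K) : Prop := f ≠ 0 ∧ ∀ z, 0 ≤ G.ord z f + D z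

/-- the sections and `0`, as a set. -/
def Sec0 (D : Z →₀ ℤ) : Set K := {f | f = 0 ∨ G.Sec D f}

/-- non-vanishing at a point. -/
def NV (D : Z →₀ ℤ) (f : K) (x : P) : Prop := ∀ z, G.pt z ⤳ x → G.ord z f + D z = 0

/-- ample divisors. -/
def Ample (D : Z →₀ ℤ) : Prop := ∀ x : P, ∃ m : ℕ, 0 < m ∧ ∃ f, G.Sec (m • D) f ∧
  ∃ U, G.Aff U ∧ x ∈ U ∧ U = {y | G.NV (m • D) f y}

/-- `O x` is a localisation of the ring of the chart `c`. -/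
def At (c : Chart K n) (x : P) : Prop :=
  c.S ≤ G.O x ∧ ∀ f ∈ G.O x, ∃ b ∈ c.S, b ≠ 0 ∧ b⁻¹ ∈ G.O x ∧ b * f ∈ c.S

/-- `D` is the divisor of the form `ω`. -/
def Can (D : Z →₀ ℤ) (coef : Module.Basis (Fin n) K (Ω[K⁄ℂ]) → K) : Prop :=
  ∀ (z : Z) (c : Chart K n) (b : Module.Basis (Fin n) K (Ω[K⁄ℂ])), G.At c (G.pt z) →
    (∀ i, b i = KaehlerDifferential.D ℂ K (c.t i)) → D z = G.ord z (coef b)

end Geo

end Crest.Agent.R271
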