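import Crest.Agent.R271.EG

/-! Row 271, part E: orders and sections in a model. -/

set_option autoImplicit false

namespace Crest.Agent.R271

open Filter Topology

namespace Geo
variable {K : Type} [Field K] [Algebra ℂ K] {P : Type} [TopologicalSpace P] {Z : Type} {n : ℕ}
  (G : Geo K P Z n)

theorem ord_one (z : Z) : G.ord z 1 = 0 := by
  have h := G.ord_mul z 1 1 one_ne_zero one_ne_zero
  rw [mul_one] at h
  omega

theorem ord_inv (z : Z) {f : K} (hf : f ≠ 0) : G.ord z f⁻¹ = -G.ord z f := by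
  have h := G.ord_mul z f f⁻¹ hf (inv_ne_zero hf)
  rw [mul_inv_cancel₀ hf, ord_one] at h
  omega

theorem ord_div (z : Z) {f g : K} (hf : f ≠ 0) (hg : g ≠ 0) :
    G.ord z (f / g) = G.ord z f - G.ord z g := by
  rw [div_eq_mul_inv, G.ord_mul z _ _ hf (inv_ne_zero hg), G.ord_inv z hg, sub_eq_add_neg]

theorem ord_pow (z : Z) {f : K} (hf : f ≠ 0) (k : ℕ) : G.ord z (f ^ k) = k * G.ord z f := by
  induction k with
  | zero => simp [ord_one]
  | succ k ih =>
    rw [pow_succ, G.ord_mul z _ _ (pow_ne_zero _ hf) hf, ih]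
    push_cast
    ring

theorem ord_zpow (z : Z) {f : K} (hf : f ≠ 0) (k : ℤ) : G.ord z (f ^ k) = k * G.ord z f := by
  obtain ⟨m, rfl | rfl⟩ := Int.eq_nat_or_neg k
  · rw [zpow_natCast, G.ord_pow z hf]
  · rw [zpow_neg, zpow_natCast, G.ord_inv z (pow_ne_zero _ hf), G.ord_pow z hf, neg_mul]

theorem mem_O_pt (z : Z) {f : K} (hf : f ≠ 0) : f ∈ G.O (G.pt z) ↔ 0 ≤ G.ord z f := by
  rw [G.mem_O _ f hf]
  exact ⟨fun h => h z specializes_rfl, fun h z' hz' => G.prime_eq _ _ hz' ▸ h⟩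

theorem ord_eq_zero {z : Z} {x : P} (h : G.pt z ⤳ x) {f : K} (hf : f ≠ 0) (h1 : f ∈ G.O x)
    (h2 : f⁻¹ ∈ G.O x) : G.ord z f = 0 := by
  have h3 := (G.mem_O x f hf).1 h1 z h
  have h4 := (G.mem_O x _ (inv_ne_zero hf)).1 h2 z h
  rw [G.ord_inv z hf] at h4
  omega

/-- with `l` of order `-D z` at `z` (`locgen`): `0 ≤ ord z f + D z ↔ f / l ∈ O (pt z)`. -/
theorem exists_secs (D : Z →₀ ℤ) : ∃ M : Submodule ℂ K, (M : Set K) = G.Sec0 D := by
  choose l hl hl' using fun z => G.locgen D (G.pt z)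
  refine ⟨⨅ z, (Subalgebra.toSubmodule (G.O (G.pt z))).comap (LinearMap.mulRight ℂ (l z)), ?_⟩
  ext f
  simp only [SetLike.mem_coe, Submodule.mem_iInf, Submodule.mem_comap, LinearMap.mulRight_apply,
    Subalgebra.mem_toSubmodule, Sec0, Sec, Set.mem_ofPred_eq]
  by_cases hf : f = 0
  · simp [hf]
  · simp only [hf, false_or, ne_eq, not_false_eq_true, true_and]
    refine forall_congr' fun z => ?_
    rw [G.mem_O_pt z (mul_ne_zero hf (hl z)), G.ord_mul z _ _ hf (hl z), hl' z z specializes_rfl]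

/-- the space of sections. -/
noncomputable def secs (D : Z →₀ ℤ) : Submodule ℂ K := (G.exists_secs D).choose

theorem mem_secs {D : Z →₀ ℤ} {f : K} : f ∈ G.secs D ↔ f = 0 ∨ G.Sec D f :=
  Set.ext_iff.1 (G.exists_secs D).choose_spec f

theorem secs_mul (D D' : Z →₀ ℤ) : G.secs D * G.secs D' ≤ G.secs (D + D') := by
  refine Submodule.mul_le.2 fun f hf g hg => ?_
  rw [mem_secs] at hf hg ⊢
  rcases hf with rfl | ⟨hf, hf'⟩
  · exact Or.inl (zero_mul _)
  rcases hg with rfl | ⟨hg, hg'⟩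
  · exact Or.inl (mul_zero _)
  refine Or.inr ⟨mul_ne_zero hf hg, fun z => ?_⟩
  have h1 := hf' z
  have h2 := hg' z
  rw [G.ord_mul z _ _ hf hg, Finsupp.add_apply]
  omega

theorem secs_pow (D : Z →₀ ℤ) (k : ℕ) : G.secs D ^ k ≤ G.secs (k • D) := by
  induction k with
  | zero =>
    rw [pow_zero, Submodule.one_le, mem_secs]
    exact Or.inr ⟨one_ne_zero, fun z => by simp [ord_one]⟩
  | succ k ih =>
    rw [pow_succ, succ_nsmul]
    exact (mul_le_mul_left ih _).trans (G.secs_mul _ _)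

variable {G}

theorem NV.mul {D D' : Z →₀ ℤ} {f g : K} {x : P} (hf : f ≠ 0) (hg : g ≠ 0) (h : G.NV D f x)
    (h' : G.NV D' g x) : G.NV (D + D') (f * g) x := by
  intro z hz
  have h1 := h z hz
  have h2 := h' z hz
  rw [G.ord_mul z _ _ hf hg, Finsupp.add_apply]
  omega

theorem NV.pow {D : Z →₀ ℤ} {f : K} {x : P} (hf : f ≠ 0) (h : G.NV D f x) (k : ℕ) :
    G.NV (k • D) (f ^ k) x := by
  intro z hz
  rw [G.ord_pow z hf, Finsupp.smul_apply, nsmul_eq_mul, ← mul_add, h z hz, mul_zero]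

theorem NV.div_mem {D : Z →₀ ℤ} {s w : K} {x : P} (hs : s ≠ 0) (h : G.NV D s x)
    (hw : w ∈ G.secs D) : w / s ∈ G.O x := by
  rcases G.mem_secs.1 hw with rfl | ⟨h0, h1⟩
  · rw [zero_div]
    exact zero_mem _
  · refine (G.mem_O x _ (div_ne_zero h0 hs)).2 fun z hz => ?_
    have h2 := h z hz
    have h3 := h1 z
    rw [G.ord_div z h0 hs]
    omega

theorem NV.div_mem' {D : Z →₀ ℤ} {s w : K} {x : P} (hs : s ≠ 0) (hw : w ≠ 0) (h : G.NV D s x)
    (h' : G.NV D w x) : w / s ∈ G.O x := by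
  refine (G.mem_O x _ (div_ne_zero hw hs)).2 fun z hz => ?_
  have h2 := h z hz
  have h3 := h' z hz
  rw [G.ord_div z hw hs]
  omega

variable (G)

theorem EG1_open {p : Z → Prop} (h : {z | ¬ p z}.Finite) :
    IsOpen {x | ∀ z, G.pt z ⤳ x → p z} := by
  rw [← isClosed_compl_iff]
  convert h.isClosed_biUnion fun z _ => isClosed_closure (s := {G.pt z})
  ext x
  simp only [Set.mem_compl_iff, Set.mem_ofPred_eq, not_forall, Set.mem_iUnion,
    ← specializes_iff_mem_closure]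
  exact ⟨fun ⟨z, h1, h2⟩ => ⟨z, h2, h1⟩, fun ⟨z, h1, h2⟩ => ⟨z, h2, h1⟩⟩

/-- the complement is a finite union of closures of points. -/
theorem isOpen_NV (D : Z →₀ ℤ) {f : K} (hf : f ≠ 0) : IsOpen {x | G.NV D f x} := by
  refine G.EG1_open (((G.fin f hf).union D.support.finite_toSet).subset fun z hz => ?_)
  by_contra h
  simp only [Set.mem_union, Set.mem_ofPred_eq, Finset.mem_coe, Finsupp.mem_support_iff, not_or,
    not_not] at h hz
  exact hz (by rw [h.1, h.2, add_zero])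

theorem isOpen_O (f : K) : IsOpen {x | f ∈ G.O x} := by
  by_cases hf : f = 0
  · simp [hf]
  · simp only [G.mem_O _ f hf]
    exact G.EG1_open ((G.fin f hf).subset fun z hz h => hz h.ge)

end Geo

end Crest.Agent.R271
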