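import Crest.Agent.R271.EG1

/-! Row 271, part E: sections of multiples of an ample divisor. -/

set_option autoImplicit false

namespace Crest.Agent.R271

open Filter Topology

namespace Geo
variable {K : Type} [Field K] [Algebra ℂ K] {P : Type} [TopologicalSpace P] {Z : Type} {n : ℕ}
  (G : Geo K P Z n)

/-- compactness; raise to a common multiple. -/
theorem cover {L : Z →₀ ℤ} (hL : G.Ample L) : ∃ (a₀ : ℕ) (T : Finset K), 0 < a₀ ∧
    (∀ s ∈ T, G.Sec (a₀ • L) s ∧ G.Aff {y | G.NV (a₀ • L) s y}) ∧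
    ∀ x, ∃ s ∈ T, G.NV (a₀ • L) s x := by
  classical
  haveI := G.cpt
  choose m hm f hf U hU hx hUe using hL
  obtain ⟨t, ht⟩ := isCompact_univ.elim_finite_subcover U
    (fun x => by rw [hUe x]; exact G.isOpen_NV _ (hf x).1)
    (fun x _ => Set.mem_iUnion.2 ⟨x, hx x⟩)
  have hk : ∀ x ∈ t, ∃ k : ℕ, 0 < k ∧ ∏ y ∈ t, m y = k * m x := by
    intro x hxt
    exact ⟨∏ y ∈ t.erase x, m y, Finset.prod_pos fun y _ => hm y,
      (Finset.prod_erase_mul t m hxt).symm⟩
  choose! k hk0 hk using hk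
  have key : ∀ x ∈ t, ∀ z, G.ord z (f x ^ k x) + ((∏ y ∈ t, m y) • L) z =
      k x * (G.ord z (f x) + (m x • L) z) := by
    intro x hxt z
    rw [G.ord_pow z (hf x).1, hk x hxt]
    simp only [Finsupp.smul_apply, nsmul_eq_mul]
    push_cast
    ring
  have hset : ∀ x ∈ t, {y | G.NV ((∏ y ∈ t, m y) • L) (f x ^ k x) y} = U x := by
    intro x hxt
    rw [hUe x]
    ext y
    refine forall_congr' fun z => imp_congr_right fun _ => ?_
    rw [key x hxt, mul_eq_zero, or_iff_right]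
    exact_mod_cast (hk0 x hxt).ne'
  refine ⟨∏ y ∈ t, m y, t.image fun x => f x ^ k x, Finset.prod_pos fun y _ => hm y, ?_, ?_⟩
  · intro s hs
    obtain ⟨x, hxt, rfl⟩ := Finset.mem_image.1 hs
    refine ⟨⟨pow_ne_zero _ (hf x).1, fun z => ?_⟩, ?_⟩
    · rw [key x hxt]
      exact mul_nonneg (Int.natCast_nonneg _) ((hf x).2 z)
    · rw [hset x hxt]
      exact hU x
  · intro y
    obtain ⟨x, hxt, hy⟩ := Set.mem_iUnion₂.1 (ht (Set.mem_univ y))
    rw [← hset x hxt] at hy
    exact ⟨_, Finset.mem_image_of_mem _ hxt, hy⟩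

/-- outside the non-vanishing locus `ord z s + A z ≥ 1` (`prime_eq`), and only finitely many primes
are bad (`fin`). -/
theorem clear {A D : Z →₀ ℤ} {s g : K} (hs : G.Sec A s) (hg : g ≠ 0)
    (h : ∀ z, G.NV A s (G.pt z) → 0 ≤ G.ord z g + D z) :
    ∀ᶠ e : ℕ in atTop, G.Sec (D + e • A) (g * s ^ e) := by
  have key : ∀ (e : ℕ) z, G.ord z (g * s ^ e) + (D + e • A) z =
      (G.ord z g + D z) + e * (G.ord z s + A z) := by
    intro e z
    rw [G.ord_mul z _ _ hg (pow_ne_zero _ hs.1), G.ord_pow z hs.1]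
    simp only [Finsupp.add_apply, Finsupp.smul_apply, nsmul_eq_mul]
    ring
  have hB : ({z | G.ord z g ≠ 0} ∪ (D.support : Set Z)).Finite :=
    (G.fin g hg).union D.support.finite_toSet
  have h1 : ∀ z, ∀ᶠ e : ℕ in atTop, 0 ≤ (G.ord z g + D z) + e * (G.ord z s + A z) := by
    intro z
    by_cases hz : G.NV A s (G.pt z)
    · exact Eventually.of_forall fun e =>
        add_nonneg (h z hz) (mul_nonneg (Int.natCast_nonneg _) (hs.2 z))
    · have h2 : 1 ≤ G.ord z s + A z := by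
        by_contra hc
        refine hz fun z' hz' => ?_
        rw [G.prime_eq z' z hz']
        have := hs.2 z
        omega
      filter_upwards [eventually_ge_atTop (G.ord z g + D z).natAbs] with e he
      have h3 : (e : ℤ) ≤ e * (G.ord z s + A z) :=
        le_mul_of_one_le_right (Int.natCast_nonneg _) h2
      omega
  filter_upwards [(eventually_all_finite hB).2 fun z _ => h1 z] with e he
  refine ⟨mul_ne_zero hg (pow_ne_zero _ hs.1), fun z => ?_⟩
  rw [key]
  by_cases hz : z ∈ {z | G.ord z g ≠ 0} ∪ (D.support : Set Z)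
  · exact he z hz
  · simp only [Set.mem_union, Set.mem_setOf_eq, Finset.mem_coe, Finsupp.mem_support_iff, not_or,
      not_not] at hz
    rw [hz.1, hz.2, add_zero, zero_add]
    exact mul_nonneg (Int.natCast_nonneg _) (hs.2 z)

/-- correct a local generator (`locgen`) by powers of the functions from `aff_sep`. -/
theorem local_sec {U : Set P} (hU : G.Aff U) {x : P} (hx : x ∈ U) (D : Z →₀ ℤ) :
    ∃ g : K, g ≠ 0 ∧ G.NV D g x ∧ ∀ z, G.pt z ∈ U → 0 ≤ G.ord z g + D z := by
  classical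
  obtain ⟨l, hl, hlx⟩ := G.locgen (-D) x
  have key : ∀ B : Finset Z, ∃ g : K, g ≠ 0 ∧ G.NV D g x ∧
      ∀ z, G.pt z ∈ U → (z ∈ B ∨ 0 ≤ G.ord z l + D z) → 0 ≤ G.ord z g + D z := by
    intro B
    induction B using Finset.induction_on with
    | empty =>
      refine ⟨l, hl, fun z hz => ?_, fun z _ hz => hz.resolve_left (Finset.notMem_empty z)⟩
      rw [hlx z hz, Finsupp.neg_apply, neg_add_cancel]
    | insert z₀ B _ ih =>
      obtain ⟨g, hg, hgx, hgU⟩ := ih
      by_cases h0 : G.pt z₀ ∈ U ∧ ¬ G.pt z₀ ⤳ x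
      · obtain ⟨b, hb, hb0, hbx, hbz⟩ := G.aff_sep U hU x hx z₀ h0.1 h0.2
        have hbO : ∀ y ∈ U, b ∈ G.O y := fun y hy =>
          Algebra.mem_iInf.1 (Algebra.mem_iInf.1 hb y) hy
        have e : ∀ z, G.ord z (g * b ^ (G.ord z₀ g + D z₀).natAbs) + D z =
            (G.ord z g + D z) + (G.ord z₀ g + D z₀).natAbs * G.ord z b := by
          intro z
          rw [G.ord_mul z _ _ hg (pow_ne_zero _ hb0), G.ord_pow z hb0]
          ring
        refine ⟨g * b ^ (G.ord z₀ g + D z₀).natAbs, mul_ne_zero hg (pow_ne_zero _ hb0),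
          fun z hz => ?_, fun z hz hz' => ?_⟩
        · rw [e, hgx z hz, G.ord_eq_zero hz hb0 (hbO x hx) hbx, mul_zero, add_zero]
        · rw [e]
          by_cases hz0 : z = z₀
          · subst hz0
            have h3 : ((G.ord z g + D z).natAbs : ℤ) ≤ (G.ord z g + D z).natAbs * G.ord z b :=
              le_mul_of_one_le_right (Int.natCast_nonneg _) hbz
            omega
          · refine add_nonneg (hgU z hz (hz'.imp_left fun h => ?_))
              (mul_nonneg (Int.natCast_nonneg _) ((G.mem_O_pt z hb0).1 (hbO _ hz)))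
            exact (Finset.mem_insert.1 h).resolve_left hz0
      · refine ⟨g, hg, hgx, fun z hz hz' => ?_⟩
        by_cases hz0 : z = z₀
        · subst hz0
          exact (hgx z (by tauto)).ge
        · exact hgU z hz (hz'.imp_left fun h => (Finset.mem_insert.1 h).resolve_left hz0)
  obtain ⟨g, hg, hgx, hgU⟩ := key ((G.fin l hl).toFinset ∪ D.support)
  refine ⟨g, hg, hgx, fun z hz => hgU z hz ?_⟩
  by_cases h : z ∈ (G.fin l hl).toFinset ∪ D.support
  · exact Or.inl h
  · simp only [Finset.mem_union, Set.Finite.mem_toFinset, Set.mem_setOf_eq,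
      Finsupp.mem_support_iff, not_or, not_not] at h
    right
    rw [h.1, h.2, add_zero]

/-- `local_sec`, `isOpen_NV`, compactness, `clear`. -/
theorem bpf_twist {A : Z →₀ ℤ} {T : Finset K}
    (hT : ∀ s ∈ T, G.Sec A s ∧ G.Aff {y | G.NV A s y}) (hc : ∀ x, ∃ s ∈ T, G.NV A s x)
    (D : Z →₀ ℤ) : ∀ᶠ e : ℕ in atTop, ∃ T' : Finset K, (∀ s ∈ T', G.Sec (D + e • A) s) ∧
      ∀ x, ∃ s ∈ T', G.NV (D + e • A) s x := by
  classical
  haveI := G.cpt
  choose s hsT hsx using hc
  have hg := fun x => G.local_sec (hT _ (hsT x)).2 (x := x) (hsx x) D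
  choose g hg hgx hgU using hg
  obtain ⟨t, ht⟩ := isCompact_univ.elim_finite_subcover
    (fun x => {y | G.NV D (g x) y} ∩ {y | G.NV A (s x) y})
    (fun x => (G.isOpen_NV _ (hg x)).inter (G.isOpen_NV _ (hT _ (hsT x)).1.1))
    (fun x _ => Set.mem_iUnion.2 ⟨x, hgx x, hsx x⟩)
  filter_upwards [(eventually_all_finset t).2 fun x _ =>
    G.clear (hT _ (hsT x)).1 (hg x) (hgU x)] with e he
  refine ⟨t.image fun x => g x * s x ^ e, ?_, ?_⟩
  · intro u hu
    obtain ⟨x, hxt, rfl⟩ := Finset.mem_image.1 hu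
    exact he x hxt
  · intro y
    obtain ⟨x, hxt, hy⟩ := Set.mem_iUnion₂.1 (ht (Set.mem_univ y))
    have h0 := (hT _ (hsT x)).1.1
    exact ⟨_, Finset.mem_image_of_mem _ hxt,
      NV.mul (hg x) (pow_ne_zero _ h0) hy.1 (NV.pow h0 hy.2 e)⟩

end Geo

end Crest.Agent.R271
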