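import Crest.Agent.R271.Defs

/-! Row 271, part E: the valuative criterion for reductions. -/

set_option autoImplicit false

namespace Crest.Agent.R271

variable {K : Type} [Field K] [Algebra ℂ K]

/-- `w T ∈ K(T)` lies in every valuation subring containing `ℂ[U T]`, hence is integral over it
(`iInf_valuationSubring_superset`); take the coefficient of `T ^ N` in the equation. -/
theorem red_elem {U : Submodule ℂ K} {w : K}
    (h : ∀ A : ValuationSubring K, (∀ c : ℂ, algebraMap ℂ K c ∈ A) → ∃ s ∈ U, ∃ r ∈ A, w = s * r) :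
    ∃ N : ℕ, w ^ (N + 1) ∈ (U ⊔ Submodule.span ℂ {w}) ^ N * U := by
  by_cases hw : w = 0
  · exact ⟨0, by rw [hw, zero_add, pow_one]; exact zero_mem _⟩
  set W := U ⊔ Submodule.span ℂ {w} with hW
  have hwW : w ∈ W := Submodule.mem_sup_right (Submodule.mem_span_singleton_self w)
  have hUW : U ≤ W := le_sup_left
  have hp : ∀ M : ℕ, w ^ M ∈ W ^ M := fun M => Submodule.pow_mem_pow _ hwW M
  have hmul : ∀ {a b : ℕ} {x y : K}, x ∈ W ^ a → y ∈ W ^ b → x * y ∈ W ^ (a + b) :=
    fun hx hy => by rw [pow_add]; exact Submodule.mul_mem_mul hx hy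
  have hmul' : ∀ {a b : ℕ} {x y : K}, x ∈ W ^ a → y ∈ W ^ b * U → x * y ∈ W ^ (a + b) * U :=
    fun hx hy => by rw [pow_add, mul_assoc]; exact Submodule.mul_mem_mul hx hy
  let B : Subalgebra ℂ K :=
    { carrier := {x | ∃ N : ℕ, w ^ N * x ∈ W ^ N}
      mul_mem' := by
        rintro x y ⟨a, ha⟩ ⟨b, hb⟩
        exact ⟨a + b, by convert hmul ha hb using 1; ring⟩
      add_mem' := by
        rintro x y ⟨a, ha⟩ ⟨b, hb⟩
        exact ⟨a + b, by convert add_mem (hmul ha (hp b)) (hmul (hp a) hb) using 1; ring⟩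
      algebraMap_mem' := fun c => ⟨0, by
        rw [pow_zero, pow_zero, one_mul]; exact Submodule.algebraMap_mem c⟩ }
  let I : Ideal B.toSubring :=
    { carrier := {x | ∃ N : ℕ, w ^ (N + 1) * (x : K) ∈ W ^ N * U}
      add_mem' := by
        rintro x y ⟨a, ha⟩ ⟨b, hb⟩
        have h1 := hmul' (hp b) ha
        rw [add_comm b a] at h1
        refine ⟨a + b, ?_⟩
        convert add_mem h1 (hmul' (hp a) hb) using 1
        push_cast
        ring
      zero_mem' := ⟨0, by simp⟩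
      smul_mem' := by
        rintro ⟨c, a, ha⟩ x ⟨b, hb⟩
        refine ⟨a + b, ?_⟩
        convert hmul' ha hb using 1
        simp only [smul_eq_mul, Subring.coe_mul]
        ring }
  by_cases hI : I = ⊤
  · obtain ⟨N, hN⟩ := (Ideal.eq_top_iff_one I).1 hI
    exact ⟨N, by simpa using hN⟩
  · exfalso
    obtain ⟨A, hBA, hIA⟩ := I.image_subset_nonunits_valuationSubring hI
    obtain ⟨s, hs, r, hr, hsr⟩ := h A fun c => hBA (B.algebraMap_mem c)
    have h1 : w * (s / w) = s := mul_div_cancel₀ s hw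
    have h2 : s / w ∈ B.toSubring := ⟨1, by rw [pow_one, pow_one, h1]; exact hUW hs⟩
    have h3 : s / w ∈ A.nonunits :=
      hIA ⟨⟨s / w, h2⟩, ⟨0, by rw [zero_add, pow_one, pow_zero, one_mul]; exact h1.symm ▸ hs⟩, rfl⟩
    have hs0 : s ≠ 0 := fun h0 => hw (by rw [hsr, h0, zero_mul])
    rcases A.mem_nonunits_iff_or.1 h3 with h4 | h4
    · exact div_ne_zero hs0 hw h4
    · refine h4 ?_
      rwa [inv_div, hsr, mul_div_cancel_left₀ r hs0]

theorem ER_sup {S : Type} [CommRing S] [Algebra ℂ S] {U W P Q : Submodule ℂ S} (hP : P ≤ W)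
    (hQ : Q ≤ W) {a b : ℕ} (ha : P ^ (a + 1) ≤ W ^ a * U) (hb : Q ^ (b + 1) ≤ W ^ b * U) :
    (P ⊔ Q) ^ (a + b + 1) ≤ W ^ (a + b) * U := by
  rw [← Submodule.add_eq_sup, add_pow]
  refine Finset.sum_induction _ (fun X => X ≤ W ^ (a + b) * U)
    (fun X Y hX hY => sup_le hX hY) bot_le fun i hi => ?_
  have hi' : i ≤ a + b + 1 := Nat.lt_succ_iff.1 (Finset.mem_range.1 hi)
  rw [natCast_eq_one (Nat.choose_pos hi').ne', mul_one]
  rcases le_or_gt (a + 1) i with h | h
  · obtain ⟨k, rfl⟩ := Nat.exists_eq_add_of_le h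
    obtain ⟨l, rfl⟩ : ∃ l, b = k + l := ⟨b - k, by omega⟩
    rw [show a + (k + l) + 1 - (a + 1 + k) = l by omega]
    calc P ^ (a + 1 + k) * Q ^ l = P ^ (a + 1) * P ^ k * Q ^ l := by rw [pow_add]
      _ ≤ W ^ a * U * W ^ k * W ^ l := by gcongr
      _ = _ := by ring
  · obtain ⟨k, rfl⟩ : ∃ k, a = i + k := ⟨a - i, by omega⟩
    rw [show i + k + b + 1 - i = b + 1 + k by omega]
    calc P ^ i * Q ^ (b + 1 + k) = P ^ i * (Q ^ (b + 1) * Q ^ k) := by rw [pow_add]
      _ ≤ W ^ i * (W ^ b * U * W ^ k) := by gcongr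
      _ = _ := by ring

theorem ER_gen {S : Type} [CommRing S] [Algebra ℂ S] {U W : Submodule ℂ S} (hUW : U ≤ W)
    (hW : W.FG) (h : ∀ w ∈ W, ∃ d : ℕ, w ^ (d + 1) ∈ W ^ d * U) : IsRed U W := by
  classical
  have key : ∀ G : Finset S, (∀ g ∈ G, g ∈ W) →
      ∃ N : ℕ, Submodule.span ℂ (G : Set S) ^ (N + 1) ≤ W ^ N * U := by
    intro G
    induction G using Finset.induction_on with
    | empty => intro _; exact ⟨0, by simp⟩
    | insert g G _ ih =>
      intro hG
      obtain ⟨b, hb⟩ := ih fun x hx => hG x (Finset.mem_insert_of_mem hx)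
      have hg := hG g (Finset.mem_insert_self _ _)
      obtain ⟨a, ha⟩ := h g hg
      refine ⟨a + b, ?_⟩
      rw [Finset.coe_insert, Submodule.span_insert]
      refine ER_sup ((Submodule.span_singleton_le_iff_mem _ _).2 hg)
        (Submodule.span_le.2 fun x hx => hG x (Finset.mem_insert_of_mem hx)) ?_ hb
      rw [Submodule.span_pow, Set.singleton_pow]
      exact (Submodule.span_singleton_le_iff_mem _ _).2 ha
  obtain ⟨G, hG⟩ := hW
  obtain ⟨N, hN⟩ := key G fun g hg => hG ▸ Submodule.subset_span hg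
  exact ⟨hUW, N, hG ▸ hN⟩

/-- a long monomial in the generators of `W` contains a high power of one of them. -/
theorem isRed_of_val {U W : Submodule ℂ K} (hW : W.FG) (hUW : U ≤ W)
    (h : ∀ A : ValuationSubring K, (∀ c : ℂ, algebraMap ℂ K c ∈ A) →
      ∀ w ∈ W, ∃ s ∈ U, ∃ r ∈ A, w = s * r) : IsRed U W := by
  refine ER_gen hUW hW fun w hw => ?_
  obtain ⟨N, hN⟩ := red_elem (U := U) (w := w) fun A hA => h A hA w hw
  have h1 : U ⊔ Submodule.span ℂ {w} ≤ W :=
    sup_le hUW ((Submodule.span_singleton_le_iff_mem _ _).2 hw)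
  have h2 : (U ⊔ Submodule.span ℂ {w}) ^ N * U ≤ W ^ N * U := by gcongr
  exact ⟨N, h2 hN⟩

theorem IsRed.of_map {S : Subalgebra ℂ K} {U W : Submodule ℂ S}
    (h : IsRed (U.map S.val.toLinearMap) (W.map S.val.toLinearMap)) : IsRed U W := by
  have hi : Function.Injective S.val.toLinearMap := Subtype.val_injective
  obtain ⟨h1, N, hN⟩ := h
  rw [← Submodule.map_pow, ← Submodule.map_pow, ← Submodule.map_mul] at hN
  exact ⟨(Submodule.map_le_map_iff_of_injective hi _ _).1 h1, N,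
    (Submodule.map_le_map_iff_of_injective hi _ _).1 hN⟩

end Crest.Agent.R271
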