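import Crest.Agent.R271.EG1
import Crest.Agent.R271.ER

/-! Row 271, part E: reductions from base point free systems. -/

set_option autoImplicit false

namespace Crest.Agent.R271

open Filter Topology

namespace Geo
variable {K : Type} [Field K] [Algebra ℂ K] {P : Type} [TopologicalSpace P] {Z : Type} {n : ℕ}
  (G : Geo K P Z n)

/-- `centre`, `NV.div_mem`, `isRed_of_val`. -/
theorem isRed {D : Z →₀ ℤ} {U W : Submodule ℂ K} {τ : K} (hτ : τ ≠ 0) (hW : W.FG) (hUW : U ≤ W)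
    (hs : ∀ w ∈ W, w * τ ∈ G.secs D) (hb : ∀ x, ∃ s ∈ U, s ≠ 0 ∧ G.NV D (s * τ) x) : IsRed U W := by

  refine isRed_of_val hW hUW fun A hA w hw => ?_
  obtain ⟨x, hx⟩ := G.centre A hA
  obtain ⟨s, hsU, hs0, hN⟩ := hb x
  refine ⟨s, hsU, _, hx _ (NV.div_mem (mul_ne_zero hs0 hτ) hN (hs w hw)), ?_⟩
  field_simp

end Geo

/-- transfer from the field to a subalgebra (`Submodule.map_comap_eq_self`, `Submodule.map_pow`,
`IsRed.of_map`). -/
theorem projData_of {K : Type} [Field K] [Algebra ℂ K] (S : Subalgebra ℂ K)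
    {V V' : Submodule ℂ K} {a a' : ℕ} {j u : K} (hV : V.FG) (hV' : V'.FG) (h1 : (1 : K) ∈ V)
    (hVV : V ≤ V') (hS : ∀ f ∈ V', f ∈ S) (ha : 1 ≤ a) (ha' : 1 ≤ a') (hc : Nat.Coprime a a')
    (hj : j ∈ Algebra.adjoin ℂ (V : Set K)) (hj0 : j ≠ 0) (hji : j⁻¹ ∈ S)
    (hloc : ∀ f ∈ S, ∃ m : ℕ, j ^ m * f ∈ Algebra.adjoin ℂ (V : Set K))
    (hu0 : u ≠ 0) (hu : u ∈ S) (hui : u⁻¹ ∈ S)
    (r1 : IsRed (V ^ a') (V ^ a' ⊔ Submodule.span ℂ {u} * V' ^ a))
    (r2 : IsRed (Submodule.span ℂ {u} * V' ^ a) (V ^ a' ⊔ Submodule.span ℂ {u} * V' ^ a)) :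
    ProjData S (V.comap S.val.toLinearMap) a := by

  have hinj : Function.Injective S.val.toLinearMap := Subtype.val_injective
  have hmc : ∀ M : Submodule ℂ K, M ≤ V' → (M.comap S.val.toLinearMap).map S.val.toLinearMap = M :=
    fun M hM => Submodule.map_comap_eq_self fun f hf => ⟨⟨f, hS f (hM hf)⟩, rfl⟩
  have hfg : ∀ M : Submodule ℂ K, M ≤ V' → M.FG → (M.comap S.val.toLinearMap).FG :=
    fun M hM h => Submodule.fg_of_fg_map_injective _ hinj (by rwa [hmc M hM])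
  have hadj : (Algebra.adjoin ℂ ((V.comap S.val.toLinearMap : Submodule ℂ S) : Set S)).map S.val =
      Algebra.adjoin ℂ (V : Set K) := by
    rw [AlgHom.map_adjoin]
    congr 1
    exact congrArg SetLike.coe (hmc V hVV)
  have hadj' : ∀ f : S, (f : K) ∈ Algebra.adjoin ℂ (V : Set K) →
      f ∈ Algebra.adjoin ℂ ((V.comap S.val.toLinearMap : Submodule ℂ S) : Set S) := fun f hf => by
    rw [← hadj] at hf
    obtain ⟨g, hg, e⟩ := hf
    rwa [← show g = f from Subtype.ext e]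
  have hjS : j ∈ S := Algebra.adjoin_le (S := S) (fun f hf => hS f (hVV hf)) hj
  have hunit : ∀ (x : K) (hx : x ∈ S), x ≠ 0 → x⁻¹ ∈ S → IsUnit (⟨x, hx⟩ : S) :=
    fun x hx h0 hi => IsUnit.of_mul_eq_one ⟨x⁻¹, hi⟩ (Subtype.ext (mul_inv_cancel₀ h0))
  have e1 : ((V.comap S.val.toLinearMap) ^ a').map S.val.toLinearMap = V ^ a' := by
    rw [Submodule.map_pow, hmc V hVV]
  have e2 : (Submodule.span ℂ {(⟨u, hu⟩ : S)} * (V'.comap S.val.toLinearMap) ^ a).map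
      S.val.toLinearMap = Submodule.span ℂ {u} * V' ^ a := by
    rw [Submodule.map_mul, Submodule.map_pow, hmc V' le_rfl, Submodule.map_span,
      Set.image_singleton]
    rfl
  refine ⟨hfg V hVV hV, h1, ha, ⟨⟨j, hjS⟩, hadj' _ hj, hunit j hjS hj0 hji, fun f => ?_⟩,
    V'.comap S.val.toLinearMap, (V.comap S.val.toLinearMap) ^ a' ⊔
      Submodule.span ℂ {(⟨u, hu⟩ : S)} * (V'.comap S.val.toLinearMap) ^ a, a', ⟨u, hu⟩,
    hfg V' le_rfl hV', ((hfg V hVV hV).pow _).sup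
      ((Submodule.fg_span_singleton _).mul ((hfg V' le_rfl hV').pow _)),
    Submodule.comap_mono hVV, ha', hc, hunit u hu hu0 hui, IsRed.of_map ?_, IsRed.of_map ?_⟩
  · obtain ⟨m, hm⟩ := hloc f f.2
    exact ⟨m, hadj' _ hm⟩
  · rwa [Submodule.map_sup, e1, e2]
  · rwa [Submodule.map_sup, e1, e2]

end Crest.Agent.R271
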