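import Crest.Agent.R271.ECh

/-! Row 271, part E: from the scheme facts `Pre` to the model `Mod`. -/

set_option autoImplicit false

namespace Crest.Agent.R271.EDat

variable {K : Type} [Field K] [Algebra ℂ K] {X : Type} [TopologicalSpace X] {M : EDat K X} {n : ℕ}

section sp
variable {U : Set X} {B : Subalgebra ℂ K} {φ : X → Ideal B}

theorem IsSp.inv_mem (h : M.IsSp U B φ) {y : X} (hy : y ∈ U) {q : B} (hq : q ≠ 0) :
    (q : K)⁻¹ ∈ M.O y ↔ q ∉ φ y := by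
  have hq' : (q : K) ≠ 0 := fun e => hq (Subtype.ext e)
  rw [h.mem y hy]
  constructor
  · rintro ⟨r, hr, hB⟩ hqy
    apply hr
    have : r = q * ⟨(q : K)⁻¹ * r, hB⟩ := by
      apply Subtype.ext
      simp only [MulMemClass.coe_mul]
      rw [← mul_assoc, mul_inv_cancel₀ hq', one_mul]
    rw [this]
    exact Ideal.mul_mem_right _ _ hqy
  · intro hqy
    refine ⟨q, hqy, ?_⟩
    rw [inv_mul_cancel₀ hq']
    exact B.one_mem

theorem IsSp.loc (h : M.IsSp U B φ) {y : X} (hy : y ∈ U) : ELoc B (M.O y) := by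
  have hp := h.prime y hy
  refine ⟨fun f hf => ?_, fun f hf => ?_⟩
  · refine (h.mem y hy f).2 ⟨1, fun e => hp.ne_top ((Ideal.eq_top_iff_one _).2 e), ?_⟩
    simpa using hf
  · obtain ⟨q, hq, hB⟩ := (h.mem y hy f).1 hf
    have h0 : q ≠ 0 := fun e => hq (e ▸ zero_mem _)
    exact ⟨q, q.2, fun e => h0 (Subtype.ext e), (h.inv_mem hy h0).2 hq, hB⟩

/-- the ideal of denominators of `f` is contained in no maximal ideal. -/
theorem IsSp.mem_of_forall (h : M.IsSp U B φ) {f : K} (hf : ∀ y ∈ U, f ∈ M.O y) : f ∈ B := by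
  let I : Ideal B :=
    { carrier := {q | f * (q : K) ∈ B}
      add_mem' := fun {a b} ha hb => by
        show f * ((a + b : B) : K) ∈ B
        rw [AddMemClass.coe_add, mul_add]
        exact B.add_mem ha hb
      zero_mem' := by
        show f * ((0 : B) : K) ∈ B
        rw [ZeroMemClass.coe_zero, mul_zero]
        exact B.zero_mem
      smul_mem' := fun c a ha => by
        show f * ((c * a : B) : K) ∈ B
        rw [MulMemClass.coe_mul, mul_left_comm]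
        exact B.mul_mem c.2 ha }
  by_cases hI : I = ⊤
  · have : (1 : B) ∈ I := hI ▸ Submodule.mem_top
    have h1 : f * ((1 : B) : K) ∈ B := this
    simpa using h1
  · obtain ⟨m, hm, hle⟩ := Ideal.exists_le_maximal I hI
    obtain ⟨y, hy, rfl⟩ := h.surj m hm.isPrime
    obtain ⟨q, hq, hB⟩ := (h.mem y hy f).1 (hf y hy)
    exact absurd (hle (show q ∈ I from hB)) hq

theorem IsSp.sep (h : M.IsSp U B φ) {y z : X} (hy : y ∈ U) (hz : z ∈ U) (hzy : ¬ z ⤳ y) :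
    ∃ g ∈ B, g ≠ 0 ∧ g⁻¹ ∈ M.O y ∧ g⁻¹ ∉ M.O z := by
  rw [h.spec y hy z hz] at hzy
  obtain ⟨g, hgz, hgy⟩ := SetLike.not_le_iff_exists.1 hzy
  have h0 : g ≠ 0 := fun e => hgy (e ▸ zero_mem _)
  exact ⟨g, g.2, fun e => h0 (Subtype.ext e), (h.inv_mem hy h0).2 hgy,
    fun e => (h.inv_mem hz h0).1 e hgz⟩

theorem IsSp.loc_of_le (h : M.IsSp U B φ) {y z : X} (hy : y ∈ U) (hz : z ∈ U) (hzy : z ⤳ y) :
    ELoc (M.O y) (M.O z) := by
  rw [h.spec y hy z hz] at hzy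
  refine ⟨fun f hf => ?_, fun f hf => ?_⟩
  · obtain ⟨q, hq, hB⟩ := (h.mem y hy f).1 hf
    exact (h.mem z hz f).2 ⟨q, fun e => hq (hzy e), hB⟩
  · obtain ⟨q, hq, hB⟩ := (h.mem z hz f).1 hf
    have h0 : q ≠ 0 := fun e => hq (e ▸ zero_mem _)
    exact ⟨q, (h.loc hy).1 q.2, fun e => h0 (Subtype.ext e), (h.inv_mem hz h0).2 hq,
      (h.loc hy).1 hB⟩

/-- Nullstellensatz: a maximal ideal `𝔪 ≥ φ x`, `B / 𝔪 = ℂ` (`finite_of_finite_type_of_isJacobsonRing`,
`IsAlgClosed.algebraMap_bijective_of_isIntegral`); `ev (p / q) = p(x₀) / q(x₀)`. -/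
theorem IsSp.pt (h : M.IsSp U B φ) (hB : B.FG) {x : X} (hx : x ∈ U) :
    ∃ x₀, x ⤳ x₀ ∧ ∃ ev : M.O x₀ →ₐ[ℂ] ℂ, ∀ f : M.O x₀, ev f ≠ 0 → (f : K)⁻¹ ∈ M.O x₀ := by
  have hp := h.prime x hx
  obtain ⟨m, hm, hle⟩ := Ideal.exists_le_maximal (φ x) hp.ne_top
  obtain ⟨x₀, hx₀, rfl⟩ := h.surj m hm.isPrime
  refine ⟨x₀, (h.spec x₀ hx₀ x hx).2 hle, ?_⟩
  have : Algebra.FiniteType ℂ B := (Subalgebra.fg_iff_finiteType B).1 hB
  let _ := Ideal.Quotient.field (φ x₀)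
  have : Module.Finite ℂ (B ⧸ φ x₀) := finite_of_finite_type_of_isJacobsonRing ℂ _
  have hbij : Function.Bijective (algebraMap ℂ (B ⧸ φ x₀)) :=
    IsAlgClosed.algebraMap_bijective_of_isIntegral
  let E : ℂ ≃ₐ[ℂ] (B ⧸ φ x₀) := AlgEquiv.ofBijective (Algebra.ofId ℂ _) hbij
  let e : B →ₐ[ℂ] ℂ := (E.symm : _ →ₐ[ℂ] ℂ).comp (Ideal.Quotient.mkₐ ℂ (φ x₀))
  have he : ∀ q : B, e q = 0 ↔ q ∈ φ x₀ := fun q => by
    show E.symm (Ideal.Quotient.mk (φ x₀) q) = 0 ↔ _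
    rw [map_eq_zero_iff _ E.symm.injective, Ideal.Quotient.eq_zero_iff_mem]
  have key : ∀ f : M.O x₀, ∃ c : ℂ, ∀ (q p : B), (p : K) = f * q → e p = c * e q := by
    intro f
    obtain ⟨q₀, hq₀, hB₀⟩ := (h.mem x₀ hx₀ f).1 f.2
    have hne : e q₀ ≠ 0 := fun e0 => hq₀ ((he _).1 e0)
    refine ⟨e ⟨_, hB₀⟩ / e q₀, fun q p hpq => ?_⟩
    have : p * q₀ = ⟨_, hB₀⟩ * q := by
      apply Subtype.ext
      simp only [MulMemClass.coe_mul, hpq]
      ring
    have h2 := congrArg e this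
    rw [map_mul, map_mul] at h2
    field_simp
    exact h2
  choose c hc using key
  have den : ∀ f : M.O x₀, ∃ q p : B, e q ≠ 0 ∧ (p : K) = f * q := fun f => by
    obtain ⟨q₀, hq₀, hB₀⟩ := (h.mem x₀ hx₀ f).1 f.2
    exact ⟨q₀, ⟨_, hB₀⟩, fun e0 => hq₀ ((he _).1 e0), rfl⟩
  have halg : ∀ r : ℂ, c (algebraMap ℂ (M.O x₀) r) = r := fun r => by
    have := hc (algebraMap ℂ (M.O x₀) r) 1 (algebraMap ℂ B r) (by simp)
    simpa using this.symm
  refine ⟨{ toFun := c, map_one' := ?_, map_mul' := ?_, map_zero' := ?_, map_add' := ?_,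
            commutes' := halg }, ?_⟩
  · simpa using halg 1
  · intro f g
    obtain ⟨q, p, hq, hpq⟩ := den f
    obtain ⟨q', p', hq', hpq'⟩ := den g
    have h1 := hc f q p hpq
    have h2 := hc g q' p' hpq'
    have h3 := hc (f * g) (q * q') (p * p') (by
      simp only [MulMemClass.coe_mul, hpq, hpq']; ring)
    rw [map_mul, map_mul, h1, h2] at h3
    apply mul_right_cancel₀ (mul_ne_zero hq hq')
    rw [← h3]; ring
  · simpa using halg 0
  · intro f g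
    obtain ⟨q, p, hq, hpq⟩ := den f
    obtain ⟨q', p', hq', hpq'⟩ := den g
    have h1 := hc f q p hpq
    have h2 := hc g q' p' hpq'
    have h3 := hc (f + g) (q * q') (p * q' + p' * q) (by
      simp only [MulMemClass.coe_mul, AddMemClass.coe_add, hpq, hpq']; ring)
    rw [map_add, map_mul, map_mul, map_mul, h1, h2] at h3
    apply mul_right_cancel₀ (mul_ne_zero hq hq')
    rw [← h3]; ring
  · intro f hf
    obtain ⟨q, p, hq, hpq⟩ := den f
    have h1 := hc f q p hpq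
    have hp0 : e p ≠ 0 := by rw [h1]; exact mul_ne_zero hf hq
    have hf0 : (f : K) ≠ 0 := by
      intro e0
      apply hp0
      have : p = 0 := Subtype.ext (by rw [hpq, e0, zero_mul]; rfl)
      rw [this, map_zero]
    refine (h.mem x₀ hx₀ _).2 ⟨p, fun e0 => hp0 ((he _).2 e0), ?_⟩
    rw [hpq, ← mul_assoc, inv_mul_cancel₀ hf0, one_mul]
    exact q.2

end sp

end Crest.Agent.R271.EDat
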