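import Crest.Agent.R271.EUfd
import Crest.Prelude.Def_SmoothDivisors

/-! Row 271, part E: orders of vanishing on a locally factorial scheme. -/

set_option autoImplicit false
set_option linter.unusedSectionVars false

namespace Crest.Agent.R271

open AlgebraicGeometry Crest.AlgGeometry.Divisors CategoryTheory IsLocalRing Order

variable {X : Scheme.{0}} [IsIntegral X] [IsLocallyNoetherian X]

/-- all local rings are factorial -/
abbrev ELF (X : Scheme.{0}) [IsIntegral X] : Prop :=
  ∀ x : X, UniqueFactorizationMonoid (X.presheaf.stalk x)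

theorem E_stalk_reg [Algebra ℂ Γ(X, ⊤)] {n : ℕ} (hX : IsSmoothProperVariety ℂ X n) (x : X) :
    IsRegularRing (X.presheaf.stalk x) := by
  obtain ⟨U, hU, V, hV, hx, e, h⟩ := hX.2.2.exists_isStandardSmoothOfRelativeDimension x
  obtain rfl : U = ⊤ := by
    refine eq_top_iff.2 fun y _ => ?_
    rw [Subsingleton.elim y (structureMorphism ℂ X x)]
    exact e hx
  obtain ⟨g, -, hg⟩ := h.exists_etale_mvPolynomial
  have : IsRegularRing Γ(Spec (CommRingCat.of ℂ), ⊤) :=
    .of_ringEquiv (Scheme.ΓSpecIso (CommRingCat.of ℂ)).symm.commRingCatIsoToRingEquiv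
  algebraize [g]
  have := E_reg_etale (MvPolynomial (Fin n) Γ(Spec (CommRingCat.of ℂ), ⊤)) Γ(X, V)
  let := TopCat.Presheaf.algebra_section_stalk X.presheaf (U := V) ⟨x, hx⟩
  have := hV.isLocalization_stalk ⟨x, hx⟩
  exact E_reg_loc (hV.primeIdealOf ⟨x, hx⟩).asIdeal.primeCompl _

theorem E_stalk_ufd [Algebra ℂ Γ(X, ⊤)] {n : ℕ} (hX : IsSmoothProperVariety ℂ X n) : ELF X :=
  fun x => have := E_stalk_reg hX x; E_ufd _

theorem E_compact [Algebra ℂ Γ(X, ⊤)] {n : ℕ} (hX : IsSmoothProperVariety ℂ X n) :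
    CompactSpace X :=
  have := hX.2.1
  QuasiCompact.compactSpace_of_compactSpace (structureMorphism ℂ X)

/-! ### additivity -/

theorem E_ord_one (z : X) : Scheme.ord (1 : X.functionField) z = 0 := by
  have := Scheme.ord_mul (x := z) (f := (1 : X.functionField)) one_ne_zero one_ne_zero
  rw [mul_one] at this
  omega

theorem E_ord_inv (f : X.functionField) (z : X) : Scheme.ord f⁻¹ z = -Scheme.ord f z := by
  by_cases hf : f = 0
  · simp [hf]
  have := Scheme.ord_mul (x := z) hf (inv_ne_zero hf)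
  rw [mul_inv_cancel₀ hf, E_ord_one] at this
  omega

theorem E_ord_div {f g : X.functionField} (hf : f ≠ 0) (hg : g ≠ 0) (z : X) :
    Scheme.ord (f / g) z = Scheme.ord f z - Scheme.ord g z := by
  rw [div_eq_mul_inv, Scheme.ord_mul hf (inv_ne_zero hg), E_ord_inv, sub_eq_add_neg]

theorem E_ord_pow (f : X.functionField) (k : ℕ) (z : X) :
    Scheme.ord (f ^ k) z = k * Scheme.ord f z := by
  by_cases hf : f = 0
  · rcases k with _ | k
    · simp [E_ord_one]
    · simp [hf]
  induction k with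
  | zero => simp [E_ord_one]
  | succ k ih => rw [pow_succ, Scheme.ord_mul (pow_ne_zero _ hf) hf, ih]; push_cast; ring

theorem E_ord_zpow (f : X.functionField) (k : ℤ) (z : X) :
    Scheme.ord (f ^ k) z = k * Scheme.ord f z := by
  rcases k with k | k
  · simp [E_ord_pow]
  · rw [zpow_negSucc, E_ord_inv, E_ord_pow, Int.negSucc_eq]; push_cast; ring

/-! ### local rings inside the function field -/

/-- the local ring at `x` as a subring of the function field -/
noncomputable def EO (x : X) : Subring X.functionField :=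
  (algebraMap (X.presheaf.stalk x) X.functionField).range

theorem E_alg_spec {z x : X} (h : z ⤳ x) (a : X.presheaf.stalk x) :
    algebraMap (X.presheaf.stalk z) X.functionField (X.presheaf.stalkSpecializes h a) =
      algebraMap (X.presheaf.stalk x) X.functionField a := by
  simp [RingHom.algebraMap_toAlgebra, ← ConcreteCategory.comp_apply]

theorem EO_le {z x : X} (h : z ⤳ x) : EO x ≤ EO z := by
  rintro _ ⟨a, rfl⟩
  exact ⟨_, E_alg_spec h a⟩

theorem E_germ_mem {U : X.Opens} [Nonempty U] {x : X} (hx : x ∈ U) (s : Γ(X, U)) :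
    X.germToFunctionField U s ∈ EO x :=
  ⟨_, Scheme.algebraMap_germ_eq_germToFunctionField _ hx s⟩

/-- the prime ideal of the local ring at `x` given by a generisation `z` -/
noncomputable def EP {z x : X} (h : z ⤳ x) : Ideal (X.presheaf.stalk x) :=
  (maximalIdeal (X.presheaf.stalk z)).comap (X.presheaf.stalkSpecializes h).hom

instance {z x : X} (h : z ⤳ x) : (EP h).IsPrime := Ideal.comap_isPrime _ _

theorem E_mem_P {z x : X} (h : z ⤳ x) (a : X.presheaf.stalk x) :
    a ∈ EP h ↔ ¬ IsUnit (X.presheaf.stalkSpecializes h a) := Iff.rfl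

theorem E_P_from {z x : X} (h : z ⤳ x) : X.fromSpecStalk x ⟨EP h, inferInstance⟩ = z := by
  have := Scheme.fromSpecStalk_closedPoint (x := z)
  rw [← Scheme.SpecMap_stalkSpecializes_fromSpecStalk h] at this
  exact this

theorem E_P_inj {z z' x : X} (h : z ⤳ x) (h' : z' ⤳ x) (e : EP h = EP h') : z = z' := by
  rw [← E_P_from h, ← E_P_from h']
  congr 2

theorem E_P_surj {x : X} (P : Ideal (X.presheaf.stalk x)) [hP : P.IsPrime] :
    ∃ (z : X) (h : z ⤳ x), EP h = P := by
  have h : X.fromSpecStalk x ⟨P, hP⟩ ⤳ x := by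
    have : X.fromSpecStalk x ⟨P, hP⟩ ∈ Set.range (X.fromSpecStalk x) := ⟨_, rfl⟩
    rwa [Scheme.range_fromSpecStalk] at this
  refine ⟨_, h, ?_⟩
  have := (X.fromSpecStalk x).isEmbedding.injective (E_P_from h)
  exact congrArg PrimeSpectrum.asIdeal this

theorem E_P_loc {z x : X} (h : z ⤳ x) :
    letI := (X.presheaf.stalkSpecializes h).hom.toAlgebra
    IsLocalization.AtPrime (X.presheaf.stalk z) (EP h) := by
  let := (X.presheaf.stalkSpecializes h).hom.toAlgebra
  refine ⟨fun y => not_not.1 y.2, fun c => ?_, fun {a b} e => ⟨1, ?_⟩⟩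
  · obtain ⟨_, ⟨U, hU, rfl⟩, hxU, -⟩ :=
      X.isBasis_affineOpens.exists_subset_of_mem_open (Set.mem_univ x) isOpen_univ
    have hzU : z ∈ U := h.mem_open U.2 hxU
    let := TopCat.Presheaf.algebra_section_stalk X.presheaf (U := U) ⟨z, hzU⟩
    have := hU.isLocalization_stalk ⟨z, hzU⟩
    obtain ⟨⟨a, b⟩, hab⟩ := IsLocalization.surj (hU.primeIdealOf ⟨z, hzU⟩).asIdeal.primeCompl c
    have e : ∀ s : Γ(X, U), algebraMap _ (X.presheaf.stalk z) (X.presheaf.germ U x hxU s) =
        X.presheaf.germ U z hzU s := fun s => by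
      simp [RingHom.algebraMap_toAlgebra, ← ConcreteCategory.comp_apply]
    refine ⟨⟨X.presheaf.germ U x hxU a, X.presheaf.germ U x hxU b, fun hb => hb ?_⟩, ?_⟩
    · have := IsLocalization.map_units (X.presheaf.stalk z) b
      exact (e b).symm ▸ this
    · simp only [e]
      exact hab
  · congr 1
    apply IsFractionRing.injective _ X.functionField
    rw [← E_alg_spec h, ← E_alg_spec h]
    exact congrArg _ e

theorem E_P_height {z x : X} (h : z ⤳ x) : (EP h).height = coheight z := by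
  let := (X.presheaf.stalkSpecializes h).hom.toAlgebra
  have := E_P_loc h
  have h1 := IsLocalization.AtPrime.ringKrullDim_eq_height (EP h) (X.presheaf.stalk z)
  rw [ringKrullDim_stalk_eq_coheight] at h1
  exact_mod_cast h1.symm

theorem E_P_map {z x : X} (h : z ⤳ x) :
    (EP h).map (X.presheaf.stalkSpecializes h).hom = maximalIdeal _ := by
  let := (X.presheaf.stalkSpecializes h).hom.toAlgebra
  have := E_P_loc h
  exact IsLocalization.AtPrime.map_eq_maximalIdeal (EP h) (X.presheaf.stalk z)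

/-! ### discrete valuations -/

theorem E_dvr (hU : ELF X) (z : PrimeDivisor X) :
    IsDiscreteValuationRing (X.presheaf.stalk z.1) := by
  have := hU z.1
  have h1 : (maximalIdeal (X.presheaf.stalk z.1)).height = 1 := by
    have := IsLocalRing.maximalIdeal_height_eq_ringKrullDim (R := X.presheaf.stalk z.1)
    rw [ringKrullDim_stalk_eq_coheight, z.2] at this
    exact_mod_cast this
  have h2 : ¬ IsField (X.presheaf.stalk z.1) := fun c =>
    Ideal.ne_bot_of_height_eq_one h1 (isField_iff_maximalIdeal_eq.1 c)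
  exact ((IsDiscreteValuationRing.TFAE _ h2).out 0 4).2
    (UniqueFactorizationMonoid.isPrincipal_of_height_eq_one h1)

theorem E_ord_nonneg {z : X} {f : X.functionField} (h : f ∈ EO z) : 0 ≤ Scheme.ord f z := by
  by_cases hf : f = 0
  · simp [hf]
  by_cases hz : coheight z = 1
  swap
  · simp [hz]
  obtain ⟨a, rfl⟩ := h
  have : Ring.KrullDimLE 1 (X.presheaf.stalk z) := krullDimLE_of_coheight_le hz.le
  rw [Scheme.le_ord_iff hz hf]
  exact Ring.ordFrac_ge_one_of_ne_zero (fun e => hf (by simp [e]))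

theorem E_ord_unit {z : X} {a : X.presheaf.stalk z} (ha : IsUnit a) :
    Scheme.ord (algebraMap _ X.functionField a) z = 0 := by
  obtain ⟨u, rfl⟩ := ha
  have h1 := E_ord_nonneg (z := z) ⟨(u : X.presheaf.stalk z), rfl⟩
  have h2 := E_ord_nonneg (z := z) ⟨((u⁻¹ : (X.presheaf.stalk z)ˣ) : X.presheaf.stalk z), rfl⟩
  rw [map_units_inv, E_ord_inv] at h2
  omega

theorem E_mem_dvr (hU : ELF X) (z : PrimeDivisor X) {f : X.functionField}
    (h : 0 ≤ Scheme.ord f z.1) : f ∈ EO z.1 := by
  by_cases hf : f = 0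
  · exact hf ▸ zero_mem _
  have := E_dvr hU z
  rw [Scheme.le_ord_iff z.2 hf, Scheme.ordHom, Ring.ordFrac_eq_valuation_inv] at h
  refine IsDiscreteValuationRing.exists_lift_of_le_one ?_
  exact (one_le_inv₀ (zero_lt_iff.2 ((Valuation.ne_zero_iff _).2 hf))).1 h

theorem E_ord_irr (hU : ELF X) (z : PrimeDivisor X) {ϖ : X.presheaf.stalk z.1}
    (h : Irreducible ϖ) : Scheme.ord (algebraMap _ X.functionField ϖ) z.1 = 1 := by
  have := E_dvr hU z
  rw [Scheme.ord_eq_iff z.2 (by simpa using h.ne_zero), Scheme.ordHom, Ring.ordFrac_irreducible h]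
  rfl

/-- a prime element of the local ring at `x` for every prime divisor through `x` -/
theorem E_unif (hU : ELF X) (z : PrimeDivisor X) {x : X} (h : z.1 ⤳ x) :
    ∃ π : X.presheaf.stalk x, Prime π ∧ EP h = Ideal.span {π} ∧
      Scheme.ord (algebraMap _ X.functionField π) z.1 = 1 ∧
      ∀ z' : PrimeDivisor X, z'.1 ⤳ x → z' ≠ z →
        Scheme.ord (algebraMap _ X.functionField π) z'.1 = 0 := by
  have := hU x
  have := E_dvr hU z
  have h1 : (EP h).height = 1 := (E_P_height h).trans z.2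
  obtain ⟨π, hπ⟩ := UniqueFactorizationMonoid.isPrincipal_of_height_eq_one h1
  replace hπ : EP h = Ideal.span {π} := hπ
  have h0 : π ≠ 0 := by
    rintro rfl
    exact Ideal.ne_bot_of_height_eq_one h1 (by simpa using hπ)
  have hp : Prime π := (Ideal.span_singleton_prime h0).1 (hπ ▸ inferInstance)
  refine ⟨π, hp, hπ, ?_, fun z' h' hne => ?_⟩
  · rw [← E_alg_spec h]
    refine E_ord_irr hU z ((IsDiscreteValuationRing.irreducible_iff_uniformizer _).2 ?_)
    rw [← E_P_map h, hπ, Ideal.map_span, Set.image_singleton]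
  · rw [← E_alg_spec h']
    refine E_ord_unit (not_not.1 fun c => hne (Subtype.ext (E_P_inj h' h ?_)))
    rw [hπ]
    exact (EP h').eq_span_singleton_of_height_eq_one ((E_P_height h').trans z'.2) c hp

/-- algebraic Hartogs -/
theorem E_mem_iff (hU : ELF X) (x : X) (f : X.functionField) :
    f ∈ EO x ↔ ∀ z : PrimeDivisor X, z.1 ⤳ x → 0 ≤ Scheme.ord f z.1 := by
  refine ⟨fun h z hz => E_ord_nonneg (EO_le hz h), fun h => ?_⟩
  have := hU x
  refine IsFractionRing.isInteger_of_isUnit_den (A := X.presheaf.stalk x) (not_not.1 fun c => ?_)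
  obtain ⟨π, hπ, hd⟩ := WfDvdMonoid.exists_irreducible_factor c
    (nonZeroDivisors.coe_ne_zero (IsFractionRing.den (X.presheaf.stalk x) f))
  have hp := hπ.prime
  have := (Ideal.span_singleton_prime hp.ne_zero).2 hp
  obtain ⟨z, hz, e⟩ := E_P_surj (Ideal.span {π})
  have h1 : coheight z = 1 := by
    rw [← E_P_height hz, e]
    exact Ideal.height_span_singleton_eq_one_of_mem_nonZeroDivisors
      (mem_nonZeroDivisors_of_ne_zero hp.ne_zero) hp.not_isUnit
  obtain ⟨c, hc⟩ := E_mem_dvr hU ⟨z, h1⟩ (h ⟨z, h1⟩ hz)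
  refine hp.not_isUnit ((IsFractionRing.num_den_reduced (X.presheaf.stalk x) f) ?_ hd)
  rw [← Ideal.mem_span_singleton, ← e] at hd ⊢
  have e2 : X.presheaf.stalkSpecializes hz (IsFractionRing.num (X.presheaf.stalk x) f) =
      c * X.presheaf.stalkSpecializes hz (IsFractionRing.den (X.presheaf.stalk x) f) := by
    apply IsFractionRing.injective _ X.functionField
    rw [map_mul, E_alg_spec, E_alg_spec, hc]
    exact (IsFractionRing.num_mul_den_eq_num_iff_eq.2 rfl).symm
  rw [E_mem_P, e2]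
  exact fun c => hd (isUnit_of_mul_isUnit_right c)

theorem E_unit_iff (hU : ELF X) (x : X) {f : X.functionField} (hf : f ≠ 0) :
    (∃ u : (X.presheaf.stalk x)ˣ, algebraMap _ X.functionField (u : X.presheaf.stalk x) = f) ↔
      ∀ z : PrimeDivisor X, z.1 ⤳ x → Scheme.ord f z.1 = 0 := by
  constructor
  · rintro ⟨u, rfl⟩ z hz
    rw [← E_alg_spec hz]
    exact E_ord_unit (u.isUnit.map _)
  · intro h
    obtain ⟨a, ha⟩ := (E_mem_iff hU x f).2 fun z hz => (h z hz).ge
    obtain ⟨b, hb⟩ := (E_mem_iff hU x f⁻¹).2 fun z hz => by rw [E_ord_inv, h z hz]; rfl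
    refine ⟨.mkOfMulEqOne a b (IsFractionRing.injective _ X.functionField ?_), ha⟩
    rw [map_mul, ha, hb, map_one, mul_inv_cancel₀ hf]

/-- Weil divisors are locally principal -/
theorem E_locgen (hU : ELF X) (D : WeilDiv X) (x : X) :
    ∃ l : X.functionField, l ≠ 0 ∧ ∀ z : PrimeDivisor X, z.1 ⤳ x → Scheme.ord l z.1 = D z := by
  classical
  induction D using Finsupp.induction_linear with
  | zero => exact ⟨1, one_ne_zero, fun z _ => E_ord_one _⟩
  | add D D' h h' =>
    obtain ⟨l, h0, h⟩ := h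
    obtain ⟨l', h0', h'⟩ := h'
    exact ⟨l * l', mul_ne_zero h0 h0', fun z hz => by
      rw [Scheme.ord_mul h0 h0', h z hz, h' z hz, Finsupp.add_apply]⟩
  | single z k =>
    by_cases h : z.1 ⤳ x
    · obtain ⟨π, hp, -, h1, h2⟩ := E_unif hU z h
      refine ⟨algebraMap _ X.functionField π ^ k, zpow_ne_zero _ (by simpa using hp.ne_zero),
        fun z' hz' => ?_⟩
      rw [E_ord_zpow]
      by_cases e : z' = z
      · rw [e, h1, Finsupp.single_eq_same, mul_one]
      · rw [h2 z' hz' e, Finsupp.single_eq_of_ne e, mul_zero]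
    · refine ⟨1, one_ne_zero, fun z' hz' => ?_⟩
      rw [E_ord_one, Finsupp.single_eq_of_ne]
      rintro rfl
      exact h hz'

theorem E_prime_eq {z z' : PrimeDivisor X} (h : z.1 ⤳ z'.1) : z = z' := by
  by_contra c
  have h1 : z'.1 < z.1 := ⟨h, fun h' => c (Subtype.ext (h.antisymm h').eq)⟩
  have h2 := coheight_add_one_le h1
  rw [z.2, z'.2] at h2
  exact absurd h2 (by norm_num)

/-! ### finiteness -/

theorem E_fin_compl [CompactSpace X] (U : X.Opens) [Nonempty U] :
    {z : PrimeDivisor X | z.1 ∉ U}.Finite := by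
  have : IsNoetherian X := {}
  obtain ⟨S, hS, hc, hi, e⟩ :=
    TopologicalSpace.NoetherianSpace.exists_finite_set_isClosed_irreducible U.2.isClosed_compl
  have := hS.to_subtype
  refine ((Set.finite_range fun t : S => (hi t.1 t.2).genericPoint).preimage
    Subtype.val_injective.injOn).subset fun z hz => ?_
  have hz' : z.1 ∈ ⋃₀ S := e ▸ hz
  obtain ⟨t, ht, hzt⟩ := hz'
  refine ⟨⟨t, ht⟩, not_not.1 fun c => ?_⟩
  have hg := (hi t ht).isGenericPoint_genericPoint (hc t ht)
  have h1 : z.1 < (hi t ht).genericPoint :=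
    ⟨hg.specializes hzt, fun h => c ((hg.specializes hzt).antisymm h).eq⟩
  have hη : genericPoint X ∈ U :=
    ((genericPoint_spec X).mem_open_set_iff U.isOpen).mpr (by simpa using ‹Nonempty U›)
  have h2 : (hi t ht).genericPoint < genericPoint X := by
    refine ⟨(genericPoint_spec X).specializes trivial, fun h => ?_⟩
    have h3 : genericPoint X ∈ ⋃₀ S := ⟨t, ht, hg.mem_closed_set_iff (hc t ht) |>.1 hg.mem
      (hg.specializes_iff_mem.1 h)⟩
    rw [← e] at h3
    exact h3 hη
  have h3 := coheight_add_one_le h1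
  have h4 := coheight_add_one_le h2
  rw [z.2] at h3
  have h5 : (1 : ℕ∞) + 1 ≤ 1 := le_trans (by gcongr; exact le_trans le_add_self h4) h3
  exact absurd h5 (by norm_num)

theorem E_fin [CompactSpace X] (f : X.functionField) :
    {z : PrimeDivisor X | Scheme.ord f z.1 ≠ 0}.Finite := by
  by_cases hf : f = 0
  · simp [hf]
  obtain ⟨U, -, g, _, rfl, hg⟩ := exists_isUnit_germ_eq X f hf
  exact (E_fin_compl U).subset fun z hz c => hz (Scheme.ord_of_isUnit hg c)

/-! ### sections -/

theorem E_sec_of_mem (U : X.Opens) [Nonempty U] {f : X.functionField} (h : ∀ x ∈ U, f ∈ EO x) :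
    ∃ s : Γ(X, U), X.germToFunctionField U s = f := by
  have h1 : ∀ x : U, ∃ (V : X.Opens) (hx : x.1 ∈ V) (_ : V ≤ U) (s : Γ(X, V)),
      algebraMap _ X.functionField (X.presheaf.germ V x hx s) = f := by
    intro x
    obtain ⟨a, ha⟩ := h x x.2
    obtain ⟨V, hx, s, hs⟩ := X.presheaf.exists_germ_eq a
    refine ⟨V ⊓ U, ⟨hx, x.2⟩, inf_le_right, X.presheaf.map (homOfLE inf_le_left).op s, ?_⟩
    rw [X.presheaf.germ_res_apply, hs, ha]
  choose V hx hV s hs using h1
  have hne : ∀ x, Nonempty (V x) := fun x => ⟨⟨x, hx x⟩⟩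
  have hη : ∀ x, genericPoint X ∈ V x := fun x =>
    ((genericPoint_spec X).mem_open_set_iff (V x).isOpen).mpr ⟨x, trivial, hx x⟩
  have hs' : ∀ x, X.presheaf.germ (V x) (genericPoint X) (hη x) (s x) = f := fun x =>
    (Scheme.algebraMap_germ_eq_germToFunctionField _ (hx x) (s x)).symm.trans (hs x)
  obtain ⟨g, hg, -⟩ := X.sheaf.existsUnique_gluing' V U (fun x => homOfLE (hV x))
    (fun x hxU => TopologicalSpace.Opens.mem_iSup.2 ⟨⟨x, hxU⟩, hx _⟩) s (fun x y => by
      apply germ_injective_of_isIntegral X (genericPoint X) (show _ ∈ V x ⊓ V y from ⟨hη x, hη y⟩)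
      exact (X.presheaf.germ_res_apply _ _ _ _).trans
        (((hs' x).trans (hs' y).symm).trans (X.presheaf.germ_res_apply _ _ _ _).symm))
  obtain ⟨x⟩ := ‹Nonempty U›
  refine ⟨g, ?_⟩
  rw [← hs' x, ← hg x]
  exact (X.presheaf.germ_res_apply (homOfLE (hV x)) _ (hη x) g).symm

/-- a section is invertible at `x` iff its inverse lies in the local ring -/
theorem E_mem_basicOpen {U : X.Opens} [Nonempty U] {s : Γ(X, U)} (hs : s ≠ 0) {x : X}
    (hx : x ∈ U) : x ∈ X.basicOpen s ↔ (X.germToFunctionField U s)⁻¹ ∈ EO x := by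
  have h0 : X.germToFunctionField U s ≠ 0 := fun e =>
    hs (X.germToFunctionField_injective U (e.trans (map_zero _).symm))
  rw [X.mem_basicOpen s x hx]
  rw [← Scheme.algebraMap_germ_eq_germToFunctionField _ hx] at h0 ⊢
  constructor
  · rintro ⟨u, hu⟩
    exact ⟨(u⁻¹ : (X.presheaf.stalk x)ˣ), by rw [map_units_inv, hu]⟩
  · rintro ⟨b, hb⟩
    refine IsUnit.of_mul_eq_one b (IsFractionRing.injective _ X.functionField ?_)
    rw [map_mul, hb, map_one, mul_inv_cancel₀ h0]

end Crest.Agent.R271
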