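import Crest.Agent.R271.EG2
import Crest.Agent.R271.EG3

/-! Row 271, part E: the projective data attached to an ample divisor. -/

set_option autoImplicit false

namespace Crest.Agent.R271

open Filter Topology

namespace Geo
variable {K : Type} [Field K] [Algebra ℂ K] {P : Type} [TopologicalSpace P] {Z : Type} {n : ℕ}
  (G : Geo K P Z n)

/-- `M` is a base point free system of sections of `D`, divided by `τ`. -/
structure Sys (D : Z →₀ ℤ) (τ : K) (M : Submodule ℂ K) : Prop where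
  ne : τ ≠ 0
  fg : M.FG
  sec : ∀ w ∈ M, w * τ ∈ G.secs D
  bpf : ∀ x, ∃ s ∈ M, s ≠ 0 ∧ G.NV D (s * τ) x

variable {G}

theorem Sys.mul {D D' : Z →₀ ℤ} {τ τ' : K} {M M' : Submodule ℂ K} (h : G.Sys D τ M)
    (h' : G.Sys D' τ' M') : G.Sys (D + D') (τ * τ') (M * M') := by
  refine ⟨mul_ne_zero h.ne h'.ne, h.fg.mul h'.fg, fun w hw => ?_, fun x => ?_⟩
  · refine Submodule.mul_induction_on hw (fun a ha b hb => ?_) fun a b ha hb => ?_
    · rw [mul_mul_mul_comm]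
      exact G.secs_mul _ _ (Submodule.mul_mem_mul (h.sec a ha) (h'.sec b hb))
    · rw [add_mul]
      exact add_mem ha hb
  · obtain ⟨s, hs, s0, hx⟩ := h.bpf x
    obtain ⟨s', hs', s0', hx'⟩ := h'.bpf x
    refine ⟨s * s', Submodule.mul_mem_mul hs hs', mul_ne_zero s0 s0', ?_⟩
    rw [mul_mul_mul_comm]
    exact hx.mul (mul_ne_zero s0 h.ne) (mul_ne_zero s0' h'.ne) hx'

theorem Sys.pow {D : Z →₀ ℤ} {τ : K} {M : Submodule ℂ K} (h : G.Sys D τ M) (k : ℕ) :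
    G.Sys ((k + 1) • D) (τ ^ (k + 1)) (M ^ (k + 1)) := by
  induction k with
  | zero => simpa using h
  | succ k ih => rw [succ_nsmul, pow_succ τ, pow_succ M]; exact ih.mul h

theorem Sys.pow' {D : Z →₀ ℤ} {τ : K} {M : Submodule ℂ K} (h : G.Sys D τ M) {k : ℕ} (hk : 1 ≤ k) :
    G.Sys (k • D) (τ ^ k) (M ^ k) := by
  obtain ⟨k, rfl⟩ := Nat.exists_eq_add_of_le' hk
  exact h.pow k

theorem Sys.change {D : Z →₀ ℤ} {τ τ' : K} {M : Submodule ℂ K} (h : G.Sys D τ M) (h0 : τ' ≠ 0) :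
    G.Sys D τ' (Submodule.span ℂ {τ / τ'} * M) := by
  refine ⟨h0, (Submodule.fg_span_singleton _).mul h.fg, fun w hw => ?_, fun x => ?_⟩
  · obtain ⟨s, hs, rfl⟩ := Submodule.mem_span_singleton_mul.1 hw
    rw [show τ / τ' * s * τ' = s * τ by field_simp]
    exact h.sec s hs
  · obtain ⟨s, hs, s0, hx⟩ := h.bpf x
    refine ⟨τ / τ' * s, Submodule.mul_mem_mul (Submodule.mem_span_singleton_self _) hs,
      mul_ne_zero (div_ne_zero h.ne h0) s0, ?_⟩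
    rwa [show τ / τ' * s * τ' = s * τ by field_simp]

theorem Sys.of_finset {D : Z →₀ ℤ} {τ : K} (h0 : τ ≠ 0) {T : Finset K} (hT : ∀ s ∈ T, s ∈ G.secs D)
    (hb : ∀ x, ∃ s ∈ T, s ≠ 0 ∧ G.NV D s x) :
    G.Sys D τ (Submodule.span ℂ ((fun s => s / τ) '' T)) := by
  refine ⟨h0, Submodule.fg_span (T.finite_toSet.image _), fun w hw => ?_, fun x => ?_⟩
  · induction hw using Submodule.span_induction with
    | mem w hw =>
      obtain ⟨s, hs, rfl⟩ := hw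
      rw [div_mul_cancel₀ _ h0]
      exact hT s hs
    | zero => rw [zero_mul]; exact zero_mem _
    | add a b _ _ ha hb => rw [add_mul]; exact add_mem ha hb
    | smul c a _ ha => rw [smul_mul_assoc]; exact Submodule.smul_mem _ _ ha
  · obtain ⟨s, hs, s0, hx⟩ := hb x
    exact ⟨s / τ, Submodule.subset_span ⟨s, hs, rfl⟩, div_ne_zero s0 h0,
      by rwa [div_mul_cancel₀ _ h0]⟩

theorem Sys.mem_O {D : Z →₀ ℤ} {τ : K} {M : Submodule ℂ K} (h : G.Sys D τ M) {x : P}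
    (hx : G.NV D τ x) {w : K} (hw : w ∈ M) : w ∈ G.O x := by
  have := hx.div_mem h.ne (h.sec w hw)
  rwa [mul_div_cancel_right₀ _ h.ne] at this

theorem Sys.red {D : Z →₀ ℤ} {τ : K} {M M' : Submodule ℂ K} (h : G.Sys D τ M) (h' : G.Sys D τ M') :
    IsRed M (M ⊔ M') ∧ IsRed M' (M ⊔ M') := by
  have hs : ∀ w ∈ M ⊔ M', w * τ ∈ G.secs D := fun w hw => by
    obtain ⟨a, ha, b, hb, rfl⟩ := Submodule.mem_sup.1 hw
    rw [add_mul]
    exact add_mem (h.sec a ha) (h'.sec b hb)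
  exact ⟨G.isRed h.ne (h.fg.sup h'.fg) le_sup_left hs h.bpf,
    G.isRed h.ne (h.fg.sup h'.fg) le_sup_right hs h'.bpf⟩

variable (G)

theorem proj {L : Z →₀ ℤ} (hL : G.Ample L) (x : P) :
    ∃ (c : Chart K n) (V : Submodule ℂ c.S) (a : ℕ) (σ : c.Sˣ) (l : K), ProjData c.S V a ∧ l ≠ 0 ∧
      c.S ≤ G.O x ∧ (∀ z, G.pt z ⤳ x → G.At c (G.pt z)) ∧ G.NV L l x ∧
      ∀ s ∈ V, (((σ : c.S) * s : c.S) : K) * l ^ a ∈ G.secs (a • L) := by
  classical
  obtain ⟨a₀, T, ha₀, hT, hcov⟩ := G.cover hL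
  obtain ⟨s₀, hs₀, hx₀⟩ := hcov x
  obtain ⟨hsec₀, hU⟩ := hT s₀ hs₀
  set U := {y | G.NV (a₀ • L) s₀ y} with hUd
  obtain ⟨B, hB⟩ := G.aff_fg U hU ⟨x, hx₀⟩
  have hBU : ∀ b ∈ B, ∀ y ∈ U, b ∈ G.O y := fun b hb y hy => by
    have : b ∈ ⨅ x ∈ U, G.O x := hB ▸ Algebra.subset_adjoin hb
    simp only [Algebra.mem_iInf] at this
    exact this y hy
  have hev : ∀ᶠ e : ℕ in atTop, ∀ b ∈ B, b * s₀ ^ e ∈ G.secs (e • a₀ • L) := by
    refine (eventually_all_finset B).2 fun b hb => ?_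
    by_cases b0 : b = 0
    · exact Eventually.of_forall fun e => by rw [b0, zero_mul]; exact zero_mem _
    refine (G.clear (D := 0) hsec₀ b0 fun z hz => ?_).mono fun e he => G.mem_secs.2 (Or.inr ?_)
    · simpa using (G.mem_O_pt z b0).1 (hBU b hb _ hz)
    · rwa [zero_add] at he
  obtain ⟨e, hbe, he⟩ := (hev.and (eventually_ge_atTop 1)).exists
  have s0 : s₀ ≠ 0 := hsec₀.1
  have hσ : s₀ ^ e ≠ 0 := pow_ne_zero _ s0
  have S1 := Sys.of_finset (G := G) (D := e • a₀ • L) hσ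
    (T := T.image (· ^ e) ∪ B.image (· * s₀ ^ e)) (fun s hs => by
      rcases Finset.mem_union.1 hs with hs | hs
      · obtain ⟨s', hs', rfl⟩ := Finset.mem_image.1 hs
        exact G.secs_pow _ _ (Submodule.pow_mem_pow _ (G.mem_secs.2 (Or.inr (hT s' hs').1)) e)
      · obtain ⟨b, hb, rfl⟩ := Finset.mem_image.1 hs
        exact hbe b hb)
    fun y => by
      obtain ⟨s, hs, hy⟩ := hcov y
      exact ⟨s ^ e, Finset.mem_union_left _ (Finset.mem_image_of_mem _ hs),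
        pow_ne_zero _ (hT s hs).1.1, hy.pow (hT s hs).1.1 e⟩
  set V := Submodule.span ℂ ((fun s => s / s₀ ^ e) ''
    (T.image (· ^ e) ∪ B.image (· * s₀ ^ e) : Finset K)) with hV
  have h1V : (1 : K) ∈ V := Submodule.subset_span ⟨s₀ ^ e,
    Finset.mem_coe.2 (Finset.mem_union_left _ (Finset.mem_image_of_mem _ hs₀)), div_self hσ⟩
  have hBV : (⨅ x ∈ U, G.O x) ≤ Algebra.adjoin ℂ (V : Set K) := by
    rw [← hB]
    refine Algebra.adjoin_mono fun b hb => Submodule.subset_span ⟨b * s₀ ^ e,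
      Finset.mem_coe.2 (Finset.mem_union_right _ (Finset.mem_image_of_mem _ hb)),
      mul_div_cancel_right₀ _ hσ⟩
  obtain ⟨k, hk⟩ := ((tendsto_id.atTop_mul_const' (show 0 < e from he)).eventually
    (G.bpf_twist hT hcov L)).exists
  obtain ⟨T', hT', hcov'⟩ := hk
  obtain ⟨τ, hτ, hτx⟩ := hcov' x
  have τ0 : τ ≠ 0 := (hT' τ hτ).1
  have S2 := Sys.of_finset (G := G) τ0 (fun s hs => G.mem_secs.2 (Or.inr (hT' s hs)))
    fun y => (hcov' y).imp fun s hs => ⟨hs.1, (hT' s hs.1).1, hs.2⟩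
  set V₂ := Submodule.span ℂ ((fun s => s / τ) '' T') with hV₂
  have h1V₂ : (1 : K) ∈ V₂ := Submodule.subset_span ⟨τ, hτ, div_self τ0⟩
  have S3 := S2.mul S1
  set a := e * a₀ with ha
  have ha1 : 1 ≤ a := Nat.mul_pos he ha₀
  have e1 : e • a₀ • L = a • L := by rw [ha, mul_smul]
  have e2 : L + (id k * e) • a₀ • L + e • a₀ • L = (1 + (k + 1) * a) • L := by
    simp only [id, ha, ← mul_smul, add_smul, one_smul, add_mul, one_mul, mul_assoc, add_assoc]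
  rw [e2] at S3
  rw [e1] at S1
  set a' := 1 + (k + 1) * a with ha'
  have ha1' : 1 ≤ a' := Nat.le_add_right _ _
  have S4 := S1.pow' ha1'
  have S5 := (S3.pow' ha1).change S4.ne
  rw [smul_comm a a'] at S5
  obtain ⟨l, l0, hl⟩ := G.locgen (-L) x
  have hlx : G.NV L l x := fun z hz => by simp [hl z hz]
  obtain ⟨t, ht⟩ := G.chart U hU x hx₀
  obtain ⟨c, j, U'', -, hO, hxU, hsub, hS, hj, j0, hji, hloc, hat⟩ := ht _
    (inter_mem ((G.isOpen_NV _ τ0).mem_nhds hτx) ((G.isOpen_NV _ l0).mem_nhds hlx))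
  have n1 : ∀ y ∈ U'', G.NV (a • L) (s₀ ^ e) y := fun y hy => e1 ▸ NV.pow s0 (hsub hy).1 e
  have n2 : ∀ y ∈ U'', G.NV (a' • L) (τ * s₀ ^ e) y := fun y hy =>
    e2 ▸ NV.mul τ0 hσ (hsub hy).2.1 (NV.pow s0 (hsub hy).1 e)
  have n3 : ∀ y ∈ U'', G.NV (a' • a • L) ((s₀ ^ e) ^ a') y := fun y hy => (n1 y hy).pow hσ _
  have n4 : ∀ y ∈ U'', G.NV (a' • a • L) ((τ * s₀ ^ e) ^ a) y := fun y hy =>
    smul_comm a a' L ▸ (n2 y hy).pow S3.ne _
  have n5 : ∀ y ∈ U'', G.NV (a • L) (l ^ a) y := fun y hy => NV.pow l0 (hsub hy).2.2 _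
  have la : l ^ a ≠ 0 := pow_ne_zero _ l0
  have m1 : s₀ ^ e / l ^ a ∈ c.S := (hS _).2 fun y hy => NV.div_mem' la hσ (n5 y hy) (n1 y hy)
  have m2 : l ^ a / s₀ ^ e ∈ c.S := (hS _).2 fun y hy => NV.div_mem' hσ la (n1 y hy) (n5 y hy)
  have p0 : (τ * s₀ ^ e) ^ a ≠ 0 := pow_ne_zero _ S3.ne
  refine ⟨c, V.comap c.S.val.toLinearMap, a, ⟨⟨_, m1⟩, ⟨_, m2⟩, Subtype.ext ?_, Subtype.ext ?_⟩, l,
    projData_of c.S S1.fg S3.fg h1V (fun w hw => ?_)
      (fun f hf => (hS f).2 fun y hy => S3.mem_O (n2 y hy) hf) ha1 ha1' ?_ (hBV hj) j0 hji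
      (fun f hf => (hloc f hf).imp fun m hm => hBV hm) (div_ne_zero p0 S4.ne)
      ((hS _).2 fun y hy => NV.div_mem' S4.ne p0 (n3 y hy) (n4 y hy))
      ((hS _).2 fun y hy => by rw [inv_div]; exact NV.div_mem' p0 S4.ne (n4 y hy) (n3 y hy))
      (S4.red S5).1 (S4.red S5).2,
    l0, fun f hf => (hS f).1 hf x hxU, fun z hz => ?_, hlx, fun s hs => ?_⟩
  · change s₀ ^ e / l ^ a * (l ^ a / s₀ ^ e) = 1
    field_simp
  · change l ^ a / s₀ ^ e * (s₀ ^ e / l ^ a) = 1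
    field_simp
  · simpa using Submodule.mul_mem_mul h1V₂ hw
  · rw [ha']
    simp
  · have := hz.mem_open hO hxU
    exact ⟨fun f hf => (hS f).1 hf _ this, hat _ this⟩
  · change s₀ ^ e / l ^ a * (s : K) * l ^ a ∈ _
    rw [show s₀ ^ e / l ^ a * (s : K) * l ^ a = s * s₀ ^ e by field_simp]
    exact S1.sec _ hs

end Geo

end Crest.Agent.R271
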