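import Crest.Agent.R271.EDefs

/-! Row 271, part E: reductions via valuations. -/

set_option autoImplicit false

namespace Crest.Agent.R271

variable {K : Type} [Field K] [Algebra ℂ K]

/-- the Rees algebra of `U` -/
def E_pow_mem_rees (U : Submodule ℂ K) : Subring (Polynomial K) where
  carrier := {p | ∀ i, p.coeff i ∈ U ^ i}
  mul_mem' {p q} hp hq i := by
    rw [Polynomial.coeff_mul]
    refine Submodule.sum_mem _ fun x hx => ?_
    rw [← Finset.HasAntidiagonal.mem_antidiagonal.1 hx, pow_add]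
    exact Submodule.mul_mem_mul (hp _) (hq _)
  one_mem' i := by
    rw [Polynomial.coeff_one]
    split_ifs with h
    · rw [h, pow_zero]
      exact Submodule.mem_one.2 ⟨1, map_one _⟩
    · exact Submodule.zero_mem _
  add_mem' {p q} hp hq i := by
    rw [Polynomial.coeff_add]
    exact Submodule.add_mem _ (hp i) (hq i)
  zero_mem' i := by
    rw [Polynomial.coeff_zero]
    exact Submodule.zero_mem _
  neg_mem' {p} hp i := by
    rw [Polynomial.coeff_neg]
    exact Submodule.neg_mem _ (hp i)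

theorem E_pow_mem_C (U : Submodule ℂ K) (c : ℂ) :
    Polynomial.C (algebraMap ℂ K c) ∈ E_pow_mem_rees U := by
  intro i
  rw [Polynomial.coeff_C]
  split_ifs with h
  · rw [h, pow_zero]
    exact Submodule.mem_one.2 ⟨c, rfl⟩
  · exact Submodule.zero_mem _

theorem E_pow_mem_X {U : Submodule ℂ K} {s : K} (hs : s ∈ U) :
    Polynomial.monomial 1 s ∈ E_pow_mem_rees U := by
  intro i
  rw [Polynomial.coeff_monomial]
  split_ifs with h
  · rw [← h, pow_one]
    exact hs
  · exact Submodule.zero_mem _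

/-- an integral dependence relation.  In `F = RatFunc K` (or `FractionRing K[X]`) let `R` be the subring
generated by `ℂ` and the `s X`, `s ∈ U`.  Every valuation subring `A'` of `F` containing `R` contains
`w X = (s X) (w / s)` (apply `h` to `A'.comap`), so `w X` is integral over `R`
(`iInf_valuationSubring_superset` / `ValuationSubring`, `LocalSubring` API).  Elements of `R` are polynomials
whose `i`-th coefficient lies in `U ^ i`; take the coefficient of `X ^ d` in the monic relation. -/
theorem E_pow_mem {U : Submodule ℂ K} {w : K}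
    (h : ∀ A : ValuationSubring K, (∀ c : ℂ, algebraMap ℂ K c ∈ A) → ∃ s ∈ U, s ≠ 0 ∧ w / s ∈ A) :
    ∃ d : ℕ, w ^ (d + 1) ∈ (U ⊔ Submodule.span ℂ {w}) ^ d * U := by
  classical
  let F := FractionRing (Polynomial K)
  let ι : Polynomial K →+* F := algebraMap (Polynomial K) F
  have hι : Function.Injective ι := IsFractionRing.injective (Polynomial K) F
  let R : Subring F := (E_pow_mem_rees U).map ι
  have h1 : ι (Polynomial.monomial 1 w) ∈
      (⨅ V : {V : ValuationSubring F // (R : Set F) ⊆ V.toSubring}, V.1.toSubring) := by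
    rw [Subring.mem_iInf]
    rintro ⟨V, hV⟩
    obtain ⟨s, hs, hs0, hw⟩ := h (V.comap (ι.comp Polynomial.C)) fun c =>
      hV ⟨Polynomial.C (algebraMap ℂ K c), E_pow_mem_C U c, rfl⟩
    have e : Polynomial.monomial 1 w = Polynomial.monomial 1 s * Polynomial.C (w / s) := by
      rw [Polynomial.monomial_mul_C, mul_div_cancel₀ _ hs0]
    rw [e, map_mul]
    exact V.toSubring.mul_mem (hV ⟨_, E_pow_mem_X hs, rfl⟩) hw
  rw [iInf_valuationSubring_superset] at h1
  obtain ⟨p, hp, hp0⟩ : IsIntegral (Subring.closure (R : Set F)) (ι (Polynomial.monomial 1 w)) := h1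
  have hr : ∀ i, ∃ r ∈ E_pow_mem_rees U, ι r = (p.coeff i : F) := fun i => by
    exact (Subring.closure_eq R).le (p.coeff i).2
  choose r hr hr' using hr
  obtain ⟨d, hd⟩ : ∃ d, p.natDegree = d + 1 := by
    refine Nat.exists_eq_succ_of_ne_zero fun h0 => ?_
    rw [Polynomial.eq_one_of_monic_natDegree_zero hp h0, Polynomial.eval₂_one] at hp0
    exact one_ne_zero hp0
  refine ⟨d, ?_⟩
  rw [Polynomial.eval₂_eq_sum_range, Finset.sum_range_succ, hp.coeff_natDegree, map_one, one_mul,
    hd] at hp0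
  have h2 : ∑ i ∈ Finset.range (d + 1), r i * Polynomial.monomial 1 w ^ i +
      Polynomial.monomial 1 w ^ (d + 1) = 0 := by
    apply hι
    rw [map_zero, ← hp0, map_add, map_sum, map_pow]
    congr 1
    exact Finset.sum_congr rfl fun i _ => by rw [map_mul, map_pow, hr']; rfl
  have h3 := congrArg (fun q => q.coeff (d + 1)) h2
  simp only [Polynomial.coeff_add, Polynomial.finsetSum_coeff, Polynomial.monomial_pow, one_mul,
    Polynomial.coeff_monomial_same, Polynomial.coeff_zero] at h3
  rw [eq_neg_of_add_eq_zero_right h3]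
  refine Submodule.neg_mem _ (Submodule.sum_mem _ fun i hi => ?_)
  rw [Finset.mem_range] at hi
  obtain ⟨j, rfl⟩ : ∃ j, d = j + i := ⟨d - i, by omega⟩
  rw [show j + i + 1 = j + 1 + i by ring, Polynomial.coeff_mul_monomial]
  have h4 := hr i (j + 1)
  have h5 : w ^ i ∈ (U ⊔ Submodule.span ℂ {w}) ^ i :=
    Submodule.pow_mem_pow _ (Submodule.mem_sup_right (Submodule.mem_span_singleton_self w)) i
  have h6 : U ^ (j + 1) ≤ (U ⊔ Submodule.span ℂ {w}) ^ j * U := by
    rw [pow_succ]
    exact mul_le_mul' (pow_le_pow_left' le_sup_left j) le_rfl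
  rw [pow_add, mul_right_comm]
  exact Submodule.mul_mem_mul (h6 h4) h5

theorem E_isRed_of_gen_cast {S : Type} [CommRing S] [Algebra ℂ S] (n : ℕ) :
    (n : Submodule ℂ S) ≤ 1 := by
  induction n with
  | zero => simp
  | succ n ih => rw [Nat.cast_succ, Submodule.add_eq_sup]; exact sup_le ih le_rfl

theorem E_isRed_of_gen_term {S : Type} [CommRing S] [Algebra ℂ S] {U W A B : Submodule ℂ S}
    (hA : A ≤ W) (hB : B ≤ W) {a : ℕ} (h : A ^ (a + 1) ≤ W ^ a * U) (i j : ℕ) :
    A ^ (a + 1 + i) * B ^ j ≤ W ^ (a + i + j) * U := by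
  calc A ^ (a + 1 + i) * B ^ j = A ^ (a + 1) * (A ^ i * B ^ j) := by ring
    _ ≤ W ^ a * U * (W ^ i * W ^ j) := by gcongr
    _ = W ^ (a + i + j) * U := by ring

/-- if `w ^ (d + 1) ∈ W ^ d U` for a finite set of generators `w` of `W` then `U` is a reduction
(induction on the number of generators: `(W₁ ⊔ span {w}) ^ N` is spanned by the `w ^ i W₁ ^ (N - i)`). -/
theorem E_isRed_of_gen {S : Type} [CommRing S] [Algebra ℂ S] {U W : Submodule ℂ S} (hUW : U ≤ W)
    (hW : W.FG) (h : ∀ w ∈ W, ∃ d : ℕ, w ^ (d + 1) ∈ W ^ d * U) : IsRed U W := by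
  refine ⟨hUW, ?_⟩
  have key : ∀ (N : Submodule ℂ S) (hN : N.FG), N ≤ W → ∃ d : ℕ, N ^ (d + 1) ≤ W ^ d * U := by
    intro N hN
    induction N, hN using Submodule.fg_induction with
    | singleton x =>
      intro hx
      obtain ⟨d, hd⟩ := h x (hx (Submodule.mem_span_singleton_self x))
      refine ⟨d, ?_⟩
      rw [Submodule.span_pow, Set.singleton_pow, Submodule.span_singleton_le_iff_mem]
      exact hd
    | sup A B _ _ ihA ihB =>
      intro hAB
      have hA : A ≤ W := le_sup_left.trans hAB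
      have hB : B ≤ W := le_sup_right.trans hAB
      obtain ⟨a, ha⟩ := ihA hA
      obtain ⟨b, hb⟩ := ihB hB
      refine ⟨a + b, ?_⟩
      rw [← Submodule.add_eq_sup, add_pow]
      refine Finset.sum_induction _ (fun T => T ≤ W ^ (a + b) * U)
        (fun T T' h1 h2 => by rw [Submodule.add_eq_sup]; exact sup_le h1 h2) bot_le fun i hi => ?_
      have hi' : i ≤ a + b + 1 := Nat.lt_succ_iff.1 (Finset.mem_range.1 hi)
      refine le_trans (mul_le_mul_right (E_isRed_of_gen_cast _) _) ?_
      rw [mul_one]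
      rcases le_or_gt (a + 1) i with h1 | h1
      · obtain ⟨k, rfl⟩ := Nat.exists_eq_add_of_le h1
        have := E_isRed_of_gen_term hA hB ha k (a + b + 1 - (a + 1 + k))
        rwa [show a + k + (a + b + 1 - (a + 1 + k)) = a + b by omega] at this
      · have := E_isRed_of_gen_term hB hA hb (a - i) i
        rw [show b + (a - i) + i = a + b by omega, show b + 1 + (a - i) = a + b + 1 - i by omega,
          mul_comm] at this
        exact this
  exact key W hW le_rfl

/-- transfer along `S.val` (`Submodule.map_mul`, `Submodule.map_pow`, injectivity). -/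
theorem E_isRed_of_val {S : Subalgebra ℂ K} {U W : Submodule ℂ S} (hUW : U ≤ W) (hW : W.FG)
    (h : ∀ A : ValuationSubring K, (∀ c : ℂ, algebraMap ℂ K c ∈ A) →
      ∃ s ∈ U, (s : K) ≠ 0 ∧ ∀ w ∈ W, (w : K) / s ∈ A) : IsRed U W := by
  refine E_isRed_of_gen hUW hW fun w hw => ?_
  obtain ⟨d, hd⟩ := E_pow_mem (U := U.map S.val.toLinearMap) (w := (w : K)) fun A hA => by
    obtain ⟨s, hs, hs0, hsw⟩ := h A hA
    exact ⟨s, ⟨s, hs, rfl⟩, hs0, hsw w hw⟩
  refine ⟨d, ?_⟩
  have h1 : U.map S.val.toLinearMap ⊔ Submodule.span ℂ {(w : K)} ≤ W.map S.val.toLinearMap :=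
    sup_le (Submodule.map_mono hUW) ((Submodule.span_singleton_le_iff_mem _ _).2 ⟨w, hw, rfl⟩)
  have h2 : (U.map S.val.toLinearMap ⊔ Submodule.span ℂ {(w : K)}) ^ d * U.map S.val.toLinearMap ≤
      (W ^ d * U).map S.val.toLinearMap := by
    rw [Submodule.map_mul, Submodule.map_pow]
    gcongr
  obtain ⟨x, hx, hxe⟩ := h2 hd
  have : x = w ^ (d + 1) := Subtype.ext (by simpa using hxe)
  exact this ▸ hx

theorem E_pow_div_mem {S R : Subalgebra ℂ K} {V : Submodule ℂ S} {s : K}
    (h : ∀ v ∈ V, (v : K) / s ∈ R) (k : ℕ) : ∀ w ∈ V ^ k, (w : K) / s ^ k ∈ R := by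
  intro w hw
  induction hw using Submodule.pow_induction_on_left' with
  | algebraMap r => simpa using R.algebraMap_mem r
  | add x y i hx hy h1 h2 => rw [Subalgebra.coe_add, add_div]; exact R.add_mem h1 h2
  | mem_mul m hm i x hx h1 =>
    rw [Subalgebra.coe_mul, pow_succ', mul_div_mul_comm]
    exact R.mul_mem (h m hm) h1

end Crest.Agent.R271
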