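import Crest.Agent.R271.EU

/-! Row 271, part E: smooth algebras are regular; consequences of local factoriality. -/

set_option autoImplicit false

namespace Crest.Agent.R271

/-- étale algebras over regular rings are regular.  For a prime `𝔮` of `B` over `𝔭`:
`𝔭 B_𝔮 = 𝔮 B_𝔮` (unramified), so `spanFinrank ≤ spanFinrank 𝔭 A_𝔭 = height 𝔭 ≤ height 𝔮` (flat, going
down); `IsRegularLocalRing.of_spanFinrank_maximalIdeal_le`. -/
theorem E_reg_of_etale (A B : Type) [CommRing A] [CommRing B] [Algebra A B] [IsRegularRing A]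
    [Algebra.Etale A B] : IsRegularRing B := by
  have : IsNoetherianRing B := Algebra.FiniteType.isNoetherianRing A B
  refine isRegularRing_iff.2 fun q hq => ?_
  let p : Ideal A := q.under A
  let := Localization.AtPrime.algebraOfLiesOver p q
  have hm := ((Algebra.isUnramifiedAt_iff_map_eq A p q).1 inferInstance).2
  have hm' : (IsLocalRing.maximalIdeal (Localization.AtPrime p)).map
      (algebraMap (Localization.AtPrime p) (Localization.AtPrime q)) =
      IsLocalRing.maximalIdeal (Localization.AtPrime q) := by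
    rw [← Localization.AtPrime.map_eq_maximalIdeal, Ideal.map_map, ← IsScalarTower.algebraMap_eq, hm]
  refine IsRegularLocalRing.of_spanFinrank_maximalIdeal_le _ ?_
  have h2 := (IsRegularRing.isRegularLocalRing_localization p).spanFinrank_maximalIdeal
  have h3 : p.height ≤ q.height := by
    rw [Ideal.height_eq_height_add_of_liesOver_of_hasGoingDown p q]
    exact le_self_add
  rw [IsLocalization.AtPrime.ringKrullDim_eq_height p] at h2
  rw [IsLocalization.AtPrime.ringKrullDim_eq_height q, ← hm']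
  refine le_trans ?_ (WithBot.coe_le_coe.2 h3)
  rw [← h2]
  exact_mod_cast Ideal.spanFinrank_map_le_of_fg _ (IsNoetherian.noetherian _)

/-- `Algebra.IsStandardSmoothOfRelativeDimension.exists_etale_mvPolynomial`. -/
theorem E_reg_of_smooth (n : ℕ) (B : Type) [CommRing B] [Algebra ℂ B]
    [Algebra.IsStandardSmoothOfRelativeDimension n ℂ B] : IsRegularRing B := by
  obtain ⟨g, hg⟩ := Algebra.IsStandardSmoothOfRelativeDimension.exists_etale_mvPolynomial n ℂ B
  let := g.toRingHom.toAlgebra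
  have : Algebra.Etale (MvPolynomial (Fin n) ℂ) B := hg
  exact E_reg_of_etale (MvPolynomial (Fin n) ℂ) B

theorem E_alg_princ_dvd {B : Type} [CommRing B] [IsDomain B] (𝔮 : Ideal B) [𝔮.IsPrime] {x y : B}
    (h : algebraMap B (Localization.AtPrime 𝔮) x ∣ algebraMap B (Localization.AtPrime 𝔮) y) :
    ∃ q ∉ 𝔮, x ∣ q * y := by
  obtain ⟨c, hc⟩ := h
  obtain ⟨⟨b, t⟩, hb⟩ := IsLocalization.surj 𝔮.primeCompl c
  refine ⟨t, t.2, b, ?_⟩
  apply IsLocalization.injective (Localization.AtPrime 𝔮) 𝔮.primeCompl_le_nonZeroDivisors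
  simp only [map_mul] at hb ⊢
  rw [← hb, hc]
  ring

/-- height one primes are locally principal (`E_ufd_loc`,
`UniqueFactorizationMonoid.isPrincipal_of_height_eq_one`, `IsLocalization.height_map_of_disjoint`). -/
theorem E_alg_princ {B : Type} [CommRing B] [IsDomain B] [IsRegularRing B] (𝔮 𝔭 : Ideal B)
    [𝔮.IsPrime] [𝔭.IsPrime] (h1 : 𝔭.height = 1) (hle : 𝔭 ≤ 𝔮) :
    ∃ p ∈ 𝔭, p ≠ 0 ∧ ∀ b ∈ 𝔭, ∃ q ∉ 𝔮, p ∣ q * b := by
  have := E_ufd_loc B 𝔮
  have hd : Disjoint (𝔮.primeCompl : Set B) (𝔭 : Set B) :=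
    Set.disjoint_left.2 fun x hx hx' => hx (hle hx')
  have := IsLocalization.isPrime_of_isPrime_disjoint 𝔮.primeCompl (Localization.AtPrime 𝔮) 𝔭 ‹_› hd
  obtain ⟨γ, hγ⟩ := UniqueFactorizationMonoid.isPrincipal_of_height_eq_one
    (p := 𝔭.map (algebraMap B (Localization.AtPrime 𝔮)))
    ((IsLocalization.height_map_of_disjoint 𝔮.primeCompl 𝔭 hd).trans h1)
  have h2 : γ ∈ 𝔭.map (algebraMap B (Localization.AtPrime 𝔮)) :=
    hγ ▸ Ideal.mem_span_singleton_self γ
  obtain ⟨⟨g, s⟩, hg⟩ := (IsLocalization.mem_map_algebraMap_iff 𝔮.primeCompl _).1 h2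
  have h3 : ∀ b ∈ 𝔭, ∃ q ∉ 𝔮, (g : B) ∣ q * b := by
    intro b hb
    have h4 := Ideal.mem_map_of_mem (algebraMap B (Localization.AtPrime 𝔮)) hb
    rw [hγ] at h4
    refine E_alg_princ_dvd 𝔮 ?_
    rw [← hg, (IsLocalization.map_units (Localization.AtPrime 𝔮) s).mul_right_dvd]
    exact Ideal.mem_span_singleton.1 h4
  refine ⟨g, g.2, fun h0 => 𝔭.ne_bot_of_height_eq_one h1 (eq_bot_iff.2 fun b hb => ?_), h3⟩
  obtain ⟨q, hq, hq'⟩ := h3 b hb
  rw [h0, zero_dvd_iff, mul_eq_zero] at hq'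
  exact hq'.resolve_left fun h => hq (h ▸ 𝔮.zero_mem)

/-- algebraic Hartogs lemma: in the UFD `R = B_𝔮` write `a / b = a' / b'` in lowest terms
(`UniqueFactorizationMonoid.exists_reduced_factors'`); a prime factor `π` of `b'` gives the height one
prime `𝔭 = (π) ∩ B ≤ 𝔮`, and `b ∣ q a` with `q ∉ 𝔭` gives `π ∣ a'`. -/
theorem E_alg_hartogs {B : Type} [CommRing B] [IsDomain B] [IsRegularRing B] (𝔮 : Ideal B)
    [𝔮.IsPrime] {a b : B} (hb : b ≠ 0)
    (h : ∀ 𝔭 : Ideal B, 𝔭.IsPrime → 𝔭.height = 1 → 𝔭 ≤ 𝔮 → ∃ q ∉ 𝔭, b ∣ q * a) :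
    ∃ q ∉ 𝔮, b ∣ q * a := by
  have := E_ufd_loc B 𝔮
  have hinj := IsLocalization.injective (Localization.AtPrime 𝔮) 𝔮.primeCompl_le_nonZeroDivisors
  have hb' : algebraMap B (Localization.AtPrime 𝔮) b ≠ 0 := (map_ne_zero_iff _ hinj).2 hb
  obtain ⟨a', b', c', hrel, ha', hb''⟩ := UniqueFactorizationMonoid.exists_reduced_factors'
    (algebraMap B (Localization.AtPrime 𝔮) a) _ hb'
  have hc0 : c' ≠ 0 := fun h0 => hb' (by rw [← hb'', h0, zero_mul])
  have hb0 : b' ≠ 0 := fun h0 => hb' (by rw [← hb'', h0, mul_zero])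
  by_cases hu : IsUnit b'
  · refine E_alg_princ_dvd 𝔮 ?_
    rw [← ha', ← hb'']
    exact mul_dvd_mul_left _ hu.dvd
  obtain ⟨π, hπ, hπb⟩ := WfDvdMonoid.exists_irreducible_factor hu hb0
  have hp : Prime π := UniqueFactorizationMonoid.irreducible_iff_prime.1 hπ
  have hP : (Ideal.span {π}).IsPrime := (Ideal.span_singleton_prime hp.ne_zero).2 hp
  obtain ⟨q, hq, hq'⟩ := h ((Ideal.span {π}).under B) inferInstance
    ((IsLocalization.height_under 𝔮.primeCompl _).trans
      (Ideal.height_span_singleton_eq_one_of_mem_nonZeroDivisors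
        (mem_nonZeroDivisors_of_ne_zero hp.ne_zero) hp.not_isUnit)) (by
      conv_rhs => rw [← Localization.AtPrime.under_maximalIdeal (I := 𝔮)]
      exact Ideal.comap_mono (IsLocalRing.le_maximalIdeal hP.ne_top))
  have h1 := map_dvd (algebraMap B (Localization.AtPrime 𝔮)) hq'
  rw [map_mul, ← ha', ← hb'', mul_left_comm, mul_dvd_mul_iff_left hc0] at h1
  rcases hp.dvd_or_dvd (hπb.trans h1) with h2 | h2
  · exact absurd (Ideal.mem_span_singleton.2 h2) hq
  · exact absurd (hrel h2 hπb) hp.not_isUnit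

/-- a nonzero element lies in finitely many height one primes (they are minimal over it;
`Ideal.finite_minimalPrimes_of_isNoetherianRing`). -/
theorem E_alg_fin {B : Type} [CommRing B] [IsDomain B] [IsNoetherianRing B] {b : B} (hb : b ≠ 0) :
    {𝔭 : Ideal B | 𝔭.IsPrime ∧ 𝔭.height = 1 ∧ b ∈ 𝔭}.Finite := by
  refine (Ideal.finite_minimalPrimes_of_isNoetherianRing B (Ideal.span {b})).subset ?_
  rintro 𝔭 ⟨hp, h1, h2⟩
  have : 𝔭.FiniteHeight := 𝔭.finiteHeight_iff.2 (Or.inr (by rw [h1]; exact ENat.one_ne_top))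
  refine Ideal.mem_minimalPrimes_of_height_le ((Ideal.span_singleton_le_iff_mem _).2 h2) ?_
  rw [h1]
  exact Ideal.one_le_height_span_singleton_of_mem_nonZeroDivisors
    (mem_nonZeroDivisors_of_ne_zero hb)

end Crest.Agent.R271
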