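import Crest.Agent.R271.EUfd

/-! Row 271, part E: local rings of regular rings are factorial (`E_ufd`, `E_reg_loc`, `E_reg_etale`
are in `EUfd.lean`). -/

set_option autoImplicit false

namespace Crest.Agent.R271

theorem E_ufd_loc (B : Type) [CommRing B] [IsDomain B] [IsRegularRing B] (𝔮 : Ideal B)
    [𝔮.IsPrime] : UniqueFactorizationMonoid (Localization.AtPrime 𝔮) :=
  have := E_reg_loc 𝔮.primeCompl (Localization.AtPrime 𝔮)
  E_ufd _

end Crest.Agent.R271
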