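import Crest.Agent.R188.Gon
import Crest.Agent.R188.RegL0

/-! Row 271, part E: regular local rings are unique factorisation domains. -/

set_option autoImplicit false
set_option linter.overlappingInstances false

namespace Crest.Agent.R271

open IsLocalRing Crest.Agent.R188
open scoped TensorProduct

theorem E_reg_loc {R : Type} [CommRing R] [IsRegularRing R] (M : Submonoid R) (S : Type)
    [CommRing S] [Algebra R S] [IsLocalization M S] : IsRegularRing S := by
  have := IsLocalization.isNoetherianRing M S inferInstance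
  rw [isRegularRing_iff]
  intro p hp
  have := IsLocalization.isLocalization_isLocalization_atPrime_isLocalization M
    (Localization.AtPrime p) p
  exact IsRegularLocalRing.of_ringEquiv (IsLocalization.algEquiv
    (p.comap (algebraMap R S)).primeCompl (Localization.AtPrime (p.comap (algebraMap R S)))
    (Localization.AtPrime p)).toRingEquiv

theorem E_reg_etale (A S : Type) [CommRing A] [CommRing S] [Algebra A S] [IsRegularRing A]
    [Algebra.Etale A S] : IsRegularRing S := by
  have : IsNoetherianRing S := Algebra.FiniteType.isNoetherianRing A S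
  rw [isRegularRing_iff]
  intro q hq
  let := Localization.AtPrime.algebraOfLiesOver (q.under A) q
  have hR : IsRegularLocalRing (Localization.AtPrime (q.under A)) := inferInstance
  obtain ⟨d, hd⟩ := exists_dim_nat (R := Localization.AtPrime (q.under A)) (I := ⊥) bot_ne_top
  rw [ringKrullDim_eq_of_ringEquiv (RingEquiv.quotientBot _)] at hd
  have h := ((Algebra.isUnramifiedAt_iff_map_eq A (q.under A) q).1 inferInstance).2
  refine (reg_of_unram ?_ hR hd).1
  rw [← Localization.AtPrime.map_eq_maximalIdeal, Ideal.map_map, ← IsScalarTower.algebraMap_eq, h]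

/-- a finite module over a regular local ring which becomes projective after a flat base change
becomes stably free. -/
theorem E_sf {T : Type} [CommRing T] [IsRegularLocalRing T] {d : ℕ} (hd : ringKrullDim T = d)
    (S : Type) [CommRing S] [Algebra T S] [Module.Flat T S] (n : ℕ) :
    ∀ (M : Type) [AddCommGroup M] [Module T M] [Module.Finite T M], Dep T M (d - n) →
      Module.Projective S (S ⊗[T] M) → Module.IsStablyFree S (S ⊗[T] M) := by
  induction n with
  | zero =>
    intro M _ _ _ h _
    have := reg_free hd M h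
    infer_instance
  | succ n ih =>
    intro M _ _ _ h hP
    rcases subsingleton_or_nontrivial M with h0 | h0
    · infer_instance
    obtain ⟨m, π, hπ⟩ := Module.Finite.exists_fin' T M
    have hZ : Dep T (LinearMap.ker π) (d - n) := by
      by_cases hn : d ≤ n
      · rw [Nat.sub_eq_zero_of_le hn]; exact ⟨[], rfl, by simp, .nil _ _⟩
      · rw [show d - n = d - (n + 1) + 1 by omega]
        refine Dep.syz π hπ ?_ h
        obtain ⟨ys, a, b, c⟩ := (reg_dep hd).anti (show d - (n + 1) + 1 ≤ d by omega)
        refine ⟨ys, a, b, ?_⟩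
        exact ((TensorProduct.rid T (Fin m → T)).isWeaklyRegular_congr ys).1
          (c.isWeaklyRegular_lTensor (M₂ := Fin m → T))
    have hs : Function.Surjective (π.baseChange S) := LinearMap.lTensor_surjective S hπ
    have hi : Function.Injective ((LinearMap.ker π).subtype.baseChange S) :=
      Module.Flat.lTensor_preserves_injective_linearMap _ (Submodule.injective_subtype _)
    have he : Function.Exact ((LinearMap.ker π).subtype.baseChange S) (π.baseChange S) :=
      lTensor_exact S (LinearMap.exact_subtype_ker_map π) hπ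
    obtain ⟨σ, hσ⟩ := Module.projective_lifting_property (π.baseChange S) LinearMap.id hs
    obtain ⟨e, -⟩ := he.splitSurjectiveEquiv hi ⟨σ, hσ⟩
    have : Module.Projective S ((S ⊗[T] LinearMap.ker π) × (S ⊗[T] M)) := .of_equiv e
    have : Module.Projective S (S ⊗[T] LinearMap.ker π) :=
      Module.Projective.of_split (LinearMap.inl S _ (S ⊗[T] M)) (LinearMap.fst S _ _)
        (LinearMap.ext fun _ => rfl)
    have := ih _ hZ this
    obtain ⟨N, _, _, _, _, _⟩ := Module.IsStablyFree.exist_free_prod S (S ⊗[T] LinearMap.ker π)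
    have : Module.Free S ((S ⊗[T] M) × ((S ⊗[T] LinearMap.ker π) × N)) :=
      .of_equiv ((e.prodCongr (LinearEquiv.refl S N)).trans
        (((LinearEquiv.prodComm S _ _).prodCongr (LinearEquiv.refl S N)).trans
          (LinearEquiv.prodAssoc S _ _ _)))
    exact Module.IsStablyFree.of_free_prod S _ ((S ⊗[T] LinearMap.ker π) × N)

theorem E_inv {S : Type} [CommRing S] [IsDomain S] {I : Ideal S} (hI : I ≠ ⊥)
    (h : ∀ q : Ideal S, q.IsMaximal → ∃ g ∈ I, ∃ t ∉ q, ∀ a ∈ I, g ∣ t * a) :
    Module.Invertible S I := by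
  let K := FractionRing S
  let J : Submodule S K := Submodule.map (Algebra.linearMap S K) I
  have hJ : J * (1 / J) = 1 := by
    refine le_antisymm Submodule.mul_one_div_le_one ?_
    have : (J * (1 / J)).comap (Algebra.linearMap S K) = ⊤ := by
      by_contra c
      obtain ⟨q, hq, hle⟩ := Ideal.exists_le_maximal _ c
      obtain ⟨g, hg, t, ht, hgt⟩ := h q hq
      have ht0 : t ≠ 0 := fun e => ht (e ▸ q.zero_mem)
      have hg0 : g ≠ 0 := by
        rintro rfl
        refine hI (eq_bot_iff.2 fun a ha => ?_)
        exact (mul_eq_zero.1 (zero_dvd_iff.1 (hgt a ha))).resolve_left ht0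
      have hg1 : algebraMap S K g ≠ 0 := by simpa using hg0
      refine ht (hle ?_)
      have e : Algebra.linearMap S K t = algebraMap S K g * (algebraMap S K t / algebraMap S K g) := by
        rw [mul_div_cancel₀ _ hg1]; rfl
      rw [Submodule.mem_comap, e]
      refine Submodule.mul_mem_mul ⟨g, hg, rfl⟩ (Submodule.mem_div_iff_forall_mul_mem.2 ?_)
      rintro _ ⟨a, ha, rfl⟩
      obtain ⟨b, hb⟩ := hgt a ha
      refine Submodule.mem_one.2 ⟨b, ?_⟩
      rw [Algebra.linearMap_apply, div_mul_eq_mul_div, ← map_mul, hb, map_mul,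
        mul_div_cancel_left₀ _ hg1]
    rw [Submodule.one_le]
    have h1 : (1 : S) ∈ (J * (1 / J)).comap (Algebra.linearMap S K) := this ▸ trivial
    simpa using h1
  let u : (Submodule S K)ˣ := ⟨J, 1 / J, hJ, by rw [mul_comm, hJ]⟩
  have : Module.Invertible S J := .left (Submodule.tensorInvEquiv u)
  exact .congr (Submodule.equivMapOfInjective (Algebra.linearMap S K)
    (IsFractionRing.injective S K) I).symm

theorem E_loc_prin {R : Type} [CommRing R] [IsDomain R] [IsNoetherianRing R] (p q : Ideal R)
    [q.IsPrime] (h : (p.map (algebraMap R (Localization.AtPrime q))).IsPrincipal) :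
    ∃ g ∈ p, ∃ t ∉ q, ∀ a ∈ p, g ∣ t * a := by
  obtain ⟨γ, hγ⟩ := h
  have h1 : γ ∈ p.map (algebraMap R (Localization.AtPrime q)) := hγ ▸ Ideal.mem_span_singleton_self γ
  obtain ⟨⟨g, s⟩, hg⟩ := (IsLocalization.mem_map_algebraMap_iff q.primeCompl _).1 h1
  have h2 : ∀ a ∈ p, ∃ t ∉ q, (g : R) ∣ t * a := by
    intro a ha
    have h3 := Ideal.mem_map_of_mem (algebraMap R (Localization.AtPrime q)) ha
    rw [hγ] at h3
    obtain ⟨c, hc⟩ := Ideal.mem_span_singleton'.1 h3
    obtain ⟨⟨b, t⟩, hb⟩ := IsLocalization.surj q.primeCompl c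
    refine ⟨t * s, (t * s).2, b, ?_⟩
    apply IsLocalization.injective (Localization.AtPrime q) q.primeCompl_le_nonZeroDivisors
    simp only [map_mul] at hg hb ⊢
    rw [← hg, ← hb, ← hc]
    ring
  obtain ⟨F, hF⟩ := (IsNoetherian.noetherian p : p.FG)
  choose! t ht using h2
  have hFp : ∀ a ∈ F, a ∈ p := fun a ha => hF ▸ Ideal.subset_span ha
  refine ⟨g, g.2, ∏ a ∈ F, t a, ?_, fun a ha => ?_⟩
  · exact q.primeCompl.prod_mem fun a ha => (ht a (hFp a ha)).1
  · rw [← hF] at ha
    induction ha using Submodule.span_induction with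
    | mem a ha =>
      exact (ht a (hFp a ha)).2.trans (mul_dvd_mul_right (Finset.dvd_prod_of_mem t ha) a)
    | zero => simp
    | add a b _ _ ha hb => rw [mul_add]; exact dvd_add ha hb
    | smul c a _ ha => rw [smul_eq_mul, mul_left_comm]; exact ha.mul_left c

theorem E_ufd_aux (d : ℕ) : ∀ (R : Type) [CommRing R] [IsRegularRing R] [IsLocalRing R]
    [IsDomain R], ringKrullDim R = d → UniqueFactorizationMonoid R := by
  induction d using Nat.strong_induction_on with
  | _ d ih =>
  intro R _ _ _ _ hd
  have := IsRegularLocalRing.of_isRegularRing_of_isLocalRing R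
  refine UniqueFactorizationMonoid.of_forall_isPrincipal_of_height_eq_one fun p _ hp => ?_
  obtain ⟨d, rfl⟩ : ∃ d', d = d' + 1 := by
    refine ⟨d - 1, ?_⟩
    have h1 := Ideal.height_le_ringKrullDim_of_ne_top (Ideal.IsPrime.ne_top ‹_›)
    rw [hp, hd] at h1
    have : 1 ≤ d := by exact_mod_cast h1
    omega
  obtain ⟨x, hx, hx2, -⟩ := rl_param hd ∅ Set.finite_empty (by simp)
  obtain ⟨z, hz⟩ := rl_gen hd
  obtain ⟨_, z', h1, h2, -⟩ := rl_quot hd z hz hx hx2
  have hdom := (rl_main d _ z' h1 h2).1
  have hx0 : x ≠ 0 := fun e => hx2 (e ▸ zero_mem _)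
  have hxp : Prime x :=
    (Ideal.span_singleton_prime hx0).1 ((Ideal.Quotient.isDomain_iff_prime _).1 hdom)
  by_cases hxm : x ∈ p
  · exact ⟨x, p.eq_span_singleton_of_height_eq_one hp hxm hxp⟩
  refine p.isPrincipal_of_isPrincipal_localizationAway_of_prime hxp hxm ?_
  let S := Localization.Away x
  have : IsDomain S := IsLocalization.Away.isDomain S hx0
  have hinj := IsLocalization.injective S (powers_le_nonZeroDivisors_of_noZeroDivisors hx0)
  have hp0 : p.map (algebraMap R S) ≠ ⊥ := by
    rw [Ne, Ideal.map_eq_bot_iff_of_injective hinj]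
    exact p.ne_bot_of_height_eq_one hp
  have hI : Module.Invertible S (p.map (algebraMap R S)) := by
    refine E_inv hp0 fun q hq => ?_
    let q' := q.comap (algebraMap R S)
    have hxq : x ∉ q' := fun c =>
      hq.ne_top (q.eq_top_of_isUnit_mem c (IsLocalization.Away.algebraMap_isUnit x))
    have hlt : q' < maximalIdeal R :=
      lt_of_le_of_ne (le_maximalIdeal (Ideal.IsPrime.ne_top inferInstance)) fun e => hxq (e ▸ hx)
    have := E_reg_loc q'.primeCompl (Localization.AtPrime q')
    obtain ⟨d', hd'⟩ := exists_dim_nat (R := Localization.AtPrime q') (I := ⊥) bot_ne_top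
    rw [ringKrullDim_eq_of_ringEquiv (RingEquiv.quotientBot _)] at hd'
    have hlt' : d' < d + 1 := by
      have h3 := Ideal.height_strict_mono_of_isPrime_of_isPrime hlt
      have h4 := IsLocalization.AtPrime.ringKrullDim_eq_height q' (Localization.AtPrime q')
      have h5 := IsLocalRing.maximalIdeal_height_eq_ringKrullDim (R := R)
      rw [hd'] at h4
      rw [hd] at h5
      have h6 : (q'.height : WithBot ℕ∞) < (maximalIdeal R).height := by exact_mod_cast h3
      rw [← h4, h5] at h6
      exact_mod_cast h6
    have := ih d' hlt' _ hd'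
    have hpr : (p.map (algebraMap R (Localization.AtPrime q'))).IsPrincipal := by
      by_cases hle : p ≤ q'
      · have := Ideal.isPrime_map_of_isLocalizationAtPrime q' (S := Localization.AtPrime q') hle
        refine UniqueFactorizationMonoid.isPrincipal_of_height_eq_one ?_
        rw [← IsLocalization.height_under q'.primeCompl,
          Ideal.under_map_of_isLocalizationAtPrime q' hle, hp]
      · obtain ⟨a, ha, ha'⟩ := SetLike.not_le_iff_exists.1 hle
        rw [Ideal.eq_top_of_isUnit_mem _ (Ideal.mem_map_of_mem _ ha)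
          (IsLocalization.map_units _ (⟨a, ha'⟩ : q'.primeCompl))]
        exact top_isPrincipal
    obtain ⟨g, hg, t, ht, H⟩ := E_loc_prin p q' hpr
    refine ⟨_, Ideal.mem_map_of_mem _ hg, algebraMap R S t, ht, fun a ha => ?_⟩
    induction ha using Submodule.span_induction with
    | mem a ha =>
      obtain ⟨a, ha, rfl⟩ := ha
      rw [← map_mul]
      exact map_dvd _ (H a ha)
    | zero => simp
    | add a b _ _ ha hb => rw [mul_add]; exact dvd_add ha hb
    | smul c a _ ha => rw [smul_eq_mul, mul_left_comm]; exact ha.mul_left c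
  let φ : S ⊗[R] p →ₗ[S] S :=
    (TensorProduct.AlgebraTensorModule.rid R S S).toLinearMap ∘ₗ p.subtype.baseChange S
  have hφ : Function.Injective φ :=
    (TensorProduct.AlgebraTensorModule.rid R S S).injective.comp
      (Module.Flat.lTensor_preserves_injective_linearMap _ (Submodule.injective_subtype _))
  have hr : LinearMap.range φ = p.map (algebraMap R S) := by
    refine le_antisymm ?_ (Ideal.map_le_iff_le_comap.2 fun a ha => ⟨1 ⊗ₜ ⟨a, ha⟩, ?_⟩)
    · rintro _ ⟨w, rfl⟩
      induction w with
      | zero => simp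
      | tmul s a =>
        have : φ (s ⊗ₜ a) = s * algebraMap R S a := by simp [φ, Algebra.smul_def, mul_comm]
        rw [this]
        exact Ideal.mul_mem_left _ _ (Ideal.mem_map_of_mem _ a.2)
      | add a b ha hb => rw [map_add]; exact add_mem ha hb
    · simp [φ, Algebra.smul_def]
  let e : (S ⊗[R] p) ≃ₗ[S] p.map (algebraMap R S) :=
    (LinearEquiv.ofInjective φ hφ).trans (LinearEquiv.ofEq _ _ hr)
  have := E_sf hd S (d + 1) p (by rw [Nat.sub_self]; exact ⟨[], rfl, by simp, .nil _ _⟩)
    (.of_equiv e.symm)
  have := Module.IsStablyFree.equiv e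
  have := Module.free_of_isStablyFree_of_invertible S (p.map (algebraMap R S))
  obtain ⟨e'⟩ := (Module.Invertible.free_iff_linearEquiv (R := S)
    (M := p.map (algebraMap R S))).1 this
  refine ⟨e'.symm 1, le_antisymm (fun a ha => ?_) ?_⟩
  · refine Submodule.mem_span_singleton.2 ⟨e' ⟨a, ha⟩, ?_⟩
    rw [← Submodule.coe_smul, ← map_smul]
    simp
  · rw [Submodule.span_singleton_le_iff_mem]
    exact (e'.symm 1).2

/-- Auslander-Buchsbaum -/
theorem E_ufd (R : Type) [CommRing R] [IsRegularRing R] [IsLocalRing R] [IsDomain R] :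
    UniqueFactorizationMonoid R := by
  obtain ⟨d, hd⟩ := exists_dim_nat (R := R) (I := ⊥) bot_ne_top
  rw [ringKrullDim_eq_of_ringEquiv (RingEquiv.quotientBot _)] at hd
  exact E_ufd_aux d R hd

end Crest.Agent.R271
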