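import Crest.Agent.R271.EX52
import Crest.Prelude.Def_SmoothDivisors

/-! Row 271, part E: a smooth proper variety gives a model. -/

set_option autoImplicit false

namespace Crest.Agent.R271

open AlgebraicGeometry Crest.AlgGeometry.Divisors

theorem exists_geo (X : Scheme.{0}) [Algebra ℂ Γ(X, ⊤)] [IsIntegral X] [IsLocallyNoetherian X]
    (n : ℕ) (hX : IsSmoothProperVariety ℂ X n) :
    letI : Algebra ℂ X.functionField := fnFieldAlgebra ℂ X
    ∃ G : Geo X.functionField X (PrimeDivisor X) n, (∀ z, G.pt z = z.1) ∧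
      (∀ z f, G.ord z f = Scheme.ord f z.1) ∧
      (∀ x f, f ∈ G.O x ↔ f ∈ Set.range (algebraMap (X.presheaf.stalk x) X.functionField)) ∧
      ∀ U : X.Opens, IsAffineOpen U → G.Aff U := by
  exact ⟨EX5_geo X hX, fun _ => rfl, fun _ _ => rfl, fun _ _ => Iff.rfl,
    fun U hU => ⟨U, hU, rfl⟩⟩

end Crest.Agent.R271
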