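import Crest.Agent.R271.EDefs
import Crest.Prelude.Def_SmoothDivisors

/-! Row 271, part E: the model attached to a scheme; affine open sets. -/

set_option autoImplicit false
set_option warn.classDefReducibility false

namespace Crest.Agent.R271

open AlgebraicGeometry CategoryTheory Crest.AlgGeometry.Divisors

attribute [local instance] fnFieldAlgebra stalkAlgebra

variable (X : Scheme.{0}) [Algebra ℂ Γ(X, ⊤)] [IsIntegral X]

theorem EX_tower (x : X) : IsScalarTower ℂ (X.presheaf.stalk x) X.functionField := by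
  apply IsScalarTower.of_algebraMap_eq
  intro c
  have : Nonempty (⊤ : X.Opens) := ⟨⟨x, trivial⟩⟩
  exact (Scheme.algebraMap_germ_eq_germToFunctionField X (U := ⊤) (x := x) trivial
    (algebraMap ℂ Γ(X, ⊤) c)).symm

attribute [local instance] EX_tower

/-- the local ring at `x` inside the function field. -/
noncomputable def EXO (x : X) : Subalgebra ℂ X.functionField :=
  (IsScalarTower.toAlgHom ℂ (X.presheaf.stalk x) X.functionField).range

theorem mem_EXO {x : X} {f : X.functionField} :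
    f ∈ EXO X x ↔ ∃ r : X.presheaf.stalk x, algebraMap _ X.functionField r = f := Iff.rfl

/-- the model of `X`. -/
noncomputable def EXdat [IsLocallyNoetherian X] : EDat X.functionField X where
  O := EXO X
  P z := Order.coheight z = 1
  ord f z := Scheme.ord f z
  Aff U := ∃ V : X.Opens, IsAffineOpen V ∧ (V : Set X) = U

/-- the constants in `Γ(X, U)`. -/
noncomputable def EXconst (U : X.Opens) : ℂ →+* Γ(X, U) :=
  (X.presheaf.map (homOfLE le_top : U ⟶ ⊤).op).hom.comp (algebraMap ℂ Γ(X, ⊤))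

theorem EX_germ_const (U : X.Opens) [Nonempty U] (c : ℂ) :
    X.germToFunctionField U (EXconst X U c) = algebraMap ℂ X.functionField c :=
  TopCat.Presheaf.germ_res_apply X.presheaf (homOfLE le_top : U ⟶ ⊤) _ _ _

/-- the ring of sections over `U` inside the function field. -/
noncomputable def EXB (U : X.Opens) [Nonempty U] : Subalgebra ℂ X.functionField where
  toSubsemiring := (X.germToFunctionField U).hom.rangeS
  algebraMap_mem' c := ⟨EXconst X U c, EX_germ_const X U c⟩

theorem mem_EXB {U : X.Opens} [Nonempty U] {f : X.functionField} :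
    f ∈ EXB X U ↔ ∃ s : Γ(X, U), X.germToFunctionField U s = f := Iff.rfl

/-- `Γ(X, U) ≅ EXB X U`. -/
noncomputable def EXe (U : X.Opens) [Nonempty U] : Γ(X, U) ≃+* EXB X U :=
  RingEquiv.ofBijective ((X.germToFunctionField U).hom.codRestrict (EXB X U) fun s => ⟨s, rfl⟩)
    ⟨fun _ _ e => X.germToFunctionField_injective U (congrArg Subtype.val e),
      fun ⟨_, s, hs⟩ => ⟨s, Subtype.ext hs⟩⟩

theorem EXe_apply (U : X.Opens) [Nonempty U] (s : Γ(X, U)) :
    (EXe X U s : X.functionField) = X.germToFunctionField U s := rfl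

theorem EXe_const (U : X.Opens) [Nonempty U] :
    (EXe X U).toRingHom.comp (EXconst X U) = algebraMap ℂ (EXB X U) :=
  RingHom.ext fun c => Subtype.ext (EX_germ_const X U c)

/-- `φ y = (hU.primeIdealOf y).asIdeal.comap (EXe X U).symm` for `y ∈ U`; `IsAffineOpen.isLocalization_stalk`,
`fromSpec_primeIdealOf`, `range_fromSpec`, `functionField_isFractionRing_of_isAffineOpen`,
`ringKrullDim_stalk_eq_coheight`, `IsLocalization.AtPrime.ringKrullDim_eq_height`,
`PrimeSpectrum.le_iff_specializes`, `IsInducing.specializes_iff`. -/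
theorem EX_isSp [IsLocallyNoetherian X] {U : X.Opens} (hU : IsAffineOpen U) [Nonempty U] :
    ∃ φ : X → Ideal (EXB X U), (EXdat X).IsSp U (EXB X U) φ := by
  classical
  let e := EXe X U
  let φ : X → Ideal (EXB X U) := fun y =>
    if h : y ∈ U then (hU.primeIdealOf ⟨y, h⟩).asIdeal.comap e.symm else ⊤
  have hφ : ∀ (y : X) (h : y ∈ U), φ y = (hU.primeIdealOf ⟨y, h⟩).asIdeal.comap e.symm :=
    fun y h => dif_pos h
  have hmem : ∀ (y : X) (h : y ∈ U) (s : Γ(X, U)),
      e s ∈ φ y ↔ s ∈ (hU.primeIdealOf ⟨y, h⟩).asIdeal := by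
    intro y h s
    rw [hφ y h, Ideal.mem_comap, RingEquiv.symm_apply_apply]
  have hle : ∀ (y : X) (h : y ∈ U) (z : X) (h' : z ∈ U),
      φ z ≤ φ y ↔ hU.primeIdealOf ⟨z, h'⟩ ≤ hU.primeIdealOf ⟨y, h⟩ := by
    intro y h z h'
    rw [← PrimeSpectrum.asIdeal_le_asIdeal]
    constructor
    · intro H s hs
      exact (hmem y h s).1 (H ((hmem z h' s).2 hs))
    · intro H t ht
      obtain ⟨s, rfl⟩ := e.surjective t
      exact (hmem y h s).2 (H ((hmem z h' s).1 ht))
  have hfr := functionField_isFractionRing_of_isAffineOpen X U hU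
  refine ⟨φ, ?_, ?_, ?_, ?_, ?_, ?_, ?_⟩
  · intro f
    obtain ⟨a, b, hb, rfl⟩ := IsFractionRing.div_surjective (A := Γ(X, U)) f
    have hb0 : b ≠ 0 := nonZeroDivisors.ne_zero hb
    have hb1 : algebraMap Γ(X, U) X.functionField b ≠ 0 :=
      (map_ne_zero_iff _ (IsFractionRing.injective _ _)).2 hb0
    refine ⟨e b, (map_ne_zero_iff _ e.injective).2 hb0, a, ?_⟩
    show _ = _ / algebraMap Γ(X, U) X.functionField b * algebraMap Γ(X, U) X.functionField b
    rw [div_mul_cancel₀ _ hb1]
    rfl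
  · intro y h
    rw [hφ y h]
    exact Ideal.comap_isPrime _ _
  · intro y h z h' H
    have : hU.primeIdealOf ⟨y, h⟩ = hU.primeIdealOf ⟨z, h'⟩ :=
      le_antisymm ((hle z h' y h).1 H.le) ((hle y h z h').1 H.ge)
    have h1 := hU.fromSpec_primeIdealOf ⟨y, h⟩
    rw [this, hU.fromSpec_primeIdealOf] at h1
    exact h1.symm
  · intro 𝔭 h𝔭
    let q : PrimeSpectrum Γ(X, U) := ⟨𝔭.comap e, Ideal.comap_isPrime _ _⟩
    have hy : hU.fromSpec q ∈ U := by
      have : hU.fromSpec q ∈ Set.range hU.fromSpec := ⟨q, rfl⟩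
      rwa [hU.range_fromSpec] at this
    refine ⟨_, hy, ?_⟩
    have h1 : hU.primeIdealOf ⟨_, hy⟩ = q :=
      hU.fromSpec.isOpenEmbedding.injective (hU.fromSpec_primeIdealOf ⟨_, hy⟩)
    ext t
    obtain ⟨s, rfl⟩ := e.surjective t
    rw [hmem _ hy, h1]
    rfl
  · intro y h f
    letI := TopCat.Presheaf.algebra_section_stalk X.presheaf (⟨y, h⟩ : U)
    have hl : IsLocalization.AtPrime (X.presheaf.stalk y) (hU.primeIdealOf ⟨y, h⟩).asIdeal :=
      hU.isLocalization_stalk ⟨y, h⟩
    have hg : ∀ s : Γ(X, U), algebraMap (X.presheaf.stalk y) X.functionField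
        (algebraMap Γ(X, U) (X.presheaf.stalk y) s) = (e s : X.functionField) := fun s =>
      Scheme.algebraMap_germ_eq_germToFunctionField X h s
    show f ∈ EXO X y ↔ _
    rw [mem_EXO]
    constructor
    · rintro ⟨r, rfl⟩
      obtain ⟨⟨a, b⟩, hab⟩ := IsLocalization.surj (hU.primeIdealOf ⟨y, h⟩).asIdeal.primeCompl r
      refine ⟨e b, fun H => b.2 ((hmem y h b).1 H), ?_⟩
      rw [← hg, ← map_mul, hab, hg]
      exact (e a).2
    · rintro ⟨q, hq, hfq⟩
      obtain ⟨b, rfl⟩ := e.surjective q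
      obtain ⟨a, ha⟩ := e.surjective ⟨_, hfq⟩
      have hb : b ∈ (hU.primeIdealOf ⟨y, h⟩).asIdeal.primeCompl := fun H => hq ((hmem y h b).2 H)
      obtain ⟨u, hu⟩ := IsLocalization.map_units (X.presheaf.stalk y) (⟨b, hb⟩ :
        (hU.primeIdealOf ⟨y, h⟩).asIdeal.primeCompl)
      refine ⟨algebraMap Γ(X, U) _ a * ↑u⁻¹, ?_⟩
      have h1 : algebraMap (X.presheaf.stalk y) X.functionField u = (e b : X.functionField) := by
        rw [hu]; exact hg b
      have h2 : (e a : X.functionField) = f * (e b : X.functionField) := congrArg Subtype.val ha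
      rw [map_mul, hg, h2, ← h1, mul_assoc, ← map_mul, Units.mul_inv, map_one, mul_one]
  · intro y h z h'
    rw [hle y h z h', PrimeSpectrum.le_iff_specializes]
    have := hU.fromSpec.isOpenEmbedding.isInducing.specializes_iff
      (x := hU.primeIdealOf ⟨z, h'⟩) (y := hU.primeIdealOf ⟨y, h⟩)
    rw [hU.fromSpec_primeIdealOf, hU.fromSpec_primeIdealOf] at this
    exact this
  · intro y h
    letI := TopCat.Presheaf.algebra_section_stalk X.presheaf (⟨y, h⟩ : U)
    have hl : IsLocalization.AtPrime (X.presheaf.stalk y) (hU.primeIdealOf ⟨y, h⟩).asIdeal :=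
      hU.isLocalization_stalk ⟨y, h⟩
    have h1 := IsLocalization.AtPrime.ringKrullDim_eq_height (hU.primeIdealOf ⟨y, h⟩).asIdeal
      (X.presheaf.stalk y)
    rw [ringKrullDim_stalk_eq_coheight] at h1
    have h2 : Order.coheight y = (hU.primeIdealOf ⟨y, h⟩).asIdeal.height := by exact_mod_cast h1
    rw [hφ y h, RingEquiv.height_comap, ← h2]
    rfl

end Crest.Agent.R271
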