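import Crest.Agent.R271.EX1

/-! Row 271, part E: finite type and smoothness of the rings of sections. -/

set_option autoImplicit false
set_option warn.classDefReducibility false

namespace Crest.Agent.R271

open AlgebraicGeometry CategoryTheory Crest.AlgGeometry.Divisors

attribute [local instance] fnFieldAlgebra stalkAlgebra EX_tower

variable (X : Scheme.{0}) [Algebra ℂ Γ(X, ⊤)] [IsIntegral X]

omit [IsIntegral X] in
/-- the structure morphism on sections. -/
theorem EX_appLE (U : X.Opens) (e : U ≤ structureMorphism ℂ X ⁻¹ᵁ ⊤) :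
    (structureMorphism ℂ X).appLE ⊤ U e =
      (Scheme.ΓSpecIso (CommRingCat.of ℂ)).hom ≫ CommRingCat.ofHom (EXconst X U) := by
  have h : (structureMorphism ℂ X).appTop =
      (Scheme.ΓSpecIso (CommRingCat.of ℂ)).hom ≫ CommRingCat.ofHom (algebraMap ℂ Γ(X, ⊤)) := by
    rw [structureMorphism, Scheme.Hom.comp_appTop, Scheme.toSpecΓ_appTop]
    exact Scheme.ΓSpecIso_naturality (CommRingCat.ofHom (algebraMap ℂ Γ(X, ⊤)))
  change (structureMorphism ℂ X).appTop ≫ X.presheaf.map (homOfLE le_top : U ⟶ ⊤).op = _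
  rw [h]
  rfl

private theorem EX_fg_aux {P : ∀ {R S : Type} [CommRing R] [CommRing S], (R →+* S) → Prop}
    (hP : RingHom.RespectsIso @P) {U : X.Opens} [Nonempty U]
    (e : U ≤ structureMorphism ℂ X ⁻¹ᵁ ⊤) (h : P ((structureMorphism ℂ X).appLE ⊤ U e).hom) :
    P (algebraMap ℂ (EXB X U)) := by
  rw [EX_appLE, CommRingCat.hom_comp, hP.cancel_left_isIso] at h
  rw [← EXe_const]
  exact hP.1 _ _ h

/-- `LocallyOfFiniteType.finiteType_appLE`, `EX_appLE`, `EXe_const`, `Subalgebra.fg_iff_finiteType`. -/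
theorem EX_fg [LocallyOfFiniteType (structureMorphism ℂ X)] {U : X.Opens} (hU : IsAffineOpen U)
    [Nonempty U] : (EXB X U).FG := by
  rw [Subalgebra.fg_iff_finiteType, ← RingHom.finiteType_algebraMap]
  exact EX_fg_aux X RingHom.finiteType_respectsIso le_top
    ((structureMorphism ℂ X).finiteType_appLE (isAffineOpen_top _) hU _)

/-- an open subset of `Spec ℂ` containing a point is `⊤`;
`RingHom.isStandardSmoothOfRelativeDimension_respectsIso`. -/
theorem EX_smooth (n : ℕ) [SmoothOfRelativeDimension n (structureMorphism ℂ X)] (x : X) :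
    ∃ (U : X.Opens) (_ : Nonempty U), IsAffineOpen U ∧ x ∈ U ∧
      Algebra.IsStandardSmoothOfRelativeDimension n ℂ (EXB X U) := by
  obtain ⟨V, -, U, hU, hx, e, h⟩ :=
    SmoothOfRelativeDimension.exists_isStandardSmoothOfRelativeDimension (n := n)
      (f := structureMorphism ℂ X) x
  obtain rfl : V = ⊤ := by
    refine top_le_iff.1 fun y _ => ?_
    have : y = structureMorphism ℂ X x := Subsingleton.elim (α := PrimeSpectrum ℂ) _ _
    exact this ▸ e hx
  have : Nonempty U := ⟨⟨x, hx⟩⟩
  refine ⟨U, this, hU, hx, ?_⟩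
  rw [← RingHom.isStandardSmoothOfRelativeDimension_algebraMap]
  exact EX_fg_aux X RingHom.isStandardSmoothOfRelativeDimension_respectsIso e h

omit [IsIntegral X] in
theorem EX_cpt [QuasiCompact (structureMorphism ℂ X)] : CompactSpace X := by
  exact QuasiCompact.compactSpace_of_compactSpace (structureMorphism ℂ X)

end Crest.Agent.R271
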