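import Crest.Agent.R271.EX1

/-! Row 271, part E: discrete valuation rings at prime divisors, the valuative criterion. -/

set_option autoImplicit false
set_option warn.classDefReducibility false

namespace Crest.Agent.R271

open AlgebraicGeometry CategoryTheory Crest.AlgGeometry.Divisors

attribute [local instance] fnFieldAlgebra stalkAlgebra EX_tower

variable (X : Scheme.{0}) [Algebra ℂ Γ(X, ⊤)] [IsIntegral X]

/-- `UniversallyClosed.eq_valuativeCriterion` for the square `Spec K → X` (`X.fromSpecStalk (genericPoint X)`),
`Spec A → Spec ℂ`; `ξ` is the image of the closed point under the lift `l`, and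
`Scheme.stalkClosedPointTo l : stalk ξ → A` is compatible with the maps to `K`
(`Scheme.Spec_stalkClosedPointTo_fromSpecStalk`, `fromSpecStalk` is a monomorphism / `Spec.map_injective`). -/
theorem EX_val [UniversallyClosed (structureMorphism ℂ X)] (A : ValuationSubring X.functionField)
    (hA : ∀ c : ℂ, algebraMap ℂ X.functionField c ∈ A) : ∃ ξ : X, ∀ f ∈ EXO X ξ, f ∈ A := by
  have H : ValuativeCriterion.Existence (structureMorphism ℂ X) := by
    have h : UniversallyClosed (structureMorphism ℂ X) := inferInstance
    rw [UniversallyClosed.eq_valuativeCriterion] at h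
    exact h.1
  let c : ℂ →+* A := (algebraMap ℂ X.functionField).codRestrict A hA
  have w : X.fromSpecStalk (genericPoint X) ≫ structureMorphism ℂ X =
      Spec.map (CommRingCat.ofHom (algebraMap A X.functionField)) ≫
        Spec.map (CommRingCat.ofHom c) := by
    rw [structureMorphism, Scheme.fromSpecStalk_toSpecΓ_assoc, ← Spec.map_comp, ← Spec.map_comp]
    rfl
  obtain ⟨l, hl₁, -⟩ := (H { R := A, K := X.functionField, commSq := ⟨w⟩, .. }).exists_lift
  dsimp only at hl₁ l
  refine ⟨l (IsLocalRing.closedPoint A), ?_⟩
  rintro _ ⟨r, rfl⟩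
  have hs : genericPoint X ⤳ l (IsLocalRing.closedPoint A) := (genericPoint_spec X).specializes trivial
  have h1 : Spec.map (Scheme.stalkClosedPointTo l ≫ CommRingCat.ofHom (algebraMap A X.functionField)) ≫
      X.fromSpecStalk _ = Spec.map (X.presheaf.stalkSpecializes hs) ≫ X.fromSpecStalk _ := by
    rw [Scheme.SpecMap_stalkSpecializes_fromSpecStalk, Spec.map_comp, Category.assoc,
      Scheme.Spec_stalkClosedPointTo_fromSpecStalk]
    exact hl₁
  have h2 := Spec.map_injective ((cancel_mono _).1 h1)
  have h3 : algebraMap A X.functionField ((Scheme.stalkClosedPointTo l).hom r) =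
      (X.presheaf.stalkSpecializes hs).hom r := congrArg (fun g => g.hom r) h2
  have h4 : IsScalarTower.toAlgHom ℂ (X.presheaf.stalk (l (IsLocalRing.closedPoint A)))
      X.functionField r = (X.presheaf.stalkSpecializes hs).hom r := rfl
  change IsScalarTower.toAlgHom ℂ (X.presheaf.stalk (l (IsLocalRing.closedPoint A)))
      X.functionField r ∈ A
  rw [h4, ← h3]
  exact Subtype.mem _

end Crest.Agent.R271
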