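import Crest.Agent.R271.EX2
import Crest.Agent.R271.EMod

/-! Row 271, part E: basic open sets and charts. -/

set_option autoImplicit false
set_option warn.classDefReducibility false

namespace Crest.Agent.R271

namespace EDat
variable {K : Type} [Field K] [Algebra ℂ K] {X : Type} [TopologicalSpace X] {M : EDat K X} {n : ℕ}
  {U : Set X} {B : Subalgebra ℂ K} {φ : X → Ideal B}

theorem IsSp.away (h : M.IsSp U B φ) {j : K} (hj : j ∈ B) (h0 : j ≠ 0) {f : K}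
    (hf : ∀ y ∈ U, j⁻¹ ∈ M.O y → f ∈ M.O y) : ∃ m : ℕ, j ^ m * f ∈ B := by
  let I : Ideal B :=
    { carrier := {b | f * b ∈ B}
      add_mem' := fun {a b} ha hb => by
        simpa [mul_add] using B.add_mem ha hb
      zero_mem' := by simp
      smul_mem' := fun c b hb => by
        have := B.mul_mem c.2 hb
        simp only [Set.mem_ofPred_eq, smul_eq_mul, MulMemClass.coe_mul]
        convert this using 1
        ring }
  have hr : (⟨j, hj⟩ : B) ∈ I.radical := by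
    rw [Ideal.radical_eq_sInf, Submodule.mem_sInf]
    rintro 𝔭 ⟨hI, hp⟩
    obtain ⟨y, hy, rfl⟩ := h.surj 𝔭 hp
    by_contra hn
    have h1 := (h.inv_mem hy (q := ⟨j, hj⟩) (fun e => h0 (congrArg Subtype.val e))).2 hn
    obtain ⟨q, hq, hq'⟩ := (h.mem y hy f).1 (hf y hy h1)
    exact hq (hI hq')
  obtain ⟨m, hm⟩ := hr
  refine ⟨m, ?_⟩
  have : f * ((⟨j, hj⟩ : B) ^ m : B) ∈ B := hm
  rw [mul_comm]
  simpa using this

theorem IsSp.iInf (h : M.IsSp U B φ) : ⨅ x ∈ U, M.O x = B := by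
  refine le_antisymm (fun f hf => h.mem_of_forall fun y hy => ?_)
    (le_iInf₂ fun y hy => (h.loc hy).1)
  exact (iInf₂_le y hy : ⨅ x ∈ U, M.O x ≤ M.O y) hf

theorem IsSp.chart (h : M.IsSp U B φ) (hB : B.FG) {x : X} (hx : x ∈ U) (c₁ : Chart K n)
    (hc₁ : ELoc c₁.S (M.O x)) (hopen : ∀ j ∈ B, j ≠ 0 → IsOpen {y | y ∈ U ∧ j⁻¹ ∈ M.O y})
    {U' : Set X} {j₀ : K} (h2 : j₀⁻¹ ∈ M.O x) (h3 : ∀ y ∈ U, j₀⁻¹ ∈ M.O y → y ∈ U') :
    ∃ (c : Chart K n) (j : K) (U'' : Set X), (∀ i, (c.t i : K) = c₁.t i) ∧ IsOpen U'' ∧ x ∈ U'' ∧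
      U'' ⊆ U ∩ U' ∧ (∀ f, f ∈ c.S ↔ ∀ y ∈ U'', f ∈ M.O y) ∧ j ∈ B ∧ j ≠ 0 ∧ j⁻¹ ∈ c.S ∧
      (∀ f ∈ c.S, ∃ m : ℕ, j ^ m * f ∈ B) ∧
      ∀ y ∈ U'', ∀ f ∈ M.O y, ∃ b ∈ c.S, b ≠ 0 ∧ b⁻¹ ∈ M.O y ∧ b * f ∈ c.S := by
  obtain ⟨c, j, a1, a2, a3, a4, a5, a6, a7, a8⟩ :=
    c₁.common hB (h.loc hx) hc₁ {j₀⁻¹} (by simpa using h2)
  have key : ∀ y ∈ U, j⁻¹ ∈ M.O y → c.S ≤ M.O y := fun y hy hj f hf =>
    Eaway_le a5 a6 (h.loc hy).1 hj (a8 f hf)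
  refine ⟨c, j, {y | y ∈ U ∧ j⁻¹ ∈ M.O y}, a1, hopen j a5 a6, ⟨hx, a2.1 a7⟩,
    fun y hy => ⟨hy.1, h3 y hy.1 (key y hy.1 hy.2 (a4 _ (by simp)))⟩,
    fun f => ⟨fun hf y hy => key y hy.1 hy.2 hf, fun hf => ?_⟩, a5, a6, a7, a8, fun y hy f hf => ?_⟩
  · exact Eaway_le a5 a6 a3 a7 (h.away a5 a6 fun y hy hj => hf y ⟨hy, hj⟩)
  · obtain ⟨q, b1, b2, b3, b4⟩ := (h.loc hy.1).2 f hf
    exact ⟨q, a3 b1, b2, b3, a3 (mul_comm f q ▸ b4)⟩

theorem IsSp.exists_chart (h : M.IsSp U B φ) [Algebra.IsStandardSmoothOfRelativeDimension n ℂ B]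
    {y : X} (hy : y ∈ U) : ∃ c : Chart K n, ELoc c.S (M.O y) := by
  have := h.prime y hy
  obtain ⟨g, hg, c, hc⟩ := E_chart_of_smooth (n := n) B h.frac (φ y)
  have h0 : g ≠ 0 := fun e => hg (e ▸ zero_mem _)
  exact ⟨c, hc ▸ (h.loc hy).mono (le_Eaway _ _ _) (Eaway_le _ (by simpa using h0) (h.loc hy).1
    ((h.inv_mem hy h0).2 hg))⟩

end EDat

open AlgebraicGeometry CategoryTheory Crest.AlgGeometry.Divisors Topology

attribute [local instance] fnFieldAlgebra stalkAlgebra EX_tower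

variable (X : Scheme.{0}) [Algebra ℂ Γ(X, ⊤)] [IsIntegral X]

theorem EX_unit_iff {y : X} {r : X.presheaf.stalk y} (hr : r ≠ 0) :
    (algebraMap _ X.functionField r)⁻¹ ∈ EXO X y ↔ IsUnit r := by
  have hi := IsFractionRing.injective (X.presheaf.stalk y) X.functionField
  have h0 : algebraMap _ X.functionField r ≠ 0 := (map_ne_zero_iff _ hi).2 hr
  constructor
  · rintro ⟨r', hr'⟩
    refine IsUnit.of_mul_eq_one r' (hi ?_)
    have : algebraMap _ X.functionField r' = (algebraMap _ X.functionField r)⁻¹ := hr'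
    rw [map_mul, this, map_one, mul_inv_cancel₀ h0]
  · rintro ⟨u, rfl⟩
    refine (mem_EXO X).2 ⟨(u⁻¹ : (X.presheaf.stalk y)ˣ), ?_⟩
    exact eq_inv_of_mul_eq_one_left (by rw [← map_mul, Units.inv_mul, map_one])

theorem EX_inv_mem_iff {U : X.Opens} [Nonempty U] {s : Γ(X, U)} (hs : s ≠ 0) {y : X} (hy : y ∈ U) :
    (X.germToFunctionField U s)⁻¹ ∈ EXO X y ↔ y ∈ X.basicOpen s := by
  rw [← Scheme.algebraMap_germ_eq_germToFunctionField X hy, EX_unit_iff, X.mem_basicOpen s y hy]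
  exact (map_ne_zero_iff _ (germ_injective_of_isIntegral X y hy)).2 hs

theorem EX_isOpen_D {U : X.Opens} [Nonempty U] {j : X.functionField} (hj : j ∈ EXB X U)
    (h0 : j ≠ 0) : IsOpen {y : X | y ∈ (U : Set X) ∧ j⁻¹ ∈ EXO X y} := by
  obtain ⟨s, rfl⟩ := (mem_EXB X).1 hj
  have hs : s ≠ 0 := fun e => h0 (by rw [e, map_zero])
  convert (X.basicOpen s).isOpen using 1
  ext y
  exact ⟨fun h => (EX_inv_mem_iff X hs h.1).1 h.2, fun h =>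
    ⟨X.basicOpen_le s h, (EX_inv_mem_iff X hs (X.basicOpen_le s h)).2 h⟩⟩

theorem EX_basis {U : X.Opens} (hU : IsAffineOpen U) {x : X} (hx : x ∈ U) {W : Set X}
    (hW : W ∈ 𝓝 x) :
    ∃ j : X.functionField, j⁻¹ ∈ EXO X x ∧ ∀ y ∈ (U : Set X), j⁻¹ ∈ EXO X y → y ∈ W := by
  have : Nonempty U := ⟨⟨x, hx⟩⟩
  obtain ⟨V, hVW, hV, hxV⟩ := mem_nhds_iff.1 hW
  obtain ⟨s, h1, h2⟩ := hU.exists_basicOpen_le (V := ⟨V, hV⟩) ⟨x, hxV⟩ hx
  have hs : s ≠ 0 := fun e => by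
    rw [e, Scheme.basicOpen_zero] at h2
    exact h2
  exact ⟨X.germToFunctionField U s, (EX_inv_mem_iff X hs hx).2 h2, fun y hy h =>
    hVW (h1 ((EX_inv_mem_iff X hs hy).1 h))⟩

theorem EX_isLocal (x : X) : IsLocalRing (EXO X x) :=
  IsLocalRing.of_surjective' (IsScalarTower.toAlgHom ℂ (X.presheaf.stalk x)
    X.functionField).rangeRestrict.toRingHom (AlgHom.rangeRestrict_surjective _)

theorem EX_chart [IsLocallyNoetherian X] (n : ℕ)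
    [SmoothOfRelativeDimension n (structureMorphism ℂ X)] (x : X) :
    ∃ c : Chart X.functionField n, ELoc c.S (EXO X x) := by
  obtain ⟨U, _, hU, hx, h⟩ := EX_smooth X n x
  obtain ⟨φ, hφ⟩ := EX_isSp X hU
  exact hφ.exists_chart hx

end Crest.Agent.R271
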