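import Crest.Agent.R271.EG
import Crest.Agent.R271.EO
import Crest.Agent.R271.EX2
import Crest.Agent.R271.EX3
import Crest.Agent.R271.EMod

/-! Row 271, part E: the fields of `Geo` for a smooth proper variety. -/

set_option autoImplicit false
set_option warn.classDefReducibility false

namespace Crest.Agent.R271

open AlgebraicGeometry CategoryTheory Crest.AlgGeometry.Divisors Filter Topology

attribute [local instance] fnFieldAlgebra stalkAlgebra EX_tower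

variable (X : Scheme.{0}) [Algebra ℂ Γ(X, ⊤)] [IsIntegral X] [IsLocallyNoetherian X]

theorem EX5_iInf (V : X.Opens) [Nonempty V] : (⨅ x ∈ (V : Set X), EXO X x) = EXB X V := by
  ext f
  simp only [Algebra.mem_iInf]
  exact ⟨fun h => E_sec_of_mem V h, fun ⟨s, hs⟩ x hx => hs ▸ E_germ_mem hx s⟩

theorem EX5_chart0 {n : ℕ} (hX : IsSmoothProperVariety ℂ X n) (y : X) :
    ∃ c : Chart X.functionField n, ELoc c.S (EXO X y) := by
  have := hX.2.2
  obtain ⟨U, _, hU, hy, hB⟩ := EX_smooth X n y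
  obtain ⟨φ, hsp⟩ := EX_isSp X hU
  have := hsp.prime y hy
  obtain ⟨g, hg, c, hc⟩ := E_chart_of_smooth (n := n) _ hsp.frac (φ y)
  have h0 : g ≠ 0 := fun e => hg (e ▸ zero_mem _)
  exact ⟨c, hc ▸ (hsp.loc hy).mono (le_Eaway _ _ _) (Eaway_le _ (by simpa using h0) (hsp.loc hy).1
    ((hsp.inv_mem hy h0).2 hg))⟩

theorem EX5_chart {n : ℕ} (hX : IsSmoothProperVariety ℂ X n) {V : X.Opens} (hV : IsAffineOpen V)
    [Nonempty V] {x : X} (hx : x ∈ V) : ∃ t : Fin n → X.functionField, ∀ U' ∈ 𝓝 x,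
    ∃ (c : Chart X.functionField n) (j : X.functionField) (U'' : Set X),
      (∀ i, (c.t i : X.functionField) = t i) ∧ IsOpen U'' ∧ x ∈ U'' ∧
      U'' ⊆ V ∩ U' ∧ (∀ f, f ∈ c.S ↔ ∀ y ∈ U'', f ∈ EXO X y) ∧ j ∈ EXB X V ∧ j ≠ 0 ∧ j⁻¹ ∈ c.S ∧
      (∀ f ∈ c.S, ∃ m : ℕ, j ^ m * f ∈ EXB X V) ∧
      ∀ y ∈ U'', ∀ f ∈ EXO X y, ∃ b ∈ c.S, b ≠ 0 ∧ b⁻¹ ∈ EXO X y ∧ b * f ∈ c.S := by
  have := hX.2.1
  obtain ⟨c₀, hc₀⟩ := EX5_chart0 X hX x
  obtain ⟨φ, hsp⟩ := EX_isSp X hV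
  refine ⟨fun i => c₀.t i, fun U' hU' => ?_⟩
  obtain ⟨W, hWU, hW, hxW⟩ := mem_nhds_iff.1 hU'
  obtain ⟨s, hs, hxs⟩ := hV.exists_basicOpen_le (V := ⟨W, hW⟩) ⟨x, hxW⟩ hx
  have hs0 : s ≠ 0 := by
    rintro rfl
    simp at hxs
  obtain ⟨c, j, ht, hloc, hB, hF, ⟨r, rfl⟩, hj0, hji, hm⟩ := c₀.common (EX_fg X hV) (hsp.loc hx) hc₀
    {(X.germToFunctionField V s)⁻¹}
    (fun f hf => Finset.mem_singleton.1 hf ▸ (E_mem_basicOpen hs0 hx).1 hxs)
  have hr0 : r ≠ 0 := fun e => hj0 (by rw [e, map_zero])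
  have hle : ∀ y ∈ X.basicOpen r, c.S ≤ EXO X y := fun y hy f hf =>
    Eaway_le (R := EXO X y) (B := EXB X V) ⟨r, rfl⟩ hj0 (hsp.loc (X.basicOpen_le r hy)).1
      ((E_mem_basicOpen hr0 (X.basicOpen_le r hy)).1 hy) (hm f hf)
  have hxr : x ∈ X.basicOpen r := (E_mem_basicOpen hr0 hx).2 (hloc.1 hji)
  refine ⟨c, _, X.basicOpen r, ht, (X.basicOpen r).2, hxr, fun y hy => ⟨X.basicOpen_le r hy, ?_⟩,
    fun f => ⟨fun hf y hy => hle y hy hf, fun hf => ?_⟩, ⟨r, rfl⟩, hj0, hji, hm, fun y hy f hf => ?_⟩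
  · exact hWU (hs ((E_mem_basicOpen hs0 (X.basicOpen_le r hy)).2
      (hle y hy (hF _ (Finset.mem_singleton_self _)))))
  · have : Nonempty (X.basicOpen r) := ⟨⟨x, hxr⟩⟩
    obtain ⟨g, rfl⟩ := E_sec_of_mem (X.basicOpen r) hf
    have := hV.isLocalization_basicOpen r
    obtain ⟨⟨a, _, m, rfl⟩, ha⟩ := IsLocalization.surj (Submonoid.powers r) g
    have e : ∀ u : Γ(X, V), X.germToFunctionField (X.basicOpen r)
        (algebraMap Γ(X, V) Γ(X, X.basicOpen r) u) = X.germToFunctionField V u := fun u =>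
      X.presheaf.germ_res_apply (homOfLE (X.basicOpen_le r)) _ _ u
    have h1 := congrArg (X.germToFunctionField (X.basicOpen r)) ha
    simp only [map_mul, map_pow, e] at h1
    refine Eaway_le (B := EXB X V) ⟨r, rfl⟩ hj0 hB hji ⟨m, a, ?_⟩
    rw [mul_comm]
    exact h1.symm
  · obtain ⟨q, hq, hq0, hqi, hfq⟩ := (hsp.loc (X.basicOpen_le r hy)).2 f hf
    exact ⟨q, hB hq, hq0, hqi, hB (mul_comm f q ▸ hfq)⟩

/-- the model of a smooth proper variety -/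
noncomputable def EX5_geo {n : ℕ} (hX : IsSmoothProperVariety ℂ X n) :
    Geo X.functionField X (PrimeDivisor X) n where
  pt z := z.1
  ord z f := Scheme.ord f z.1
  O := EXO X
  Aff U := ∃ V : X.Opens, IsAffineOpen V ∧ (V : Set X) = U
  ord_mul _ _ _ hf hg := Scheme.ord_mul hf hg
  mem_O x f _ := E_mem_iff (E_stalk_ufd hX) x f
  isLocal x := IsLocalRing.of_surjective'
    (IsScalarTower.toAlgHom ℂ (X.presheaf.stalk x) X.functionField).rangeRestrict.toRingHom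
    (AlgHom.rangeRestrict_surjective _)
  prime_eq _ _ h := E_prime_eq h
  fin f _ := have := E_compact hX; E_fin f
  locgen := E_locgen (E_stalk_ufd hX)
  cpt := E_compact hX
  centre := have := hX.2.1; EX_val X
  aff_fg := by
    rintro _ ⟨V, hV, rfl⟩ ⟨x, hx⟩
    have : Nonempty V := ⟨⟨x, hx⟩⟩
    have := hX.2.1
    rw [EX5_iInf]
    exact EX_fg X hV
  aff_sep := by
    rintro _ ⟨V, hV, rfl⟩ x hx z hz hzx
    have : Nonempty V := ⟨⟨x, hx⟩⟩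
    obtain ⟨φ, hsp⟩ := EX_isSp X hV
    obtain ⟨g, hg, h0, h1, h2⟩ := hsp.sep hx hz hzx
    rw [EX5_iInf]
    refine ⟨g, hg, h0, h1, not_le.1 fun c => h2 (E_mem_dvr (E_stalk_ufd hX) z ?_)⟩
    rw [E_ord_inv]
    omega
  chart := by
    rintro _ ⟨V, hV, rfl⟩ x hx
    have : Nonempty V := ⟨⟨x, hx⟩⟩
    rw [EX5_iInf]
    exact EX5_chart X hX hV hx

end Crest.Agent.R271
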