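import Crest.Agent.R271.Defs

/-! Row 271, part F: definitions and elementary facts on powers of subspaces. -/

set_option autoImplicit false

namespace Crest.Agent.R271

open Module

section ring
variable {F : Type} [CommRing F] [Algebra ℂ F]

/-- the span of `1, y_1, …, y_d` -/
def FY {d : ℕ} (y : Fin d → F) : Submodule ℂ F := Submodule.span ℂ (insert 1 (Set.range y))

theorem FY_one {d : ℕ} (y : Fin d → F) : (1 : F) ∈ FY y :=
  Submodule.subset_span (Set.mem_insert _ _)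

theorem FY_mem {d : ℕ} (y : Fin d → F) (l : Fin d) : y l ∈ FY y :=
  Submodule.subset_span (Set.mem_insert_of_mem _ ⟨l, rfl⟩)

theorem FY_fg {d : ℕ} (y : Fin d → F) : (FY y).FG :=
  Submodule.fg_span ((Set.finite_range y).insert 1)

theorem FY_le {d : ℕ} {y : Fin d → F} {V : Submodule ℂ F} (h1 : (1 : F) ∈ V) (hy : ∀ l, y l ∈ V) :
    FY y ≤ V := by
  refine Submodule.span_le.2 ?_
  rintro _ (rfl | ⟨l, rfl⟩)
  exacts [h1, hy l]

theorem F_pow_mono {V : Submodule ℂ F} (h1 : (1 : F) ∈ V) {k l : ℕ} (h : k ≤ l) : V ^ k ≤ V ^ l :=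
  pow_le_pow_right' (Submodule.one_le.2 h1) h

theorem F_fin {V : Submodule ℂ F} (hV : V.FG) (k : ℕ) : Module.Finite ℂ ↥(V ^ k) :=
  Module.Finite.iff_fg.2 (hV.pow k)

theorem F_mem_pow {V : Submodule ℂ F} (h1 : (1 : F) ∈ V) {p : F}
    (hp : p ∈ Algebra.adjoin ℂ (V : Set F)) : ∃ c : ℕ, p ∈ V ^ c := by
  induction hp using Algebra.adjoin_induction with
  | mem x hx => exact ⟨1, by simpa using hx⟩
  | algebraMap r => exact ⟨0, by simp⟩
  | add x y _ _ hx hy =>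
    obtain ⟨c, hc⟩ := hx
    obtain ⟨e, he⟩ := hy
    exact ⟨c + e, add_mem (F_pow_mono h1 (Nat.le_add_right _ _) hc)
      (F_pow_mono h1 (Nat.le_add_left _ _) he)⟩
  | mul x y _ _ hx hy =>
    obtain ⟨c, hc⟩ := hx
    obtain ⟨e, he⟩ := hy
    exact ⟨c + e, pow_add V c e ▸ Submodule.mul_mem_mul hc he⟩

theorem IsRed.pow_le {U W : Submodule ℂ F} (h : IsRed U W) :
    ∃ N : ℕ, ∀ k : ℕ, W ^ (N + k) ≤ W ^ N * U ^ k := by
  obtain ⟨N, hN⟩ := h.2
  refine ⟨N, fun k => ?_⟩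
  induction k with
  | zero => simp
  | succ k ih =>
    calc W ^ (N + (k + 1)) = W ^ (N + k) * W := by rw [← add_assoc, pow_succ]
      _ ≤ W ^ N * U ^ k * W := by gcongr
      _ = W ^ (N + 1) * U ^ k := by ring
      _ ≤ W ^ N * U * U ^ k := by gcongr
      _ = W ^ N * U ^ (k + 1) := by ring

theorem IsRed.trans {U W X : Submodule ℂ F} (h : IsRed U W) (h' : IsRed W X) : IsRed U X := by
  obtain ⟨N, hN⟩ := h.2
  obtain ⟨M, hM⟩ := h'.pow_le
  refine ⟨h.1.trans h'.1, M + N, ?_⟩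
  have h1 : W ^ N ≤ X ^ N := pow_le_pow_left' h'.1 N
  calc X ^ (M + N + 1) ≤ X ^ M * W ^ (N + 1) := hM (N + 1)
    _ ≤ X ^ M * (W ^ N * U) := by gcongr
    _ ≤ X ^ M * (X ^ N * U) := by gcongr
    _ = X ^ (M + N) * U := by ring

theorem IsRed.map {F' : Type} [CommRing F'] [Algebra ℂ F'] (φ : F →ₐ[ℂ] F') {U W : Submodule ℂ F}
    (h : IsRed U W) : IsRed (U.map φ.toLinearMap) (W.map φ.toLinearMap) := by
  obtain ⟨N, hN⟩ := h.2
  refine ⟨Submodule.map_mono h.1, N, ?_⟩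
  rw [← Submodule.map_pow, ← Submodule.map_pow, ← Submodule.map_mul]
  exact Submodule.map_mono hN

end ring

variable {F : Type} [Field F] [Algebra ℂ F]

/-- `f` lies in the field generated by `V` -/
def FQ (V : Submodule ℂ F) (f : F) : Prop :=
  ∃ p ∈ Algebra.adjoin ℂ (V : Set F), ∃ q ∈ Algebra.adjoin ℂ (V : Set F), q ≠ 0 ∧ f * q = p

/-- the Hilbert function of `V` grows like `δ k ^ d / d!` -/
structure FDeg (V : Submodule ℂ F) (d δ : ℕ) : Prop where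
  pos : 1 ≤ δ
  lower : ∀ δ' ≤ δ, ∀ k : ℕ, δ' * (k + 1 - δ') ^ d ≤ d.factorial * finrank ℂ ↥(V ^ k)
  upper : ∃ c : ℕ, ∀ k : ℕ, d.factorial * finrank ℂ ↥(V ^ k) ≤ δ * (k + c) ^ d

/-- common denominator -/
theorem F_den {V : Submodule ℂ F} (h1 : (1 : F) ∈ V) (s : Finset F) (hs : ∀ f ∈ s, FQ V f) :
    ∃ q : F, q ≠ 0 ∧ ∃ c : ℕ, q ∈ V ^ c ∧ ∀ f ∈ s, q * f ∈ V ^ c := by
  classical
  induction s using Finset.induction_on with
  | empty => exact ⟨1, one_ne_zero, 0, by simp [Submodule.one_le.1 le_rfl], by simp⟩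
  | insert f s _ ih =>
    obtain ⟨q, hq, c, hc, h⟩ := ih fun g hg => hs g (Finset.mem_insert_of_mem hg)
    obtain ⟨p, hp, r, hr, hr0, e⟩ := hs f (Finset.mem_insert_self _ _)
    obtain ⟨c1, h1'⟩ := F_mem_pow h1 hp
    obtain ⟨c2, h2⟩ := F_mem_pow h1 hr
    have h3 : p ∈ V ^ (c1 + c2) := F_pow_mono h1 (Nat.le_add_right _ _) h1'
    have h4 : r ∈ V ^ (c1 + c2) := F_pow_mono h1 (Nat.le_add_left _ _) h2
    refine ⟨q * r, mul_ne_zero hq hr0, c + (c1 + c2), pow_add V c _ ▸ Submodule.mul_mem_mul hc h4,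
      fun g hg => ?_⟩
    rw [pow_add]
    rcases Finset.mem_insert.1 hg with rfl | hg
    · rw [mul_assoc, mul_comm r, e]
      exact Submodule.mul_mem_mul hc h3
    · rw [mul_right_comm]
      exact Submodule.mul_mem_mul (h g hg) h4

end Crest.Agent.R271
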