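import Crest.Agent.R271.F0

/-! Row 271, part F: the Hilbert function of `span (1, y)`. -/

set_option autoImplicit false

namespace Crest.Agent.R271

open Module

variable {F : Type} [CommRing F] [Algebra ℂ F] {d : ℕ}

/-- the monomial attached to an exponent vector -/
def F1_mon (y : Fin d → F) (β : Fin (d + 1) →₀ ℕ) : F := ∏ l, y l ^ β l.succ

/-- the exponent vectors of total degree `k` -/
def F1_idx (d k : ℕ) : Finset (Fin (d + 1) →₀ ℕ) := Finset.univ.finsuppAntidiag k

theorem F1_mem_idx {k : ℕ} {β : Fin (d + 1) →₀ ℕ} : β ∈ F1_idx d k ↔ ∑ i, β i = k := by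
  simp [F1_idx, Finset.mem_finsuppAntidiag]

theorem F1_card (d k : ℕ) : (F1_idx d k).card = (k + d).choose d := by
  rw [F1_idx, Finset.card_finsuppAntidiag_nat_eq_choose, Finset.card_univ, Fintype.card_fin,
    show d + 1 + k - 1 = k + d by omega, Nat.choose_symm_add]

theorem F1_mon_add (y : Fin d → F) (β γ : Fin (d + 1) →₀ ℕ) :
    F1_mon y (β + γ) = F1_mon y β * F1_mon y γ := by
  simp [F1_mon, pow_add, Finset.prod_mul_distrib]

theorem F1_mon_zero (y : Fin d → F) : F1_mon y (Finsupp.single 0 1) = 1 := by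
  simp [F1_mon, Finsupp.single_apply, (Fin.succ_ne_zero _).symm]

theorem F1_mon_succ (y : Fin d → F) (l : Fin d) : F1_mon y (Finsupp.single l.succ 1) = y l := by
  classical
  rw [F1_mon, Finset.prod_eq_single l]
  · simp
  · intro b _ hb
    simp [Finsupp.single_apply, hb.symm]
  · simp

theorem F1_le_span (y : Fin d → F) (k : ℕ) :
    FY y ^ k ≤ Submodule.span ℂ (Set.range fun β : F1_idx d k => F1_mon y β) := by
  induction k with
  | zero =>
    rw [pow_zero, Submodule.one_le]
    refine Submodule.subset_span ⟨⟨0, F1_mem_idx.2 (by simp)⟩, ?_⟩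
    simp [F1_mon]
  | succ k ih =>
    rw [pow_succ]
    refine (mul_le_mul_left ih _).trans ?_
    rw [FY, Submodule.span_mul_span, Submodule.span_le]
    rintro _ ⟨_, ⟨β, rfl⟩, w, hw, rfl⟩
    have hβ := F1_mem_idx.1 β.2
    rcases hw with rfl | ⟨l, rfl⟩
    · refine Submodule.subset_span ⟨⟨β.1 + Finsupp.single 0 1, F1_mem_idx.2 ?_⟩, ?_⟩
      · simp [Finset.sum_add_distrib, hβ, Finsupp.single_apply]
      · simp only [F1_mon_add, F1_mon_zero]
    · refine Submodule.subset_span ⟨⟨β.1 + Finsupp.single l.succ 1, F1_mem_idx.2 ?_⟩, ?_⟩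
      · simp [Finset.sum_add_distrib, hβ, Finsupp.single_apply]
      · simp only [F1_mon_add, F1_mon_succ]

theorem F1_prod_mem {V : Submodule ℂ F} {ι : Type} (s : Finset ι) (z : ι → F) (hz : ∀ i, z i ∈ V)
    (e : ι → ℕ) : ∏ i ∈ s, z i ^ e i ∈ V ^ (∑ i ∈ s, e i) := by
  classical
  induction s using Finset.induction_on with
  | empty => simp [Submodule.one_le.1 le_rfl]
  | insert a s ha ih =>
    rw [Finset.prod_insert ha, Finset.sum_insert ha, pow_add]
    exact Submodule.mul_mem_mul (Submodule.pow_mem_pow V (hz a) _) ih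

theorem F1_mon_mem (y : Fin d → F) {k : ℕ} (β : F1_idx d k) : F1_mon y β ∈ FY y ^ k := by
  have hβ := F1_mem_idx.1 β.2
  rw [Fin.sum_univ_succ] at hβ
  exact F_pow_mono (FY_one y) (by omega) (F1_prod_mem Finset.univ y (FY_mem y) fun l => β.1 l.succ)

/-- `FY y ^ k` is spanned by the monomials `∏ l, y l ^ β l.succ`, `β : Fin (d + 1) → ℕ` with
`∑ β = k` (`Finset.piAntidiag` / `finsuppAntidiag`, `card_finsuppAntidiag_nat_eq_choose`); there are
`(d + k).choose d` of them and `d! * choose = descFactorial ≤ (k + d) ^ d`. -/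
theorem FY_upper (y : Fin d → F) (k : ℕ) :
    d.factorial * finrank ℂ ↥(FY y ^ k) ≤ (k + d) ^ d := by
  
  have hfin : Module.Finite ℂ
      ↥(Submodule.span ℂ (Set.range fun β : F1_idx d k => F1_mon y β)) :=
    Module.Finite.span_of_finite ℂ (Set.finite_range _)
  have h1 : finrank ℂ ↥(FY y ^ k) ≤ (k + d).choose d := by
    refine (Submodule.finrank_mono (F1_le_span y k)).trans ?_
    refine (finrank_range_le_card (R := ℂ) _).trans ?_
    rw [Fintype.card_coe, F1_card]
  calc d.factorial * finrank ℂ ↥(FY y ^ k) ≤ d.factorial * (k + d).choose d :=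
        Nat.mul_le_mul_left _ h1
    _ = (k + d).descFactorial d := (Nat.descFactorial_eq_factorial_mul_choose _ _).symm
    _ ≤ (k + d) ^ d := Nat.descFactorial_le_pow _ _


/-- these monomials are linearly independent (`MvPolynomial.basisMonomials`, `aeval y` is injective,
`β ↦ tail β` is injective on the antidiagonal), and `k ^ d ≤ (k + 1).ascFactorial d`. -/
theorem FY_lower {y : Fin d → F} (hy : AlgebraicIndependent ℂ y) (k : ℕ) :
    k ^ d ≤ d.factorial * finrank ℂ ↥(FY y ^ k) := by
  
  classical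
  have hfin := F_fin (FY_fg y) k
  have htail : Function.Injective fun β : F1_idx d k => Finsupp.tail β.1 := by
    intro β γ h
    have hβ := F1_mem_idx.1 β.2
    have hγ := F1_mem_idx.1 γ.2
    rw [Fin.sum_univ_succ] at hβ hγ
    have h1 : ∀ l : Fin d, β.1 l.succ = γ.1 l.succ := fun l => by
      simpa [Finsupp.tail_apply] using congrArg (fun t : Fin d →₀ ℕ => t l) h
    have h2 : ∑ l : Fin d, β.1 l.succ = ∑ l : Fin d, γ.1 l.succ :=
      Finset.sum_congr rfl fun l _ => h1 l
    apply Subtype.ext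
    ext i
    refine Fin.cases ?_ h1 i
    omega
  have hli0 := ((MvPolynomial.basisMonomials (Fin d) ℂ).linearIndependent.comp _ htail).map'
    (MvPolynomial.aeval y : MvPolynomial (Fin d) ℂ →ₐ[ℂ] F).toLinearMap
    (LinearMap.ker_eq_bot.2 hy)
  have hli : LinearIndependent ℂ fun β : F1_idx d k => F1_mon y β := by
    have e : (fun β : F1_idx d k => F1_mon y β) =
        (⇑(MvPolynomial.aeval y : MvPolynomial (Fin d) ℂ →ₐ[ℂ] F).toLinearMap ∘
          ⇑(MvPolynomial.basisMonomials (Fin d) ℂ) ∘ fun β : F1_idx d k => Finsupp.tail β.1) := by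
      funext β
      simp [F1_mon, MvPolynomial.aeval_monomial, Finsupp.prod_fintype, Finsupp.tail_apply]
    rw [e]
    exact hli0
  have hli' : LinearIndependent ℂ fun β : F1_idx d k =>
      (⟨F1_mon y β, F1_mon_mem y β⟩ : ↥(FY y ^ k)) :=
    LinearIndependent.of_comp (FY y ^ k).subtype hli
  have h1 := hli'.fintype_card_le_finrank
  rw [Fintype.card_coe, F1_card] at h1
  calc k ^ d ≤ (k + 1) ^ d := Nat.pow_le_pow_left (Nat.le_succ k) d
    _ ≤ (k + 1).ascFactorial d := Nat.pow_succ_le_ascFactorial _ _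
    _ = d.factorial * (k + d).choose d := Nat.ascFactorial_eq_factorial_mul_choose _ _
    _ ≤ _ := Nat.mul_le_mul_left _ h1


end Crest.Agent.R271
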