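import Crest.Agent.R271.F0

/-! Row 271, part F: minimal reductions (projective Noether normalisation). -/

set_option autoImplicit false

namespace Crest.Agent.R271

variable {F : Type} [Field F] [Algebra ℂ F]

/-- `a ∈ Y ^ k` is `t z ^ k` modulo `Y'` -/
def F2_R (Y Y' : Submodule ℂ F) (z a : F) (t : ℂ) (k : ℕ) : Prop :=
  a ∈ Y ^ k ∧ ∀ w ∈ Y, w * (a - t • z ^ k) ∈ Y ^ k * Y'

theorem F2_R_one (Y Y' : Submodule ℂ F) (z : F) : F2_R Y Y' z 1 1 0 :=
  ⟨by simp [Submodule.one_le.1 le_rfl], fun w _ => by simp⟩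

theorem F2_R_mul {Y Y' : Submodule ℂ F} {z a b : F} {t u : ℂ} {k l : ℕ} (hz : z ∈ Y)
    (h : F2_R Y Y' z a t k) (h' : F2_R Y Y' z b u l) : F2_R Y Y' z (a * b) (t * u) (k + l) := by
  refine ⟨pow_add Y k l ▸ Submodule.mul_mem_mul h.1 h'.1, fun w hw => ?_⟩
  have e : w * (a * b - (t * u) • z ^ (k + l)) =
      (w * (a - t • z ^ k)) * b + t • (z ^ k * (w * (b - u • z ^ l))) := by
    simp only [Algebra.smul_def, map_mul, pow_add]; ring
  rw [e]
  refine add_mem ?_ (Submodule.smul_mem _ _ ?_)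
  · have := Submodule.mul_mem_mul (h.2 w hw) h'.1
    rwa [mul_right_comm, ← pow_add] at this
  · have := Submodule.mul_mem_mul (Submodule.pow_mem_pow Y hz k) (h'.2 w hw)
    rwa [← mul_assoc, ← pow_add] at this

theorem F2_R_pow {Y Y' : Submodule ℂ F} {z a : F} {t : ℂ} (hz : z ∈ Y)
    (h : F2_R Y Y' z a t 1) (n : ℕ) : F2_R Y Y' z (a ^ n) (t ^ n) n := by
  induction n with
  | zero => simpa using F2_R_one Y Y' z
  | succ n ih => rw [pow_succ, pow_succ]; exact F2_R_mul hz ih h

theorem F2_R_prod {ι : Type} {Y Y' : Submodule ℂ F} {z : F} {y : ι → F} {c : ι → ℂ} (hz : z ∈ Y)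
    (h : ∀ i, F2_R Y Y' z (y i) (c i) 1) (m : ι → ℕ) (s : Finset ι) :
    F2_R Y Y' z (∏ i ∈ s, y i ^ m i) (∏ i ∈ s, c i ^ m i) (∑ i ∈ s, m i) := by
  classical
  induction s using Finset.induction_on with
  | empty => simpa using F2_R_one Y Y' z
  | insert a s ha ih =>
    rw [Finset.prod_insert ha, Finset.prod_insert ha, Finset.sum_insert ha]
    exact F2_R_mul hz (F2_R_pow hz (h a) _) ih

theorem F2_pow_le {Y Y' : Submodule ℂ F} {z : F} (hz : z ∈ Y)
    (h : Y ≤ Submodule.span ℂ {z} ⊔ Y') (k : ℕ) :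
    Y ^ (k + 1) ≤ Submodule.span ℂ {z ^ (k + 1)} ⊔ Y ^ k * Y' := by
  induction k with
  | zero => simpa using h
  | succ k ih =>
    have h1 : Submodule.span ℂ {z ^ (k + 1)} ≤ Y ^ (k + 1) :=
      Submodule.span_le.2 (Set.singleton_subset_iff.2 (Submodule.pow_mem_pow Y hz _))
    calc Y ^ (k + 1 + 1) = Y ^ (k + 1) * Y := pow_succ _ _
      _ ≤ (Submodule.span ℂ {z ^ (k + 1)} ⊔ Y ^ k * Y') * Y := by gcongr
      _ = Submodule.span ℂ {z ^ (k + 1)} * Y ⊔ Y ^ (k + 1) * Y' := by
          rw [Submodule.sup_mul]; congr 1; ring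
      _ ≤ Submodule.span ℂ {z ^ (k + 1 + 1)} ⊔ Y ^ (k + 1) * Y' := by
          refine sup_le ?_ le_sup_right
          calc Submodule.span ℂ {z ^ (k + 1)} * Y
              ≤ Submodule.span ℂ {z ^ (k + 1)} * (Submodule.span ℂ {z} ⊔ Y') := by gcongr
            _ = Submodule.span ℂ {z ^ (k + 1 + 1)} ⊔ Submodule.span ℂ {z ^ (k + 1)} * Y' := by
                rw [Submodule.mul_sup, Submodule.span_mul_span, Set.singleton_mul_singleton,
                  ← pow_succ]
            _ ≤ _ := by gcongr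

/-- Let `P ≠ 0`, `aeval y P = 0`, `e = totalDegree P ≥ 1`, `c` with `eval c (homogeneousComponent e P) ≠ 0`
(`MvPolynomial.funext`), `c i₀ ≠ 0`, `z = y i₀ / c i₀`, `y' l = y l - c l • z` for `l ≠ i₀`
(`i₀.succAbove`), `Y = FY y`, `Y' = FY y'`.  Every `x ∈ Y` is `λ z` modulo `Y'`, so a product of `e`
elements of `Y` is `(∏ λ) z ^ e` modulo `Y ^ (e - 1) * Y'`; monomials of degree `< e` lie in
`Y ^ (e - 1) * 1`.  Hence `z ^ e ∈ Y ^ (e - 1) * Y'` and `Y ^ e ≤ Y ^ (e - 1) * Y'`. -/
theorem F_red_step {d : ℕ} {y : Fin (d + 1) → F} (hy : ¬ AlgebraicIndependent ℂ y) :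
    ∃ y' : Fin d → F, IsRed (FY y') (FY y) := by
  classical
  rw [algebraicIndependent_iff] at hy
  push Not at hy
  obtain ⟨P, hP, hP0⟩ := hy
  set e := P.totalDegree with he
  set H := MvPolynomial.homogeneousComponent e P with hH
  have hH0 : H ≠ 0 := by
    obtain ⟨m, hm, hme⟩ := Finset.exists_mem_eq_sup P.support
      (MvPolynomial.support_nonempty.2 hP0) (fun s => s.sum fun _ e => e)
    intro h0
    have : MvPolynomial.coeff m H = MvPolynomial.coeff m P := by
      rw [hH, MvPolynomial.coeff_homogeneousComponent, if_pos]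
      rw [he, MvPolynomial.totalDegree, hme]; rfl
    rw [h0, MvPolynomial.coeff_zero] at this
    exact (MvPolynomial.mem_support_iff.1 hm) this.symm
  have he0 : e ≠ 0 := by
    intro h0
    have h1 := MvPolynomial.totalDegree_eq_zero_iff_eq_C.1 (he ▸ h0 : P.totalDegree = 0)
    rw [h1, MvPolynomial.aeval_C, map_eq_zero] at hP
    exact hP0 (by rw [h1, hP, map_zero])
  obtain ⟨c, hc⟩ : ∃ c : Fin (d + 1) → ℂ, MvPolynomial.eval c H ≠ 0 := by
    by_contra hcon
    push Not at hcon
    exact hH0 (MvPolynomial.funext fun x => by simpa using hcon x)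
  obtain ⟨i₀, hi₀⟩ : ∃ i, c i ≠ 0 := by
    by_contra hcon
    push Not at hcon
    have : c = 0 := funext hcon
    apply hc
    rw [this, MvPolynomial.eval_zero, MvPolynomial.constantCoeff_eq, hH,
      MvPolynomial.coeff_homogeneousComponent, if_neg]
    simpa using he0.symm
  set z : F := (c i₀)⁻¹ • y i₀ with hz
  set y' : Fin d → F := fun l => y (i₀.succAbove l) - c (i₀.succAbove l) • z with hy'
  have hzY : z ∈ FY y := Submodule.smul_mem _ _ (FY_mem y i₀)
  have hle : FY y' ≤ FY y := FY_le (FY_one y) fun l =>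
    sub_mem (FY_mem y _) (Submodule.smul_mem _ _ hzY)
  have hdiff : ∀ i, y i - c i • z ∈ FY y' := by
    intro i
    rcases Fin.eq_self_or_eq_succAbove i₀ i with rfl | ⟨l, rfl⟩
    · rw [hz, smul_smul, mul_inv_cancel₀ hi₀, one_smul, sub_self]; exact zero_mem _
    · exact FY_mem y' l
  have hR : ∀ i, F2_R (FY y) (FY y') z (y i) (c i) 1 := fun i =>
    ⟨by simpa using FY_mem y i, fun w hw => by
      simpa using Submodule.mul_mem_mul hw (hdiff i)⟩
  have hsup : FY y ≤ Submodule.span ℂ {z} ⊔ FY y' := by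
    refine FY_le (Submodule.mem_sup_right (FY_one y')) fun i => ?_
    have : y i = c i • z + (y i - c i • z) := by abel
    rw [this]
    exact add_mem (Submodule.mem_sup_left (Submodule.smul_mem _ _
      (Submodule.mem_span_singleton_self z))) (Submodule.mem_sup_right (hdiff i))
  refine ⟨y', hle, e, (F2_pow_le hzY hsup e).trans (sup_le ?_ le_rfl)⟩
  refine Submodule.span_le.2 (Set.singleton_subset_iff.2 ?_)
  have hev : MvPolynomial.eval c H =
      ∑ m ∈ P.support, if m.degree = e then P.coeff m * ∏ i, c i ^ m i else 0 := by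
    rw [hH, MvPolynomial.homogeneousComponent_apply, map_sum, Finset.sum_filter]
    refine Finset.sum_congr rfl fun m _ => ?_
    split_ifs
    · rw [MvPolynomial.eval_monomial, Finsupp.prod_fintype _ _ (by simp)]
    · rfl
  have hae : MvPolynomial.aeval y P = ∑ m ∈ P.support, P.coeff m • ∏ i, y i ^ m i := by
    rw [MvPolynomial.aeval_def, MvPolynomial.eval₂_eq']
    simp [Algebra.smul_def]
  have key : z * MvPolynomial.aeval y P - MvPolynomial.eval c H • z ^ (e + 1) ∈
      FY y ^ e * FY y' := by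
    rw [hev, hae, Finset.mul_sum, Finset.sum_smul, ← Finset.sum_sub_distrib]
    refine Submodule.sum_mem _ fun m hm => ?_
    have hRm := F2_R_prod hzY hR m Finset.univ
    have hdeg : m.degree = ∑ i, m i := Finsupp.degree_eq_sum m
    split_ifs with hme
    · rw [← hdeg, hme] at hRm
      have := Submodule.smul_mem _ (P.coeff m) (hRm.2 z hzY)
      convert this using 1
      simp only [Algebra.smul_def, map_mul, pow_succ]; ring
    · have hlt : m.degree + 1 ≤ e := by
        have : m.degree ≤ e := MvPolynomial.le_totalDegree hm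
        omega
      rw [zero_smul, sub_zero, mul_smul_comm]
      refine Submodule.smul_mem _ _ ?_
      have h1 : z * ∏ i, y i ^ m i ∈ FY y ^ (m.degree + 1) := by
        rw [pow_succ', hdeg]; exact Submodule.mul_mem_mul hzY hRm.1
      simpa using Submodule.mul_mem_mul (F_pow_mono (FY_one y) hlt h1) (FY_one y')
  rw [hP, mul_zero, zero_sub, neg_mem_iff] at key
  have := Submodule.smul_mem _ (MvPolynomial.eval c H)⁻¹ key
  rwa [smul_smul, inv_mul_cancel₀ hc, one_smul] at this

/-- induction on the number of generators with `F_red_step`, `IsRed.trans`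
(`algebraicIndependent_empty_type`). -/
theorem F_exists_red {V : Submodule ℂ F} (hV : V.FG) (h1 : (1 : F) ∈ V) :
    ∃ (d : ℕ) (y : Fin d → F), AlgebraicIndependent ℂ y ∧ IsRed (FY y) V := by
  obtain ⟨n, y, hy⟩ := Submodule.fg_iff_exists_fin_generating_family.1 hV
  have hVy : FY y = V := by
    refine le_antisymm (FY_le h1 fun l => hy ▸ Submodule.subset_span ⟨l, rfl⟩) ?_
    rw [← hy]
    exact Submodule.span_mono (Set.subset_insert _ _)
  rw [← hVy]
  clear hVy hy hV h1
  induction n with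
  | zero => exact ⟨0, y, algebraicIndependent_empty_type, le_rfl, 0, by simp⟩
  | succ n ih =>
    by_cases h : AlgebraicIndependent ℂ y
    · exact ⟨n + 1, y, h, le_rfl, 0, by simp⟩
    · obtain ⟨y', hy'⟩ := F_red_step h
      obtain ⟨d, y'', h1, h2⟩ := ih y'
      exact ⟨d, y'', h1, h2.trans hy'⟩

end Crest.Agent.R271
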