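import Crest.Agent.R271.F1
import Crest.Agent.R271.F2

/-! Row 271, part F: the degree of a linear system in a field. -/

set_option autoImplicit false

namespace Crest.Agent.R271

open Module

variable {F : Type} [Field F] [Algebra ℂ F]

section tower
variable {K : Type} [Field K] [Algebra ℂ K] [Algebra K F] [IsScalarTower ℂ K F]

theorem F_top {V : Submodule ℂ F} (hg : ∀ f, FQ V f) (M : Submodule K F) [FiniteDimensional K M]
    (h1 : (1 : F) ∈ M) (hM : ∀ v ∈ V, ∀ m ∈ M, v * m ∈ M) : M = ⊤ := by
  have hA : ∀ p ∈ Algebra.adjoin ℂ (V : Set F), ∀ m ∈ M, p * m ∈ M := by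
    intro p hp
    induction hp using Algebra.adjoin_induction with
    | mem x hx => exact hM x hx
    | algebraMap r =>
      intro m hm
      rw [IsScalarTower.algebraMap_apply ℂ K F, ← Algebra.smul_def]
      exact M.smul_mem _ hm
    | add x y _ _ hx hy =>
      intro m hm
      rw [add_mul]
      exact add_mem (hx m hm) (hy m hm)
    | mul x y _ _ hx hy =>
      intro m hm
      rw [mul_assoc]
      exact hx _ (hy m hm)
  refine eq_top_iff.2 fun f _ => ?_
  obtain ⟨p, hp, q, hq, hq0, e⟩ := hg f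
  let L : M →ₗ[K] M := (LinearMap.mulLeft K q).restrict (hA q hq)
  have hL : Function.Injective L := fun a b h =>
    Subtype.ext (mul_left_cancel₀ hq0 (congrArg Subtype.val h))
  obtain ⟨m, hm⟩ := LinearMap.injective_iff_surjective.1 hL ⟨p, by simpa using hA p hp 1 h1⟩
  have h2 : q * m = p := congrArg Subtype.val hm
  have h3 : f = m := mul_right_cancel₀ hq0 (by rw [e, ← h2, mul_comm])
  rw [h3]
  exact m.2

omit [Algebra ℂ K] [IsScalarTower ℂ K F] in
theorem F_span_mul {V : Submodule ℂ F} {j : ℕ} {M : Submodule K F}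
    (h : ∀ x ∈ V ^ (j + 1), x ∈ M) {v : F} (hv : v ∈ V) {m : F}
    (hm : m ∈ Submodule.span K ((V ^ j : Submodule ℂ F) : Set F)) : v * m ∈ M := by
  induction hm using Submodule.span_induction with
  | mem x hx => exact h _ (pow_succ' V j ▸ Submodule.mul_mem_mul hv hx)
  | zero => simp
  | add x y _ _ hx hy =>
    rw [mul_add]
    exact add_mem hx hy
  | smul c x _ hx =>
    rw [mul_smul_comm]
    exact M.smul_mem c hx

theorem F_chain [FiniteDimensional K F] {V : Submodule ℂ F} (h1 : (1 : F) ∈ V) (hg : ∀ f, FQ V f)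
    (j : ℕ) : min (j + 1) (finrank K F) ≤
      finrank K (Submodule.span K ((V ^ j : Submodule ℂ F) : Set F)) := by
  have h0 : ∀ j : ℕ, (1 : F) ∈ Submodule.span K ((V ^ j : Submodule ℂ F) : Set F) := fun j =>
    Submodule.subset_span (F_pow_mono h1 (Nat.zero_le j) (by simp [Submodule.one_le.1 le_rfl]))
  induction j with
  | zero =>
    refine (min_le_left _ _).trans (Submodule.one_le_finrank_iff.2 fun h => ?_)
    have := h0 0
    rw [h] at this
    exact one_ne_zero this
  | succ j ih =>
    have hle : Submodule.span K ((V ^ j : Submodule ℂ F) : Set F) ≤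
        Submodule.span K ((V ^ (j + 1) : Submodule ℂ F) : Set F) :=
      Submodule.span_mono (F_pow_mono h1 (Nat.le_succ j))
    rcases hle.eq_or_lt with he | hlt
    · have ht := F_top hg _ (h0 j) fun v hv m hm =>
        F_span_mul (fun x hx => he ▸ Submodule.subset_span hx) hv hm
      rw [← he, ht, finrank_top]
      exact min_le_right _ _
    · have := Submodule.finrank_lt_finrank_of_lt hlt
      omega

omit [Algebra ℂ K] [IsScalarTower ℂ K F] in
theorem F_lin {ι : Type} [Fintype ι] {e : ι → F} (he : LinearIndependent K e)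
    {Y X : Submodule ℂ F} [Module.Finite ℂ Y] [Module.Finite ℂ X]
    (hY : ∀ x ∈ Y, x ∈ Set.range (algebraMap K F)) (hX : ∀ i, ∀ x ∈ Y, x * e i ∈ X) :
    Fintype.card ι * finrank ℂ Y ≤ finrank ℂ X := by
  let L0 : (ι → Y) →ₗ[ℂ] F :=
    ∑ i, LinearMap.mulRight ℂ (e i) ∘ₗ Y.subtype ∘ₗ LinearMap.proj i
  have hL0 : ∀ x, L0 x = ∑ i, (x i : F) * e i := fun x => by simp [L0]
  let L : (ι → Y) →ₗ[ℂ] X := L0.codRestrict X fun x => by
    rw [hL0]
    exact sum_mem fun i _ => hX i _ (x i).2
  have hL : Function.Injective L := by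
    rw [injective_iff_map_eq_zero]
    intro x hx
    have h1 : ∑ i, (x i : F) * e i = 0 := by
      rw [← hL0]
      exact congrArg Subtype.val hx
    choose c hc using fun i => hY _ (x i).2
    have h2 := Fintype.linearIndependent_iff.1 he c (by simpa only [Algebra.smul_def, hc] using h1)
    funext i
    exact Subtype.ext (by rw [← hc, h2 i, map_zero]; rfl)
  have := LinearMap.finrank_le_finrank_of_injective hL
  rwa [finrank_pi_fintype, Finset.sum_const, Finset.card_univ, smul_eq_mul] at this

omit [Algebra ℂ K] [IsScalarTower ℂ K F] in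
theorem F_up [FiniteDimensional K F] {Y W : Submodule ℂ F} (hY : Y.FG) (h1 : (1 : F) ∈ Y)
    (hK : ∀ x : K, FQ Y (algebraMap K F x)) (hW : W.FG) :
    ∃ c : ℕ, ∀ k : ℕ, finrank ℂ ↥(W * Y ^ k) ≤ finrank K F * finrank ℂ ↥(Y ^ (k + c)) := by
  classical
  obtain ⟨s, rfl⟩ := hW
  let b := finBasis K F
  obtain ⟨q, hq, c, -, hc⟩ := F_den h1
    ((s ×ˢ Finset.univ).image fun p : F × Fin (finrank K F) => algebraMap K F (b.repr p.1 p.2))
    (fun f hf => by
      obtain ⟨p, -, rfl⟩ := Finset.mem_image.1 hf
      exact hK _)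
  refine ⟨c, fun k => ?_⟩
  have := F_fin hY (k + c)
  let L : (Fin (finrank K F) → ↥(Y ^ (k + c))) →ₗ[ℂ] F :=
    ∑ i, LinearMap.mulRight ℂ (b i) ∘ₗ (Y ^ (k + c)).subtype ∘ₗ LinearMap.proj i
  have hL : ∀ x, L x = ∑ i, (x i : F) * b i := fun x => by simp [L]
  have hle : (Submodule.span ℂ (s : Set F) * Y ^ k).map (LinearMap.mulLeft ℂ q) ≤
      LinearMap.range L := by
    rw [Submodule.map_le_iff_le_comap, Submodule.mul_le]
    intro w hw x hx
    induction hw using Submodule.span_induction with
    | mem w hw =>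
      refine ⟨fun i => ⟨x * (q * algebraMap K F (b.repr w i)), ?_⟩, ?_⟩
      · rw [pow_add]
        exact Submodule.mul_mem_mul hx (hc _ (Finset.mem_image.2
          ⟨(w, i), Finset.mem_product.2 ⟨hw, Finset.mem_univ i⟩, rfl⟩))
      · rw [hL, LinearMap.mulLeft_apply]
        conv_rhs => rw [← b.sum_repr w]
        simp only [Algebra.smul_def, Finset.sum_mul, Finset.mul_sum]
        exact Finset.sum_congr rfl fun i _ => by ring
    | zero => simp
    | add u v _ _ hu hv =>
      rw [add_mul]
      exact add_mem hu hv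
    | smul a u _ hu =>
      rw [smul_mul_assoc]
      exact Submodule.smul_mem _ a hu
  rw [(Submodule.equivMapOfInjective (LinearMap.mulLeft ℂ q) (mul_right_injective₀ hq) _).finrank_eq]
  refine (Submodule.finrank_mono hle).trans (L.finrank_range_le.trans_eq ?_)
  rw [finrank_pi_fintype, Finset.sum_const, Finset.card_univ, smul_eq_mul, Fintype.card_fin]

end tower

theorem F_exists_deg {V : Submodule ℂ F} (hV : V.FG) (h1 : (1 : F) ∈ V) (hg : ∀ f, FQ V f) :
    ∃ (d : ℕ) (y : Fin d → F) (δ : ℕ), (∀ l, y l ∈ V) ∧ IsTranscendenceBasis ℂ y ∧ FDeg V d δ := by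
  obtain ⟨d, y, hy, hred⟩ := F_exists_red hV h1
  let K := IntermediateField.adjoin ℂ (Set.range y)
  have hY1 : ∀ x ∈ FY y, x ∈ K := fun x hx =>
    FY_le (V := K.toSubalgebra.toSubmodule) K.one_mem
      (fun l => IntermediateField.subset_adjoin _ _ ⟨l, rfl⟩) hx
  have hYK : ∀ k : ℕ, ∀ x ∈ FY y ^ k, x ∈ K := by
    intro k x hx
    induction hx using Submodule.pow_induction_on_left' with
    | algebraMap r => exact K.algebraMap_mem r
    | add u v _ _ _ hu hv => exact add_mem hu hv
    | mem_mul m hm _ u _ hu => exact mul_mem (hY1 m hm) hu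
  have hfin : FiniteDimensional K F := by
    obtain ⟨N, hN⟩ := hred.2
    obtain ⟨s, hs⟩ := hV.pow N
    have h2 : FiniteDimensional K (Submodule.span K ((V ^ N : Submodule ℂ F) : Set F)) := by
      rw [← hs, Submodule.span_span_of_tower]
      exact FiniteDimensional.span_finset K s
    have ht := F_top hg (Submodule.span K ((V ^ N : Submodule ℂ F) : Set F))
      (Submodule.subset_span (F_pow_mono h1 (Nat.zero_le N) (by simp [Submodule.one_le.1 le_rfl])))
      fun v hv m hm => F_span_mul (fun x hx => by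
        refine Submodule.mul_induction_on (hN hx) (fun a ha b hb => ?_) fun _ _ => add_mem
        rw [mul_comm]
        exact Submodule.smul_mem _ (⟨b, hY1 b hb⟩ : K) (Submodule.subset_span ha)) hv hm
    rw [ht] at h2
    exact Module.Finite.equiv Submodule.topEquiv
  have htb : IsTranscendenceBasis ℂ y := hy.isTranscendenceBasis_iff_isAlgebraic.2
    (IntermediateField.isAlgebraic_adjoin_iff_top.1 (Algebra.IsAlgebraic.of_finite K F))
  refine ⟨d, y, finrank K F, fun l => hred.1 (FY_mem y l), htb, finrank_pos, ?_, ?_⟩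
  · intro δ' hδ k
    rcases δ' with _ | j
    · simp
    rw [Nat.add_sub_add_right]
    by_cases hjk : j ≤ k
    · obtain ⟨t, ht, hsp, hli⟩ := exists_linearIndependent K ((V ^ j : Submodule ℂ F) : Set F)
      have := hli.finite
      have := Fintype.ofFinite t
      have h2 := F_chain (K := K) h1 hg j
      rw [← hsp, finrank_span_set_eq_card hli, Set.toFinset_card, min_eq_left hδ] at h2
      have := F_fin (FY_fg y) (k - j)
      have := F_fin hV k
      have h3 := F_lin hli (Y := FY y ^ (k - j)) (X := V ^ k)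
        (fun x hx => ⟨⟨x, hYK _ x hx⟩, rfl⟩) fun i x hx => by
          rw [← Nat.sub_add_cancel hjk, pow_add]
          exact Submodule.mul_mem_mul (pow_le_pow_left' hred.1 _ hx) (ht i.2)
      calc (j + 1) * (k - j) ^ d ≤ Fintype.card t * (d.factorial * finrank ℂ ↥(FY y ^ (k - j))) :=
            Nat.mul_le_mul h2 (FY_lower hy _)
        _ = d.factorial * (Fintype.card t * finrank ℂ ↥(FY y ^ (k - j))) := by ring
        _ ≤ _ := Nat.mul_le_mul_left _ h3
    · rcases d with _ | d
      · exfalso
        have := htb.isEmpty_iff_isAlgebraic.1 inferInstance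
        have hs := (IsAlgClosed.algebraMap_bijective_of_isIntegral (k := ℂ) (K := F)).2
        have h2 : finrank K F ≤ 1 := finrank_le_one (1 : F) fun w => by
          obtain ⟨c, rfl⟩ := hs w
          exact ⟨algebraMap ℂ K c, by rw [algebraMap_smul, Algebra.algebraMap_eq_smul_one]⟩
        omega
      · rw [Nat.sub_eq_zero_of_le (not_le.1 hjk).le]
        simp
  · obtain ⟨N, hN⟩ := hred.pow_le
    obtain ⟨c, hc⟩ := F_up (K := K) (FY_fg y) (FY_one y) (fun x => by
      obtain ⟨r, hr, s, hs, e⟩ := IntermediateField.mem_adjoin_iff_div.1 x.2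
      have hm : Algebra.adjoin ℂ (Set.range y) ≤ Algebra.adjoin ℂ (FY y : Set F) :=
        Algebra.adjoin_mono (by rintro _ ⟨l, rfl⟩; exact FY_mem y l)
      by_cases h0 : s = 0
      · exact ⟨0, zero_mem _, 1, one_mem _, one_ne_zero, by
          rw [mul_one]; exact e.trans (by rw [h0, div_zero])⟩
      · exact ⟨r, hm hr, s, hm hs, h0, (congrArg (· * s) e).trans (div_mul_cancel₀ r h0)⟩)
      (hV.pow N)
    refine ⟨c + d, fun k => ?_⟩
    have : Module.Finite ℂ ↥(V ^ N * FY y ^ k) :=
      Module.Finite.iff_fg.2 ((hV.pow N).mul ((FY_fg y).pow k))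
    have h2 := Submodule.finrank_mono ((F_pow_mono h1 (Nat.le_add_left k N)).trans (hN k))
    calc d.factorial * finrank ℂ ↥(V ^ k)
        ≤ d.factorial * (finrank K F * finrank ℂ ↥(FY y ^ (k + c))) :=
          Nat.mul_le_mul_left _ (h2.trans (hc k))
      _ = finrank K F * (d.factorial * finrank ℂ ↥(FY y ^ (k + c))) := by ring
      _ ≤ _ := Nat.mul_le_mul_left _ (by rw [← add_assoc]; exact FY_upper y _)

end Crest.Agent.R271
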