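import Crest.Agent.R271.HFin

/-! Row 271, part A: Hörmander's `L²` theorem on Stein Riemann domains. -/

set_option autoImplicit false

namespace Crest.Agent.R271

open MeasureTheory Filter Topology
open scoped ENNReal NNReal

variable {E Y : Type} [NormedAddCommGroup E] [NormedSpace ℂ E] [FiniteDimensional ℂ E]
  [MeasurableSpace E] [BorelSpace E] {μ : Measure E} [μ.IsAddHaarMeasure]
  [TopologicalSpace Y] [T2Space Y] [SecondCountableTopology Y] [MeasurableSpace Y] [BorelSpace Y]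

/-- **Hörmander's theorem** (for exact data `∂̄ u`, sharp constant, weights `φ j ↓ log N`). -/
theorem RD.hormander (X : RD E Y μ) {Ω : Set Y} (hΩ : X.Stein Ω) {u : Y → ℂ} (hu : X.C2 Ω u)
    {φ : ℕ → Y → ℝ} (hφ : ∀ j, X.Psh Ω (φ j)) (hanti : ∀ y ∈ Ω, Antitone fun j => φ j y)
    {N : Y → ℝ} (hN : ∀ y ∈ Ω, Tendsto (fun j => Real.exp (φ j y)) atTop (𝓝 (N y)))
    {H : ℕ → Y → ℝ} (hHm : ∀ j, AEMeasurable (H j) (X.ν.restrict Ω))
    (hH0 : ∀ j, ∀ y ∈ Ω, 0 ≤ H j y)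
    (hH : ∀ j, ∀ y ∈ Ω, ∀ v,
      ‖dbar (X.loc u y) (X.π y) v‖ ^ 2 ≤ H j y * levi (X.loc (φ j) y) (X.π y) v)
    {C : ℝ≥0∞} (hC : ∀ j, ∫⁻ y in Ω, ENNReal.ofReal (H j y * Real.exp (-φ j y)) ∂X.ν ≤ C) :
    ∃ h : Y → ℂ, X.Hol Ω h ∧ ∫⁻ y in Ω, ‖u y - h y‖ₑ ^ 2 / ENNReal.ofReal (N y) ∂X.ν ≤ C := by
  rcases eq_or_ne C ∞ with rfl | hCt
  · exact ⟨fun _ => 0, fun y _ => differentiableAt_const (0 : ℂ), le_top⟩
  have hφc : ∀ j, ContinuousOn (φ j) Ω := fun j => RD.C2.continuousOn X (hφ j).1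
  obtain ⟨hNm, hNB⟩ := X.Hlim_N hΩ.1 hφc hanti hN
  have hB : ContinuousOn (fun y => Real.exp (φ 0 y)) Ω := (hφc 0).rexp
  obtain ⟨w, hw, hwC, hweak⟩ := X.Hsolve (Module.finBasis ℂ E) hΩ.1 hu hNm hB hNB
    (C := C.toReal) ENNReal.toReal_nonneg fun γ hγ => by
      have hK : IsCompact (⋃ j, tsupport (γ j)) := isCompact_iUnion fun j => (hγ j).cpt
      have hl := X.Hlim hΩ.1 hφc hanti hN
        (G := fun y => ∑ j, X.db (γ j) y (Module.finBasis ℂ E j))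
        (continuousOn_finset_sum _ fun j _ =>
          (RD.C2.db_cont X (hγ j).c2 _).mono (Set.subset_univ _))
        hK (Set.iUnion_subset fun j => (hγ j).sub) fun y _ hy =>
          Finset.sum_eq_zero fun j _ => X.db_of_notMem (fun h => hy (Set.mem_iUnion.2 ⟨j, h⟩)) _
      refine ge_of_tendsto' (hl.const_mul C.toReal) fun j => ?_
      exact X.Hap _ hΩ hu (hφ j) (hHm j) (hH0 j) (hH j) ENNReal.toReal_nonneg
        (by rw [ENNReal.ofReal_toReal hCt]; exact hC j) hγ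
  obtain ⟨h, hh, hae⟩ := X.Hweyl (Module.finBasis ℂ E) hΩ.1
    (fun y hy => X.Hsolve_loc hΩ.1 (RD.C2.continuousOn X hu) hNm hB hNB hw hy) hweak
  refine ⟨h, hh, ?_⟩
  rw [← ENNReal.ofReal_toReal hCt]
  exact Hfinal hw hwC hae

end Crest.Agent.R271
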