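import Crest.Agent.R271.HDefs

/-! Row 271, part A: Hilbert space lemmas in terms of plain functions. -/

set_option autoImplicit false
set_option linter.unusedSectionVars false

namespace Crest.Agent.R271

open MeasureTheory Filter Topology Set
open scoped ENNReal NNReal ComplexConjugate

variable {α : Type} [MeasurableSpace α] {ν : Measure α} {ι : Type} [Fintype ι]

theorem H62_inner {u v : Lp ℂ 2 ν} {f g : α → ℂ} (hu : u =ᵐ[ν] f) (hv : v =ᵐ[ν] g) :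
    inner ℂ u v = ∫ x, g x * conj (f x) ∂ν := by
  rw [L2.inner_def]
  refine integral_congr_ae ?_
  filter_upwards [hu, hv] with x h1 h2
  rw [h1, h2, RCLike.inner_apply]

theorem H62_norm {u : Lp ℂ 2 ν} {f : α → ℂ} (hu : u =ᵐ[ν] f) : ‖u‖ ^ 2 = ∫ x, ‖f x‖ ^ 2 ∂ν := by
  have h := H62_inner hu hu
  rw [inner_self_eq_norm_sq_to_K] at h
  simp only [Complex.mul_conj, Complex.normSq_eq_norm_sq] at h
  rw [integral_complex_ofReal] at h
  exact Complex.ofReal_injective (by rw [← h]; push_cast; rfl)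

theorem H62_dec {H : Type} [NormedAddCommGroup H] [InnerProductSpace ℂ H] [CompleteSpace H]
    (K : Submodule ℂ H) (a : H) : ∃ a₁ : H, ‖a₁‖ ^ 2 ≤ ‖a‖ ^ 2 ∧
      (∀ u ∈ K, inner ℂ u a = inner ℂ u a₁) ∧
      ∀ c : H, (∀ u ∈ K, inner ℂ c u = 0) → inner ℂ c a₁ = 0 := by
  obtain ⟨a₂, h2, a₁, h1, e⟩ := Kᗮ.exists_add_mem_mem_orthogonal a
  refine ⟨a₁, ?_, fun u hu => ?_, fun c hc => h1 c ((Submodule.mem_orthogonal' _ _).2 hc)⟩
  · rw [e, norm_add_sq (𝕜 := ℂ), h1 a₂ h2, map_zero]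
    nlinarith [sq_nonneg ‖a₂‖]
  · rw [e, inner_add_right, h2 u hu, zero_add]

theorem H62_conj {f : α → ℂ} (hf : MemLp f 2 ν) : MemLp (fun x => conj (f x)) 2 ν :=
  hf.congr_norm (Complex.continuous_conj.comp_aestronglyMeasurable hf.1)
    (Eventually.of_forall fun _ => (Complex.norm_conj _).symm)

/-- orthogonal projection onto the closed span of `𝓢`.  In `PiLp 2 fun _ : ι => Lp ℂ 2 ν` let `L` be
the orthogonal complement of the span of (the classes of) `𝓢`; `a = a₂ + a₁` with `a₂ ∈ L`,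
`a₁ ∈ Lᗮ` (`Submodule.exists_add_mem_mem_orthogonal`); `L2.inner_def`, `PiLp.inner_apply`. -/
theorem Hproj (𝓢 : Set (ι → α → ℂ)) (h𝓢 : ∀ s ∈ 𝓢, ∀ j, MemLp (s j) 2 ν) {a : ι → α → ℂ}
    (ha : ∀ j, MemLp (a j) 2 ν) : ∃ p : ι → α → ℂ, (∀ j, MemLp (p j) 2 ν) ∧
      ∑ j, ∫ x, ‖p j x‖ ^ 2 ∂ν ≤ ∑ j, ∫ x, ‖a j x‖ ^ 2 ∂ν ∧
      (∀ s ∈ 𝓢, ∑ j, ∫ x, a j x * conj (s j x) ∂ν = ∑ j, ∫ x, p j x * conj (s j x) ∂ν) ∧
      ∀ c : ι → α → ℂ, (∀ j, MemLp (c j) 2 ν) → (∀ s ∈ 𝓢, ∑ j, ∫ x, s j x * c j x ∂ν = 0) →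
        ∑ j, ∫ x, p j x * c j x ∂ν = 0 := by
  let T : (s : ι → α → ℂ) → (∀ j, MemLp (s j) 2 ν) → PiLp 2 fun _ : ι => Lp ℂ 2 ν :=
    fun s hs => WithLp.toLp 2 fun j => (hs j).toLp (s j)
  have hT : ∀ s hs j, T s hs j =ᵐ[ν] s j := fun s hs j => (hs j).coeFn_toLp
  set K : Submodule ℂ (PiLp 2 fun _ : ι => Lp ℂ 2 ν) :=
    Submodule.span ℂ (range fun s : 𝓢 => T s.1 (h𝓢 s.1 s.2)) with hK
  obtain ⟨a₁, e1, h2, h1⟩ := H62_dec K (T a ha)
  refine ⟨fun j => a₁ j, fun j => Lp.memLp _, ?_, fun s hs => ?_, fun c hc h0 => ?_⟩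
  · rw [PiLp.norm_sq_eq_of_L2, PiLp.norm_sq_eq_of_L2] at e1
    simp only [H62_norm (hT a ha _)] at e1
    simp only [← H62_norm (EventuallyEq.refl _ (a₁ _))]
    exact e1
  · have e1 := h2 (T s (h𝓢 s hs)) (Submodule.subset_span ⟨⟨s, hs⟩, rfl⟩)
    rw [PiLp.inner_apply, PiLp.inner_apply] at e1
    simp only [H62_inner (hT s _ _) (hT a ha _), H62_inner (hT s _ _) (EventuallyEq.refl _ (a₁ _))]
      at e1
    exact e1
  · have hc' : ∀ j, MemLp (fun x => conj (c j x)) 2 ν := fun j => H62_conj (hc j)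
    have e1 : ∀ u ∈ K, inner ℂ (T _ hc') u = 0 := by
      intro u hu
      induction hu using Submodule.span_induction with
      | mem u hu =>
        obtain ⟨s, rfl⟩ := hu
        rw [PiLp.inner_apply]
        simp only [H62_inner (hT _ hc' _) (hT s.1 _ _), Complex.conj_conj]
        exact h0 s.1 s.2
      | zero => exact inner_zero_right _
      | add u v _ _ hu hv => rw [inner_add_right, hu, hv, add_zero]
      | smul t u _ hu => rw [inner_smul_right, hu, mul_zero]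
    have e2 := h1 _ e1
    rw [PiLp.inner_apply] at e2
    simp only [H62_inner (hT _ hc' _) (EventuallyEq.refl _ (a₁ _)), Complex.conj_conj] at e2
    exact e2

/-- Riesz, abstract form: a subspace of `H × ℂ` with `‖z‖ ≤ c ‖x‖` is the graph of a bounded functional
on its first projection (`LinearMap.mkContinuous`, `exists_extension_norm_eq`,
`InnerProductSpace.toDual`). -/
theorem Hriesz0 {H : Type} [NormedAddCommGroup H] [InnerProductSpace ℂ H] [CompleteSpace H]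
    (S : Submodule ℂ (H × ℂ)) {c : ℝ} (hc : 0 ≤ c) (h : ∀ p ∈ S, ‖p.2‖ ≤ c * ‖p.1‖) :
    ∃ w : H, ‖w‖ ≤ c ∧ ∀ p ∈ S, inner ℂ w p.1 = p.2 := by
  set π : S →ₗ[ℂ] H := (LinearMap.fst ℂ H ℂ).comp S.subtype with hπ
  have hinj : Function.Injective π := by
    rw [← LinearMap.ker_eq_bot, LinearMap.ker_eq_bot']
    intro p hp
    have h1 : p.1.1 = 0 := hp
    have h2 := h p.1 p.2
    rw [h1, norm_zero, mul_zero, norm_le_zero_iff] at h2
    exact Subtype.ext (Prod.ext h1 h2)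
  set e := LinearEquiv.ofInjective π hinj with he
  set f0 : LinearMap.range π →ₗ[ℂ] ℂ := ((LinearMap.snd ℂ H ℂ).comp S.subtype).comp e.symm.toLinearMap
    with hf0
  have hf : ∀ p : S, f0 (e p) = p.1.2 := fun p => by simp [hf0]
  have hb : ∀ x, ‖f0 x‖ ≤ c * ‖x‖ := fun x => by
    obtain ⟨p, rfl⟩ := e.surjective x
    rw [hf]
    exact h p.1 p.2
  obtain ⟨g, hg, hn⟩ := exists_extension_norm_eq (LinearMap.range π) (f0.mkContinuous c hb)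
  refine ⟨(InnerProductSpace.toDual ℂ H).symm g, ?_, fun p hp => ?_⟩
  · rw [LinearIsometryEquiv.norm_map, hn]
    exact LinearMap.mkContinuous_norm_le _ hc _
  · rw [InnerProductSpace.toDual_symm_apply]
    exact (hg (e ⟨p, hp⟩)).trans (hf ⟨p, hp⟩)

theorem Hriesz (𝓢 : Set ((α → ℂ) × ℂ)) (h0 : (0 : (α → ℂ) × ℂ) ∈ 𝓢)
    (hadd : ∀ p ∈ 𝓢, ∀ q ∈ 𝓢, p + q ∈ 𝓢) (hsmul : ∀ a : ℂ, ∀ p ∈ 𝓢, a • p ∈ 𝓢)
    (h2 : ∀ p ∈ 𝓢, MemLp p.1 2 ν) {c : ℝ} (hc : 0 ≤ c)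
    (h : ∀ p ∈ 𝓢, ‖p.2‖ ^ 2 ≤ c * ∫ x, ‖p.1 x‖ ^ 2 ∂ν) :
    ∃ w : α → ℂ, MemLp w 2 ν ∧ ∫ x, ‖w x‖ ^ 2 ∂ν ≤ c ∧ ∀ p ∈ 𝓢, ∫ x, w x * p.1 x ∂ν = p.2 := by
  let S : Submodule ℂ (Lp ℂ 2 ν × ℂ) :=
    { carrier := {q | ∃ p ∈ 𝓢, q.1 =ᵐ[ν] p.1 ∧ q.2 = p.2}
      zero_mem' := ⟨0, h0, Lp.coeFn_zero _ _ _, rfl⟩
      add_mem' := by
        rintro q q' ⟨p, hp, h1, h2⟩ ⟨p', hp', h1', h2'⟩
        exact ⟨p + p', hadd p hp p' hp', (Lp.coeFn_add _ _).trans (h1.add h1'),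
          by rw [Prod.snd_add, Prod.snd_add, h2, h2']⟩
      smul_mem' := by
        rintro a q ⟨p, hp, h1, h2⟩
        exact ⟨a • p, hsmul a p hp, (Lp.coeFn_smul _ _).trans (h1.const_smul a),
          by rw [Prod.smul_snd, Prod.smul_snd, h2]⟩ }
  obtain ⟨w, hw, hS⟩ := Hriesz0 S (Real.sqrt_nonneg c) (by
    rintro q ⟨p, hp, h1, h3⟩
    refine abs_le_of_sq_le_sq' ?_ (by positivity) |>.2
    rw [mul_pow, Real.sq_sqrt hc, H62_norm h1, h3]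
    exact h p hp)
  refine ⟨fun x => conj (w x), H62_conj (Lp.memLp w), ?_, fun p hp => ?_⟩
  · simp only [Complex.norm_conj]
    rw [← H62_norm (EventuallyEq.refl _ w), ← Real.sq_sqrt hc]
    gcongr
  · have h1 := hS ((h2 p hp).toLp p.1, p.2) ⟨p, hp, (h2 p hp).coeFn_toLp, rfl⟩
    rw [H62_inner (EventuallyEq.refl _ w) (h2 p hp).coeFn_toLp] at h1
    simp only [mul_comm (conj _)]
    exact h1

end Crest.Agent.R271
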