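import Mathlib

/-! Row 271, part A: the one-dimensional cut-offs. -/

set_option autoImplicit false

namespace Crest.Agent.R271

open Filter Topology Set

theorem Hh21_pow (c A : ℝ) (n : ℕ) (s : ℝ) :
    HasDerivAt (fun x => A * max (x - c) 0 ^ (n + 2)) (A * (n + 2) * max (s - c) 0 ^ (n + 1)) s := by
  refine hasDerivAt_of_hasDerivAt_of_ne' (g := fun s => A * (n + 2) * max (s - c) 0 ^ (n + 1))
    (x := c) (fun y hy => ?_) (by fun_prop) (by fun_prop) s
  rcases lt_or_gt_of_ne hy with h | h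
  · have h1 : (fun x => A * max (x - c) 0 ^ (n + 2)) =ᶠ[𝓝 y] fun _ => 0 := by
      filter_upwards [Iio_mem_nhds h] with x hx
      rw [max_eq_right (sub_nonpos.2 (le_of_lt hx))]
      simp
    rw [max_eq_right (sub_nonpos.2 h.le)]
    simpa using (hasDerivAt_const y (0 : ℝ)).congr_of_eventuallyEq h1
  · have h1 : (fun x => A * max (x - c) 0 ^ (n + 2)) =ᶠ[𝓝 y] fun x => A * (x - c) ^ (n + 2) := by
      filter_upwards [Ioi_mem_nhds h] with x hx
      rw [max_eq_left (sub_nonneg.2 (le_of_lt hx))]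
    rw [max_eq_left (sub_nonneg.2 h.le)]
    have h2 := ((((hasDerivAt_id y).sub_const c).pow (n + 2)).const_mul A).congr_of_eventuallyEq h1
    convert h2 using 1
    simp [mul_assoc]

theorem Hh21_one (c : ℝ) {ε : ℝ} (hε : 0 < ε) : ∃ κ χ : ℝ → ℝ, ContDiff ℝ 2 κ ∧ ContDiff ℝ 2 χ ∧
    (∀ s, 0 ≤ κ s) ∧ (∀ s, s ≤ c + 1 → κ s = 1) ∧ (∀ s, c + 2 ≤ s → κ s = 0) ∧
    (∀ s, s ≤ c → deriv κ s = 0 ∧ χ s = 0) ∧ (∀ s, 0 ≤ χ s) ∧
    (∀ s, 0 ≤ κ s * deriv χ s - deriv κ s) ∧
    (∀ s, deriv (deriv κ) s ≤ κ s * deriv (deriv χ) s + ε) ∧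
    ∀ s, c + 1 ≤ s → Real.exp (-χ s) ≤ ε := by
  set κ : ℝ → ℝ := fun s => Real.smoothTransition (c + 2 - s) with hκ
  have hκ2 : ContDiff ℝ 2 κ := Real.smoothTransition.contDiff.comp (contDiff_const.sub contDiff_id)
  have hκ0 : ∀ s, 0 ≤ κ s := fun s => Real.smoothTransition.nonneg _
  have hκ1 : ∀ s, s ≤ c + 1 → κ s = 1 := fun s hs =>
    Real.smoothTransition.one_of_one_le (by linarith)
  have hκz : ∀ s, c + 2 ≤ s → κ s = 0 := fun s hs =>
    Real.smoothTransition.zero_of_nonpos (by linarith)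
  have hanti : Antitone κ := fun a b hab => Real.smoothTransition.monotone (by linarith)
  have hc2 : Continuous (deriv (deriv κ)) := by
    have := hκ2.continuous_iteratedDeriv 2 le_rfl
    rwa [iteratedDeriv_succ, iteratedDeriv_one] at this
  have hL : ∀ s, s < c + 1 → κ =ᶠ[𝓝 s] fun _ => 1 := fun s hs => by
    filter_upwards [Iio_mem_nhds hs] with x hx using hκ1 x (le_of_lt hx)
  have hR : ∀ s, c + 2 < s → κ =ᶠ[𝓝 s] fun _ => 0 := fun s hs => by
    filter_upwards [Ioi_mem_nhds hs] with x hx using hκz x (le_of_lt hx)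
  have hL2 : ∀ s, s < c + 1 → deriv (deriv κ) s = 0 := fun s hs => by
    rw [(hL s hs).deriv.deriv_eq]; simp
  have hR2 : ∀ s, c + 2 ≤ s → deriv (deriv κ) s = 0 := fun s hs => by
    have h1 : Ioi (c + 2) ⊆ {s | deriv (deriv κ) s = 0} := fun x hx => by
      change deriv (deriv κ) x = 0
      rw [(hR x hx).deriv.deriv_eq]; simp
    have h2 := (isClosed_eq hc2 continuous_const).closure_subset_iff.2 h1
    rw [closure_Ioi] at h2
    exact h2 hs
  have hK : IsCompact (Icc (c + 1) (c + 2) ∩ {s | ε ≤ deriv (deriv κ) s}) :=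
    isCompact_Icc.inter_right (isClosed_le continuous_const hc2)
  obtain ⟨m, hm0, hm⟩ := hK.exists_forall_le' hκ2.continuous.continuousOn (a := 0) fun s hs => by
    refine Real.smoothTransition.pos_of_pos (sub_pos.2 (lt_of_le_of_ne hs.1.2 fun h => ?_))
    have h1 : ε ≤ deriv (deriv κ) s := hs.2
    rw [hR2 s h.ge] at h1
    linarith
  obtain ⟨M, hM⟩ := (isCompact_Icc (a := c + 1) (b := c + 2)).exists_bound_of_continuousOn
    hc2.continuousOn
  set A : ℝ := |M| / m + |Real.log ε| with hA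
  have hA0 : 0 ≤ A := by positivity
  have d1 : deriv (fun x => A * max (x - c) 0 ^ (1 + 2)) =
      fun s => A * ((1 : ℕ) + 2) * max (s - c) 0 ^ (0 + 2) := funext fun s => (Hh21_pow c A 1 s).deriv
  have d2 : deriv (fun s => A * ((1 : ℕ) + 2) * max (s - c) 0 ^ (0 + 2)) =
      fun s => A * ((1 : ℕ) + 2) * ((0 : ℕ) + 2) * max (s - c) 0 ^ (0 + 1) :=
    funext fun s => (Hh21_pow c _ 0 s).deriv
  refine ⟨κ, fun x => A * max (x - c) 0 ^ (1 + 2), hκ2, ?_, hκ0, hκ1, hκz, fun s hs => ⟨?_, ?_⟩,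
    fun s => by positivity, fun s => ?_, fun s => ?_, fun s hs => ?_⟩
  · rw [show (2 : WithTop ℕ∞) = 1 + 1 from rfl, contDiff_succ_iff_deriv, d1, contDiff_one_iff_deriv,
      d2]
    exact ⟨fun s => (Hh21_pow c A 1 s).differentiableAt, by simp,
      fun s => (Hh21_pow c _ 0 s).differentiableAt, by fun_prop⟩
  · rw [(hL s (by linarith)).deriv_eq]; simp
  · simp [max_eq_right (sub_nonpos.2 hs)]
  · have h1 : deriv κ s ≤ 0 := hanti.deriv_nonpos
    have h2 : 0 ≤ κ s * deriv (fun x => A * max (x - c) 0 ^ (1 + 2)) s := by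
      rw [d1]; have := hκ0 s; positivity
    linarith
  · rw [d1, d2]
    have h2 : 0 ≤ κ s * (A * ((1 : ℕ) + 2) * ((0 : ℕ) + 2) * max (s - c) 0 ^ (0 + 1)) := by
      have := hκ0 s; positivity
    by_cases h : deriv (deriv κ) s ≤ ε
    · linarith
    have h3 : s ∈ Icc (c + 1) (c + 2) := by
      constructor
      · by_contra h4
        exact h (by rw [hL2 s (not_le.1 h4)]; exact hε.le)
      · by_contra h4
        exact h (by rw [hR2 s (not_le.1 h4).le]; exact hε.le)
    have h4 := hm s ⟨h3, (not_le.1 h).le⟩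
    have h5 : deriv (deriv κ) s ≤ |M| := (le_abs_self _).trans ((hM s h3).trans (le_abs_self _))
    have h6 : |M| ≤ m * A := by
      rw [hA, mul_add, mul_div_cancel₀ _ hm0.ne']
      exact le_add_of_nonneg_right (by positivity)
    have h7 : 1 ≤ max (s - c) 0 := le_max_of_le_left (by linarith [h3.1])
    have h8 : A ≤ A * ((1 : ℕ) + 2) * ((0 : ℕ) + 2) * max (s - c) 0 ^ (0 + 1) := by
      push_cast
      nlinarith
    have h9 := mul_le_mul h4 h8 hA0 (hκ0 s)
    linarith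
  · have h7 : 1 ≤ max (s - c) 0 ^ (1 + 2) := one_le_pow₀ (le_max_of_le_left (by linarith))
    have h8 : |Real.log ε| ≤ A := le_add_of_nonneg_left (by positivity)
    rw [← Real.le_log_iff_exp_le hε]
    have h9 := neg_abs_le (Real.log ε)
    nlinarith

end Crest.Agent.R271
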