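import Crest.Agent.R271.HCalc
import Crest.Agent.R271.HWtOne

/-! Row 271, part A: the weights. -/

set_option autoImplicit false
set_option linter.unusedSectionVars false

namespace Crest.Agent.R271

open MeasureTheory Filter Topology Set
open scoped ENNReal NNReal ComplexConjugate

variable {E : Type} [NormedAddCommGroup E] [NormedSpace ℂ E] {ι : Type} [Fintype ι] {t : E}

/-- the auxiliary functions.  `κ s = Real.smoothTransition (c + 2 - s)` (decreasing, positive for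
`s < c + 2`), `χ s = A * (max (s - c) 0) ^ 3` (derivatives `3 A (max ..)^2`, `6 A (max ..)`).
`κ'' = 0` for `s ≤ c + 1` and `s ≥ c + 2` (continuity of `κ''` at the end points); on the compact set
`{s ∈ [c+1, c+2] | ε ≤ κ'' s}` the function `κ` is positive, so `κ'' ≤ A κ` there for large `A`;
take also `exp (-A) ≤ ε`. -/
theorem Hone (c : ℝ) {ε : ℝ} (hε : 0 < ε) : ∃ κ χ : ℝ → ℝ, ContDiff ℝ 2 κ ∧ ContDiff ℝ 2 χ ∧
    (∀ s, 0 ≤ κ s) ∧ (∀ s, s ≤ c + 1 → κ s = 1) ∧ (∀ s, c + 2 ≤ s → κ s = 0) ∧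
    (∀ s, s ≤ c → deriv κ s = 0 ∧ χ s = 0) ∧ (∀ s, 0 ≤ χ s) ∧
    (∀ s, 0 ≤ κ s * deriv χ s - deriv κ s) ∧
    (∀ s, deriv (deriv κ) s ≤ κ s * deriv (deriv χ) s + ε) ∧
    ∀ s, c + 1 ≤ s → Real.exp (-χ s) ≤ ε :=
  Hh21_one c hε

theorem Hh30_dbar {φ : E → ℝ} (hφ : DifferentiableAt ℝ φ t) (v : E) :
    dbar (fun w => (φ w : ℂ)) t v =
      ⟨fderiv ℝ φ t v / 2, fderiv ℝ φ t (Complex.I • v) / 2⟩ := by
  have h : fderiv ℝ (fun w => (φ w : ℂ)) t = Complex.ofRealCLM.comp (fderiv ℝ φ t) :=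
    (Complex.ofRealCLM.hasFDerivAt.comp t hφ.hasFDerivAt).fderiv
  rw [dbar, h]
  apply Complex.ext <;> simp

/-- the twisted integrand.  With `V = vec e b`, `T = ∂̄θ(V)`, `D = ∂̄w(V)`:
`∂̄(w e^{-θ})(V) = e^{-θ} (D - w T)`,
`levi (w e^{-θ}) V = e^{-θ} (levi w V - 2 re (D conj T) - w levi θ V + w |T|²)`
(`lpa_levi_mul`, `levi_comp`, `lpa_comp1`, `lpa_mul1`); generalise `V`, unfold `dbar`, `gsq`, and
write everything with the real numbers `fderiv ℝ w t V`, `fderiv ℝ w t (I • V)`, ... -/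
theorem HQ_weight (e : ι → E) {w θ : E → ℝ} (hw : ContDiffAt ℝ 2 w t) (hθ : ContDiffAt ℝ 2 θ t)
    (b : ι → ℂ) (G : ℂ) :
    HQ e (fun s => w s * Real.exp (-θ s)) t b
        (Real.exp (θ t) * G + dbar (fun s => (θ s : ℂ)) t (vec e b)) =
      Real.exp (-θ t) * (levi w t (vec e b) - w t * levi θ t (vec e b)) +
        w t * (‖G‖ ^ 2 * Real.exp (θ t)) +
        2 * (G * conj (dbar (fun s => (w s : ℂ)) t (vec e b))).re := by
  have hκ : ContDiff ℝ 2 fun s : ℝ => Real.exp (-s) := Real.contDiff_exp.comp contDiff_neg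
  have d0 : ∀ s : ℝ, HasDerivAt (fun s : ℝ => Real.exp (-s)) (-Real.exp (-s)) s := fun s => by
    simpa using (hasDerivAt_neg s).exp
  have d1 : deriv (fun s : ℝ => Real.exp (-s)) = fun s => -Real.exp (-s) :=
    funext fun s => (d0 s).deriv
  have d2 : deriv (fun s : ℝ => -Real.exp (-s)) (θ t) = Real.exp (-θ t) := by
    simpa using (d0 (θ t)).fun_neg.deriv
  have hE : ContDiffAt ℝ 2 (fun s => Real.exp (-θ s)) t := hκ.contDiffAt.comp t hθ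
  have hw1 := hw.differentiableAt two_ne_zero
  have hθ1 := hθ.differentiableAt two_ne_zero
  have hE1 := hE.differentiableAt two_ne_zero
  have e1 := fun u => lpa_comp1 hθ1 (d0 (θ t)).differentiableAt u
  have hxy : Real.exp (-θ t) * Real.exp (θ t) = 1 := by rw [← Real.exp_add]; simp
  rw [HQ, lpa_levi_mul hw hE, levi_comp hθ hκ.contDiffAt, Hh30_dbar (hw1.fun_mul hE1),
    Hh30_dbar hθ1, Hh30_dbar hw1, lpa_mul1 hw1 hE1, lpa_mul1 hw1 hE1, e1, e1, d1, d2, gsq,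
    Complex.sq_norm, Complex.sq_norm]
  simp only [Complex.normSq_apply, Complex.add_re, Complex.add_im, Complex.mul_re, Complex.mul_im,
    Complex.conj_re, Complex.conj_im, Complex.ofReal_re, Complex.ofReal_im]
  linear_combination (w t * Real.exp (θ t) * (G.re ^ 2 + G.im ^ 2) +
    G.re * fderiv ℝ w t (vec e b) + G.im * fderiv ℝ w t (Complex.I • vec e b)) * hxy

/-- `HQ_weight` with `w = κ(ϱ)`, `θ = φ + χ(ϱ)` (`levi_comp`, `levi_add`, `dbar_ofReal_comp`). -/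
theorem HQ_le (e : ι → E) {ϱ φ : E → ℝ} (hϱ : ContDiffAt ℝ 2 ϱ t) (hφ : ContDiffAt ℝ 2 φ t)
    (h0 : ∀ v, 0 ≤ levi ϱ t v) {κ χ : ℝ → ℝ} (hκ : ContDiff ℝ 2 κ) (hχ : ContDiff ℝ 2 χ) {ε : ℝ}
    (h1 : 0 ≤ κ (ϱ t) * deriv χ (ϱ t) - deriv κ (ϱ t))
    (h2 : deriv (deriv κ) (ϱ t) ≤ κ (ϱ t) * deriv (deriv χ) (ϱ t) + ε) {G : ℂ}
    (hG : G ≠ 0 → κ (ϱ t) = 1 ∧ deriv κ (ϱ t) = 0 ∧ χ (ϱ t) = 0) (b : ι → ℂ) :
    HQ e (fun s => κ (ϱ s) * Real.exp (-(φ s + χ (ϱ s)))) t b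
        (Real.exp (φ t + χ (ϱ t)) * G +
          dbar (fun s => ((φ s + χ (ϱ s) : ℝ) : ℂ)) t (vec e b)) ≤
      ‖G‖ ^ 2 * Real.exp (φ t) -
        κ (ϱ t) * Real.exp (-(φ t + χ (ϱ t))) * levi φ t (vec e b) +
        ε * (Real.exp (-(φ t + χ (ϱ t))) * gsq ϱ t (vec e b)) := by
  have hw : ContDiffAt ℝ 2 (fun s => κ (ϱ s)) t := hκ.contDiffAt.comp t hϱ
  have hc : ContDiffAt ℝ 2 (fun s => χ (ϱ s)) t := hχ.contDiffAt.comp t hϱ
  have h := HQ_weight e hw (hφ.add hc) b G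
  rw [levi_add hφ hc, levi_comp hϱ hκ.contDiffAt, levi_comp hϱ hχ.contDiffAt,
    dbar_ofReal_comp (hϱ.differentiableAt two_ne_zero) (hκ.differentiable two_ne_zero _)] at h
  rw [h]
  have hx := Real.exp_pos (-(φ t + χ (ϱ t)))
  have a1 := mul_nonneg hx.le (mul_nonneg h1 (h0 (vec e b)))
  have a2 := mul_nonneg hx.le (mul_nonneg (sub_nonneg.2 h2) (gsq_nonneg (t := t) ϱ (vec e b)))
  have a3 : κ (ϱ t) * (‖G‖ ^ 2 * Real.exp (φ t + χ (ϱ t))) + 2 * (G * conj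
      ((deriv κ (ϱ t) : ℝ) * dbar (fun w => (ϱ w : ℂ)) t (vec e b))).re =
      ‖G‖ ^ 2 * Real.exp (φ t) := by
    by_cases hG0 : G = 0
    · simp [hG0]
    · obtain ⟨b1, b2, b3⟩ := hG hG0
      simp [b1, b2, b3]
  linarith

end Crest.Agent.R271
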