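import Crest.Agent.R271.HG
import Crest.Agent.R271.HWt
import Crest.Agent.R271.HHilb

/-! Row 271, part A: the a priori inequality. -/

set_option autoImplicit false
set_option linter.unusedSectionVars false

namespace Crest.Agent.R271

open MeasureTheory Filter Topology Set
open scoped ENNReal NNReal ComplexConjugate

namespace RD
variable {E Y : Type} [NormedAddCommGroup E] [NormedSpace ℂ E] [FiniteDimensional ℂ E]
  [MeasurableSpace E] [BorelSpace E] {μ : Measure E} [μ.IsAddHaarMeasure]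
  [TopologicalSpace Y] [T2Space Y] [SecondCountableTopology Y] [MeasurableSpace Y] [BorelSpace Y]
  (X : RD E Y μ) {ι : Type} [Fintype ι] {Ω Ω' K : Set Y}

theorem _root_.Crest.Agent.R271.Hh60_sum {α : Type} [MeasurableSpace α] {ν : Measure α}
    {ι : Type} [Fintype ι] [DecidableEq ι] {s : ι → α → ℂ} (hs : ∀ i, MemLp (s i) 2 ν)
    {A B : α → ℂ} (hA : MemLp A 2 ν) (hB : MemLp B 2 ν) (j k : ι) :
    ∑ i, ∫ x, s i x * ((if i = j then 1 else 0) * A x - (if i = k then 1 else 0) * B x) ∂ν =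
      ∫ x, s j x * A x ∂ν - ∫ x, s k x * B x ∂ν := by
  have h : ∀ i, ∫ x, s i x * ((if i = j then 1 else 0) * A x - (if i = k then 1 else 0) * B x) ∂ν =
      (if i = j then 1 else 0) * ∫ x, s i x * A x ∂ν -
        (if i = k then 1 else 0) * ∫ x, s i x * B x ∂ν := fun i => by
    have i1 : Integrable (fun x => s i x * A x) ν := (hs i).integrable_mul hA
    have i2 : Integrable (fun x => s i x * B x) ν := (hs i).integrable_mul hB
    rw [← integral_const_mul, ← integral_const_mul,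
      ← integral_sub (i1.const_mul _) (i2.const_mul _)]
    refine integral_congr_ae (Eventually.of_forall fun x => ?_)
    simp only
    ring
  rw [Finset.sum_congr rfl fun i _ => h i]
  simp only [Finset.sum_sub_distrib, ite_mul, one_mul, zero_mul, Finset.sum_ite_eq',
    Finset.mem_univ, if_true]

/-- the projection.  `Hproj` on `X.ν.restrict Ω'` with `a j = e^{θ/2} γ j` and
`𝓢 = {fun j => e^{-θ/2} ∂_j v | X.C2 Ω v}`; `b j = e^{θ/2} p j`.  For the third claim use `conj ∘ v`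
(`Hdel_conj`); for closedness use `c = Pi.single j (e^{θ/2} ∂_k σ) - Pi.single k (e^{θ/2} ∂_j σ)`
(only `j ≠ k` matters) and `Hexact`. -/
theorem Hap_proj (e : ι → E) (hΩ' : IsOpen Ω') (hK : IsCompact K) (h1 : Ω' ⊆ K) (h2 : K ⊆ Ω)
    {θ : Y → ℝ} (hθ : X.C2 Ω θ) {γ : ι → Y → ℂ} (hγ : ∀ j, X.C2 Ω (γ j)) :
    ∃ b : ι → Y → ℂ, (∀ j, MemLp (b j) 2 (X.ν.restrict Ω')) ∧
      ∫ y in Ω', Real.exp (-θ y) * ∑ j, ‖b j y‖ ^ 2 ∂X.ν ≤
        ∫ y in Ω', Real.exp (θ y) * ∑ j, ‖γ j y‖ ^ 2 ∂X.ν ∧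
      (∀ v : Y → ℂ, X.C2 Ω v → ∫ y in Ω', ∑ j, X.db v y (e j) * γ j y ∂X.ν =
        ∫ y in Ω', Real.exp (-θ y) * ∑ j, b j y * X.db v y (e j) ∂X.ν) ∧
      X.WClosed e Ω' b := by
  classical
  have hm := hΩ'.measurableSet
  have hsub : Ω' ⊆ Ω := h1.trans h2
  have hθc : ContinuousOn θ Ω := C2.continuousOn X hθ
  obtain ⟨P, hP⟩ : ∃ P : Y → ℂ, P = fun y => ((Real.exp (θ y / 2) : ℝ) : ℂ) := ⟨_, rfl⟩
  obtain ⟨Q, hQ⟩ : ∃ Q : Y → ℂ, Q = fun y => ((Real.exp (-θ y / 2) : ℝ) : ℂ) := ⟨_, rfl⟩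
  have Pc : ContinuousOn P Ω :=
    hP ▸ Complex.continuous_ofReal.comp_continuousOn (hθc.div_const 2).rexp
  have Qc : ContinuousOn Q Ω :=
    hQ ▸ Complex.continuous_ofReal.comp_continuousOn (hθc.neg.div_const 2).rexp
  have hPQ : ∀ y, P y * Q y = 1 := fun y => by
    simp only [hP, hQ]
    rw [← Complex.ofReal_mul, ← Real.exp_add, show θ y / 2 + -θ y / 2 = 0 by ring, Real.exp_zero,
      Complex.ofReal_one]
  have hQQ : ∀ y, ((Real.exp (-θ y) : ℝ) : ℂ) = Q y * Q y := fun y => by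
    simp only [hQ]
    rw [← Complex.ofReal_mul, ← Real.exp_add, add_halves]
  have hQc : ∀ y, conj (Q y) = Q y := fun y => by
    simp only [hQ]
    exact Complex.conj_ofReal _
  have hPn : ∀ y, ‖P y‖ ^ 2 = Real.exp (θ y) := fun y => by
    simp only [hP]
    rw [Complex.norm_real, Real.norm_eq_abs, sq_abs, sq, ← Real.exp_add, add_halves]
  have ha : ∀ j, MemLp (fun y => P y * γ j y) 2 (X.ν.restrict Ω') := fun j =>
    X.memLp_cont hm hK h1 h2 (Pc.mul (C2.continuousOn X (hγ j))) 2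
  have hs : ∀ v : Y → ℂ, X.C2 Ω v → ∀ j,
      MemLp (fun y => Q y * X.dl v y (e j)) 2 (X.ν.restrict Ω') := fun v hv j =>
    X.memLp_cont hm hK h1 h2 (Qc.mul (C2.dl_cont X hv _)) 2
  obtain ⟨p, hp, hle, horth, hcl⟩ := Hproj (ν := X.ν.restrict Ω')
    {s | ∃ v : Y → ℂ, X.C2 Ω v ∧ s = fun j y => Q y * X.dl v y (e j)}
    (by rintro _ ⟨v, hv, rfl⟩; exact hs v hv) ha
  refine ⟨fun j y => P y * p j y, fun j => X.memLp_mul hm hK h1 h2 Pc (hp j), ?_, fun v hv => ?_,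
    fun y σ hσ j k => ?_⟩
  · rw [← integral_finsetSum _ fun j _ => (memLp_two_iff_integrable_sq_norm (hp j).1).1 (hp j),
      ← integral_finsetSum _ fun j _ => (memLp_two_iff_integrable_sq_norm (ha j).1).1 (ha j)] at hle
    convert hle using 2 with y y
    · funext y
      simp only [norm_mul, mul_pow, hPn]
      rw [← Finset.mul_sum, ← mul_assoc, ← Real.exp_add, neg_add_cancel, Real.exp_zero, one_mul]
    · funext y
      simp only [norm_mul, mul_pow, hPn]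
      rw [← Finset.mul_sum]
  · have hv' : X.C2 Ω fun y => conj (v y) := fun y hy =>
      Complex.conjCLE.contDiff.contDiffAt.comp (X.π y) (hv y hy)
    have hc : ∀ y ∈ Ω', ∀ u, conj (Q y * X.dl (fun y => conj (v y)) y u) = Q y * X.db v y u :=
      fun y hy u => by
        have : X.dl (fun y => conj (v y)) y u = conj (X.db v y u) :=
          Hdel_conj ((hv y (hsub hy)).differentiableAt (by norm_num)) u
        rw [this, map_mul, hQc, Complex.conj_conj]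
    have h := horth _ ⟨_, hv', rfl⟩
    have i1 : ∀ j, Integrable (fun y => X.db v y (e j) * γ j y) (X.ν.restrict Ω') := fun j =>
      memLp_one_iff_integrable.1 (X.memLp_cont hm hK h1 h2
        ((C2.db_cont X hv _).mul (C2.continuousOn X (hγ j))) 1)
    have i2 : ∀ j, Integrable (fun y => p j y * (Q y * X.db v y (e j))) (X.ν.restrict Ω') :=
      fun j => (hp j).integrable_mul (X.memLp_cont hm hK h1 h2 (Qc.mul (C2.db_cont X hv _)) 2)
    have e1 : ∀ j, ∫ y in Ω', P y * γ j y * conj (Q y * X.dl (fun y => conj (v y)) y (e j)) ∂X.ν =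
        ∫ y in Ω', X.db v y (e j) * γ j y ∂X.ν := fun j =>
      setIntegral_congr_fun hm fun y hy => by
        rw [hc y hy]
        linear_combination (X.db v y (e j) * γ j y) * hPQ y
    have e2 : ∀ j, ∫ y in Ω', p j y * conj (Q y * X.dl (fun y => conj (v y)) y (e j)) ∂X.ν =
        ∫ y in Ω', p j y * (Q y * X.db v y (e j)) ∂X.ν := fun j =>
      setIntegral_congr_fun hm fun y hy => by
        rw [hc y hy]
    simp only [e1, e2] at h
    rw [integral_finsetSum _ fun j _ => i1 j, h, ← integral_finsetSum _ fun j _ => i2 j]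
    refine integral_congr_ae (Eventually.of_forall fun y => ?_)
    simp only
    rw [hQQ, Finset.mul_sum]
    refine Finset.sum_congr rfl fun j _ => ?_
    linear_combination (-(Q y * p j y * X.db v y (e j))) * hPQ y
  · have hσ2 : X.C2 Ω σ := fun w _ => hσ.c2 w (mem_univ w)
    have hA : ∀ i, MemLp (fun w => P w * X.dl σ w (e i)) 2 (X.ν.restrict Ω') := fun i =>
      X.memLp_cont hm hK h1 h2 (Pc.mul (C2.dl_cont X hσ2 _)) 2
    have h := hcl (fun i w => (if i = j then 1 else 0) * (P w * X.dl σ w (e k)) -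
        (if i = k then 1 else 0) * (P w * X.dl σ w (e j)))
      (fun i => ((hA k).const_mul _).sub ((hA j).const_mul _)) (by
        rintro _ ⟨v, hv, rfl⟩
        rw [Hh60_sum (hs v hv) (hA k) (hA j), sub_eq_zero]
        have := X.Hexact e hΩ' (f := v) (fun w hw => hv w (hsub hw)) y σ hσ j k
        convert this using 2 with w w
        · funext w
          linear_combination (X.dl v w (e j) * X.dl σ w (e k)) * hPQ w
        · funext w
          linear_combination (X.dl v w (e k) * X.dl σ w (e j)) * hPQ w)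
    rw [Hh60_sum hp (hA k) (hA j), sub_eq_zero] at h
    convert h using 2 with w w
    · funext w
      ring
    · funext w
      ring

/-- the weak divergence: apply the hypothesis to `v = e^θ σ` (`Test.mul_left`), `dbar_mul`,
`dbar_ofReal_comp`, and `Hibp` (on `Ω'`) for `γ j` and `v`. -/
theorem Hap_div (e : ι → E) (hΩ : IsOpen Ω) (hΩ' : IsOpen Ω') (hK : IsCompact K) (h1 : Ω' ⊆ K)
    (h2 : K ⊆ Ω) {θ : Y → ℝ} (hθ : X.C2 Ω θ) {γ : ι → Y → ℂ} (hγ : ∀ j, X.C2 Ω (γ j))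
    {b : ι → Y → ℂ} (hb : ∀ j, MemLp (b j) 2 (X.ν.restrict Ω'))
    (ho : ∀ v : Y → ℂ, X.C2 Ω v → ∫ y in Ω', ∑ j, X.db v y (e j) * γ j y ∂X.ν =
      ∫ y in Ω', Real.exp (-θ y) * ∑ j, b j y * X.db v y (e j) ∂X.ν) :
    MemLp (fun y => Real.exp (θ y) * ∑ j, X.db (γ j) y (e j) +
      ∑ j, b j y * X.db (fun w => (θ w : ℂ)) y (e j)) 2 (X.ν.restrict Ω') ∧
    X.WDiv e Ω' b fun y => Real.exp (θ y) * ∑ j, X.db (γ j) y (e j) +
      ∑ j, b j y * X.db (fun w => (θ w : ℂ)) y (e j) := by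
  have hm := hΩ'.measurableSet
  have hsub : Ω' ⊆ Ω := h1.trans h2
  have hθc : ContinuousOn θ Ω := C2.continuousOn X hθ
  have hθ2 : X.C2 Ω fun w => (θ w : ℂ) := fun y hy =>
    Complex.ofRealCLM.contDiff.contDiffAt.comp (X.π y) (hθ y hy)
  have hE : X.C2 Ω fun w => ((Real.exp (θ w) : ℝ) : ℂ) := fun y hy =>
    Complex.ofRealCLM.contDiff.contDiffAt.comp (X.π y) (hθ y hy).exp
  refine ⟨(X.memLp_cont hm hK h1 h2 ((C2.continuousOn X hE).mul
    (continuousOn_finsetSum _ fun j _ => C2.db_cont X (hγ j) _)) 2).add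
      (memLp_finsetSum _ fun j _ => ?_), fun y σ hσ => ?_⟩
  · simpa only [mul_comm] using X.memLp_mul hm hK h1 h2 (C2.db_cont X hθ2 (e j)) (hb j)
  have hv : X.Test (Ω' ∩ (X.ch y).source) fun w => ((Real.exp (θ w) : ℝ) : ℂ) * σ w :=
    Test.mul_left X hΩ (inter_subset_left.trans hsub) hE hσ
  obtain ⟨v, hve⟩ : ∃ v : Y → ℂ, v = fun w => ((Real.exp (θ w) : ℝ) : ℂ) * σ w := ⟨_, rfl⟩
  rw [← hve] at hv
  have hv2 : X.C2 Ω v := fun w _ => hv.c2 w (mem_univ w)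
  have hdb : ∀ w ∈ Ω, ∀ u, X.db v w u = ((Real.exp (θ w) : ℝ) : ℂ) *
      (X.db (fun w => (θ w : ℂ)) w u * σ w + X.db σ w u) := fun w hw u => by
    have d1 := (hθ w hw).differentiableAt (by norm_num)
    have d2 := (hE w hw).differentiableAt (by norm_num)
    have d3 := (hσ.c2 w (mem_univ w)).differentiableAt (by norm_num)
    have a1 := dbar_mul d2 d3 u
    have a2 := dbar_ofReal_comp d1 (κ := Real.exp) Real.differentiableAt_exp u
    have a3 : X.loc θ w (X.π w) = θ w := X.loc_π θ (X.mem w)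
    have a4 : X.loc σ w (X.π w) = σ w := X.loc_π σ (X.mem w)
    have a5 : X.loc (fun w => ((Real.exp (θ w) : ℝ) : ℂ)) w (X.π w) = Real.exp (θ w) :=
      X.loc_π _ (X.mem w)
    rw [a4, a5] at a1
    rw [Real.deriv_exp, a3] at a2
    have a6 : X.db v w u = X.db (fun w => ((Real.exp (θ w) : ℝ) : ℂ)) w u * σ w +
        Real.exp (θ w) * X.db σ w u := by rw [hve]; exact a1
    have a7 : X.db (fun w => ((Real.exp (θ w) : ℝ) : ℂ)) w u =
        Real.exp (θ w) * X.db (fun w => (θ w : ℂ)) w u := a2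
    rw [a6, a7]
    ring
  have i1 : ∀ j, Integrable (fun w => X.db v w (e j) * γ j w) (X.ν.restrict Ω') := fun j =>
    memLp_one_iff_integrable.1 (X.memLp_cont hm hK h1 h2
      ((C2.db_cont X hv2 _).mul (C2.continuousOn X (hγ j))) 1)
  have i2 : ∀ j, Integrable (fun w => X.db (γ j) w (e j) * v w) (X.ν.restrict Ω') := fun j =>
    memLp_one_iff_integrable.1 (X.memLp_cont hm hK h1 h2
      ((C2.db_cont X (hγ j) _).mul (C2.continuousOn X hv2)) 1)
  have i3 : Integrable (fun w => ((Real.exp (-θ w) : ℝ) : ℂ) * ∑ j, b j w * X.db v w (e j))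
      (X.ν.restrict Ω') :=
    memLp_one_iff_integrable.1 (X.memLp_mul hm hK h1 h2
      (Complex.continuous_ofReal.comp_continuousOn hθc.neg.rexp)
      (memLp_one_iff_integrable.2 (integrable_finsetSum _ fun j _ => (hb j).integrable_mul
        (X.memLp_cont hm hK h1 h2 (C2.db_cont X hv2 _) 2))))
  have e1 : ∀ j, ∫ w in Ω', X.db v w (e j) * γ j w ∂X.ν =
      -∫ w in Ω', X.db (γ j) w (e j) * v w ∂X.ν := fun j => by
    rw [← X.Hibp hΩ' (fun w hw => hγ j w (hsub hw)) hv (e j)]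
    simp only [mul_comm]
  have h := ho v hv2
  rw [integral_finsetSum _ fun j _ => i1 j] at h
  simp only [e1] at h
  rw [Finset.sum_neg_distrib, ← integral_finsetSum _ fun j _ => i2 j, neg_eq_iff_add_eq_zero,
    ← integral_add (integrable_finsetSum _ fun j _ => i2 j) i3] at h
  rw [← h]
  refine setIntegral_congr_fun hm fun w hw => ?_
  have hE1 : ((Real.exp (-θ w) : ℝ) : ℂ) * ((Real.exp (θ w) : ℝ) : ℂ) = 1 := by
    rw [← Complex.ofReal_mul, ← Real.exp_add, neg_add_cancel, Real.exp_zero, Complex.ofReal_one]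
  have hvw : v w = ((Real.exp (θ w) : ℝ) : ℂ) * σ w := by rw [hve]
  simp only [hdb w (hsub hw), hvw, Finset.mul_sum, Finset.sum_mul, add_mul,
    ← Finset.sum_add_distrib]
  refine Finset.sum_congr rfl fun j _ => ?_
  linear_combination (-(b j w * (X.db (fun w => (θ w : ℂ)) w (e j) * σ w + X.db σ w (e j)))) * hE1

/-- `Hlevi_vec`, `Hint_sesq`, `bdd_cont`, `C2.hess_cont`. -/
theorem Hap_int (e : ι → E) (hΩ' : IsOpen Ω') (hK : IsCompact K) (h1 : Ω' ⊆ K) (h2 : K ⊆ Ω)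
    {φ m : Y → ℝ} (hφ : X.C2 Ω φ) (hm : ContinuousOn m Ω) {b : ι → Y → ℂ}
    (hb : ∀ j, MemLp (b j) 2 (X.ν.restrict Ω')) :
    Integrable (fun y => m y * levi (X.loc φ y) (X.π y) (vec e fun j => b j y))
      (X.ν.restrict Ω') ∧ Integrable (fun y => m y * ∑ j, ‖b j y‖ ^ 2) (X.ν.restrict Ω') := by
  obtain ⟨hm1, M, -, hM⟩ := X.bdd_cont hΩ'.measurableSet hK h1 h2 hm
  refine ⟨?_, (integrable_finsetSum _ fun j _ => (hb j).norm.integrable_sq).bdd_mul hm1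
    ((ae_restrict_mem hΩ'.measurableSet).mono hM)⟩
  have h3 : Integrable (fun y => ∑ j, ∑ k, hess (X.loc φ y) (X.π y) (e j) (e k) *
      (conj (b j y) * b k y)) (X.ν.restrict Ω') :=
    integrable_finsetSum _ fun j _ => integrable_finsetSum _ fun k _ => by
      obtain ⟨h4, M', -, hM'⟩ := X.bdd_cont hΩ'.measurableSet hK h1 h2
        (C2.hess_cont X hφ (e j) (e k))
      exact Hint_sesq h4 ((ae_restrict_mem hΩ'.measurableSet).mono hM') (hb j) (hb k)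
  refine Integrable.bdd_mul (h3.re.congr ?_) hm1 ((ae_restrict_mem hΩ'.measurableSet).mono hM)
  filter_upwards [ae_restrict_mem hΩ'.measurableSet] with y hy
  rw [← Hlevi_vec e (hφ y (h2 (h1 hy)))]
  simp

/-- the energy estimate.  `W = Ω.indicator (κ(ϱ) e^{-θ})` is a test function on `Ω'` (`Test.of` with
the compact set `{ϱ ≤ c + 2}`); `Hgbk`, `HQ_congr`, `HQ_le` (with `Hdbar_vec`), and
`gsq ϱ (vec b) = ‖∑ b_j ∂̄_j ϱ‖² ≤ M ∑ ‖b_j‖²` (`norm_dbar_ofReal`, `Hnorm_sum_mul`). -/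
theorem Hap_est (e : ι → E) (hΩ : IsOpen Ω) {ϱ φ : Y → ℝ} (hϱ : X.Psh Ω ϱ)
    (hc : ∀ c : ℝ, IsCompact {y ∈ Ω | ϱ y ≤ c}) (hφ : X.C2 Ω φ) {c ε M : ℝ} (hε : 0 ≤ ε)
    (hM : ∀ y ∈ Ω, ϱ y < c + 3 → ∑ j, ‖X.db (fun w => (ϱ w : ℂ)) y (e j)‖ ^ 2 ≤ M)
    {κ χ : ℝ → ℝ} (hκ : ContDiff ℝ 2 κ) (hχ : ContDiff ℝ 2 χ) (k0 : ∀ s, 0 ≤ κ s)
    (k1 : ∀ s, s ≤ c + 1 → κ s = 1) (k2 : ∀ s, c + 2 ≤ s → κ s = 0)
    (k3 : ∀ s, s ≤ c → deriv κ s = 0 ∧ χ s = 0) (k4 : ∀ s, 0 ≤ κ s * deriv χ s - deriv κ s)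
    (k5 : ∀ s, deriv (deriv κ) s ≤ κ s * deriv (deriv χ) s + ε)
    {G : Y → ℂ} (hG : ContinuousOn G Ω) (hG0 : ∀ y ∈ Ω, G y ≠ 0 → ϱ y ≤ c) {b : ι → Y → ℂ}
    (hb : ∀ j, MemLp (b j) 2 (X.ν.restrict {y ∈ Ω | ϱ y < c + 3}))
    (hcl : X.WClosed e {y ∈ Ω | ϱ y < c + 3} b)
    (hg : MemLp (fun y => Real.exp (φ y + χ (ϱ y)) * G y +
      ∑ j, b j y * X.db (fun w => ((φ w + χ (ϱ w) : ℝ) : ℂ)) y (e j)) 2
      (X.ν.restrict {y ∈ Ω | ϱ y < c + 3}))
    (hdiv : X.WDiv e {y ∈ Ω | ϱ y < c + 3} b fun y => Real.exp (φ y + χ (ϱ y)) * G y +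
      ∑ j, b j y * X.db (fun w => ((φ w + χ (ϱ w) : ℝ) : ℂ)) y (e j)) :
    ∫ y in {y ∈ Ω | ϱ y < c + 3}, κ (ϱ y) * Real.exp (-(φ y + χ (ϱ y))) *
        levi (X.loc φ y) (X.π y) (vec e fun j => b j y) ∂X.ν ≤
      ∫ y in {y ∈ Ω | ϱ y < c + 3}, ‖G y‖ ^ 2 * Real.exp (φ y) ∂X.ν +
        ε * M * ∫ y in {y ∈ Ω | ϱ y < c + 3},
          Real.exp (-(φ y + χ (ϱ y))) * ∑ j, ‖b j y‖ ^ 2 ∂X.ν := by
  have hϱc : ContinuousOn ϱ Ω := C2.continuousOn X hϱ.1
  have hφc : ContinuousOn φ Ω := C2.continuousOn X hφ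
  have hΩ' : IsOpen {y ∈ Ω | ϱ y < c + 3} := hϱc.isOpen_inter_preimage hΩ isOpen_Iio
  have hK := hc (c + 3)
  have h1 : {y ∈ Ω | ϱ y < c + 3} ⊆ {y ∈ Ω | ϱ y ≤ c + 3} := fun y hy => ⟨hy.1, hy.2.le⟩
  have h2 : {y ∈ Ω | ϱ y ≤ c + 3} ⊆ Ω := fun y hy => hy.1
  have hθ : X.C2 Ω fun y => φ y + χ (ϱ y) := fun y hy =>
    (hφ y hy).add (hχ.contDiffAt.comp (X.π y) (hϱ.1 y hy))
  have hθc : ContinuousOn (fun y => φ y + χ (ϱ y)) Ω := C2.continuousOn X hθ
  have hW0 : X.C2 Ω fun y => κ (ϱ y) * Real.exp (-(φ y + χ (ϱ y))) := fun y hy =>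
    (hκ.contDiffAt.comp (X.π y) (hϱ.1 y hy)).mul (hθ y hy).neg.exp
  have hev : ∀ y ∈ Ω, X.loc (Ω.indicator fun y => κ (ϱ y) * Real.exp (-(φ y + χ (ϱ y)))) y
      =ᶠ[𝓝 (X.π y)] X.loc (fun y => κ (ϱ y) * Real.exp (-(φ y + χ (ϱ y)))) y := fun y hy =>
    X.loc_congr (by filter_upwards [hΩ.mem_nhds hy] with w hw using indicator_of_mem hw _)
  have hW : X.Test {y ∈ Ω | ϱ y < c + 3}
      (Ω.indicator fun y => κ (ϱ y) * Real.exp (-(φ y + χ (ϱ y)))) :=
    Test.of X hΩ (hc (c + 2)) (fun y hy => hy.1) (fun y hy => And.intro hy.1 (by linarith [hy.2]))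
      (fun y hy => (hW0 y hy).congr_of_eventuallyEq (hev y hy)) fun y hy => by
        by_cases h : y ∈ Ω
        · rw [indicator_of_mem h, k2 (ϱ y) (not_lt.1 fun h' => hy (And.intro h h'.le)), zero_mul]
        · exact indicator_of_notMem h _
  have i0 := X.HQ_integrable e hΩ' hb hg hW
  have i1 := (X.Hap_int e hΩ' hK h1 h2 hφ
    (m := fun y => κ (ϱ y) * Real.exp (-(φ y + χ (ϱ y))))
    ((hκ.continuous.comp_continuousOn hϱc).mul hθc.neg.rexp) hb).1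
  have i2 := (X.Hap_int e hΩ' hK h1 h2 hφ (m := fun y => Real.exp (-(φ y + χ (ϱ y))))
    hθc.neg.rexp hb).2
  have i3 : Integrable (fun y => ‖G y‖ ^ 2 * Real.exp (φ y))
      (X.ν.restrict {y ∈ Ω | ϱ y < c + 3}) :=
    memLp_one_iff_integrable.1
      (X.memLp_cont hΩ'.measurableSet hK h1 h2 ((hG.norm.pow 2).mul hφc.rexp) 1)
  have h3 := (X.Hgbk e hΩ' hb hg hcl hdiv hW fun w => indicator_nonneg
    (fun y _ => mul_nonneg (k0 _) (Real.exp_pos _).le) w).trans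
    (integral_mono_ae i0 ((i3.sub i1).add (i2.const_mul (ε * M))) (by
      filter_upwards [ae_restrict_mem hΩ'.measurableSet] with y hy
      have e1 : X.loc ϱ y (X.π y) = ϱ y := X.loc_π ϱ (X.mem y)
      have e2 : X.loc φ y (X.π y) = φ y := X.loc_π φ (X.mem y)
      have h4 := HQ_le e (hϱ.1 y hy.1) (hφ y hy.1) (hϱ.2 y hy.1) hκ hχ (k4 _) (k5 _) (G := G y)
        (fun h => by
          have h5 := hG0 y hy.1 h
          rw [e1]
          exact ⟨k1 _ (by linarith), k3 _ h5⟩) fun j => b j y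
      rw [e1, e2, Hdbar_vec, ← norm_dbar_ofReal ((hϱ.1 y hy.1).differentiableAt (by simp)),
        Hdbar_vec] at h4
      have h5 := (Hnorm_sum_mul (fun j => b j y) fun j => X.db (fun w => (ϱ w : ℂ)) y (e j)).trans
        (mul_le_mul_of_nonneg_left (hM y hy.1 hy.2) (by positivity))
      have h6 := mul_le_mul_of_nonneg_left (mul_le_mul_of_nonneg_left h5
        (Real.exp_pos (-(φ y + χ (ϱ y)))).le) hε
      rw [HQ_congr e (hev y hy.1)]
      refine h4.trans ((add_le_add le_rfl h6).trans_eq ?_)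
      simp only [Pi.add_apply, Pi.sub_apply]
      ring))
  rw [integral_add' (i3.sub i1) (i2.const_mul _), integral_sub' i3 i1, integral_const_mul] at h3
  linarith

/-- the pointwise bound for the pairing (`D = ∂̄u(vec b)`, `L = levi φ (vec b)`, `S = ∑ ‖b_j‖²`,
`T = ∑ ‖∂̄_j u‖²`, `p = e^{-φ}`, `q = e^{-χ(ϱ)}`): either `k = 1` or `q ≤ η²`. -/
theorem _root_.Crest.Agent.R271.Hap_pt {D H L S T p q k lam η M : ℝ} (hD : 0 ≤ D) (hH : 0 ≤ H)
    (hL : 0 ≤ L) (hS : 0 ≤ S) (hT : 0 ≤ T) (hp : 0 < p) (hq : 0 < q) (hq1 : q ≤ 1) (hk : 0 ≤ k)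
    (hlam : 0 < lam)
    (hη : 0 < η) (h1 : D ^ 2 ≤ H * L) (h2 : D ^ 2 ≤ S * T) (h3 : p * T ≤ M) (hM : 0 ≤ M)
    (h4 : k = 1 ∨ q ≤ η ^ 2) :
    p * q * D ≤ lam / 2 * (H * p) + 1 / (2 * lam) * (k * (p * q) * L) +
      η / 2 * (p * q * S) + η / 2 * M := by
  have hpq : 0 < p * q := mul_pos hp hq
  have am : ∀ {x y m : ℝ}, 0 ≤ x → 0 ≤ y → 0 < m → D ^ 2 ≤ x * y → D ≤ m / 2 * x + 1 / (2 * m) * y := by
    intro x y m hx hy hm h
    have e : x * y = (m * x) * (y / m) := by field_simp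
    have e2 : m / 2 * x + 1 / (2 * m) * y = (m * x + y / m) / 2 := by field_simp
    have a1 : 0 ≤ m * x := by positivity
    have a2 : 0 ≤ y / m := by positivity
    rw [e2]
    rw [e] at h
    exact (pow_le_pow_iff_left₀ hD (by positivity) two_ne_zero).1
      (by nlinarith [sq_nonneg (m * x - y / m)])
  have t1 : 0 ≤ lam / 2 * (H * p) := by positivity
  have t2 : 0 ≤ 1 / (2 * lam) * (k * (p * q) * L) := by positivity
  have t3 : 0 ≤ η / 2 * (p * q * S) := by positivity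
  have t4 : 0 ≤ η / 2 * M := by positivity
  rcases h4 with rfl | h4
  · have a := mul_le_mul_of_nonneg_left (am hH hL hlam h1) hpq.le
    have b : p * q * (lam / 2 * H) ≤ lam / 2 * (H * p) := by
      have := mul_le_mul_of_nonneg_left hq1 t1
      nlinarith
    nlinarith
  · have a := mul_le_mul_of_nonneg_left (am hS hT hη h2) hpq.le
    have b : p * q * (1 / (2 * η) * T) ≤ η / 2 * M := by
      have b1 : q * (p * T) ≤ η ^ 2 * M := mul_le_mul h4 h3 (by positivity) (by positivity)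
      have b2 : p * q * (1 / (2 * η) * T) = 1 / (2 * η) * (q * (p * T)) := by ring
      have b3 : η / 2 * M = 1 / (2 * η) * (η ^ 2 * M) := by field_simp
      rw [b2, b3]
      exact mul_le_mul_of_nonneg_left b1 (by positivity)
    nlinarith

theorem _root_.Crest.Agent.R271.Hap_opt {x C A : ℝ} (hx : 0 ≤ x) (hC : 0 ≤ C) (hA : 0 ≤ A)
    (h : ∀ lam > 0, ∃ B', ∀ η > 0, η ≤ 1 → x ≤ lam / 2 * C + 1 / (2 * lam) * A + η * B') :
    x ^ 2 ≤ C * A := by
  have h1 : ∀ lam > 0, x ≤ lam / 2 * C + 1 / (2 * lam) * A := fun lam hlam => by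
    obtain ⟨B', hB⟩ := h lam hlam
    have l : Tendsto (fun η : ℝ => lam / 2 * C + 1 / (2 * lam) * A + η * B') (𝓝[>] 0)
        (𝓝 (lam / 2 * C + 1 / (2 * lam) * A + 0 * B')) :=
      Tendsto.mono_left (Continuous.tendsto (by fun_prop) 0) nhdsWithin_le_nhds
    rw [zero_mul, add_zero] at l
    refine ge_of_tendsto l ?_
    filter_upwards [Ioc_mem_nhdsGT one_pos] with η hη using hB η hη.1 hη.2
  rcases hx.eq_or_lt with rfl | hx
  · simpa using mul_nonneg hC hA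
  rcases hC.eq_or_lt with rfl | hC
  · have := h1 ((A + 1) / x) (by positivity)
    have e : 1 / (2 * ((A + 1) / x)) * A = x * (A / (2 * (A + 1))) := by field_simp
    have e2 : A / (2 * (A + 1)) < 1 := by
      rw [div_lt_one (by positivity)]
      linarith
    rw [e] at this
    nlinarith
  · have := h1 (x / C) (by positivity)
    have e : x / C / 2 * C + 1 / (2 * (x / C)) * A = x / 2 + C * A / (2 * x) := by field_simp
    rw [e] at this
    have h2 : x / 2 ≤ C * A / (2 * x) := by linarith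
    rw [le_div_iff₀ (by positivity)] at h2
    nlinarith

/-- **the a priori inequality**. -/
theorem Hap (e : ι → E) (hΩ : X.Stein Ω) {u : Y → ℂ} (hu : X.C2 Ω u) {φ : Y → ℝ} (hφ : X.Psh Ω φ)
    {H : Y → ℝ} (hHm : AEMeasurable H (X.ν.restrict Ω)) (hH0 : ∀ y ∈ Ω, 0 ≤ H y)
    (hH : ∀ y ∈ Ω, ∀ v, ‖X.db u y v‖ ^ 2 ≤ H y * levi (X.loc φ y) (X.π y) v) {C : ℝ} (hC0 : 0 ≤ C)
    (hC : ∫⁻ y in Ω, ENNReal.ofReal (H y * Real.exp (-φ y)) ∂X.ν ≤ ENNReal.ofReal C)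
    {γ : ι → Y → ℂ} (hγ : ∀ j, X.Test Ω (γ j)) :
    ‖∫ y in Ω, ∑ j, X.db u y (e j) * γ j y ∂X.ν‖ ^ 2 ≤
      C * ∫ y in Ω, ‖∑ j, X.db (γ j) y (e j)‖ ^ 2 * Real.exp (φ y) ∂X.ν := by
  obtain ⟨hΩo, ϱ, hϱ, hc⟩ := hΩ
  have hϱc : ContinuousOn ϱ Ω := C2.continuousOn X hϱ.1
  have hφc : ContinuousOn φ Ω := C2.continuousOn X hφ.1
  have hK₀ : IsCompact (⋃ j, tsupport (γ j)) := isCompact_iUnion fun j => (hγ j).cpt
  have hK₀Ω : (⋃ j, tsupport (γ j)) ⊆ Ω := iUnion_subset fun j => (hγ j).sub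
  obtain ⟨c, hcb⟩ := hK₀.bddAbove_image (hϱc.mono hK₀Ω)
  have hsupp : ∀ j, ∀ y, c < ϱ y → y ∉ tsupport (γ j) := fun j y hy h =>
    absurd (hcb ⟨y, mem_iUnion.2 ⟨j, h⟩, rfl⟩) (not_le.2 hy)
  obtain ⟨Ω', hΩ'e⟩ : ∃ Ω', Ω' = {y ∈ Ω | ϱ y < c + 3} := ⟨_, rfl⟩
  have hmem : ∀ y, y ∈ Ω' ↔ y ∈ Ω ∧ ϱ y < c + 3 := fun y => by rw [hΩ'e]; rfl
  have hΩ' : IsOpen Ω' := by
    rw [hΩ'e]
    exact hϱc.isOpen_inter_preimage hΩo isOpen_Iio
  have hK := hc (c + 3)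
  have h1 : Ω' ⊆ {y ∈ Ω | ϱ y ≤ c + 3} := fun y hy => ⟨((hmem y).1 hy).1, ((hmem y).1 hy).2.le⟩
  have h2 : {y ∈ Ω | ϱ y ≤ c + 3} ⊆ Ω := fun y hy => hy.1
  have hsub : Ω' ⊆ Ω := h1.trans h2
  have hγ2 : ∀ j, X.C2 Ω (γ j) := fun j y _ => (hγ j).c2 y (mem_univ y)
  have hγ0 : ∀ j y, c < ϱ y → γ j y = 0 := fun j y hy =>
    image_eq_zero_of_notMem_tsupport (hsupp j y hy)
  obtain ⟨G, hG⟩ : ∃ G : Y → ℂ, G = fun y => ∑ j, X.db (γ j) y (e j) := ⟨_, rfl⟩
  have hGy : ∀ y, ∑ j, X.db (γ j) y (e j) = G y := fun y => by rw [hG]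
  have hGc : ContinuousOn G Ω := by
    rw [hG]
    exact continuousOn_finsetSum _ fun j _ => C2.db_cont X (hγ2 j) _
  have hG0 : ∀ y, c < ϱ y → G y = 0 := fun y hy => by
    rw [← hGy]
    exact Finset.sum_eq_zero fun j _ => X.db_of_notMem (hsupp j y hy) _
  have hout : ∀ y ∈ Ω \ Ω', c < ϱ y := fun y hy => by
    have : ¬ ϱ y < c + 3 := fun h => hy.2 ((hmem y).2 ⟨hy.1, h⟩)
    linarith [not_lt.1 this]
  simp only [hGy]
  rw [setIntegral_eq_of_subset_of_forall_sdiff_eq_zero hΩo.measurableSet hsub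
      (fun y hy => Finset.sum_eq_zero fun j _ => by rw [hγ0 j y (hout y hy), mul_zero]),
    setIntegral_eq_of_subset_of_forall_sdiff_eq_zero hΩo.measurableSet hsub
      (f := fun y => ‖G y‖ ^ 2 * Real.exp (φ y)) (fun y hy => by simp [hG0 y (hout y hy)])]
  -- the constants
  have hϱ2 : X.C2 Ω fun w => (ϱ w : ℂ) := fun y hy =>
    Complex.ofRealCLM.contDiff.contDiffAt.comp (X.π y) (hϱ.1 y hy)
  obtain ⟨-, M, hM0, hM⟩ := X.bdd_cont hΩ'.measurableSet hK h1 h2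
    (c := fun y => ∑ j, ‖X.db (fun w => (ϱ w : ℂ)) y (e j)‖ ^ 2)
    (continuousOn_finsetSum _ fun j _ => (C2.db_cont X hϱ2 _).norm.pow 2)
  obtain ⟨-, M', hM0', hM'⟩ := X.bdd_cont hΩ'.measurableSet hK h1 h2
    (c := fun y => Real.exp (-φ y) * ∑ j, ‖X.db u y (e j)‖ ^ 2)
    (hφc.neg.rexp.mul (continuousOn_finsetSum _ fun j _ => (C2.db_cont X hu _).norm.pow 2))
  have hM'i : Integrable (fun _ => M') (X.ν.restrict Ω') :=
    memLp_one_iff_integrable.1 (X.memLp_cont hΩ'.measurableSet hK h1 h2 continuousOn_const 1)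
  have hHnn : 0 ≤ᵐ[X.ν.restrict Ω] fun y => H y * Real.exp (-φ y) := by
    filter_upwards [ae_restrict_mem hΩo.measurableSet] with y hy
    exact mul_nonneg (hH0 y hy) (Real.exp_pos _).le
  have hHi : Integrable (fun y => H y * Real.exp (-φ y)) (X.ν.restrict Ω) := by
    refine ⟨(hHm.mul (hφc.neg.rexp.aemeasurable hΩo.measurableSet)).aestronglyMeasurable, ?_⟩
    rw [hasFiniteIntegral_iff_ofReal hHnn]
    exact hC.trans_lt ENNReal.ofReal_lt_top
  have hHC : ∫ y in Ω', H y * Real.exp (-φ y) ∂X.ν ≤ C := by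
    refine (setIntegral_mono_set hHi hHnn hsub.eventuallyLE).trans ?_
    rw [← ENNReal.ofReal_le_ofReal_iff hC0, ofReal_integral_eq_lintegral_ofReal hHi hHnn]
    exact hC
  have hHi' : Integrable (fun y => H y * Real.exp (-φ y)) (X.ν.restrict Ω') :=
    IntegrableOn.mono_set hHi hsub
  obtain ⟨A, hA⟩ : ∃ A, A = ∫ y in Ω', ‖G y‖ ^ 2 * Real.exp (φ y) ∂X.ν := ⟨_, rfl⟩
  obtain ⟨B, hB⟩ : ∃ B, B = ∫ y in Ω', Real.exp (φ y) * ∑ j, ‖γ j y‖ ^ 2 ∂X.ν := ⟨_, rfl⟩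
  have hB0 : 0 ≤ B := hB ▸ integral_nonneg fun y => by positivity
  rw [← hA]
  refine Hap_opt (norm_nonneg _) hC0 (hA ▸ integral_nonneg fun y => by positivity)
    fun lam hlam => ⟨1 / (2 * lam) * (M * B) + B / 2 + (∫ _ in Ω', M' ∂X.ν) / 2,
      fun η hη hη1 => ?_⟩
  obtain ⟨κ, χ, hκ, hχ, k0, k1, k2, k3, k6, k4, k5, k7⟩ := Hone c (ε := η ^ 2) (by positivity)
  have hθ : X.C2 Ω fun y => φ y + χ (ϱ y) := fun y hy =>
    (hφ.1 y hy).add (hχ.contDiffAt.comp (X.π y) (hϱ.1 y hy))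
  have hθc : ContinuousOn (fun y => φ y + χ (ϱ y)) Ω := C2.continuousOn X hθ
  obtain ⟨b, hb, hbB, ho, hcl⟩ := X.Hap_proj e hΩ' hK h1 h2 hθ hγ2
  have eB : ∫ y in Ω', Real.exp (φ y + χ (ϱ y)) * ∑ j, ‖γ j y‖ ^ 2 ∂X.ν = B := by
    rw [hB]
    refine integral_congr_ae (Eventually.of_forall fun y => ?_)
    rcases le_or_gt (ϱ y) c with h | h
    · simp only [(k3 _ h).2, add_zero]
    · simp [hγ0 _ y h]
  rw [eB] at hbB
  obtain ⟨hg, hdiv⟩ := X.Hap_div e hΩo hΩ' hK h1 h2 hθ hγ2 hb ho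
  simp only [hGy] at hg hdiv
  have hest := X.Hap_est e hΩo hϱ hc hφ.1 (c := c) (ε := η ^ 2) (M := M) (by positivity)
    (fun y hy hy' => (le_abs_self _).trans (hM y ((hmem y).2 ⟨hy, hy'⟩))) hκ hχ k0 k1 k2 k3 k4 k5
    hGc (fun y _ hy => not_lt.1 fun h => hy (hG0 y h)) (hΩ'e ▸ hb) (hΩ'e ▸ hcl) (hΩ'e ▸ hg)
    (hΩ'e ▸ hdiv)
  rw [← hΩ'e, ← hA] at hest
  have i1 := (X.Hap_int e hΩ' hK h1 h2 hφ.1
    (m := fun y => κ (ϱ y) * Real.exp (-(φ y + χ (ϱ y))))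
    ((hκ.continuous.comp_continuousOn hϱc).mul hθc.neg.rexp) hb).1
  have i2 := (X.Hap_int e hΩ' hK h1 h2 hφ.1 (m := fun y => Real.exp (-(φ y + χ (ϱ y))))
    hθc.neg.rexp hb).2
  rw [ho u hu]
  have hle := norm_integral_le_of_norm_le (μ := X.ν.restrict Ω')
    (f := fun y => Real.exp (-(φ y + χ (ϱ y))) * ∑ j, b j y * X.db u y (e j))
    ((((hHi'.const_mul (lam / 2)).add (i1.const_mul (1 / (2 * lam)))).add
      (i2.const_mul (η / 2))).add (hM'i.const_mul (η / 2))) (by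
    filter_upwards [ae_restrict_mem hΩ'.measurableSet] with y hy
    have hyΩ := hsub hy
    have e1 : Real.exp (-(φ y + χ (ϱ y))) = Real.exp (-φ y) * Real.exp (-χ (ϱ y)) := by
      rw [← Real.exp_add, neg_add]
    have e2 : ∑ j, b j y * X.db u y (e j) = X.db u y (vec e fun j => b j y) :=
      (Hdbar_vec e _ _).symm
    have := Hap_pt (D := ‖∑ j, b j y * X.db u y (e j)‖) (H := H y)
      (L := levi (X.loc φ y) (X.π y) (vec e fun j => b j y)) (S := ∑ j, ‖b j y‖ ^ 2)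
      (T := ∑ j, ‖X.db u y (e j)‖ ^ 2) (p := Real.exp (-φ y)) (q := Real.exp (-χ (ϱ y)))
      (k := κ (ϱ y)) (lam := lam) (η := η) (M := M') (norm_nonneg _) (hH0 y hyΩ) (hφ.2 y hyΩ _)
      (by positivity) (by positivity) (Real.exp_pos _) (Real.exp_pos _)
      (Real.exp_le_one_iff.2 (neg_nonpos.2 (k6 _))) (k0 _) hlam hη (e2 ▸ hH y hyΩ _)
      (Hnorm_sum_mul _ _) ((le_abs_self _).trans (hM' y hy)) hM0'
      ((le_total (ϱ y) (c + 1)).imp (k1 _) (k7 _))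
    simp only [Pi.add_apply, norm_mul, Complex.norm_real, Real.norm_eq_abs, Real.abs_exp, e1]
    exact this)
  refine hle.trans ?_
  rw [integral_add' (((hHi'.const_mul (lam / 2)).add (i1.const_mul (1 / (2 * lam)))).add
      (i2.const_mul (η / 2))) (hM'i.const_mul (η / 2)),
    integral_add' ((hHi'.const_mul (lam / 2)).add (i1.const_mul (1 / (2 * lam))))
      (i2.const_mul (η / 2)),
    integral_add' (hHi'.const_mul (lam / 2)) (i1.const_mul (1 / (2 * lam))),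
    integral_const_mul, integral_const_mul, integral_const_mul, integral_const_mul]
  have a1 := mul_le_mul_of_nonneg_left hHC (by positivity : 0 ≤ lam / 2)
  have a2 := mul_le_mul_of_nonneg_left hbB (by positivity : 0 ≤ η / 2)
  have a3 := mul_le_mul_of_nonneg_left hbB (by positivity : 0 ≤ η ^ 2 * M)
  have a4 : η ^ 2 * M * B ≤ η * (M * B) := by
    have : η * η ≤ η * 1 := mul_le_mul_of_nonneg_left hη1 hη.le
    nlinarith [mul_nonneg hM0 hB0]
  have a5 := mul_le_mul_of_nonneg_left (hest.trans (add_le_add le_rfl (a3.trans a4)))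
    (by positivity : 0 ≤ 1 / (2 * lam))
  linarith

end RD

end Crest.Agent.R271
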