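import Crest.Agent.R271.H
import Crest.Agent.R271.LP

/-! Row 271, part B: Hörmander's theorem for cut-off data. -/

set_option autoImplicit false

namespace Crest.Agent.R271

open MeasureTheory Filter Topology
open scoped ENNReal NNReal

variable {E Y : Type} [NormedAddCommGroup E] [NormedSpace ℂ E] [FiniteDimensional ℂ E]
  [MeasurableSpace E] [BorelSpace E] {μ : Measure E} [μ.IsAddHaarMeasure]
  [TopologicalSpace Y] [T2Space Y] [SecondCountableTopology Y] [MeasurableSpace Y] [BorelSpace Y]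

theorem h16_cut_contDiff : ContDiff ℝ 2 cut :=
  (Real.smoothTransition.contDiff (n := 2)).comp (contDiff_const.sub (contDiff_const.mul contDiff_id))

theorem h16_cut_deriv : ∃ L : ℝ, ∀ s, deriv cut s ^ 2 ≤ L ∧
    (¬ (1 / 2 ≤ s ∧ s ≤ 1) → deriv cut s = 0) := by
  have hc : Continuous fun s => deriv cut s ^ 2 :=
    (h16_cut_contDiff.continuous_deriv (by norm_num)).pow 2
  obtain ⟨L, hL⟩ := (isCompact_Icc (a := (1 / 2 : ℝ)) (b := 1)).bddAbove_image hc.continuousOn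
  have h0 : ∀ s, ¬ (1 / 2 ≤ s ∧ s ≤ 1) → deriv cut s = 0 := fun s hs => by
    rcases not_and_or.1 hs with h | h
    · have : cut =ᶠ[𝓝 s] fun _ => 1 := (gt_mem_nhds (not_le.1 h)).mono fun x hx =>
        Real.smoothTransition.one_of_one_le (by linarith)
      rw [this.deriv_eq, deriv_const]
    · have : cut =ᶠ[𝓝 s] fun _ => 0 := (lt_mem_nhds (not_le.1 h)).mono fun x hx =>
        Real.smoothTransition.zero_of_nonpos (by linarith)
      rw [this.deriv_eq, deriv_const]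
  refine ⟨max L 0, fun s => ⟨?_, h0 s⟩⟩
  by_cases hs : 1 / 2 ≤ s ∧ s ≤ 1
  · exact (hL ⟨s, hs, rfl⟩).trans (le_max_left _ _)
  · rw [h0 s hs]
    simp

/-- `hormander` with `u = cut (N₀) F`, `φ j = log (M j) + δ log (1 + N₀)`,
`H = 4 L ^ 2 |F| ^ 2 / δ` on `{1/2 ≤ N₀ ≤ 1}` and `0` elsewhere (`L` a bound for `cut'`;
`LPAt.gsq_le_log`). -/
theorem RD.hc (X : RD E Y μ) : ∃ C : ℝ≥0, ∀ {Ω : Set Y}, X.Stein Ω → ∀ {N N₀ : Y → ℝ},
    X.Adm Ω N → X.LP Ω N₀ → ∀ {F : Y → ℂ}, X.Hol Ω F → ∀ {δ : ℝ}, 0 < δ →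
    ∃ h : Y → ℂ, X.Hol Ω h ∧
      ∫⁻ y in Ω, ‖(cut (N₀ y) : ℂ) * F y - h y‖ₑ ^ 2 / ENNReal.ofReal (N y * (1 + N₀ y) ^ δ) ∂X.ν ≤
        C / ENNReal.ofReal δ *
          ∫⁻ y in {y ∈ Ω | 1 / 2 ≤ N₀ y ∧ N₀ y ≤ 1}, ‖F y‖ₑ ^ 2 / ENNReal.ofReal (N y) ∂X.ν := by
  obtain ⟨L, hL⟩ := h16_cut_deriv
  have hL0 : 0 ≤ L := (sq_nonneg _).trans (hL 0).1
  refine ⟨(4 * L).toNNReal, fun {Ω} hΩ {N N₀} hN hN₀ {F} hF {δ} hδ => ?_⟩
  obtain ⟨M, m1, m2, m3, m4⟩ := hN
  have hlπ : ∀ (f : Y → ℝ) y, X.loc f y (X.π y) = f y := fun f y => X.loc_π f (X.mem y)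
  have n0 : ∀ y ∈ Ω, 0 ≤ N₀ y := fun y hy => hlπ N₀ y ▸ (hN₀ y hy).nonneg
  have n1 : ∀ y ∈ Ω, 0 < 1 + N₀ y := fun y hy => by linarith [n0 y hy]
  have p1 := fun j => (m1 j).psh_log (m2 j)
  have p2 := ((RD.LP.const zero_le_one).add hN₀).psh_log n1
  set A : Set Y := {y ∈ Ω | 1 / 2 ≤ N₀ y ∧ N₀ y ≤ 1} with hA
  have hAm : MeasurableSet A := by
    have h1 : IsOpen (Ω ∩ N₀ ⁻¹' (Set.Icc (1 / 2) 1)ᶜ) :=
      (RD.C2.continuousOn X hN₀.psh.1).isOpen_inter_preimage hΩ.1 isClosed_Icc.isOpen_compl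
    have h2 : A = Ω \ (Ω ∩ N₀ ⁻¹' (Set.Icc (1 / 2) 1)ᶜ) := by
      ext y
      simp only [hA, Set.mem_ofPred_eq, Set.mem_sdiff, Set.mem_inter_iff, Set.mem_preimage,
        Set.mem_compl_iff, Set.mem_Icc]
      tauto
    rw [h2]
    exact hΩ.1.measurableSet.diff h1.measurableSet
  have hlev : ∀ j, ∀ y ∈ Ω, ∀ v,
      levi (X.loc (fun y => Real.log (M j y) + δ * Real.log (1 + N₀ y)) y) (X.π y) v =
        levi (X.loc (fun y => Real.log (M j y)) y) (X.π y) v +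
          δ * levi (X.loc (fun y => Real.log (1 + N₀ y)) y) (X.π y) v := fun j y hy v => by
    rw [← levi_const_mul (p2.1 y hy)]
    exact levi_add ((p1 j).1 y hy) (contDiffAt_const.mul (p2.1 y hy)) v
  have hexp : ∀ j, ∀ y ∈ Ω, Real.exp (Real.log (M j y) + δ * Real.log (1 + N₀ y)) =
      M j y * (1 + N₀ y) ^ δ := fun j y hy => by
    rw [Real.exp_add, Real.exp_log (m2 j y hy), Real.rpow_def_of_pos (n1 y hy), mul_comm δ]
  have hFc := RD.Hol.c2 X hΩ.1 hF
  refine X.hormander hΩ (u := fun y => (cut (N₀ y) : ℂ) * F y)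
    (φ := fun j y => Real.log (M j y) + δ * Real.log (1 + N₀ y))
    (N := fun y => N y * (1 + N₀ y) ^ δ)
    (H := fun _ => A.indicator fun y => 4 * L / δ * ‖F y‖ ^ 2) ?_ ?_ ?_ ?_ ?_ ?_ ?_ ?_
  · intro y hy
    exact (Complex.ofRealCLM.contDiff.contDiffAt.comp _
      (h16_cut_contDiff.contDiffAt.comp _ (hN₀ y hy).c2)).mul (hFc y hy)
  · refine fun j => ⟨fun y hy => ((p1 j).1 y hy).add (contDiffAt_const.mul (p2.1 y hy)),
      fun y hy v => ?_⟩
    rw [hlev j y hy]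
    exact add_nonneg ((p1 j).2 y hy v) (mul_nonneg hδ.le (p2.2 y hy v))
  · intro y hy j k hjk
    exact add_le_add (Real.log_le_log (m2 k y hy) (m3 y hy hjk)) le_rfl
  · intro y hy
    simp only [fun j => hexp j y hy]
    exact (m4 y hy).mul_const _
  · intro _
    refine AEMeasurable.indicator ?_ hAm
    exact ((((RD.C2.continuousOn X hFc).norm.pow 2).aemeasurable hΩ.1.measurableSet)).const_mul _
  · intro _ y _
    exact Set.indicator_nonneg (fun y _ => by positivity) y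
  · intro j y hy v
    have hd : DifferentiableAt ℝ (X.loc N₀ y) (X.π y) := (hN₀ y hy).c2.differentiableAt (by norm_num)
    have hcd : DifferentiableAt ℝ cut (X.loc N₀ y (X.π y)) :=
      h16_cut_contDiff.differentiable (by norm_num) _
    have e1 : dbar (X.loc (fun y => (cut (N₀ y) : ℂ) * F y) y) (X.π y) v =
        deriv cut (N₀ y) * dbar (fun w => ((X.loc N₀ y w : ℝ) : ℂ)) (X.π y) v * F y := by
      have h1 := dbar_mul (f := fun w => (cut (X.loc N₀ y w) : ℂ)) (g := X.loc F y) (t := X.π y)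
        (Complex.ofRealCLM.differentiableAt.comp _ (hcd.comp _ hd))
        ((hF y hy).restrictScalars ℝ) v
      rw [dbar_of_hol (hF y hy), mul_zero, add_zero, dbar_ofReal_comp hd hcd, hlπ,
        X.loc_π F (X.mem y)] at h1
      exact h1
    rw [e1, norm_mul, norm_mul, mul_pow, mul_pow, norm_dbar_ofReal hd, Complex.norm_real,
      Real.norm_eq_abs, sq_abs, hlev j y hy]
    have l1 := (p1 j).2 y hy v
    have l2 := p2.2 y hy v
    by_cases hyA : y ∈ A
    · rw [Set.indicator_of_mem hyA]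
      have g1 := (hN₀ y hy).gsq_le_log v
      rw [hlπ] at g1
      have g0 := gsq_nonneg (t := X.π y) (X.loc N₀ y) v
      change _ ≤ _ * levi (X.loc (fun y => Real.log (1 + N₀ y)) y) (X.π y) v at g1
      set a := levi (X.loc (fun y => Real.log (M j y)) y) (X.π y) v
      set b := levi (X.loc (fun y => Real.log (1 + N₀ y)) y) (X.π y) v
      have g2 : N₀ y * (1 + N₀ y) ^ 2 ≤ 4 := by
        have h1 := hyA.2.2
        have h2 := n0 y hy
        calc N₀ y * (1 + N₀ y) ^ 2 ≤ 1 * (1 + 1) ^ 2 := by gcongr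
          _ = 4 := by norm_num
      have g3 : gsq (X.loc N₀ y) (X.π y) v ≤ 4 * b := g1.trans (by gcongr)
      calc deriv cut (N₀ y) ^ 2 * gsq (X.loc N₀ y) (X.π y) v * ‖F y‖ ^ 2
          ≤ L * (4 * b) * ‖F y‖ ^ 2 := by gcongr; exact (hL _).1
        _ = 4 * L / δ * ‖F y‖ ^ 2 * (0 + δ * b) := by field_simp; ring
        _ ≤ _ := by gcongr
    · rw [Set.indicator_of_notMem hyA, (hL _).2 fun h => hyA ⟨hy, h⟩]
      simp
  · intro j
    have hne : (((4 * L).toNNReal : ℝ≥0) : ℝ≥0∞) / ENNReal.ofReal δ ≠ ⊤ :=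
      ENNReal.div_ne_top ENNReal.coe_ne_top (ENNReal.ofReal_pos.2 hδ).ne'
    rw [← lintegral_const_mul' _ _ hne, ← Set.inter_eq_left.2 (show A ⊆ Ω from fun y hy => hy.1),
      ← Measure.restrict_restrict hAm, ← lintegral_indicator hAm]
    refine setLIntegral_mono' hΩ.1.measurableSet fun y hy => ?_
    by_cases hyA : y ∈ A
    · rw [Set.indicator_of_mem (Set.mem_inter hyA hy), Set.indicator_of_mem hyA, Real.exp_neg,
        hexp j y hy]
      have h1 : 1 ≤ (1 + N₀ y) ^ δ := Real.one_le_rpow (by linarith [n0 y hy]) hδ.le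
      have h2 := m2 j y hy
      have h3 : N y ≤ M j y := (m3 y hy).le_of_tendsto (m4 y hy) j
      calc ENNReal.ofReal (4 * L / δ * ‖F y‖ ^ 2 * (M j y * (1 + N₀ y) ^ δ)⁻¹)
          ≤ ENNReal.ofReal (4 * L / δ * (‖F y‖ ^ 2 / M j y)) := by
            refine ENNReal.ofReal_le_ofReal ?_
            rw [mul_assoc, div_eq_mul_inv (‖F y‖ ^ 2)]
            gcongr
            exact le_mul_of_one_le_right h2.le h1
        _ = ENNReal.ofReal (4 * L) / ENNReal.ofReal δ * (‖F y‖ₑ ^ 2 / ENNReal.ofReal (M j y)) := by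
            rw [ENNReal.ofReal_mul (by positivity), ENNReal.ofReal_div_of_pos hδ,
              ENNReal.ofReal_div_of_pos h2, ENNReal.ofReal_pow (norm_nonneg _), ofReal_norm]
        _ ≤ _ := by
            change _ ≤ ENNReal.ofReal (4 * L) / _ * _
            gcongr
    · rw [Set.indicator_of_notMem (fun h => hyA h.1), zero_mul, ENNReal.ofReal_zero]
      exact zero_le

end Crest.Agent.R271
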