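import Crest.Agent.R271.HDefs

/-! Row 271, part A: pointwise calculus of `∂`, `∂̄`, the complex Hessian and `HQ`. -/

set_option autoImplicit false
set_option linter.unusedSectionVars false

namespace Crest.Agent.R271

open MeasureTheory Filter Topology Set
open scoped ENNReal NNReal ComplexConjugate

variable {E : Type} [NormedAddCommGroup E] [NormedSpace ℂ E] {ι : Type} [Fintype ι] {t : E}

theorem Hdbar_congr {f g : E → ℂ} (h : f =ᶠ[𝓝 t] g) (v : E) : dbar f t v = dbar g t v := by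
  simp only [dbar, h.fderiv_eq]

theorem Hdel_congr {f g : E → ℂ} (h : f =ᶠ[𝓝 t] g) (v : E) : del f t v = del g t v := by
  simp only [del, h.fderiv_eq]

theorem Hhess_congr {φ ψ : E → ℝ} (h : φ =ᶠ[𝓝 t] ψ) (v w : E) : hess φ t v w = hess ψ t v w := by
  refine Hdel_congr ?_ v
  filter_upwards [h.eventuallyEq_nhds] with s hs
  exact Hdbar_congr (hs.mono fun x hx => by simp only [hx]) w

theorem HQ_congr (e : ι → E) {φ ψ : E → ℝ} (h : φ =ᶠ[𝓝 t] ψ) (b : ι → ℂ) (g : ℂ) :
    HQ e φ t b g = HQ e ψ t b g := by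
  unfold HQ
  rw [levi_congr h, h.eq_of_nhds, Hdbar_congr (f := fun s => (φ s : ℂ)) (g := fun s => (ψ s : ℂ))
    (h.mono fun x hx => by simp only [hx])]

theorem Hdbar_const (c : ℂ) (v : E) : dbar (fun _ => c) t v = 0 := by
  simp [dbar]

theorem Hdel_const (c : ℂ) (v : E) : del (fun _ => c) t v = 0 := by
  simp [del]

theorem Hdel_add {f g : E → ℂ} (hf : DifferentiableAt ℝ f t) (hg : DifferentiableAt ℝ g t) (v : E) :
    del (fun w => f w + g w) t v = del f t v + del g t v := by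
  simp only [del, fderiv_fun_add hf hg, add_apply]
  ring

theorem Hdel_mul {f g : E → ℂ} (hf : DifferentiableAt ℝ f t) (hg : DifferentiableAt ℝ g t) (v : E) :
    del (fun w => f w * g w) t v = del f t v * g t + f t * del g t v := by
  simp only [del, fderiv_fun_mul hf hg, add_apply, smul_apply, smul_eq_mul]
  ring

theorem Hdbar_const_mul {f : E → ℂ} (hf : DifferentiableAt ℝ f t) (c : ℂ) (v : E) :
    dbar (fun w => c * f w) t v = c * dbar f t v := by
  rw [dbar_mul (differentiableAt_const c) hf, Hdbar_const, zero_mul, zero_add]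

theorem Hdel_const_mul {f : E → ℂ} (hf : DifferentiableAt ℝ f t) (c : ℂ) (v : E) :
    del (fun w => c * f w) t v = c * del f t v := by
  rw [Hdel_mul (differentiableAt_const c) hf, Hdel_const, zero_mul, zero_add]

theorem Hdbar_sum {κ : Type} (s : Finset κ) {f : κ → E → ℂ}
    (hf : ∀ i ∈ s, DifferentiableAt ℝ (f i) t) (v : E) :
    dbar (fun w => ∑ i ∈ s, f i w) t v = ∑ i ∈ s, dbar (f i) t v := by
  simp only [dbar, fderiv_fun_sum hf, sum_apply, Finset.mul_sum,
    ← Finset.sum_add_distrib, Finset.sum_div]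

theorem Hdel_sum {κ : Type} (s : Finset κ) {f : κ → E → ℂ}
    (hf : ∀ i ∈ s, DifferentiableAt ℝ (f i) t) (v : E) :
    del (fun w => ∑ i ∈ s, f i w) t v = ∑ i ∈ s, del (f i) t v := by
  simp only [del, fderiv_fun_sum hf, sum_apply, Finset.mul_sum,
    ← Finset.sum_sub_distrib, Finset.sum_div]

theorem Hfderiv_conj {f : E → ℂ} (hf : DifferentiableAt ℝ f t) (v : E) :
    fderiv ℝ (fun w => conj (f w)) t v = conj (fderiv ℝ f t v) :=
  congrArg (fun A : E →L[ℝ] ℂ => A v)
    ((Complex.conjCLE : ℂ →L[ℝ] ℂ).hasFDerivAt.comp t hf.hasFDerivAt).fderiv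

theorem Hfderiv_ofReal {φ : E → ℝ} (hφ : DifferentiableAt ℝ φ t) (v : E) :
    fderiv ℝ (fun w => (φ w : ℂ)) t v = (fderiv ℝ φ t v : ℂ) :=
  congrArg (fun A : E →L[ℝ] ℂ => A v) (Complex.ofRealCLM.hasFDerivAt.comp t hφ.hasFDerivAt).fderiv

theorem Hlin_smul (L : E →L[ℝ] ℂ) (c : ℂ) (v : E) :
    L (c • v) = c.re * L v + c.im * L (Complex.I • v) := by
  have e : c • v = c.re • v + c.im • Complex.I • v := by
    conv_lhs => rw [← Complex.re_add_im c]
    rw [add_smul, mul_smul, Complex.coe_smul, Complex.coe_smul]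
  rw [e, map_add, map_smul, map_smul, Complex.real_smul, Complex.real_smul]

theorem Hlin_II (L : E →L[ℝ] ℂ) (v : E) : L (Complex.I • Complex.I • v) = -L v := by
  rw [smul_smul, Complex.I_mul_I, neg_one_smul, map_neg]

theorem Hdel_conj {f : E → ℂ} (hf : DifferentiableAt ℝ f t) (v : E) :
    del (fun w => conj (f w)) t v = conj (dbar f t v) := by
  simp only [del, dbar, Hfderiv_conj hf, map_div₀, map_add, map_mul, Complex.conj_I, map_ofNat]
  ring

theorem Hdbar_conj {f : E → ℂ} (hf : DifferentiableAt ℝ f t) (v : E) :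
    dbar (fun w => conj (f w)) t v = conj (del f t v) := by
  simp only [del, dbar, Hfderiv_conj hf, map_div₀, map_sub, map_mul, Complex.conj_I, map_ofNat]
  ring

/-- `∂̄ f (v)` is conjugate linear in `v` (write `c = re c + im c * I`). -/
theorem Hdbar_smul (f : E → ℂ) (c : ℂ) (v : E) : dbar f t (c • v) = conj c * dbar f t v := by
  have e : conj c = c.re - c.im * Complex.I := by
    apply Complex.ext <;> simp
  rw [dbar, dbar, smul_comm Complex.I c, Hlin_smul _ c, Hlin_smul _ c, Hlin_II, e]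
  linear_combination (c.im * fderiv ℝ f t (Complex.I • v) / 2) * Complex.I_mul_I

theorem Hdel_smul (f : E → ℂ) (c : ℂ) (v : E) : del f t (c • v) = c * del f t v := by
  rw [del, del, smul_comm Complex.I c, Hlin_smul _ c, Hlin_smul _ c, Hlin_II]
  conv_rhs => rw [← Complex.re_add_im c]
  linear_combination (c.im * fderiv ℝ f t (Complex.I • v) / 2) * Complex.I_mul_I

theorem Hdbar_sum_right (f : E → ℂ) (x : ι → E) : dbar f t (∑ j, x j) = ∑ j, dbar f t (x j) := by
  simp only [dbar, Finset.smul_sum, map_sum, Finset.mul_sum, ← Finset.sum_add_distrib,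
    Finset.sum_div]

theorem Hdel_sum_right (f : E → ℂ) (x : ι → E) : del f t (∑ j, x j) = ∑ j, del f t (x j) := by
  simp only [del, Finset.smul_sum, map_sum, Finset.mul_sum, ← Finset.sum_sub_distrib,
    Finset.sum_div]

theorem Hdbar_vec (e : ι → E) (f : E → ℂ) (b : ι → ℂ) :
    dbar f t (vec e b) = ∑ j, b j * dbar f t (e j) := by
  simp only [vec, Hdbar_sum_right, Hdbar_smul, Complex.conj_conj]

theorem Hdel_vec (e : ι → E) (f : E → ℂ) (b : ι → ℂ) :
    del f t (vec e b) = ∑ j, conj (b j) * del f t (e j) := by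
  simp only [vec, Hdel_sum_right, Hdel_smul]

theorem Hdbar_c1 {f : E → ℂ} (hf : ContDiffAt ℝ 2 f t) (v : E) :
    ContDiffAt ℝ 1 (fun s => dbar f s v) t := by
  have h : ∀ u, ContDiffAt ℝ 1 (fun s => fderiv ℝ f s u) t := fun u =>
    (hf.fderiv_right (m := 1) le_rfl).clm_apply contDiffAt_const
  exact ((h v).add (contDiffAt_const.mul (h _))).div_const 2

theorem Hdel_c1 {f : E → ℂ} (hf : ContDiffAt ℝ 2 f t) (v : E) :
    ContDiffAt ℝ 1 (fun s => del f s v) t := by
  have h : ∀ u, ContDiffAt ℝ 1 (fun s => fderiv ℝ f s u) t := fun u =>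
    (hf.fderiv_right (m := 1) le_rfl).clm_apply contDiffAt_const
  exact ((h v).sub (contDiffAt_const.mul (h _))).div_const 2

theorem Hdbar_cont {f : E → ℂ} (hf : ContDiffAt ℝ 1 f t) (v : E) :
    ContinuousAt (fun s => dbar f s v) t := by
  have h : ∀ u, ContinuousAt (fun s => fderiv ℝ f s u) t := fun u =>
    ((hf.fderiv_right (m := 0) le_rfl).clm_apply contDiffAt_const).continuousAt
  exact ((h v).add (continuousAt_const.mul (h _))).div_const 2

theorem Hdel_cont {f : E → ℂ} (hf : ContDiffAt ℝ 1 f t) (v : E) :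
    ContinuousAt (fun s => del f s v) t := by
  have h : ∀ u, ContinuousAt (fun s => fderiv ℝ f s u) t := fun u =>
    ((hf.fderiv_right (m := 0) le_rfl).clm_apply contDiffAt_const).continuousAt
  exact ((h v).sub (continuousAt_const.mul (h _))).div_const 2

theorem Hhess_cont {W : E → ℝ} (hW : ContDiffAt ℝ 2 W t) (v w : E) :
    ContinuousAt (fun s => hess W s v w) t := by
  exact Hdel_cont (Hdbar_c1 (Complex.ofRealCLM.contDiff.contDiffAt.comp t hW) w) v

theorem Hfderiv_dbar {f : E → ℂ} (hf : ContDiffAt ℝ 2 f t) (w v : E) :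
    fderiv ℝ (fun s => dbar f s w) t v = (fderiv ℝ (fderiv ℝ f) t v w +
      Complex.I * fderiv ℝ (fderiv ℝ f) t v (Complex.I • w)) / 2 := by
  have h := ((lpa_has hf w).add ((lpa_has hf (Complex.I • w)).const_mul Complex.I)).mul_const
    (2⁻¹ : ℂ)
  have e : (fun s => dbar f s w) =
      fun s => (fderiv ℝ f s w + Complex.I * fderiv ℝ f s (Complex.I • w)) * 2⁻¹ := by
    funext s
    rw [dbar, div_eq_mul_inv]
  rw [e]
  refine (congrArg (fun A : E →L[ℝ] ℂ => A v) h.fderiv).trans ?_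
  simp only [add_apply, smul_apply, ContinuousLinearMap.flip_apply, smul_eq_mul]
  ring

theorem Hfderiv_del {f : E → ℂ} (hf : ContDiffAt ℝ 2 f t) (w v : E) :
    fderiv ℝ (fun s => del f s w) t v = (fderiv ℝ (fderiv ℝ f) t v w -
      Complex.I * fderiv ℝ (fderiv ℝ f) t v (Complex.I • w)) / 2 := by
  have h := ((lpa_has hf w).sub ((lpa_has hf (Complex.I • w)).const_mul Complex.I)).mul_const
    (2⁻¹ : ℂ)
  have e : (fun s => del f s w) =
      fun s => (fderiv ℝ f s w - Complex.I * fderiv ℝ f s (Complex.I • w)) * 2⁻¹ := by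
    funext s
    rw [del, div_eq_mul_inv]
  rw [e]
  refine (congrArg (fun A : E →L[ℝ] ℂ => A v) h.fderiv).trans ?_
  simp only [sub_apply, smul_apply, ContinuousLinearMap.flip_apply, smul_eq_mul]
  ring

/-- symmetry of second derivatives (`ContDiffAt.isSymmSndFDerivAt`, `lpa_has`, `lpa_key`). -/
theorem Hdel_dbar {f : E → ℂ} (hf : ContDiffAt ℝ 2 f t) (v w : E) :
    del (fun s => dbar f s w) t v = dbar (fun s => del f s v) t w := by
  have hs := (hf.isSymmSndFDerivAt (by simp)).eq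
  rw [del, dbar, Hfderiv_dbar hf, Hfderiv_dbar hf, Hfderiv_del hf, Hfderiv_del hf, hs v w,
    hs v (Complex.I • w), hs (Complex.I • v) w, hs (Complex.I • v) (Complex.I • w)]
  ring

theorem Hdel_del {f : E → ℂ} (hf : ContDiffAt ℝ 2 f t) (v w : E) :
    del (fun s => del f s w) t v = del (fun s => del f s v) t w := by
  have hs := (hf.isSymmSndFDerivAt (by simp)).eq
  rw [del, del, Hfderiv_del hf, Hfderiv_del hf, Hfderiv_del hf, Hfderiv_del hf, hs v w,
    hs v (Complex.I • w), hs (Complex.I • v) w, hs (Complex.I • v) (Complex.I • w)]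
  ring

theorem Hlevi_hess {W : E → ℝ} (hW : ContDiffAt ℝ 2 W t) (v : E) :
    (levi W t v : ℂ) = hess W t v v := by
  have hc : ContDiffAt ℝ 2 (fun x => (W x : ℂ)) t := Complex.ofRealCLM.contDiff.contDiffAt.comp t hW
  have h : ∀ a b, fderiv ℝ (fderiv ℝ fun x => (W x : ℂ)) t a b =
      (fderiv ℝ (fderiv ℝ W) t a b : ℂ) := fun a b => by
    refine lpa_key hc (g := fun s => (fderiv ℝ W s b : ℂ)) ?_
      (Complex.ofRealCLM.hasFDerivAt.comp t (lpa_has hW b)) a
    filter_upwards [lpa_ev hW] with s hs using Hfderiv_ofReal hs b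
  have hs := (hW.isSymmSndFDerivAt (by simp)).eq
  rw [hess, del, Hfderiv_dbar hc, Hfderiv_dbar hc, h, h, h, h, hs (Complex.I • v) v, levi]
  push_cast
  linear_combination (fderiv ℝ (fderiv ℝ W) t (Complex.I • v) (Complex.I • v) : ℂ) / 4 *
    Complex.I_mul_I

theorem Hlevi_vec (e : ι → E) {W : E → ℝ} (hW : ContDiffAt ℝ 2 W t) (b : ι → ℂ) :
    (levi W t (vec e b) : ℂ) = ∑ j, ∑ k, hess W t (e j) (e k) * (conj (b j) * b k) := by
  have hc : ContDiffAt ℝ 2 (fun x => (W x : ℂ)) t := Complex.ofRealCLM.contDiff.contDiffAt.comp t hW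
  have hd : ∀ k, DifferentiableAt ℝ (fun s => dbar (fun x => (W x : ℂ)) s (e k)) t := fun k =>
    (Hdbar_c1 hc _).differentiableAt one_ne_zero
  rw [Hlevi_hess hW, hess, Hdel_vec]
  refine Finset.sum_congr rfl fun j _ => ?_
  simp only [Hdbar_vec]
  rw [Hdel_sum _ fun k _ => (hd k).const_mul _, Finset.mul_sum]
  refine Finset.sum_congr rfl fun k _ => ?_
  rw [Hdel_const_mul (hd k), hess]
  ring

theorem HQ_eq (e : ι → E) {W : E → ℝ} (hW : ContDiffAt ℝ 2 W t) (b : ι → ℂ) (g : ℂ) :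
    HQ e W t b g = (∑ j, ∑ k, hess W t (e j) (e k) * (conj (b j) * b k) + W t * (conj g * g) +
      ∑ j, 2 * conj (dbar (fun s => (W s : ℂ)) t (e j)) * (conj (b j) * g)).re := by
  have e1 : ∑ j, 2 * conj (dbar (fun s => (W s : ℂ)) t (e j)) * (conj (b j) * g) =
      2 * (g * conj (dbar (fun s => (W s : ℂ)) t (vec e b))) := by
    rw [Hdbar_vec, map_sum, Finset.mul_sum, Finset.mul_sum]
    refine Finset.sum_congr rfl fun j _ => ?_
    rw [map_mul]
    ring
  rw [← Hlevi_vec e hW, e1, Complex.conj_mul', HQ]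
  simp [← Complex.ofReal_pow]

theorem HQ_zero (e : ι → E) (b : ι → ℂ) (g : ℂ) : HQ e (fun _ => 0) t b g = 0 := by
  simp [HQ, levi_const, Hdbar_const]

theorem HQ_add (e : ι → E) {φ ψ : E → ℝ} (hφ : ContDiffAt ℝ 2 φ t) (hψ : ContDiffAt ℝ 2 ψ t)
    (b : ι → ℂ) (g : ℂ) : HQ e (fun s => φ s + ψ s) t b g = HQ e φ t b g + HQ e ψ t b g := by
  have c1 : DifferentiableAt ℝ (fun x => (φ x : ℂ)) t :=
    Complex.ofRealCLM.differentiableAt.comp t (hφ.differentiableAt two_ne_zero)
  have c2 : DifferentiableAt ℝ (fun x => (ψ x : ℂ)) t :=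
    Complex.ofRealCLM.differentiableAt.comp t (hψ.differentiableAt two_ne_zero)
  simp only [HQ, levi_add hφ hψ, Complex.ofReal_add, dbar_add c1 c2, map_add, mul_add,
    Complex.add_re]
  ring

theorem HQ_sum (e : ι → E) {κ : Type} (s : Finset κ) {W : κ → E → ℝ}
    (hW : ∀ i ∈ s, ContDiffAt ℝ 2 (W i) t) (b : ι → ℂ) (g : ℂ) :
    HQ e (fun x => ∑ i ∈ s, W i x) t b g = ∑ i ∈ s, HQ e (W i) t b g := by
  classical
  induction s using Finset.induction_on with
  | empty => simpa using HQ_zero e b g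
  | insert i s hi ih =>
    simp only [Finset.sum_insert hi]
    rw [HQ_add e (hW i (Finset.mem_insert_self i s))
      (ContDiffAt.sum fun j hj => hW j (Finset.mem_insert_of_mem hj)),
      ih fun j hj => hW j (Finset.mem_insert_of_mem hj)]

theorem HQ_of_notMem (e : ι → E) {W : E → ℝ} (ht : t ∉ tsupport W) (b : ι → ℂ) (g : ℂ) :
    HQ e W t b g = 0 := by
  rw [HQ_congr e (notMem_tsupport_iff_eventuallyEq.1 ht)]
  exact HQ_zero e b g

/-- Cauchy–Riemann: the real derivative is complex linear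
(`differentiableAt_iff_restrictScalars`). -/
theorem Hdiff_of_dbar (e : Module.Basis ι ℂ E) {f : E → ℂ} (hf : DifferentiableAt ℝ f t)
    (h : ∀ j, dbar f t (e j) = 0) : DifferentiableAt ℂ f t := by
  have h0 : ∀ v, dbar f t v = 0 := fun v => by
    rw [← e.sum_repr v, Hdbar_sum_right]
    exact Finset.sum_eq_zero fun j _ => by rw [Hdbar_smul, h j, mul_zero]
  have h1 : ∀ v, fderiv ℝ f t (Complex.I • v) = Complex.I * fderiv ℝ f t v := fun v => by
    have := h0 v
    rw [dbar] at this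
    linear_combination (-2 * Complex.I) * this + fderiv ℝ f t (Complex.I • v) * Complex.I_mul_I
  let L : E →L[ℂ] ℂ :=
    { toFun := fderiv ℝ f t
      map_add' := map_add _
      map_smul' := fun c v => by
        rw [Hlin_smul, h1, RingHom.id_apply, smul_eq_mul]
        conv_rhs => rw [← Complex.re_add_im c]
        ring
      cont := (fderiv ℝ f t).continuous }
  exact (differentiableAt_iff_restrictScalars ℝ hf).2 ⟨L, by ext v; rfl⟩

/-- Cauchy–Schwarz. -/
theorem Hnorm_sum_mul (a b : ι → ℂ) :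
    ‖∑ j, a j * b j‖ ^ 2 ≤ (∑ j, ‖a j‖ ^ 2) * ∑ j, ‖b j‖ ^ 2 := by
  refine le_trans ?_ (Finset.sum_mul_sq_le_sq_mul_sq Finset.univ (fun j => ‖a j‖) fun j => ‖b j‖)
  refine pow_le_pow_left₀ (norm_nonneg _) ((norm_sum_le _ _).trans (le_of_eq ?_)) 2
  simp only [norm_mul]

end Crest.Agent.R271
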