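import Crest.Agent.R271.RDB

/-! Row 271, part B (a): calculus of Levi forms, germs. -/

set_option autoImplicit false

namespace Crest.Agent.R271

open MeasureTheory Filter Topology
open scoped ENNReal NNReal

section real
variable {G F : Type} [NormedAddCommGroup G] [NormedSpace ℝ G] [NormedAddCommGroup F]
  [NormedSpace ℝ F] {t : G}

theorem lpa_diff {φ : G → F} (hφ : ContDiffAt ℝ 2 φ t) : DifferentiableAt ℝ (fderiv ℝ φ) t :=
  (hφ.fderiv_right (m := 1) le_rfl).differentiableAt one_ne_zero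

theorem lpa_ev {φ : G → F} (hφ : ContDiffAt ℝ 2 φ t) : ∀ᶠ w in 𝓝 t, DifferentiableAt ℝ φ w :=
  (hφ.eventually (by simp)).mono fun _ hw => hw.differentiableAt two_ne_zero

theorem lpa_has {φ : G → F} (hφ : ContDiffAt ℝ 2 φ t) (u : G) :
    HasFDerivAt (fun w => fderiv ℝ φ w u) ((fderiv ℝ (fderiv ℝ φ) t).flip u) t :=
  (ContinuousLinearMap.apply ℝ F u).hasFDerivAt.comp t (lpa_diff hφ).hasFDerivAt

theorem lpa_key {φ g : G → F} (hφ : ContDiffAt ℝ 2 φ t) {u : G} {g' : G →L[ℝ] F}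
    (h : (fun w => fderiv ℝ φ w u) =ᶠ[𝓝 t] g) (hg : HasFDerivAt g g' t) (v : G) :
    fderiv ℝ (fderiv ℝ φ) t v u = g' v := by
  rw [← (lpa_has hφ u).unique (hg.congr_of_eventuallyEq h)]
  rfl

theorem lpa_comp1 {φ : G → ℝ} (hφ : DifferentiableAt ℝ φ t) {κ : ℝ → ℝ}
    (hκ : DifferentiableAt ℝ κ (φ t)) (u : G) :
    fderiv ℝ (fun w => κ (φ w)) t u = deriv κ (φ t) * fderiv ℝ φ t u := by
  have := (hκ.hasDerivAt.comp_hasFDerivAt t hφ.hasFDerivAt).fderiv
  exact congrArg (fun A : G →L[ℝ] ℝ => A u) this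

theorem lpa_mul1 {φ ψ : G → ℝ} (hφ : DifferentiableAt ℝ φ t) (hψ : DifferentiableAt ℝ ψ t) (u : G) :
    fderiv ℝ (fun w => φ w * ψ w) t u = φ t * fderiv ℝ ψ t u + ψ t * fderiv ℝ φ t u := by
  rw [fderiv_fun_mul hφ hψ]
  rfl

theorem lpa_comp2 {φ : G → ℝ} (hφ : ContDiffAt ℝ 2 φ t) {κ : ℝ → ℝ}
    (hκ : ContDiffAt ℝ 2 κ (φ t)) (v : G) :
    fderiv ℝ (fderiv ℝ fun w => κ (φ w)) t v v =
      deriv κ (φ t) * fderiv ℝ (fderiv ℝ φ) t v v + deriv (deriv κ) (φ t) * fderiv ℝ φ t v ^ 2 := by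
  have h1 : DifferentiableAt ℝ (deriv κ) (φ t) := (lpa_has hκ 1).differentiableAt
  have h2 := (h1.hasDerivAt.comp_hasFDerivAt t
    (hφ.differentiableAt two_ne_zero).hasFDerivAt).mul (lpa_has hφ v)
  rw [lpa_key (φ := fun w => κ (φ w)) (hκ.comp t hφ)
    (g := fun w => deriv κ (φ w) * fderiv ℝ φ w v) ?_ h2 v]
  · simp only [add_apply, smul_apply, ContinuousLinearMap.flip_apply, smul_eq_mul,
      Function.comp_apply]
    ring
  · filter_upwards [lpa_ev hφ, hφ.continuousAt.eventually (lpa_ev hκ)] with w h3 h4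
    exact lpa_comp1 h3 h4 v

theorem lpa_mul2 {φ ψ : G → ℝ} (hφ : ContDiffAt ℝ 2 φ t) (hψ : ContDiffAt ℝ 2 ψ t) (v : G) :
    fderiv ℝ (fderiv ℝ fun w => φ w * ψ w) t v v =
      φ t * fderiv ℝ (fderiv ℝ ψ) t v v + ψ t * fderiv ℝ (fderiv ℝ φ) t v v +
        2 * (fderiv ℝ φ t v * fderiv ℝ ψ t v) := by
  have h2 := ((hφ.differentiableAt two_ne_zero).hasFDerivAt.mul (lpa_has hψ v)).add
    ((hψ.differentiableAt two_ne_zero).hasFDerivAt.mul (lpa_has hφ v))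
  rw [lpa_key (hφ.mul hψ) (g := fun w => φ w * fderiv ℝ ψ w v + ψ w * fderiv ℝ φ w v) ?_ h2 v]
  · simp only [add_apply, smul_apply, ContinuousLinearMap.flip_apply, smul_eq_mul]
    ring
  · filter_upwards [lpa_ev hφ, lpa_ev hψ] with w h3 h4
    exact lpa_mul1 h3 h4 v

end real

theorem lpa_cross {a a' b b' M N l m : ℝ} (hM : 0 ≤ M) (hN : 0 ≤ N) (hl : 0 ≤ l) (hm : 0 ≤ m)
    (h1 : (a ^ 2 + a' ^ 2) / 4 ≤ M * l) (h2 : (b ^ 2 + b' ^ 2) / 4 ≤ N * m) :
    |(a * b + a' * b') / 2| ≤ M * m + N * l := by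
  refine abs_le_of_sq_le_sq ?_ (by positivity)
  have h3 := mul_le_mul h1 h2 (by positivity) (by positivity)
  nlinarith [sq_nonneg (a * b' - a' * b), sq_nonneg (M * m - N * l)]

section hol
variable {E : Type} [NormedAddCommGroup E] [NormedSpace ℂ E] {t : E}

theorem lpa_re1 {f : E → ℂ} (hf : DifferentiableAt ℂ f t) (L : ℂ →L[ℝ] ℝ) (u : E) :
    fderiv ℝ (fun w => L (f w)) t u = L (fderiv ℂ f t u) := by
  have := (L.hasFDerivAt.comp t (hf.hasFDerivAt.restrictScalars ℝ)).fderiv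
  exact congrArg (fun A : E →L[ℝ] ℝ => A u) this

theorem lpa_c2 {f : E → ℂ} (hf : AnalyticAt ℂ f t) (L : ℂ →L[ℝ] ℝ) :
    ContDiffAt ℝ 2 (fun w => L (f w)) t :=
  L.contDiff.contDiffAt.comp t (hf.contDiffAt.restrict_scalars ℝ)

theorem lpa_re2 {f : E → ℂ} (hf : AnalyticAt ℂ f t) (L : ℂ →L[ℝ] ℝ) (v : E) :
    fderiv ℝ (fderiv ℝ fun w => L (f w)) t v v = L (fderiv ℂ (fderiv ℂ f) t v v) := by
  have h1 := (ContinuousLinearMap.apply ℂ ℂ v).hasFDerivAt.comp t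
    hf.fderiv.differentiableAt.hasFDerivAt
  have h2 := L.hasFDerivAt.comp t (h1.restrictScalars ℝ)
  rw [lpa_key (lpa_c2 hf L) (g := fun w => L (fderiv ℂ f w v)) ?_ h2 v]
  · rfl
  · filter_upwards [hf.eventually_analyticAt] with w h3
    exact lpa_re1 h3.differentiableAt L v

theorem lpa_levi_re {f : E → ℂ} (hf : AnalyticAt ℂ f t) (L : ℂ →L[ℝ] ℝ) (v : E) :
    levi (fun w => L (f w)) t v = 0 := by
  rw [levi, lpa_re2 hf, lpa_re2 hf, map_smul, map_smul (fderiv ℂ (fderiv ℂ f) t), smul_apply,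
    smul_smul, Complex.I_mul_I, neg_one_smul, map_neg, add_neg_cancel, zero_div]

theorem lpa_levi_mul {φ ψ : E → ℝ} (hφ : ContDiffAt ℝ 2 φ t) (hψ : ContDiffAt ℝ 2 ψ t) (v : E) :
    levi (fun w => φ w * ψ w) t v = φ t * levi ψ t v + ψ t * levi φ t v +
      (fderiv ℝ φ t v * fderiv ℝ ψ t v +
        fderiv ℝ φ t (Complex.I • v) * fderiv ℝ ψ t (Complex.I • v)) / 2 := by
  simp only [levi, lpa_mul2 hφ hψ]
  ring

omit [NormedAddCommGroup E] [NormedSpace ℂ E] in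
theorem lpa_nsq (f : E → ℂ) : (fun w => ‖f w‖ ^ 2) = fun w =>
    Complex.reCLM (f w) * Complex.reCLM (f w) + Complex.imCLM (f w) * Complex.imCLM (f w) := by
  funext w
  rw [Complex.sq_norm, Complex.normSq_apply]
  rfl

end hol

section germ
variable {E : Type} [NormedAddCommGroup E] [NormedSpace ℂ E] {t : E}

theorem levi_congr {φ ψ : E → ℝ} (h : φ =ᶠ[𝓝 t] ψ) (v : E) : levi φ t v = levi ψ t v := by
  rw [levi, levi, h.fderiv.fderiv_eq]

theorem levi_add {φ ψ : E → ℝ} (hφ : ContDiffAt ℝ 2 φ t) (hψ : ContDiffAt ℝ 2 ψ t) (v : E) :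
    levi (fun w => φ w + ψ w) t v = levi φ t v + levi ψ t v := by
  have h : (fderiv ℝ fun w => φ w + ψ w) =ᶠ[𝓝 t] fun w => fderiv ℝ φ w + fderiv ℝ ψ w := by
    filter_upwards [lpa_ev hφ, lpa_ev hψ] with w h1 h2
    exact fderiv_fun_add h1 h2
  simp only [levi, h.fderiv_eq, fderiv_fun_add (lpa_diff hφ) (lpa_diff hψ), add_apply]
  ring

theorem levi_const (c : ℝ) (v : E) : levi (fun _ => c) t v = 0 := by
  simp [levi]

theorem levi_comp {φ : E → ℝ} (hφ : ContDiffAt ℝ 2 φ t) {κ : ℝ → ℝ}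
    (hκ : ContDiffAt ℝ 2 κ (φ t)) (v : E) :
    levi (fun w => κ (φ w)) t v =
      deriv κ (φ t) * levi φ t v + deriv (deriv κ) (φ t) * gsq φ t v := by
  simp only [levi, gsq, lpa_comp2 hφ hκ]
  ring

theorem levi_const_mul {φ : E → ℝ} (hφ : ContDiffAt ℝ 2 φ t) (c : ℝ) (v : E) :
    levi (fun w => c * φ w) t v = c * levi φ t v := by
  rw [lpa_levi_mul contDiffAt_const hφ, levi_const]
  simp

theorem gsq_nonneg (φ : E → ℝ) (v : E) : 0 ≤ gsq φ t v := by
  unfold gsq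
  positivity

theorem gsq_comp {φ : E → ℝ} (hφ : DifferentiableAt ℝ φ t) {κ : ℝ → ℝ}
    (hκ : DifferentiableAt ℝ κ (φ t)) (v : E) :
    gsq (fun w => κ (φ w)) t v = deriv κ (φ t) ^ 2 * gsq φ t v := by
  simp only [gsq, lpa_comp1 hφ hκ]
  ring

theorem levi_normSq {f : E → ℂ} (hf : AnalyticAt ℂ f t) (v : E) :
    levi (fun w => ‖f w‖ ^ 2) t v = ‖fderiv ℂ f t v‖ ^ 2 := by
  rw [lpa_nsq, levi_add ((lpa_c2 hf _).mul (lpa_c2 hf _)) ((lpa_c2 hf _).mul (lpa_c2 hf _)),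
    lpa_levi_mul (lpa_c2 hf _) (lpa_c2 hf _), lpa_levi_mul (lpa_c2 hf _) (lpa_c2 hf _)]
  simp only [lpa_levi_re hf, lpa_re1 hf.differentiableAt, map_smul, Complex.sq_norm,
    Complex.normSq_apply]
  simp
  ring

theorem gsq_normSq {f : E → ℂ} (hf : AnalyticAt ℂ f t) (v : E) :
    gsq (fun w => ‖f w‖ ^ 2) t v = ‖f t‖ ^ 2 * ‖fderiv ℂ f t v‖ ^ 2 := by
  have h1 := (lpa_c2 hf Complex.reCLM).differentiableAt two_ne_zero
  have h2 := (lpa_c2 hf Complex.imCLM).differentiableAt two_ne_zero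
  rw [lpa_nsq, gsq, fderiv_fun_add (h1.fun_mul h1) (h2.fun_mul h2)]
  simp only [add_apply, lpa_mul1 h1 h1, lpa_mul1 h2 h2, lpa_re1 hf.differentiableAt, map_smul,
    Complex.sq_norm, Complex.normSq_apply]
  simp
  ring

theorem dbar_of_hol {f : E → ℂ} (hf : DifferentiableAt ℂ f t) (v : E) : dbar f t v = 0 := by
  rw [dbar, hf.fderiv_restrictScalars ℝ]
  simp only [ContinuousLinearMap.coe_restrictScalars', map_smul, smul_eq_mul, ← mul_assoc,
    Complex.I_mul_I]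
  ring

theorem dbar_add {f g : E → ℂ} (hf : DifferentiableAt ℝ f t) (hg : DifferentiableAt ℝ g t) (v : E) :
    dbar (fun w => f w + g w) t v = dbar f t v + dbar g t v := by
  simp only [dbar, fderiv_fun_add hf hg, add_apply]
  ring

theorem dbar_mul {f g : E → ℂ} (hf : DifferentiableAt ℝ f t) (hg : DifferentiableAt ℝ g t) (v : E) :
    dbar (fun w => f w * g w) t v = dbar f t v * g t + f t * dbar g t v := by
  simp only [dbar, fderiv_fun_mul hf hg, add_apply, smul_apply, smul_eq_mul]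
  ring

theorem norm_dbar_ofReal {φ : E → ℝ} (hφ : DifferentiableAt ℝ φ t) (v : E) :
    ‖dbar (fun w => (φ w : ℂ)) t v‖ ^ 2 = gsq φ t v := by
  have h : ∀ u, fderiv ℝ (fun w => (φ w : ℂ)) t u = (fderiv ℝ φ t u : ℂ) := fun u =>
    congrArg (fun A : E →L[ℝ] ℂ => A u)
      (Complex.ofRealCLM.hasFDerivAt.comp t hφ.hasFDerivAt).fderiv
  rw [dbar, gsq, h, h, norm_div, div_pow, Complex.sq_norm, Complex.normSq_apply]
  simp
  ring

theorem dbar_ofReal_comp {φ : E → ℝ} (hφ : DifferentiableAt ℝ φ t) {κ : ℝ → ℝ}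
    (hκ : DifferentiableAt ℝ κ (φ t)) (v : E) :
    dbar (fun w => (κ (φ w) : ℂ)) t v = deriv κ (φ t) * dbar (fun w => (φ w : ℂ)) t v := by
  have h : ∀ {ψ : E → ℝ}, DifferentiableAt ℝ ψ t → ∀ u,
      fderiv ℝ (fun w => (ψ w : ℂ)) t u = (fderiv ℝ ψ t u : ℂ) := fun hψ u =>
    congrArg (fun A : E →L[ℝ] ℂ => A u)
      (Complex.ofRealCLM.hasFDerivAt.comp t hψ.hasFDerivAt).fderiv
  have h1 : DifferentiableAt ℝ (fun w => κ (φ w)) t := hκ.comp t hφ
  simp only [dbar, h hφ, h h1, lpa_comp1 hφ hκ]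
  push_cast
  ring

theorem LPAt.normSq {f : E → ℂ} (hf : AnalyticAt ℂ f t) : LPAt (fun w => ‖f w‖ ^ 2) t := by
  refine ⟨(hf.contDiffAt.restrict_scalars ℝ).norm_sq ℂ, sq_nonneg _, fun v => ?_, fun v => ?_⟩
  · rw [levi_normSq hf]
    positivity
  · rw [levi_normSq hf, gsq_normSq hf]

theorem LPAt.const {c : ℝ} (hc : 0 ≤ c) : LPAt (fun _ : E => c) t := by
  refine ⟨contDiffAt_const, hc, fun v => (levi_const c v).ge, fun v => ?_⟩
  simp [gsq, levi_const]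

theorem LPAt.add {M N : E → ℝ} (hM : LPAt M t) (hN : LPAt N t) : LPAt (fun w => M w + N w) t := by
  refine ⟨hM.c2.add hN.c2, add_nonneg hM.nonneg hN.nonneg, fun v => ?_, fun v => ?_⟩
  · rw [levi_add hM.c2 hN.c2]
    exact add_nonneg (hM.levi_nonneg v) (hN.levi_nonneg v)
  · have h1 := hM.gsq_le v
    have h2 := hN.gsq_le v
    have h3 := (abs_le.1 (lpa_cross hM.nonneg hN.nonneg (hM.levi_nonneg v) (hN.levi_nonneg v)
      h1 h2)).2
    rw [levi_add hM.c2 hN.c2, gsq, fderiv_fun_add (hM.c2.differentiableAt two_ne_zero)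
      (hN.c2.differentiableAt two_ne_zero)]
    unfold gsq at h1 h2
    simp only [add_apply]
    linarith

theorem LPAt.mul {M N : E → ℝ} (hM : LPAt M t) (hN : LPAt N t) : LPAt (fun w => M w * N w) t := by
  have h3 := fun v => abs_le.1 (lpa_cross hM.nonneg hN.nonneg (hM.levi_nonneg v)
    (hN.levi_nonneg v) (hM.gsq_le v) (hN.gsq_le v))
  refine ⟨hM.c2.mul hN.c2, mul_nonneg hM.nonneg hN.nonneg, fun v => ?_, fun v => ?_⟩
  · rw [lpa_levi_mul hM.c2 hN.c2]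
    linarith [(h3 v).1]
  · have h1 := mul_le_mul_of_nonneg_left (hM.gsq_le v) (sq_nonneg (N t))
    have h2 := mul_le_mul_of_nonneg_left (hN.gsq_le v) (sq_nonneg (M t))
    rw [lpa_levi_mul hM.c2 hN.c2, gsq]
    simp only [lpa_mul1 (hM.c2.differentiableAt two_ne_zero) (hN.c2.differentiableAt two_ne_zero)]
    unfold gsq at h1 h2
    linarith

theorem LPAt.rpow {N : E → ℝ} (hN : LPAt N t) (h0 : 0 < N t) {c : ℝ} (hc : 0 ≤ c) :
    LPAt (fun w => N w ^ c) t := by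
  have hκ : ContDiffAt ℝ 2 (fun x : ℝ => x ^ c) (N t) := Real.contDiffAt_rpow_const_of_ne h0.ne'
  have d1 : deriv (fun x : ℝ => x ^ c) = fun x => c * x ^ (c - 1) := Real.deriv_rpow_const' c
  have d2 : deriv (fun x : ℝ => c * x ^ (c - 1)) (N t) = c * ((c - 1) * N t ^ (c - 1 - 1)) := by
    rw [deriv_const_mul_field, Real.deriv_rpow_const]
  have hP : 0 < N t ^ (c - 1 - 1) := Real.rpow_pos_of_pos h0 _
  have e1 : N t ^ (c - 1) = N t ^ (c - 1 - 1) * N t := by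
    rw [← Real.rpow_add_one h0.ne', sub_add_cancel]
  have e2 : N t ^ c = N t ^ (c - 1 - 1) * N t * N t := by
    rw [← e1, ← Real.rpow_add_one h0.ne', sub_add_cancel]
  have hl : ∀ v, levi (fun w => N w ^ c) t v = c * N t ^ (c - 1 - 1) *
      (N t * levi N t v - gsq N t v + c * gsq N t v) := fun v => by
    rw [levi_comp hN.c2 hκ, d1, d2]
    simp only [e1]
    ring
  refine ⟨hκ.comp t hN.c2, Real.rpow_nonneg h0.le _, fun v => ?_, fun v => ?_⟩
  · rw [hl]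
    have h1 := sub_nonneg.2 (hN.gsq_le v)
    have h2 := gsq_nonneg (t := t) N v
    positivity
  · rw [hl, gsq_comp (hN.c2.differentiableAt two_ne_zero) (hκ.differentiableAt two_ne_zero), d1]
    simp only [e1]
    rw [e2]
    have h1 := sub_nonneg.2 (hN.gsq_le v)
    generalize N t ^ (c - 1 - 1) = P at hP ⊢
    have h3 : 0 ≤ c * (P * N t) ^ 2 * (N t * levi N t v - gsq N t v) := by positivity
    linarith

theorem LPAt.sum {ι : Type} (s : Finset ι) {N : ι → E → ℝ} (hN : ∀ i ∈ s, LPAt (N i) t) :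
    LPAt (fun w => ∑ i ∈ s, N i w) t := by
  classical
  induction s using Finset.induction_on with
  | empty => simpa using LPAt.const (t := t) le_rfl
  | insert i s hi ih =>
    simp only [Finset.sum_insert hi]
    exact (hN i (Finset.mem_insert_self _ _)).add
      (ih fun j hj => hN j (Finset.mem_insert_of_mem hj))

theorem LPAt.levi_log {N : E → ℝ} (hN : LPAt N t) (h0 : 0 < N t) (v : E) :
    0 ≤ levi (fun w => Real.log (N w)) t v := by
  rw [levi_comp hN.c2 (Real.contDiffAt_log.2 h0.ne'), Real.deriv_log', deriv_inv]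
  have h1 := sub_nonneg.2 (hN.gsq_le v)
  have h2 : (N t)⁻¹ * levi N t v + -(N t ^ 2)⁻¹ * gsq N t v =
      (N t ^ 2)⁻¹ * (N t * levi N t v - gsq N t v) := by
    field_simp
    ring
  rw [h2]
  positivity

/-- the Levi form of `log (1 + N)` controls `∂N`. -/
theorem LPAt.gsq_le_log {N : E → ℝ} (hN : LPAt N t) (v : E) :
    gsq N t v ≤ N t * (1 + N t) ^ 2 * levi (fun w => Real.log (1 + N w)) t v := by
  have h0 : 0 < 1 + N t := by linarith [hN.nonneg]
  have h1 : gsq (fun w => 1 + N w) t v = gsq N t v := by simp only [gsq, fderiv_const_add]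
  rw [levi_comp (φ := fun w => 1 + N w) (contDiffAt_const.add hN.c2) (Real.contDiffAt_log.2 h0.ne'),
    Real.deriv_log', deriv_inv, levi_add contDiffAt_const hN.c2, levi_const, zero_add, h1]
  have h2 : N t * (1 + N t) ^ 2 * ((1 + N t)⁻¹ * levi N t v + -((1 + N t) ^ 2)⁻¹ * gsq N t v) =
      (1 + N t) * (N t * levi N t v) - N t * gsq N t v := by
    field_simp
    ring
  rw [h2]
  linarith [mul_le_mul_of_nonneg_left (hN.gsq_le v) h0.le]

end germ

end Crest.Agent.R271
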