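import Crest.Agent.R271.RDB
import Crest.Agent.R271.LPa

/-!
# Row 271, part A (Hörmander): definitions and plan

`e : ι → E` is a finite family (a basis at the very end).  Forms are families `b : ι → Y → ℂ`,
`∂_j = del · · (e j)`, `∂̄_j = dbar · · (e j)`, `vec e b = ∑ conj (b j) • e j`.

* (BK, `Hbk`, `Hwbk`, `RD.Hgbk`) if `b ∈ L²` is weakly `∂`-closed, `g = ∑ ∂̄_j b_j ∈ L²` weakly, and
  `W ≥ 0` is a `C²` test function, then `0 ≤ ∫ HQ e W b g`.  `HQ` is LINEAR in `W`, so a partition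
  of unity reduces to charts, where one mollifies (constant coefficients).
* (AP, `RD.Hap`) for a test form `γ` supported in `{ϱ ≤ c}` project `e^{θ/2} γ` onto the closed span
  of the `e^{-θ/2} ∂v` in `L²({ϱ < c + 3})`, `θ = φ + χ(ϱ)`, and use `W = κ(ϱ) e^{-θ}` where
  `κ'' ≤ κ χ'' + ε` (`Hone`).
* Riesz (`Hriesz`), Weyl (`Hweyl`, `RD.Hweyl`).
-/

set_option autoImplicit false

namespace Crest.Agent.R271

open MeasureTheory Filter Topology Set
open scoped ENNReal NNReal ComplexConjugate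

section germ
variable {E : Type} [NormedAddCommGroup E] [NormedSpace ℂ E] {ι : Type} [Fintype ι]

/-- `∂u(v)` (complex linear in `v`). -/
noncomputable def del (u : E → ℂ) (t v : E) : ℂ :=
  (fderiv ℝ u t v - Complex.I * fderiv ℝ u t (Complex.I • v)) / 2

/-- the vector with coordinates `conj (b j)`. -/
noncomputable def vec (e : ι → E) (b : ι → ℂ) : E := ∑ j, conj (b j) • e j

/-- the complex Hessian `W_{v w̄}`. -/
noncomputable def hess (W : E → ℝ) (t v w : E) : ℂ :=
  del (fun s => dbar (fun x => (W x : ℂ)) s w) t v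

/-- the Bochner–Kodaira integrand (linear in `W`). -/
noncomputable def HQ (e : ι → E) (W : E → ℝ) (t : E) (b : ι → ℂ) (g : ℂ) : ℝ :=
  levi W t (vec e b) + W t * ‖g‖ ^ 2 + 2 * (g * conj (dbar (fun s => (W s : ℂ)) t (vec e b))).re

/-- `C²` test functions on `U ⊆ E`. -/
structure HTest {F : Type} [NormedAddCommGroup F] [NormedSpace ℝ F] (U : Set E) (τ : E → F) :
    Prop where
  c2 : ContDiff ℝ 2 τ
  cpt : HasCompactSupport τ
  sub : tsupport τ ⊆ U

end germ

section moll
variable {E : Type} [NormedAddCommGroup E] [NormedSpace ℂ E] [FiniteDimensional ℂ E]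
  [MeasurableSpace E]

/-- bumps of radius `1 / (n + 1)`. -/
noncomputable def Hbump (E : Type) [NormedAddCommGroup E] (n : ℕ) : ContDiffBump (0 : E) where
  rIn := 1 / ((n : ℝ) + 1) / 2
  rOut := 1 / ((n : ℝ) + 1)
  rIn_pos := by positivity
  rIn_lt_rOut := half_lt_self (by positivity)

/-- the mollifying kernel `s ↦ k_n (t - s)`. -/
noncomputable def Hker (μ : Measure E) (n : ℕ) (t s : E) : ℂ :=
  (((Hbump E n).normed μ (t - s) : ℝ) : ℂ)

/-- mollification. -/
noncomputable def Hmol (μ : Measure E) (n : ℕ) (f : E → ℂ) (t : E) : ℂ :=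
  ∫ s, f s * Hker μ n t s ∂μ

end moll

namespace RD
variable {E Y : Type} [NormedAddCommGroup E] [NormedSpace ℂ E] [MeasurableSpace E] {μ : Measure E}
  [TopologicalSpace Y] [MeasurableSpace Y] (X : RD E Y μ)

/-- `∂̄f(v)` on `Y`. -/
noncomputable def db (f : Y → ℂ) (y : Y) (v : E) : ℂ := dbar (X.loc f y) (X.π y) v

/-- `∂f(v)` on `Y`. -/
noncomputable def dl (f : Y → ℂ) (y : Y) (v : E) : ℂ := del (X.loc f y) (X.π y) v

/-- `C²` test functions on `Ω ⊆ Y`. -/
structure Test {F : Type} [NormedAddCommGroup F] [NormedSpace ℝ F] (Ω : Set Y) (σ : Y → F) :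
    Prop where
  c2 : X.C2 univ σ
  cpt : HasCompactSupport σ
  sub : tsupport σ ⊆ Ω

/-- a function on `E`, pulled back to the chart at `y` and extended by zero. -/
noncomputable def pull {F : Type} [Zero F] (y : Y) (τ : E → F) : Y → F :=
  (X.ch y).source.indicator fun w => τ (X.π w)

/-- a function on `Y`, read in the chart at `y` and extended by zero. -/
noncomputable def push {F : Type} [Zero F] (y : Y) (σ : Y → F) : E → F :=
  (X.ch y).target.indicator (X.loc σ y)

/-- the part of `Ω` in the chart at `y`, read in `E`. -/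
def U (Ω : Set Y) (y : Y) : Set E := X.π '' (Ω ∩ (X.ch y).source)

/-- `b` is weakly `∂`-closed on `Ω`. -/
def WClosed {ι : Type} (e : ι → E) (Ω : Set Y) (b : ι → Y → ℂ) : Prop :=
  ∀ y (σ : Y → ℂ), X.Test (Ω ∩ (X.ch y).source) σ → ∀ j k,
    ∫ w in Ω, b j w * X.dl σ w (e k) ∂X.ν = ∫ w in Ω, b k w * X.dl σ w (e j) ∂X.ν

/-- `g = ∑ ∂̄_j b_j` weakly on `Ω`. -/
def WDiv {ι : Type} [Fintype ι] (e : ι → E) (Ω : Set Y) (b : ι → Y → ℂ) (g : Y → ℂ) : Prop :=
  ∀ y (σ : Y → ℂ), X.Test (Ω ∩ (X.ch y).source) σ →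
    ∫ w in Ω, (∑ j, b j w * X.db σ w (e j) + g w * σ w) ∂X.ν = 0

end RD

end Crest.Agent.R271
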