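import Crest.Agent.R271.HAP

/-! Row 271, part A: the limit weight and the weak solution. -/

set_option autoImplicit false
set_option linter.unusedSectionVars false

namespace Crest.Agent.R271

open MeasureTheory Filter Topology Set
open scoped ENNReal NNReal ComplexConjugate

namespace RD
variable {E Y : Type} [NormedAddCommGroup E] [NormedSpace ℂ E] [FiniteDimensional ℂ E]
  [MeasurableSpace E] [BorelSpace E] {μ : Measure E} [μ.IsAddHaarMeasure]
  [TopologicalSpace Y] [T2Space Y] [SecondCountableTopology Y] [MeasurableSpace Y] [BorelSpace Y]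
  (X : RD E Y μ) {ι : Type} [Fintype ι] {Ω : Set Y}

theorem Hlim_N (hΩ : IsOpen Ω) {φ : ℕ → Y → ℝ} (hφ : ∀ j, ContinuousOn (φ j) Ω)
    (hanti : ∀ y ∈ Ω, Antitone fun j => φ j y) {N : Y → ℝ}
    (hN : ∀ y ∈ Ω, Tendsto (fun j => Real.exp (φ j y)) atTop (𝓝 (N y))) :
    AEMeasurable N (X.ν.restrict Ω) ∧ ∀ y ∈ Ω, 0 ≤ N y ∧ N y ≤ Real.exp (φ 0 y) := by
  refine ⟨?_, fun y hy => ⟨ge_of_tendsto' (hN y hy) fun j => (Real.exp_pos _).le,
    le_of_tendsto' (hN y hy) fun j => Real.exp_le_exp.2 (hanti y hy (Nat.zero_le j))⟩⟩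
  refine aemeasurable_of_tendsto_metrizable_ae (f := fun j y => Real.exp (φ j y)) atTop
    (fun j => ((hφ j).rexp.aemeasurable hΩ.measurableSet)) ?_
  exact (ae_restrict_iff' hΩ.measurableSet).2 (ae_of_all _ hN)

/-- dominated convergence (`memLp_cpt`, bound `‖G‖² e^{φ 0}`). -/
theorem Hlim (hΩ : IsOpen Ω) {φ : ℕ → Y → ℝ} (hφ : ∀ j, ContinuousOn (φ j) Ω)
    (hanti : ∀ y ∈ Ω, Antitone fun j => φ j y) {N : Y → ℝ}
    (hN : ∀ y ∈ Ω, Tendsto (fun j => Real.exp (φ j y)) atTop (𝓝 (N y))) {G : Y → ℂ}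
    (hG : ContinuousOn G Ω) {K : Set Y} (hK : IsCompact K) (hKΩ : K ⊆ Ω)
    (h0 : ∀ y ∈ Ω, y ∉ K → G y = 0) :
    Tendsto (fun j => ∫ y in Ω, ‖G y‖ ^ 2 * Real.exp (φ j y) ∂X.ν) atTop
      (𝓝 (∫ y in Ω, ‖G y‖ ^ 2 * N y ∂X.ν)) := by
  have hc : ∀ j, ContinuousOn (fun y => ‖G y‖ ^ 2 * Real.exp (φ j y)) Ω := fun j =>
    (hG.norm.pow 2).mul (hφ j).rexp
  refine tendsto_integral_of_dominated_convergence (fun y => ‖G y‖ ^ 2 * Real.exp (φ 0 y))
    (fun j => (hc j).aestronglyMeasurable hΩ.measurableSet) ?_ (fun j => ?_) ?_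
  · exact memLp_one_iff_integrable.1
      (X.memLp_cpt hΩ hK hKΩ (hc 0) (fun y hy hy' => by simp [h0 y hy hy']) 1)
  · refine (ae_restrict_iff' hΩ.measurableSet).2 (ae_of_all _ fun y hy => ?_)
    rw [Real.norm_eq_abs, abs_of_nonneg (by positivity)]
    exact mul_le_mul_of_nonneg_left (Real.exp_le_exp.2 (hanti y hy (Nat.zero_le j))) (by positivity)
  · exact (ae_restrict_iff' hΩ.measurableSet).2 (ae_of_all _ fun y hy => (hN y hy).const_mul _)

/-- the weak solution.  `Hriesz` with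
`𝓢 = {(√N ∑ ∂̄_j γ_j, ∫ ∑ ∂̄_j u γ_j) | γ a family of test functions}` (closed under sums and
scalar multiples: `Test.add`, `Test.mul_left`, `dbar_add`, `Hdbar_const_mul`, `memLp_cpt`); then take
`γ = Pi.single j σ` and use `Hibp`. -/
theorem Hsolve (e : ι → E) (hΩ : IsOpen Ω) {u : Y → ℂ} (hu : X.C2 Ω u) {N B : Y → ℝ}
    (hNm : AEMeasurable N (X.ν.restrict Ω)) (hB : ContinuousOn B Ω)
    (hNB : ∀ y ∈ Ω, 0 ≤ N y ∧ N y ≤ B y) {C : ℝ} (hC0 : 0 ≤ C)
    (hap : ∀ γ : ι → Y → ℂ, (∀ j, X.Test Ω (γ j)) →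
      ‖∫ y in Ω, ∑ j, X.db u y (e j) * γ j y ∂X.ν‖ ^ 2 ≤
        C * ∫ y in Ω, ‖∑ j, X.db (γ j) y (e j)‖ ^ 2 * N y ∂X.ν) :
    ∃ w : Y → ℂ, MemLp w 2 (X.ν.restrict Ω) ∧ ∫ y in Ω, ‖w y‖ ^ 2 ∂X.ν ≤ C ∧
      ∀ y (σ : Y → ℂ), X.Test (Ω ∩ (X.ch y).source) σ → ∀ j,
        ∫ x in Ω, (u x + Real.sqrt (N x) * w x) * X.db σ x (e j) ∂X.ν = 0 := by
  classical
  have hdiff : ∀ {σ : Y → ℂ}, X.Test Ω σ → ∀ y, DifferentiableAt ℝ (X.loc σ y) (X.π y) :=
    fun hσ y => (hσ.c2 y trivial).differentiableAt (by simp)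
  have hint : ∀ {σ : Y → ℂ}, X.Test Ω σ → ∀ j,
      Integrable (fun y => X.db u y (e j) * σ y) (X.ν.restrict Ω) := fun {σ} hσ j =>
    memLp_one_iff_integrable.1 (X.memLp_cpt hΩ hσ.cpt hσ.sub
      ((hu.db_cont X (e j)).mul ((hσ.c2.continuousOn X).mono (subset_univ _)))
      (fun y _ hy => mul_eq_zero_of_right _ (image_eq_zero_of_notMem_tsupport hy)) 1)
  have hL2 : ∀ {σ : Y → ℂ}, X.Test Ω σ → ∀ j,
      MemLp (fun y => (Real.sqrt (N y) : ℂ) * X.db σ y (e j)) 2 (X.ν.restrict Ω) := by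
    intro σ hσ j
    have hc : ContinuousOn (fun y => X.db σ y (e j)) Ω :=
      (hσ.c2.db_cont X (e j)).mono (subset_univ _)
    have h1 : MemLp (fun y => (Real.sqrt (B y) : ℂ) * X.db σ y (e j)) 2 (X.ν.restrict Ω) :=
      X.memLp_cpt hΩ hσ.cpt hσ.sub ((Complex.continuous_ofReal.comp_continuousOn hB.sqrt).mul hc)
        (fun y _ hy => mul_eq_zero_of_right _ (X.db_of_notMem hy _)) 2
    refine h1.of_le ((Complex.measurable_ofReal.comp_aemeasurable hNm.sqrt).aestronglyMeasurable.mul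
      (hc.aestronglyMeasurable hΩ.measurableSet)) ?_
    refine (ae_restrict_iff' hΩ.measurableSet).2 (ae_of_all _ fun y hy => ?_)
    simp only [norm_mul, Complex.norm_real, Real.norm_eq_abs, abs_of_nonneg (Real.sqrt_nonneg _)]
    exact mul_le_mul_of_nonneg_right (Real.sqrt_le_sqrt (hNB y hy).2) (norm_nonneg _)
  refine Exists.elim (Hriesz (ν := X.ν.restrict Ω)
    {p | ∃ γ : ι → Y → ℂ, (∀ j, X.Test Ω (γ j)) ∧
      p = (fun y => (Real.sqrt (N y) : ℂ) * ∑ j, X.db (γ j) y (e j),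
        ∫ y in Ω, ∑ j, X.db u y (e j) * γ j y ∂X.ν)} ?_ ?_ ?_ ?_ hC0 ?_) ?_
  rotate_right
  · rintro w ⟨hw, hwC, hwp⟩
    refine ⟨w, hw, hwC, fun y σ hσ j => ?_⟩
    have hσ' : X.Test Ω σ := hσ.mono X (hσ.sub.trans inter_subset_left)
    have hz : ∀ x v, X.db (fun _ => (0 : ℂ)) x v = 0 := fun x v => X.db_of_notMem (by simp) v
    have h1 := hwp _ ⟨fun k => if k = j then σ else fun _ => 0, fun k => by
      by_cases hk : k = j
      · simpa [hk] using hσ'
      · simpa [hk] using Test.zero X, rfl⟩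
    have e1 : ∀ x, ∑ k, X.db (if k = j then σ else fun _ => 0) x (e k) = X.db σ x (e j) :=
      fun x => by
        rw [Finset.sum_eq_single j (fun k _ hk => by rw [if_neg hk, hz]) (by simp), if_pos rfl]
    have e2 : ∀ x, ∑ k, X.db u x (e k) * (if k = j then σ else fun _ => 0) x =
        X.db u x (e j) * σ x := fun x => by
      rw [Finset.sum_eq_single j (fun k _ hk => by rw [if_neg hk, mul_zero]) (by simp), if_pos rfl]
    simp only [e1, e2] at h1
    have h2 := X.Hibp hΩ hu hσ (e j)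
    have i1 : Integrable (fun x => u x * X.db σ x (e j)) (X.ν.restrict Ω) :=
      memLp_one_iff_integrable.1 (X.memLp_cpt hΩ hσ'.cpt hσ'.sub
        ((hu.continuousOn X).mul ((hσ'.c2.db_cont X (e j)).mono (subset_univ _)))
        (fun y _ hy => mul_eq_zero_of_right _ (X.db_of_notMem hy _)) 1)
    have i2 : Integrable (fun x => w x * ((Real.sqrt (N x) : ℂ) * X.db σ x (e j)))
        (X.ν.restrict Ω) := hw.integrable_mul (hL2 hσ' j)
    have e3 : ∀ x, (u x + Real.sqrt (N x) * w x) * X.db σ x (e j) =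
        u x * X.db σ x (e j) + w x * ((Real.sqrt (N x) : ℂ) * X.db σ x (e j)) := fun x => by ring
    simp only [e3]
    rw [integral_add i1 i2, h1, h2, neg_add_cancel]
  · refine ⟨fun _ _ => 0, fun j => Test.zero X, Prod.ext (funext fun y => ?_) (by simp)⟩
    have hz : ∀ x v, X.db (fun _ => (0 : ℂ)) x v = 0 := fun x v => X.db_of_notMem (by simp) v
    simp [hz]
  · rintro _ ⟨γ, hγ, rfl⟩ _ ⟨γ', hγ', rfl⟩
    refine ⟨fun j y => γ j y + γ' j y, fun j => (hγ j).add X (hγ' j),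
      Prod.ext (funext fun y => ?_) ?_⟩
    · have : ∀ j, X.db (fun y => γ j y + γ' j y) y (e j) =
          X.db (γ j) y (e j) + X.db (γ' j) y (e j) := fun j =>
        dbar_add (hdiff (hγ j) y) (hdiff (hγ' j) y) (e j)
      simp only [Prod.fst_add, Pi.add_apply, this, Finset.sum_add_distrib, mul_add]
    · simp only [Prod.snd_add, mul_add, Finset.sum_add_distrib]
      exact (integral_add (integrable_finsetSum _ fun j _ => hint (hγ j) j)
        (integrable_finsetSum _ fun j _ => hint (hγ' j) j)).symm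
  · rintro a _ ⟨γ, hγ, rfl⟩
    refine ⟨fun j y => a * γ j y, fun j => Test.mul_left X hΩ subset_rfl (f := fun _ => a)
      (fun y _ => contDiffAt_const) (hγ j), Prod.ext (funext fun y => ?_) ?_⟩
    · have : ∀ j, X.db (fun y => a * γ j y) y (e j) = a * X.db (γ j) y (e j) := fun j =>
        Hdbar_const_mul (hdiff (hγ j) y) a (e j)
      simp only [Prod.smul_fst, Pi.smul_apply, smul_eq_mul, this, ← Finset.mul_sum]
      ring
    · simp only [Prod.smul_snd, smul_eq_mul, ← integral_const_mul, Finset.mul_sum]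
      refine integral_congr_ae (ae_of_all _ fun y => Finset.sum_congr rfl fun j _ => ?_)
      ring
  · rintro _ ⟨γ, hγ, rfl⟩
    simp only [Finset.mul_sum]
    exact memLp_finsetSum _ fun j _ => hL2 (hγ j) j
  · rintro _ ⟨γ, hγ, rfl⟩
    refine (hap γ hγ).trans (le_of_eq ?_)
    congr 1
    refine setIntegral_congr_fun hΩ.measurableSet fun y hy => ?_
    simp only [norm_mul, Complex.norm_real, Real.norm_eq_abs, mul_pow, sq_abs,
      Real.sq_sqrt (hNB y hy).1]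
    ring

/-- `u + √N w` is locally `L²` (take a compact neighbourhood, or an open one on which the continuous
functions `u`, `B` are bounded and which has finite measure, `locFin`). -/
theorem Hsolve_loc (hΩ : IsOpen Ω) {u : Y → ℂ} (hu : ContinuousOn u Ω) {N B : Y → ℝ}
    (hNm : AEMeasurable N (X.ν.restrict Ω)) (hB : ContinuousOn B Ω)
    (hNB : ∀ y ∈ Ω, 0 ≤ N y ∧ N y ≤ B y) {w : Y → ℂ} (hw : MemLp w 2 (X.ν.restrict Ω)) {y : Y}
    (hy : y ∈ Ω) :
    ∃ V ∈ 𝓝 y, MemLp (fun x => u x + Real.sqrt (N x) * w x) 2 (X.ν.restrict V) := by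
  have := X.locFin
  obtain ⟨S, hS, hSf⟩ := X.ν.finiteAt_nhds y
  have hy' := hΩ.mem_nhds hy
  have h1 : ∀ᶠ x in 𝓝 y, ‖u x‖ < ‖u y‖ + 1 :=
    (hu.continuousAt hy').norm.eventually (gt_mem_nhds (lt_add_one _))
  have h2 : ∀ᶠ x in 𝓝 y, B x < B y + 1 :=
    (hB.continuousAt hy').eventually (gt_mem_nhds (lt_add_one _))
  obtain ⟨V, hV, hVo, hyV⟩ := eventually_nhds_iff.1 (h1.and (h2.and (Eventually.and hS hy')))
  have hVΩ : V ⊆ Ω := fun x hx => (hV x hx).2.2.2
  have hle : X.ν.restrict V ≤ X.ν.restrict Ω := Measure.restrict_mono hVΩ le_rfl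
  have : IsFiniteMeasure (X.ν.restrict V) :=
    isFiniteMeasure_restrict.2 ((measure_mono fun x hx => (hV x hx).2.2.1).trans_lt hSf).ne
  refine ⟨V, hVo.mem_nhds hyV, MemLp.add (f := u) ?_ ?_⟩
  · exact MemLp.of_bound ((hu.mono hVΩ).aestronglyMeasurable hVo.measurableSet) (‖u y‖ + 1)
      ((ae_restrict_iff' hVo.measurableSet).2 (ae_of_all _ fun x hx => (hV x hx).1.le))
  · have hw' := hw.mono_measure hle
    refine hw'.of_le_mul (c := Real.sqrt (B y + 1))
      ((Complex.measurable_ofReal.comp_aemeasurable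
        (hNm.mono_measure hle).sqrt).aestronglyMeasurable.mul hw'.1) ?_
    refine (ae_restrict_iff' hVo.measurableSet).2 (ae_of_all _ fun x hx => ?_)
    simp only [norm_mul, Complex.norm_real, Real.norm_eq_abs, abs_of_nonneg (Real.sqrt_nonneg _)]
    exact mul_le_mul_of_nonneg_right
      (Real.sqrt_le_sqrt ((hNB x (hVΩ hx)).2.trans (hV x hx).2.1.le)) (norm_nonneg _)

end RD

/-- the final estimate. -/
theorem Hfinal {α : Type} [MeasurableSpace α] {ν : Measure α} {u h w : α → ℂ} {N : α → ℝ} {C : ℝ}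
    (hw : MemLp w 2 ν) (hC : ∫ y, ‖w y‖ ^ 2 ∂ν ≤ C)
    (hh : (fun x => u x + Real.sqrt (N x) * w x) =ᵐ[ν] h) :
    ∫⁻ y, ‖u y - h y‖ₑ ^ 2 / ENNReal.ofReal (N y) ∂ν ≤ ENNReal.ofReal C := by
  have hi : Integrable (fun y => ‖w y‖ ^ 2) ν := hw.integrable_norm_pow two_ne_zero
  refine le_trans ?_ (ENNReal.ofReal_le_ofReal hC)
  rw [ofReal_integral_eq_lintegral_ofReal hi (ae_of_all _ fun y => by positivity)]
  refine lintegral_mono_ae ?_
  filter_upwards [hh] with y hy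
  have e1 : ‖u y - h y‖ₑ ^ 2 = ENNReal.ofReal (N y) * ENNReal.ofReal (‖w y‖ ^ 2) := by
    rw [← hy, sub_add_cancel_left, enorm_neg, ← ofReal_norm,
      ← ENNReal.ofReal_pow (norm_nonneg _), norm_mul, mul_pow, Complex.norm_real, Real.norm_eq_abs,
      sq_abs, ENNReal.ofReal_mul (sq_nonneg _), Real.sq_sqrt', ENNReal.ofReal_max]
    simp
  rw [e1]
  exact ENNReal.div_le_of_le_mul' le_rfl

end Crest.Agent.R271
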