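import Crest.Agent.R271.HCalc
import Crest.Agent.R335.LMoll

/-! Row 271, part A: mollification, `L²` limits. -/

set_option autoImplicit false
set_option linter.unusedSectionVars false

namespace Crest.Agent.R271

open MeasureTheory Filter Topology Set
open scoped ENNReal NNReal ComplexConjugate

section
variable {α : Type} [MeasurableSpace α] {ν : Measure α}

theorem Hint_sesq {c f h : α → ℂ} (hc : AEStronglyMeasurable c ν) {M : ℝ} (hM : ∀ᵐ x ∂ν, ‖c x‖ ≤ M)
    (hf : MemLp f 2 ν) (hh : MemLp h 2 ν) : Integrable (fun x => c x * (conj (f x) * h x)) ν := by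
  have h1 : Integrable (fun x => conj (f x) * h x) ν := hf.star.integrable_mul hh
  exact h1.bdd_mul hc hM

theorem Hhelper76_cs {f h : α → ℂ} (hf : MemLp f 2 ν) (hh : MemLp h 2 ν) :
    ∫ x, ‖f x‖ * ‖h x‖ ∂ν ≤ √(∫ x, ‖f x‖ ^ 2 ∂ν) * √(∫ x, ‖h x‖ ^ 2 ∂ν) := by
  have h1 := integral_mul_norm_le_Lp_mul_Lq (μ := ν) (f := f) (g := h)
    Real.HolderConjugate.two_two (by simpa using hf) (by simpa using hh)
  simpa only [Real.rpow_two, Real.sqrt_eq_rpow] using h1

theorem Hhelper76_bd {c f h : α → ℂ} (hc : AEStronglyMeasurable c ν) {M : ℝ}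
    (hM : ∀ᵐ x ∂ν, ‖c x‖ ≤ M) (hf : MemLp f 2 ν) (hh : MemLp h 2 ν) :
    ‖∫ x, c x * (conj (f x) * h x) ∂ν‖ ≤
      |M| * (√(∫ x, ‖f x‖ ^ 2 ∂ν) * √(∫ x, ‖h x‖ ^ 2 ∂ν)) := by
  have h1 : Integrable (fun x => ‖f x‖ * ‖h x‖) ν := hf.norm.integrable_mul hh.norm
  refine (norm_integral_le_integral_norm _).trans ?_
  refine le_trans ?_ (mul_le_mul_of_nonneg_left (Hhelper76_cs hf hh) (abs_nonneg M))
  rw [← integral_const_mul]
  refine integral_mono_ae (Hint_sesq hc hM hf hh).norm (h1.const_mul _) (hM.mono fun x hx => ?_)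
  simp only [norm_mul, RCLike.norm_conj]
  exact mul_le_mul_of_nonneg_right (hx.trans (le_abs_self M)) (by positivity)

/-- continuity of bounded sesquilinear forms on `L²`. -/
theorem Hlim_sesq {c f h : α → ℂ} (hc : AEStronglyMeasurable c ν) {M : ℝ} (hM : ∀ᵐ x ∂ν, ‖c x‖ ≤ M)
    {F H : ℕ → α → ℂ} (hf : MemLp f 2 ν) (hh : MemLp h 2 ν) (hF : ∀ n, MemLp (F n) 2 ν)
    (hH : ∀ n, MemLp (H n) 2 ν)
    (lF : Tendsto (fun n => ∫ x, ‖F n x - f x‖ ^ 2 ∂ν) atTop (𝓝 0))
    (lH : Tendsto (fun n => ∫ x, ‖H n x - h x‖ ^ 2 ∂ν) atTop (𝓝 0)) :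
    Tendsto (fun n => ∫ x, c x * (conj (F n x) * H n x) ∂ν) atTop
      (𝓝 (∫ x, c x * (conj (f x) * h x) ∂ν)) := by
  have hF' : ∀ n, MemLp (fun x => F n x - f x) 2 ν := fun n => (hF n).sub hf
  have hH' : ∀ n, MemLp (fun x => H n x - h x) 2 ν := fun n => (hH n).sub hh
  have sF := lF.sqrt
  have sH := lH.sqrt
  rw [Real.sqrt_zero] at sF sH
  have t1 : Tendsto (fun n => ∫ x, c x * (conj (F n x - f x) * (H n x - h x)) ∂ν) atTop (𝓝 0) := by
    refine squeeze_zero_norm (fun n => Hhelper76_bd hc hM (hF' n) (hH' n)) ?_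
    simpa using (sF.mul sH).const_mul |M|
  have t2 : Tendsto (fun n => ∫ x, c x * (conj (F n x - f x) * h x) ∂ν) atTop (𝓝 0) := by
    refine squeeze_zero_norm (fun n => Hhelper76_bd hc hM (hF' n) hh) ?_
    simpa using (sF.mul_const (√(∫ x, ‖h x‖ ^ 2 ∂ν))).const_mul |M|
  have t3 : Tendsto (fun n => ∫ x, c x * (conj (f x) * (H n x - h x)) ∂ν) atTop (𝓝 0) := by
    refine squeeze_zero_norm (fun n => Hhelper76_bd hc hM hf (hH' n)) ?_
    simpa using (sH.const_mul (√(∫ x, ‖f x‖ ^ 2 ∂ν))).const_mul |M|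
  have t4 := ((t1.add t2).add t3).add_const (∫ x, c x * (conj (f x) * h x) ∂ν)
  simp only [zero_add] at t4
  refine t4.congr fun n => ?_
  have i1 := Hint_sesq hc hM (hF' n) (hH' n)
  have i2 := Hint_sesq hc hM (hF' n) hh
  have i3 := Hint_sesq hc hM hf (hH' n)
  have i4 := Hint_sesq hc hM hf hh
  rw [← integral_add' i1 i2, ← integral_add' (i1.add i2) i3,
    ← integral_add' ((i1.add i2).add i3) i4]
  refine integral_congr_ae (Eventually.of_forall fun x => ?_)
  simp only [Pi.add_apply, map_sub]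
  ring

end

variable {E : Type} [NormedAddCommGroup E] [NormedSpace ℂ E] [FiniteDimensional ℂ E]
  [MeasurableSpace E] [BorelSpace E] {μ : Measure E} [μ.IsAddHaarMeasure] {ι : Type} [Fintype ι]

theorem Hh5_k (μ : Measure E) [μ.IsAddHaarMeasure] (n : ℕ) :
    ContDiff ℝ 2 (fun x => (((Hbump E n).normed μ x : ℝ) : ℂ)) ∧
      HasCompactSupport fun x => (((Hbump E n).normed μ x : ℝ) : ℂ) :=
  ⟨Complex.ofRealCLM.contDiff.comp ((Hbump E n).contDiff_normed (n := 2)),
    (Hbump E n).hasCompactSupport_normed.comp_left (g := fun x : ℝ => (x : ℂ)) Complex.ofReal_zero⟩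

theorem Hker_test (n : ℕ) (t : E) :
    HTest (Metric.closedBall t (1 / ((n : ℝ) + 1))) (Hker μ n t) := by
  have hs : tsupport (Hker μ n t) ⊆ Metric.closedBall t (1 / ((n : ℝ) + 1)) := by
    refine closure_minimal (fun s hs => ?_) Metric.isClosed_closedBall
    have h : t - s ∈ Function.support ((Hbump E n).normed μ) := fun h => hs (by
      rw [Hker, h, Complex.ofReal_zero])
    rw [(Hbump E n).support_normed_eq, mem_ball_zero_iff] at h
    exact mem_closedBall_iff_norm'.2 h.le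
  have := FiniteDimensional.proper_rclike ℂ E
  exact ⟨(Hh5_k μ n).1.comp (contDiff_const.sub contDiff_id),
    (isCompact_closedBall _ _).of_isClosed_subset (isClosed_tsupport _) hs, hs⟩

/-- `Hmol μ n f = f ⋆[mul] k_n` (`convolution_def`, `HasCompactSupport.contDiff_convolution_right`,
`MemLp.locallyIntegrable`). -/
theorem Hmol_smooth (n : ℕ) {f : E → ℂ} (hf : MemLp f 2 μ) : ContDiff ℝ 2 (Hmol μ n f) := by
  exact (Hh5_k μ n).2.contDiff_convolution_right (n := 2) (ContinuousLinearMap.mul ℝ ℂ)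
    (hf.locallyIntegrable one_le_two) (Hh5_k μ n).1

/-- `HasCompactSupport.hasFDerivAt_convolution_right`, chain rule for `s ↦ t - s`. -/
theorem Hmol_fderiv (n : ℕ) {f : E → ℂ} (hf : MemLp f 2 μ) (t v : E) :
    Integrable (fun s => f s * fderiv ℝ (Hker μ n t) s v) μ ∧
      fderiv ℝ (Hmol μ n f) t v = -∫ s, f s * fderiv ℝ (Hker μ n t) s v ∂μ := by
  obtain ⟨h1, h2⟩ := Hh5_k μ n
  have hl := hf.locallyIntegrable one_le_two
  have hc := h1.continuous_fderiv two_ne_zero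
  have e : ∀ s, f s * fderiv ℝ (Hker μ n t) s v =
      -(f s * fderiv ℝ (fun x => (((Hbump E n).normed μ x : ℝ) : ℂ)) (t - s) v) := fun s => by
    have h := ((h1.differentiable two_ne_zero (t - s)).hasFDerivAt.comp s
      ((hasFDerivAt_id s).const_sub t)).fderiv
    rw [show Hker μ n t = (fun x => (((Hbump E n).normed μ x : ℝ) : ℂ)) ∘ HSub.hSub t from rfl, h]
    simp
  have h3 := (h2.hasFDerivAt_convolution_right (ContinuousLinearMap.mul ℝ ℂ) hl
    (h1.of_le one_le_two) t).fderiv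
  simp only [e, integral_neg, neg_neg]
  refine ⟨((h2.fderiv_apply ℝ v).convolutionExists_right (ContinuousLinearMap.mul ℝ ℂ) hl
    (hc.clm_apply continuous_const) t).neg, ?_⟩
  exact (congrArg (fun L : E →L[ℝ] ℂ => L v) h3).trans
    (convolution_precompR_apply _ hl (h2.fderiv ℝ) hc t v)

theorem Hmol_dbar (n : ℕ) {f : E → ℂ} (hf : MemLp f 2 μ) (t v : E) :
    Integrable (fun s => f s * dbar (Hker μ n t) s v) μ ∧
      dbar (Hmol μ n f) t v = -∫ s, f s * dbar (Hker μ n t) s v ∂μ := by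
  obtain ⟨h1, h2⟩ := Hmol_fderiv n hf t v
  obtain ⟨h3, h4⟩ := Hmol_fderiv n hf t (Complex.I • v)
  have e : ∀ s, f s * dbar (Hker μ n t) s v = (f s * fderiv ℝ (Hker μ n t) s v +
      Complex.I * (f s * fderiv ℝ (Hker μ n t) s (Complex.I • v))) / 2 := fun s => by
    unfold dbar
    ring
  simp only [e]
  refine ⟨(h1.add (h3.const_mul _)).div_const _, ?_⟩
  rw [integral_div, integral_add h1 (h3.const_mul _), integral_const_mul, dbar, h2, h4]
  ring

theorem Hmol_del (n : ℕ) {f : E → ℂ} (hf : MemLp f 2 μ) (t v : E) :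
    Integrable (fun s => f s * del (Hker μ n t) s v) μ ∧
      del (Hmol μ n f) t v = -∫ s, f s * del (Hker μ n t) s v ∂μ := by
  obtain ⟨h1, h2⟩ := Hmol_fderiv n hf t v
  obtain ⟨h3, h4⟩ := Hmol_fderiv n hf t (Complex.I • v)
  have e : ∀ s, f s * del (Hker μ n t) s v = (f s * fderiv ℝ (Hker μ n t) s v -
      Complex.I * (f s * fderiv ℝ (Hker μ n t) s (Complex.I • v))) / 2 := fun s => by
    unfold del
    ring
  simp only [e]
  refine ⟨(h1.sub (h3.const_mul _)).div_const _, ?_⟩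
  rw [integral_div, integral_sub h1 (h3.const_mul _), integral_const_mul, del, h2, h4]
  ring

theorem Hmol_int (n : ℕ) {f : E → ℂ} (hf : MemLp f 2 μ) (t : E) :
    Integrable (fun s => f s * Hker μ n t s) μ := by
  exact (Hh5_k μ n).2.convolutionExists_right (ContinuousLinearMap.mul ℝ ℂ)
    (hf.locallyIntegrable one_le_two) (Hh5_k μ n).1.continuous t

open scoped Convolution in
theorem Hhelper76_clm (L : ℂ →L[ℝ] ℝ) (n : ℕ) {f : E → ℂ} (hf : MemLp f 2 μ) (t : E) :
    L (Hmol μ n f t) =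
      ((Hbump E n).normed μ ⋆[ContinuousLinearMap.lsmul ℝ ℝ, μ] fun s => L (f s)) t := by
  rw [convolution_lsmul_swap, Hmol, ← L.integral_comp_comm (Hmol_int n hf t)]
  refine integral_congr_ae (Eventually.of_forall fun s => ?_)
  simp only [Hker]
  rw [mul_comm, ← Complex.real_smul, map_smul]

/-- real and imaginary parts, `letI : MeasureSpace E := ⟨μ⟩`, `R335.LMoll_young`, `R335.LMoll_moll`
(`R335.nsq u = ∫ u²`; `convolution_lsmul_swap` or `convolution_eq_swap`). -/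
theorem Hmol_L2 {f : E → ℂ} (hf : MemLp f 2 μ) : (∀ n, MemLp (Hmol μ n f) 2 μ) ∧
    Tendsto (fun n => ∫ t, ‖Hmol μ n f t - f t‖ ^ 2 ∂μ) atTop (𝓝 0) := by
  let _ : MeasureSpace E := ⟨μ⟩
  have : (volume : Measure E).IsAddHaarMeasure := ‹μ.IsAddHaarMeasure›
  have h1 : Tendsto (fun i => (Hbump E i).rOut) atTop (𝓝 0) :=
    tendsto_one_div_add_atTop_nhds_zero_nat
  have h2 : ∀ i, (Hbump E i).rOut ≤ 2 * (Hbump E i).rIn := fun i => by
    simp only [Hbump]
    linarith
  have key : ∀ L : ℂ →L[ℝ] ℝ, (∀ n, MemLp (fun t => L (Hmol μ n f t)) 2 μ) ∧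
      Tendsto (fun n => ∫ t, (L (Hmol μ n f t) - L (f t)) ^ 2 ∂μ) atTop (𝓝 0) := by
    intro L
    have hL : MemLp (fun s => L (f s)) 2 (volume : Measure E) := L.comp_memLp' hf
    simp only [Hhelper76_clm L _ hf]
    exact ⟨fun n => (R335.LMoll_young (Hbump E n) hL).1, R335.LMoll_moll (Hbump E) h1 h2 hL⟩
  obtain ⟨r1, r2⟩ := key Complex.reCLM
  obtain ⟨i1, i2⟩ := key Complex.imCLM
  have hm : ∀ n, MemLp (Hmol μ n f) 2 μ := fun n => memLp_re_im_iff.1 ⟨r1 n, i1 n⟩
  refine ⟨hm, ?_⟩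
  have h3 := r2.add i2
  rw [add_zero] at h3
  refine h3.congr fun n => ?_
  have j1 : Integrable (fun t => (Complex.reCLM (Hmol μ n f t) - Complex.reCLM (f t)) ^ 2) μ :=
    ((r1 n).sub (Complex.reCLM.comp_memLp' hf)).integrable_sq
  have j2 : Integrable (fun t => (Complex.imCLM (Hmol μ n f t) - Complex.imCLM (f t)) ^ 2) μ :=
    ((i1 n).sub (Complex.imCLM.comp_memLp' hf)).integrable_sq
  rw [← integral_add j1 j2]
  refine integral_congr_ae (Eventually.of_forall fun t => ?_)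
  simp only [Complex.reCLM_apply, Complex.imCLM_apply, Complex.sq_norm, Complex.normSq_apply,
    Complex.sub_re, Complex.sub_im]
  ring

end Crest.Agent.R271
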