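import Crest.Agent.R271.HInt
import Crest.Agent.R271.HMoll

/-! Row 271, part A: the weak Bochner–Kodaira inequality in `E`. -/

set_option autoImplicit false
set_option linter.unusedSectionVars false

namespace Crest.Agent.R271

open MeasureTheory Filter Topology Set
open scoped ENNReal NNReal ComplexConjugate

variable {E : Type} [NormedAddCommGroup E] [NormedSpace ℂ E] [FiniteDimensional ℂ E]
  [MeasurableSpace E] [BorelSpace E] {μ : Measure E} [μ.IsAddHaarMeasure] {ι : Type} [Fintype ι]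

theorem Hh1_bdd {c : E → ℂ} (hc : Continuous c) {K : Set E} (hK : IsCompact K)
    (h0 : ∀ t, t ∉ K → c t = 0) :
    AEStronglyMeasurable c μ ∧ ∃ M : ℝ, ∀ᵐ x ∂μ, ‖c x‖ ≤ M := by
  refine ⟨hc.aestronglyMeasurable, ?_⟩
  have hcs : HasCompactSupport c := HasCompactSupport.intro hK h0
  obtain ⟨M, hM⟩ := hc.bounded_above_of_compact_support hcs
  exact ⟨M, Eventually.of_forall hM⟩

theorem Hh1_hess {W : E → ℝ} (hW : HTest univ W) (v w : E) :
    AEStronglyMeasurable (fun t => hess W t v w) μ ∧ ∃ M : ℝ, ∀ᵐ x ∂μ, ‖hess W x v w‖ ≤ M := by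
  refine Hh1_bdd (continuous_iff_continuousAt.2 fun t => Hhess_cont hW.c2.contDiffAt v w)
    hW.cpt fun t ht => ?_
  have h : W =ᶠ[𝓝 t] fun _ => 0 := notMem_tsupport_iff_eventuallyEq.1 ht
  rw [Hhess_congr h]
  unfold hess
  simp only [Hdbar_const, Hdel_const]

theorem Hh1_W {W : E → ℝ} (hW : HTest univ W) :
    AEStronglyMeasurable (fun t => (W t : ℂ)) μ ∧ ∃ M : ℝ, ∀ᵐ x ∂μ, ‖(W x : ℂ)‖ ≤ M := by
  refine Hh1_bdd (Complex.continuous_ofReal.comp hW.c2.continuous) hW.cpt fun t ht => ?_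
  simp only [image_eq_zero_of_notMem_tsupport ht, Complex.ofReal_zero]

theorem Hh1_dW {W : E → ℝ} (hW : HTest univ W) (v : E) :
    AEStronglyMeasurable (fun t => 2 * conj (dbar (fun s => (W s : ℂ)) t v)) μ ∧
      ∃ M : ℝ, ∀ᵐ x ∂μ, ‖2 * conj (dbar (fun s => (W s : ℂ)) x v)‖ ≤ M := by
  have hc : ContDiff ℝ 1 (fun s => (W s : ℂ)) :=
    Complex.ofRealCLM.contDiff.comp (hW.c2.of_le (by norm_num))
  refine Hh1_bdd (continuous_const.mul (Complex.continuous_conj.comp
    (continuous_iff_continuousAt.2 fun t => Hdbar_cont hc.contDiffAt v))) hW.cpt fun t ht => ?_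
  have h : W =ᶠ[𝓝 t] fun _ => 0 := notMem_tsupport_iff_eventuallyEq.1 ht
  have h' : (fun s => (W s : ℂ)) =ᶠ[𝓝 t] fun _ => 0 := h.mono fun s hs => by simp [hs]
  rw [Hdbar_congr h', Hdbar_const]
  simp

theorem Hh1_HQint (e : ι → E) {W : E → ℝ} (hW : HTest univ W) {b : ι → E → ℂ} {g : E → ℂ}
    (hb : ∀ j, MemLp (b j) 2 μ) (hg : MemLp g 2 μ) :
    ∫ t, HQ e W t (fun j => b j t) (g t) ∂μ =
      (∑ j, ∑ k, ∫ t, hess W t (e j) (e k) * (conj (b j t) * b k t) ∂μ +
        ∫ t, (W t : ℂ) * (conj (g t) * g t) ∂μ +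
        ∑ j, ∫ t, 2 * conj (dbar (fun s => (W s : ℂ)) t (e j)) * (conj (b j t) * g t) ∂μ).re := by
  have i1 : ∀ j k, Integrable (fun t => hess W t (e j) (e k) * (conj (b j t) * b k t)) μ := by
    intro j k
    obtain ⟨h1, M, h2⟩ := Hh1_hess (μ := μ) hW (e j) (e k)
    exact Hint_sesq h1 h2 (hb j) (hb k)
  have i2 : Integrable (fun t => (W t : ℂ) * (conj (g t) * g t)) μ := by
    obtain ⟨h1, M, h2⟩ := Hh1_W (μ := μ) hW
    exact Hint_sesq h1 h2 hg hg
  have i3 : ∀ j, Integrable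
      (fun t => 2 * conj (dbar (fun s => (W s : ℂ)) t (e j)) * (conj (b j t) * g t)) μ := by
    intro j
    obtain ⟨h1, M, h2⟩ := Hh1_dW (μ := μ) hW (e j)
    exact Hint_sesq h1 h2 (hb j) hg
  have i1' : ∀ j, Integrable (fun t => ∑ k, hess W t (e j) (e k) * (conj (b j t) * b k t)) μ :=
    fun j => integrable_finsetSum _ fun k _ => i1 j k
  have i1'' : Integrable (fun t => ∑ j, ∑ k, hess W t (e j) (e k) * (conj (b j t) * b k t)) μ :=
    integrable_finsetSum _ fun j _ => i1' j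
  have i3' : Integrable
      (fun t => ∑ j, 2 * conj (dbar (fun s => (W s : ℂ)) t (e j)) * (conj (b j t) * g t)) μ :=
    integrable_finsetSum _ fun j _ => i3 j
  have e1 : ∑ j, ∑ k, ∫ t, hess W t (e j) (e k) * (conj (b j t) * b k t) ∂μ =
      ∫ t, ∑ j, ∑ k, hess W t (e j) (e k) * (conj (b j t) * b k t) ∂μ := by
    rw [integral_finsetSum _ fun j _ => i1' j]
    exact Finset.sum_congr rfl fun j _ => (integral_finsetSum _ fun k _ => i1 j k).symm
  have i4 : Integrable (fun t => ∑ j, ∑ k, hess W t (e j) (e k) * (conj (b j t) * b k t) +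
      (W t : ℂ) * (conj (g t) * g t)) μ := i1''.add i2
  have i5 : Integrable (fun t => ∑ j, ∑ k, hess W t (e j) (e k) * (conj (b j t) * b k t) +
      (W t : ℂ) * (conj (g t) * g t) +
      ∑ j, 2 * conj (dbar (fun s => (W s : ℂ)) t (e j)) * (conj (b j t) * g t)) μ := i4.add i3'
  rw [e1, ← integral_finsetSum _ fun j _ => i3 j, ← integral_add i1'' i2, ← integral_add i4 i3']
  have := Complex.reCLM.integral_comp_comm i5
  simp only [Complex.reCLM_apply] at this
  rw [← this]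
  exact integral_congr_ae (Eventually.of_forall fun t => HQ_eq e hW.c2.contDiffAt _ _)

/-- `HQ_eq`, `Hlim_sesq`, `Hint_sesq`; the coefficients are continuous with compact support. -/
theorem HQ_tendsto (e : ι → E) {W : E → ℝ} (hW : HTest univ W) {b : ι → E → ℂ} {g : E → ℂ}
    {B : ℕ → ι → E → ℂ} {G : ℕ → E → ℂ} (hb : ∀ j, MemLp (b j) 2 μ) (hg : MemLp g 2 μ)
    (hB : ∀ n j, MemLp (B n j) 2 μ) (hG : ∀ n, MemLp (G n) 2 μ)
    (lB : ∀ j, Tendsto (fun n => ∫ x, ‖B n j x - b j x‖ ^ 2 ∂μ) atTop (𝓝 0))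
    (lG : Tendsto (fun n => ∫ x, ‖G n x - g x‖ ^ 2 ∂μ) atTop (𝓝 0)) :
    Tendsto (fun n => ∫ t, HQ e W t (fun j => B n j t) (G n t) ∂μ) atTop
      (𝓝 (∫ t, HQ e W t (fun j => b j t) (g t) ∂μ)) := by
  simp only [fun n => Hh1_HQint e hW (hB n) (hG n), Hh1_HQint e hW hb hg]
  refine (Complex.continuous_re.tendsto _).comp ?_
  refine ((tendsto_finsetSum _ fun j _ => tendsto_finsetSum _ fun k _ => ?_).add ?_).add
    (tendsto_finsetSum _ fun j _ => ?_)
  · obtain ⟨h1, M, h2⟩ := Hh1_hess (μ := μ) hW (e j) (e k)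
    exact Hlim_sesq h1 h2 (hb j) (hb k) (fun n => hB n j) (fun n => hB n k) (lB j) (lB k)
  · obtain ⟨h1, M, h2⟩ := Hh1_W (μ := μ) hW
    exact Hlim_sesq h1 h2 hg hg hG hG lG lG
  · obtain ⟨h1, M, h2⟩ := Hh1_dW (μ := μ) hW (e j)
    exact Hlim_sesq h1 h2 (hb j) hg (fun n => hB n j) hG (lB j) lG

/-- extend `b, g` by zero (`memLp_indicator_iff_restrict`) and mollify.  For large `n`,
`closedBall t (1/(n+1)) ⊆ U` for all `t ∈ tsupport W` (`IsCompact.exists_cthickening_subset_open`), so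
`Hker μ n t` is a test function on `U`, the mollified form is closed on `tsupport W` (`Hmol_del`) and
`∑ ∂̄_j (Hmol b_j) = Hmol g` there (`Hmol_dbar`); `Hbk`, `HQ_of_notMem`, `HQ_tendsto`, `Hmol_L2`. -/
theorem Hwbk (e : ι → E) {U : Set E} (hU : IsOpen U) {b : ι → E → ℂ} {g : E → ℂ}
    (hb : ∀ j, MemLp (b j) 2 (μ.restrict U)) (hg : MemLp g 2 (μ.restrict U))
    (hcl : ∀ τ : E → ℂ, HTest U τ → ∀ j k,
      ∫ t in U, b j t * del τ t (e k) ∂μ = ∫ t in U, b k t * del τ t (e j) ∂μ)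
    (hdiv : ∀ τ : E → ℂ, HTest U τ →
      ∫ t in U, (∑ j, b j t * dbar τ t (e j) + g t * τ t) ∂μ = 0)
    {W : E → ℝ} (hW : HTest U W) (h0 : ∀ t, 0 ≤ W t) :
    0 ≤ ∫ t in U, HQ e W t (fun j => b j t) (g t) ∂μ := by
  have hUm : MeasurableSet U := hU.measurableSet
  have hW' : HTest univ W := ⟨hW.c2, hW.cpt, subset_univ _⟩
  have hb' : ∀ j, MemLp (U.indicator (b j)) 2 μ := fun j =>
    (memLp_indicator_iff_restrict hUm).2 (hb j)
  have hg' : MemLp (U.indicator g) 2 μ := (memLp_indicator_iff_restrict hUm).2 hg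
  have lim := HQ_tendsto e hW' (B := fun n j => Hmol μ n (U.indicator (b j)))
    (G := fun n => Hmol μ n (U.indicator g)) hb' hg' (fun n j => (Hmol_L2 (hb' j)).1 n)
    (Hmol_L2 hg').1 (fun j => (Hmol_L2 (hb' j)).2) (Hmol_L2 hg').2
  have e0 : ∫ t, HQ e W t (fun j => U.indicator (b j) t) (U.indicator g t) ∂μ =
      ∫ t in U, HQ e W t (fun j => b j t) (g t) ∂μ := by
    rw [← setIntegral_eq_integral_of_forall_compl_eq_zero (s := U)
      fun t ht => HQ_of_notMem e (fun h => ht (hW.sub h)) _ _]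
    refine setIntegral_congr_fun hUm fun t ht => ?_
    simp only [indicator_of_mem ht]
  rw [e0] at lim
  refine ge_of_tendsto lim ?_
  obtain ⟨δ, hδ, hδU⟩ := IsCompact.exists_cthickening_subset_open hW.cpt hU hW.sub
  have ev : ∀ᶠ n : ℕ in atTop, 1 / ((n : ℝ) + 1) ≤ δ :=
    (tendsto_one_div_add_atTop_nhds_zero_nat (𝕜 := ℝ)).eventually (ge_mem_nhds hδ)
  filter_upwards [ev] with n hn
  have test : ∀ t ∈ tsupport W, HTest U (Hker μ n t) := fun t ht =>
    ⟨(Hker_test n t).c2, (Hker_test n t).cpt, (Hker_test n t).sub.trans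
      (((Metric.closedBall_subset_closedBall hn).trans
        (Metric.closedBall_subset_cthickening ht δ)).trans hδU)⟩
  have ind : ∀ (f h : E → ℂ), ∫ s, U.indicator f s * h s ∂μ = ∫ s in U, f s * h s ∂μ := by
    intro f h
    rw [← integral_indicator hUm]
    congr 1
    funext s
    by_cases hs : s ∈ U <;> simp [hs]
  have cl : ∀ t ∈ tsupport W, ∀ j k, del (Hmol μ n (U.indicator (b j))) t (e k) =
      del (Hmol μ n (U.indicator (b k))) t (e j) := by
    intro t ht j k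
    rw [(Hmol_del n (hb' j) t (e k)).2, (Hmol_del n (hb' k) t (e j)).2, ind, ind,
      hcl _ (test t ht) j k]
  have dv : ∀ t ∈ tsupport W, Hmol μ n (U.indicator g) t =
      ∑ j, dbar (Hmol μ n (U.indicator (b j))) t (e j) := by
    intro t ht
    have h1 := hdiv _ (test t ht)
    have h2 : ∫ s in U, (∑ j, b j s * dbar (Hker μ n t) s (e j) + g s * Hker μ n t s) ∂μ =
        ∫ s, (∑ j, U.indicator (b j) s * dbar (Hker μ n t) s (e j) +
          U.indicator g s * Hker μ n t s) ∂μ := by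
      rw [← integral_indicator hUm]
      congr 1
      funext s
      by_cases hs : s ∈ U <;> simp [hs]
    rw [h2, integral_add (integrable_finsetSum _ fun j _ => (Hmol_dbar n (hb' j) t (e j)).1)
      (Hmol_int n hg' t), integral_finsetSum _ fun j _ => (Hmol_dbar n (hb' j) t (e j)).1] at h1
    simp only [fun j => (Hmol_dbar n (hb' j) t (e j)).2, Finset.sum_neg_distrib]
    unfold Hmol
    exact eq_neg_of_add_eq_zero_right h1
  have hk := Hbk (μ := μ) e (b := fun j => Hmol μ n (U.indicator (b j)))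
    (fun j => Hmol_smooth n (hb' j)) hW' h0 cl
  refine hk.trans_eq (integral_congr_ae (Eventually.of_forall fun t => ?_))
  by_cases ht : t ∈ tsupport W
  · simp only [dv t ht]
  · simp only [HQ_of_notMem e ht]

end Crest.Agent.R271
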