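import Crest.Agent.R271.HMoll
import Crest.Agent.R271.HMean

/-! Row 271, part A: Weyl's lemma in `E`. -/

set_option autoImplicit false
set_option linter.unusedSectionVars false

namespace Crest.Agent.R271

open MeasureTheory Filter Topology Set Metric
open scoped ENNReal NNReal ComplexConjugate

variable {E : Type} [NormedAddCommGroup E] [NormedSpace ℂ E] [FiniteDimensional ℂ E]
  [MeasurableSpace E] [BorelSpace E] {μ : Measure E} [μ.IsAddHaarMeasure] {ι : Type} [Fintype ι]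

/-- an `L²` limit of holomorphic functions.  `h z = (μ (ball 0 r))⁻¹ ∫_{ball z r} f`; by `Hmean`
and Cauchy–Schwarz `F n → h` uniformly on `ball z₀ r`; `R264.SCV.weierstrass`; and
`∫_{ball z₀ r} ‖f - h‖² ≤ 2 ∫ ‖F n - f‖² + 2 ∫_{ball z₀ r} ‖F n - h‖² → 0`
(or a subsequence converging a.e.). -/
theorem Hlim_hol {F : ℕ → E → ℂ} {f : E → ℂ} {z₀ : E} {r : ℝ} (hr : 0 < r)
    (hF : ∀ᶠ n in atTop, DifferentiableOn ℂ (F n) (ball z₀ (3 * r))) (hf : MemLp f 2 μ)
    (hF2 : ∀ n, MemLp (F n) 2 μ)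
    (hl : Tendsto (fun n => ∫ t, ‖F n t - f t‖ ^ 2 ∂μ) atTop (𝓝 0)) :
    ∃ h : E → ℂ, DifferentiableOn ℂ h (ball z₀ r) ∧ f =ᵐ[μ.restrict (ball z₀ r)] h := by
  have hprop := FiniteDimensional.proper ℂ E
  obtain ⟨m, hm⟩ : ∃ m, m = μ.real (ball (0 : E) r) := ⟨_, rfl⟩
  have hm0 : 0 < m := by
    rw [hm]
    exact ENNReal.toReal_pos (measure_ball_pos μ 0 hr).ne' measure_ball_lt_top.ne
  have hsq : ∀ n, Integrable (fun t => ‖F n t - f t‖ ^ 2) μ := fun n =>
    (memLp_two_iff_integrable_sq_norm ((hF2 n).sub hf).1).1 ((hF2 n).sub hf)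
  obtain ⟨h, hh⟩ : ∃ h : E → ℂ, h = fun z => m⁻¹ • ∫ t in ball z r, f t ∂μ := ⟨_, rfl⟩
  have hU : TendstoUniformlyOn F h atTop (ball z₀ r) := by
    rw [Metric.tendstoUniformlyOn_iff]
    intro ε hε
    filter_upwards [hF, hl.eventually (gt_mem_nhds (show 0 < ε ^ 2 * m by positivity))]
      with n hn hn' z hz
    have hfin : IsFiniteMeasure (μ.restrict (ball z r)) :=
      isFiniteMeasure_restrict.2 measure_ball_lt_top.ne
    have h1 := Hmean (μ := μ) isOpen_ball hn (z := z) (r := r)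
      (closedBall_subset_ball' (by linarith [mem_ball.1 hz]))
    have i1 : IntegrableOn (F n) (ball z r) μ := ((hF2 n).restrict _).integrable one_le_two
    have i2 : IntegrableOn f (ball z r) μ := (hf.restrict _).integrable one_le_two
    have h2 : F n z - h z = m⁻¹ • ∫ t in ball z r, (F n t - f t) ∂μ := by
      rw [integral_sub i1 i2, h1, ← hm, smul_sub, inv_smul_smul₀ hm0.ne', hh]
    have h3 : ∫ t in ball z r, ‖F n t - f t‖ ∂μ ≤
        ∫ t in ball z r, (ε / 2 + (2 * ε)⁻¹ * ‖F n t - f t‖ ^ 2) ∂μ := by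
      refine integral_mono (i1.sub i2).norm
        ((integrable_const _).add ((hsq n).integrableOn.const_mul _)) fun t => ?_
      have h4 : 0 ≤ (2 * ε)⁻¹ * (‖F n t - f t‖ - ε) ^ 2 := by positivity
      have h5 : (2 * ε)⁻¹ * (‖F n t - f t‖ - ε) ^ 2 =
          ε / 2 + (2 * ε)⁻¹ * ‖F n t - f t‖ ^ 2 - ‖F n t - f t‖ := by
        field_simp
        ring
      change ‖F n t - f t‖ ≤ ε / 2 + (2 * ε)⁻¹ * ‖F n t - f t‖ ^ 2
      linarith
    have h6 : μ.real (ball z r) = m := by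
      rw [hm, measureReal_def, measureReal_def, Measure.addHaar_ball_center]
    rw [integral_add (integrable_const _) ((hsq n).integrableOn.const_mul _), setIntegral_const, h6,
      integral_const_mul, smul_eq_mul] at h3
    have h7 : ∫ t in ball z r, ‖F n t - f t‖ ^ 2 ∂μ ≤ ∫ t, ‖F n t - f t‖ ^ 2 ∂μ :=
      setIntegral_le_integral (hsq n) (Eventually.of_forall fun t => by positivity)
    have h8 : (2 * ε)⁻¹ * ∫ t in ball z r, ‖F n t - f t‖ ^ 2 ∂μ < (2 * ε)⁻¹ * (ε ^ 2 * m) :=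
      mul_lt_mul_of_pos_left (h7.trans_lt hn') (by positivity)
    have h9 : (2 * ε)⁻¹ * (ε ^ 2 * m) = m * (ε / 2) := by field_simp
    rw [dist_comm, dist_eq_norm, h2, norm_smul, Real.norm_of_nonneg (inv_pos.2 hm0).le,
      inv_mul_lt_iff₀ hm0]
    linarith [norm_integral_le_integral_norm (μ := μ.restrict (ball z r)) fun t => F n t - f t]
  refine ⟨h, (R264.SCV.weierstrass isOpen_ball
    (hF.mono fun n hn => hn.mono (ball_subset_ball (by linarith))) hU.tendstoLocallyUniformlyOn).1, ?_⟩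
  have h1 : TendstoInMeasure μ (fun n t => ‖F n t - f t‖ ^ 2) atTop 0 := by
    refine tendstoInMeasure_of_tendsto_eLpNorm one_ne_zero (fun n => (hsq n).1)
      aestronglyMeasurable_zero ?_
    have h2 := ENNReal.tendsto_ofReal hl
    rw [ENNReal.ofReal_zero] at h2
    refine h2.congr fun n => ?_
    rw [sub_zero, eLpNorm_one_eq_lintegral_enorm, ← ofReal_integral_norm_eq_lintegral_enorm (hsq n)]
    simp
  obtain ⟨ns, hns, h2⟩ := h1.exists_seq_tendsto_ae
  filter_upwards [ae_restrict_of_ae h2, ae_restrict_mem measurableSet_ball] with t ht ht'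
  have h3 : Tendsto (fun i => ‖F (ns i) t - f t‖ ^ 2) atTop (𝓝 (‖h t - f t‖ ^ 2)) :=
    ((((hU.tendsto_at ht').comp hns.tendsto_atTop).sub_const _).norm).pow 2
  have h4 : ‖h t - f t‖ ^ 2 = 0 := tendsto_nhds_unique h3 ht
  exact (sub_eq_zero.1 (norm_eq_zero.1 (pow_eq_zero_iff two_ne_zero |>.1 h4))).symm

/-- extend `f` by zero and mollify: if `ball z (4 r) ⊆ U` and `1/(n+1) < r` then `Hker μ n t` is a test
function on `U` for `t ∈ ball z (3 r)`, so `Hmol μ n f` is holomorphic there (`Hmol_dbar`,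
`Hdiff_of_dbar`); `Hlim_hol`, `Hmol_L2`. -/
theorem Hweyl (e : Module.Basis ι ℂ E) {U : Set E} (hU : IsOpen U) {f : E → ℂ}
    (hf : MemLp f 2 (μ.restrict U))
    (hw : ∀ τ : E → ℂ, HTest U τ → ∀ j, ∫ t in U, f t * dbar τ t (e j) ∂μ = 0) {z : E} (hz : z ∈ U) :
    ∃ r > 0, ball z r ⊆ U ∧ ∃ h : E → ℂ, DifferentiableOn ℂ h (ball z r) ∧
      f =ᵐ[μ.restrict (ball z r)] h := by
  obtain ⟨ε, hε, hεU⟩ := Metric.isOpen_iff.1 hU z hz
  have hf0 : MemLp (U.indicator f) 2 μ := (memLp_indicator_iff_restrict hU.measurableSet).2 hf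
  have hr : 0 < ε / 4 := by positivity
  have hsub : ball z (ε / 4) ⊆ U := (ball_subset_ball (by linarith)).trans hεU
  have hF : ∀ᶠ n in atTop,
      DifferentiableOn ℂ (Hmol μ n (U.indicator f)) (ball z (3 * (ε / 4))) := by
    filter_upwards [(tendsto_one_div_add_atTop_nhds_zero_nat (𝕜 := ℝ)).eventually (gt_mem_nhds hr)]
      with n hn t ht
    refine (Hdiff_of_dbar e ((Hmol_smooth n hf0).differentiable two_ne_zero t)
      fun j => ?_).differentiableWithinAt
    have h1 := Hker_test (μ := μ) n t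
    have h2 : HTest U (Hker μ n t) := ⟨h1.c2, h1.cpt, h1.sub.trans
      ((closedBall_subset_ball' (by linarith [mem_ball.1 ht])).trans hεU)⟩
    rw [(Hmol_dbar n hf0 t (e j)).2, neg_eq_zero, ← hw _ h2 j, ← integral_indicator hU.measurableSet]
    simp only [Set.indicator_mul_left]
  obtain ⟨h, hh, hh'⟩ := Hlim_hol hr hF hf0 (Hmol_L2 hf0).1 (Hmol_L2 hf0).2
  refine ⟨ε / 4, hr, hsub, h, hh, ?_⟩
  filter_upwards [hh', ae_restrict_mem measurableSet_ball] with t ht ht'
  rwa [indicator_of_mem (hsub ht')] at ht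

end Crest.Agent.R271
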