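import Crest.Agent.R271.HY
import Crest.Agent.R271.HWBK
import Crest.Agent.R271.HWeyl

/-! Row 271, part A: integration by parts, Bochner–Kodaira and Weyl on a Riemann domain. -/

set_option autoImplicit false
set_option linter.unusedSectionVars false

namespace Crest.Agent.R271

open MeasureTheory Filter Topology Set
open scoped ENNReal NNReal ComplexConjugate

namespace RD
variable {E Y : Type} [NormedAddCommGroup E] [NormedSpace ℂ E] [FiniteDimensional ℂ E]
  [MeasurableSpace E] [BorelSpace E] {μ : Measure E} [μ.IsAddHaarMeasure]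
  [TopologicalSpace Y] [T2Space Y] [SecondCountableTopology Y] [MeasurableSpace Y] [BorelSpace Y]
  (X : RD E Y μ) {ι : Type} [Fintype ι] {Ω : Set Y}

theorem Hhelper18_tr (hΩ : IsOpen Ω) {y : Y} {σ : Y → ℂ} {τ : E → ℂ}
    (hs : tsupport σ ⊆ Ω ∩ (X.ch y).source) (hτ : ∀ t ∈ (X.ch y).target, X.loc σ y =ᶠ[𝓝 t] τ)
    (G : Y → ℂ → (E → ℂ) → (E → ℂ) → ℂ) (hG : ∀ w, G w 0 0 0 = 0) :
    ∫ w in Ω, G w (σ w) (X.db σ w) (X.dl σ w) ∂X.ν =
      ∫ t in X.U Ω y, G ((X.ch y).symm t) (τ t) (dbar τ t) (del τ t) ∂μ := by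
  rw [X.integral_chart hΩ y]
  · refine setIntegral_congr_fun (X.U_open hΩ y).measurableSet fun t ht => ?_
    have h1 := (X.U_mem.1 ht).1
    have e1 : σ ((X.ch y).symm t) = τ t := (hτ t h1).eq_of_nhds
    have e2 : X.db σ ((X.ch y).symm t) = dbar τ t :=
      funext fun v => (X.db_chart σ h1 v).trans (Hdbar_congr (hτ t h1) v)
    have e3 : X.dl σ ((X.ch y).symm t) = del τ t :=
      funext fun v => (X.dl_chart σ h1 v).trans (Hdel_congr (hτ t h1) v)
    simp only [loc, Function.comp, e1, e2, e3]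
  · intro w _ hw
    have h1 : w ∉ tsupport σ := fun h => hw (hs h).2
    rw [image_eq_zero_of_notMem_tsupport h1, show X.db σ w = 0 from funext (X.db_of_notMem h1),
      show X.dl σ w = 0 from funext (X.dl_of_notMem h1), hG]

theorem Hhelper18_loc {W : Y → ℝ} {w : Y} (h : w ∉ tsupport W) :
    X.loc W w =ᶠ[𝓝 (X.π w)] fun _ => 0 :=
  X.loc_congr (notMem_tsupport_iff_eventuallyEq.1 h)

theorem Hhelper18_int {K : Set Y} (hK : IsCompact K) {c f h : Y → ℂ} (hc : ContinuousOn c univ)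
    (h0 : ∀ w, w ∉ K → c w = 0) (hf : MemLp f 2 (X.ν.restrict Ω))
    (hh : MemLp h 2 (X.ν.restrict Ω)) :
    Integrable (fun x => c x * (conj (f x) * h x)) (X.ν.restrict Ω) := by
  rw [continuousOn_univ] at hc
  obtain ⟨M, hM⟩ := hc.bounded_above_of_compact_support (HasCompactSupport.intro hK h0)
  exact Hint_sesq hc.aestronglyMeasurable (ae_of_all _ hM) hf hh

/-- `integral_chart` on both sides, `Hibp_dbar` with `τ = X.push y σ` (`Test.push`, `push_eq`,
`db_chart`, `setIntegral_congr_fun`). -/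
theorem Hibp (hΩ : IsOpen Ω) {f σ : Y → ℂ} (hf : X.C2 Ω f) {y : Y}
    (hσ : X.Test (Ω ∩ (X.ch y).source) σ) (v : E) :
    ∫ w in Ω, f w * X.db σ w v ∂X.ν = -∫ w in Ω, X.db f w v * σ w ∂X.ν := by
  have hτ : ∀ t ∈ (X.ch y).target, X.loc σ y =ᶠ[𝓝 t] X.push y σ := fun t ht =>
    (X.push_eq σ ht).symm
  refine (X.Hhelper18_tr hΩ hσ.sub hτ (fun w _ d _ => f w * d v) (by simp)).trans
    ((Hibp_dbar (X.U_open hΩ y) (fun t ht => (C2.at_chart X hf ht).of_le one_le_two)
      (Test.push X hσ) v).trans (congrArg Neg.neg (Eq.symm ?_)))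
  refine (X.Hhelper18_tr hΩ hσ.sub hτ (fun w a _ _ => X.db f w v * a) (by simp)).trans
    (setIntegral_congr_fun (X.U_open hΩ y).measurableSet fun t ht => ?_)
  simp only [X.db_chart f (X.U_mem.1 ht).1]

/-- exact forms are weakly closed (`Hexact`). -/
theorem Hexact (e : ι → E) (hΩ : IsOpen Ω) {f : Y → ℂ} (hf : X.C2 Ω f) :
    X.WClosed e Ω fun j w => X.dl f w (e j) := by
  intro y σ hσ j k
  have h : ∀ v w, ∫ x in Ω, X.dl f x v * X.dl σ x w ∂X.ν =
      ∫ t in X.U Ω y, del (X.loc f y) t v * del (X.push y σ) t w ∂μ := fun v w => by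
    refine (X.Hhelper18_tr hΩ hσ.sub (fun t ht => (X.push_eq σ ht).symm)
      (fun x _ _ d => X.dl f x v * d w) (by simp)).trans
      (setIntegral_congr_fun (X.U_open hΩ y).measurableSet fun t ht => ?_)
    simp only [X.dl_chart f (X.U_mem.1 ht).1]
  rw [h, h]
  exact R271.Hexact (X.U_open hΩ y) (fun t ht => C2.at_chart X hf ht) (Test.push X hσ) _ _

/-- `HQ_eq`, `Hint_sesq`; the coefficients are continuous with compact support. -/
theorem HQ_integrable (e : ι → E) (hΩ : IsOpen Ω) {b : ι → Y → ℂ} {g : Y → ℂ}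
    (hb : ∀ j, MemLp (b j) 2 (X.ν.restrict Ω)) (hg : MemLp g 2 (X.ν.restrict Ω)) {W : Y → ℝ}
    (hW : X.Test Ω W) :
    Integrable (fun w => HQ e (X.loc W w) (X.π w) (fun j => b j w) (g w)) (X.ν.restrict Ω) := by
  have hC : X.C2 univ fun w => (W w : ℂ) := fun y hy =>
    Complex.ofRealCLM.contDiff.contDiffAt.comp _ (hW.c2 y hy)
  have h1 := integrable_finsetSum Finset.univ fun j _ => integrable_finsetSum Finset.univ
    fun k _ => X.Hhelper18_int hW.cpt (C2.hess_cont X hW.c2 (e j) (e k)) (fun w hw => by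
      rw [Hhess_congr (X.Hhelper18_loc hw)]
      simp only [hess, Hdbar_const, Hdel_const]) (hb j) (hb k)
  have h2 := X.Hhelper18_int hW.cpt (C2.continuousOn X hC) (fun w hw => by
    rw [image_eq_zero_of_notMem_tsupport hw, Complex.ofReal_zero]) hg hg
  have h3 := integrable_finsetSum Finset.univ fun j _ => X.Hhelper18_int hW.cpt
    (c := fun w => 2 * conj (X.db (fun w => (W w : ℂ)) w (e j)))
    (continuousOn_const.mul (Complex.continuous_conj.comp_continuousOn (C2.db_cont X hC (e j))))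
    (fun w hw => by
      have : X.db (fun w => (W w : ℂ)) w (e j) = 0 :=
        (Hdbar_congr ((X.Hhelper18_loc hw).fun_comp Complex.ofReal) _).trans (Hdbar_const _ _)
      simp only [this, map_zero, mul_zero]) (hb j) hg
  refine ((h1.add h2).add h3).re.congr (ae_of_all _ fun w => ?_)
  simp only [HQ_eq e (hW.c2 w (mem_univ _)), X.loc_π W (X.mem w)]
  rfl

/-- `W` supported in one chart: `integral_chart`, `Hwbk` for `X.loc (b j) y`, `X.loc g y`,
`X.push y W`; the weak equations for a test function `τ` on `X.U Ω y` come from those for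
`X.pull y τ` (`Test.pull`, `pull_eq`, `dl_chart`, `db_chart`, `integral_chart`). -/
theorem Hgbk_chart (e : ι → E) (hΩ : IsOpen Ω) {b : ι → Y → ℂ} {g : Y → ℂ}
    (hb : ∀ j, MemLp (b j) 2 (X.ν.restrict Ω)) (hg : MemLp g 2 (X.ν.restrict Ω))
    (hcl : X.WClosed e Ω b) (hdiv : X.WDiv e Ω b g) {y : Y} {W : Y → ℝ}
    (hW : X.Test (Ω ∩ (X.ch y).source) W) (h0 : ∀ w, 0 ≤ W w) :
    0 ≤ ∫ w in Ω, HQ e (X.loc W w) (X.π w) (fun j => b j w) (g w) ∂X.ν := by
  have hp : ∀ τ : E → ℂ, ∀ t ∈ (X.ch y).target, X.loc (X.pull y τ) y =ᶠ[𝓝 t] τ := fun τ t ht =>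
    X.pull_eq τ ht
  rw [X.integral_chart hΩ y fun w _ hw =>
    (HQ_congr e (X.Hhelper18_loc fun h => hw (hW.sub h).2) _ _).trans (HQ_zero e _ _)]
  refine (Hwbk e (X.U_open hΩ y) (fun j => X.memLp_chart hΩ y (hb j)) (X.memLp_chart hΩ y hg)
    (fun τ hτ j k => ?_) (fun τ hτ => ?_) (Test.push X hW)
    fun t => indicator_nonneg (fun s _ => h0 _) t).trans_eq
    (setIntegral_congr_fun (X.U_open hΩ y).measurableSet fun t ht => ?_)
  · have h := fun j k => X.Hhelper18_tr hΩ (Test.pull X hτ).sub (hp τ)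
      (fun x _ _ d => b j x * d (e k)) (by simp)
    exact (h j k).symm.trans ((hcl y _ (Test.pull X hτ) j k).trans (h k j))
  · exact (X.Hhelper18_tr hΩ (Test.pull X hτ).sub (hp τ)
      (fun x a d _ => ∑ j, b j x * d (e j) + g x * a) (by simp)).symm.trans
      (hdiv y _ (Test.pull X hτ))
  · have h1 := (X.U_mem.1 ht).1
    change _ = HQ e _ (X.π ((X.ch y).symm t)) _ _
    rw [X.π_symm h1]
    exact HQ_congr e ((X.push_eq W h1).trans (X.loc_symm W h1).2.symm) _ _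

/-- `W = ∑ W * r y` (`partition` for `K = tsupport W`), `HQ_sum`, `integral_finset_sum`. -/
theorem Hgbk (e : ι → E) (hΩ : IsOpen Ω) {b : ι → Y → ℂ} {g : Y → ℂ}
    (hb : ∀ j, MemLp (b j) 2 (X.ν.restrict Ω)) (hg : MemLp g 2 (X.ν.restrict Ω))
    (hcl : X.WClosed e Ω b) (hdiv : X.WDiv e Ω b g) {W : Y → ℝ} (hW : X.Test Ω W)
    (h0 : ∀ w, 0 ≤ W w) :
    0 ≤ ∫ w in Ω, HQ e (X.loc W w) (X.π w) (fun j => b j w) (g w) ∂X.ν := by
  obtain ⟨s, r, h1, h2, h3⟩ := X.partition hΩ hW.cpt hW.sub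
  have h4 : ∀ y ∈ s, X.Test (Ω ∩ (X.ch y).source) fun w => W w * r y w := fun y hy =>
    Test.mul_left X isOpen_univ (subset_univ _) hW.c2 (h1 y hy)
  have h5 : ∀ w, W w = ∑ y ∈ s, W w * r y w := fun w => by
    rw [← Finset.mul_sum]
    by_cases hw : w ∈ tsupport W
    · rw [h3 w hw, mul_one]
    · rw [image_eq_zero_of_notMem_tsupport hw, zero_mul]
  have h6 : ∀ w, HQ e (X.loc W w) (X.π w) (fun j => b j w) (g w) =
      ∑ y ∈ s, HQ e (X.loc (fun w => W w * r y w) w) (X.π w) (fun j => b j w) (g w) := fun w => by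
    rw [← HQ_sum e s fun y hy => (h4 y hy).c2 w (mem_univ _)]
    exact congrArg (fun V => HQ e V (X.π w) (fun j => b j w) (g w)) (funext fun t => h5 _)
  simp only [h6]
  rw [integral_finsetSum s fun y hy => X.HQ_integrable e hΩ hb hg
    (Test.mono X (h4 y hy) ((h4 y hy).sub.trans inter_subset_left))]
  exact Finset.sum_nonneg fun y hy =>
    X.Hgbk_chart e hΩ hb hg hcl hdiv (h4 y hy) fun w => mul_nonneg (h0 w) (h2 y hy w)

/-- the local Weyl lemma.  Take `Ω₁ = Ω ∩ interior V`, transfer to `X.U Ω₁ y` (a test function on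
`Ω₁ ∩ source` is one on `Ω ∩ source`, and `∫_Ω = ∫_{Ω₁}` for it), `Hweyl` at `z = X.π y`,
`A = Ω₁ ∩ source ∩ π ⁻¹' ball z r`, `h = h₀ ∘ π`, `ae_chart`. -/
theorem Hweyl_loc (e : Module.Basis ι ℂ E) (hΩ : IsOpen Ω) {f : Y → ℂ}
    (hw : ∀ y (σ : Y → ℂ), X.Test (Ω ∩ (X.ch y).source) σ → ∀ j,
      ∫ w in Ω, f w * X.db σ w (e j) ∂X.ν = 0) {y : Y} (hy : y ∈ Ω) {V : Set Y} (hV : V ∈ 𝓝 y)
    (hf : MemLp f 2 (X.ν.restrict V)) :
    ∃ A : Set Y, IsOpen A ∧ y ∈ A ∧ A ⊆ Ω ∧ ∃ h : Y → ℂ, X.Hol A h ∧ f =ᵐ[X.ν.restrict A] h := by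
  have h1 : IsOpen (Ω ∩ interior V) := hΩ.inter isOpen_interior
  have hf1 : MemLp f 2 (X.ν.restrict (Ω ∩ interior V)) :=
    hf.mono_measure (Measure.restrict_mono (inter_subset_right.trans interior_subset) le_rfl)
  have hy1 : y ∈ Ω ∩ interior V := ⟨hy, mem_interior_iff_mem_nhds.2 hV⟩
  have hU := X.U_open h1 y
  obtain ⟨r, hr, -, h₀, hd, hae⟩ := _root_.Crest.Agent.R271.Hweyl e hU (X.memLp_chart h1 y hf1)
    (fun τ hτ j => by
      have t1 := Test.pull X hτ
      have t2 : X.Test (Ω ∩ (X.ch y).source) (X.pull y τ) :=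
        Test.mono X t1 (t1.sub.trans (inter_subset_inter_left _ inter_subset_left))
      have a := hw y _ t2 j
      rw [setIntegral_eq_of_subset_of_forall_diff_eq_zero hΩ.measurableSet
        (inter_subset_left (t := interior V)) (fun w hw => by
          rw [X.db_of_notMem fun h => hw.2 (t1.sub h).1, mul_zero]),
        X.integral_chart h1 y (fun w _ hw => by
          rw [X.db_of_notMem fun h => hw (t1.sub h).2, mul_zero])] at a
      rw [← a]
      refine setIntegral_congr_fun hU.measurableSet fun t ht => ?_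
      have ht' := (X.U_mem.1 ht).1
      change X.loc f y t * dbar τ t (e j) =
        X.loc f y t * X.db (X.pull y τ) ((X.ch y).symm t) (e j)
      rw [X.db_chart _ ht', dbar, dbar, (X.pull_eq τ ht').fderiv_eq])
    (z := X.π y) ⟨y, ⟨hy1, X.mem y⟩, rfl⟩
  have hA : IsOpen ((Ω ∩ interior V ∩ (X.ch y).source) ∩ X.π ⁻¹' Metric.ball (X.π y) r) :=
    (h1.inter (X.ch y).open_source).inter (Metric.isOpen_ball.preimage X.continuous_π)
  refine ⟨_, hA, ⟨⟨hy1, X.mem y⟩, Metric.mem_ball_self hr⟩, fun w hw => hw.1.1.1,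
    fun w => h₀ (X.π w), fun w hw => ?_, ?_⟩
  · refine (hd.differentiableAt (Metric.isOpen_ball.mem_nhds hw.2)).congr_of_eventuallyEq ?_
    filter_upwards [(X.ch w).open_target.mem_nhds (X.π_mem (X.mem w))] with t ht
    exact congrArg h₀ (X.π_symm ht)
  · have a1 := X.ae_chart h1 y (ae_restrict_of_ae
      ((ae_restrict_iff' measurableSet_ball).1 hae))
    filter_upwards [ae_restrict_of_ae_restrict_of_subset inter_subset_left a1,
      ae_restrict_mem hA.measurableSet] with w hw hw'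
    rw [← hw hw'.2, X.loc_π f hw'.1.2]

/-- gluing.  Choose `A y`, `h y`; put `g y = h y y`.  On the open set `A y ∩ A y'` the continuous
functions `h y`, `h y'` agree a.e., hence everywhere (`openPos`, `Measure.eqOn_open_of_ae_eq`), so
`g = h y` on `A y`; `measure_null_of_locally_null`. -/
theorem Hglue (hΩ : IsOpen Ω) {f : Y → ℂ} (hloc : ∀ y ∈ Ω, ∃ A : Set Y, IsOpen A ∧ y ∈ A ∧ A ⊆ Ω ∧
    ∃ h : Y → ℂ, X.Hol A h ∧ f =ᵐ[X.ν.restrict A] h) :
    ∃ h : Y → ℂ, X.Hol Ω h ∧ f =ᵐ[X.ν.restrict Ω] h := by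
  choose! A a1 a2 a3 h h1 h2 using hloc
  haveI := X.openPos
  have hc : ∀ y ∈ Ω, ContinuousOn (h y) (A y) := fun y hy =>
    C2.continuousOn X (Hol.c2 X (a1 y hy) (h1 y hy))
  have k : ∀ y ∈ Ω, ∀ w ∈ A y, h w w = h y w := fun y hy w hw => by
    have hw' := a3 y hy hw
    refine Measure.eqOn_open_of_ae_eq (μ := X.ν) ?_ ((a1 w hw').inter (a1 y hy))
      ((hc w hw').mono inter_subset_left) ((hc y hy).mono inter_subset_right) ⟨a2 w hw', hw⟩
    filter_upwards [ae_restrict_of_ae_restrict_of_subset inter_subset_left (h2 w hw'),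
      ae_restrict_of_ae_restrict_of_subset inter_subset_right (h2 y hy)] with x x1 x2
    exact x1.symm.trans x2
  refine ⟨fun w => h w w, fun y hy => ?_, ?_⟩
  · refine (h1 y hy y (a2 y hy)).congr_of_eventuallyEq (X.loc_congr ?_)
    filter_upwards [(a1 y hy).mem_nhds (a2 y hy)] with w hw
    exact k y hy w hw
  · rw [EventuallyEq, ae_iff, Measure.restrict_apply' hΩ.measurableSet]
    refine measure_null_of_locally_null _ fun y hy => ⟨_, inter_mem_nhdsWithin _
      ((a1 y hy.2).mem_nhds (a2 y hy.2)), ?_⟩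
    have := h2 y hy.2
    rw [EventuallyEq, ae_iff, Measure.restrict_apply' (a1 y hy.2).measurableSet] at this
    refine measure_mono_null (fun w hw => mem_inter (fun e => hw.1.1 ?_) hw.2) this
    exact e.trans (k y hy.2 w hw.2).symm

theorem Hweyl (e : Module.Basis ι ℂ E) (hΩ : IsOpen Ω) {f : Y → ℂ}
    (hf : ∀ y ∈ Ω, ∃ V ∈ 𝓝 y, MemLp f 2 (X.ν.restrict V))
    (hw : ∀ y (σ : Y → ℂ), X.Test (Ω ∩ (X.ch y).source) σ → ∀ j,
      ∫ w in Ω, f w * X.db σ w (e j) ∂X.ν = 0) :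
    ∃ h : Y → ℂ, X.Hol Ω h ∧ f =ᵐ[X.ν.restrict Ω] h := by
  refine X.Hglue hΩ fun y hy => ?_
  obtain ⟨V, hV, hf'⟩ := hf y hy
  exact X.Hweyl_loc e hΩ hw hy hV hf'

end RD

end Crest.Agent.R271
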