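import Crest.Agent.R271.HCalc

/-! Row 271, part A: integration by parts in `E`, the smooth Bochner–Kodaira inequality. -/

set_option autoImplicit false
set_option linter.unusedSectionVars false

namespace Crest.Agent.R271

open MeasureTheory Filter Topology Set
open scoped ENNReal NNReal ComplexConjugate

variable {E : Type} [NormedAddCommGroup E] [NormedSpace ℂ E] [FiniteDimensional ℂ E]
  [MeasurableSpace E] [BorelSpace E] {μ : Measure E} [μ.IsAddHaarMeasure] {ι : Type} [Fintype ι]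

/-- `integral_mul_fderiv_eq_neg_fderiv_mul_of_integrable` or
`integral_bilinear_hasFDerivAt_right_eq_neg_left_of_integrable` with the constant function `1`. -/
theorem Hint_fderiv {f : E → ℂ} (hf : ContDiff ℝ 1 f) (hc : HasCompactSupport f) (v : E) :
    Integrable (fun t => fderiv ℝ f t v) μ ∧ ∫ t, fderiv ℝ f t v ∂μ = 0 := by
  have hi : Integrable (fun t => fderiv ℝ f t v) μ :=
    ((hf.continuous_fderiv one_ne_zero).clm_apply continuous_const).integrable_of_hasCompactSupport
      (hc.fderiv_apply ℝ v)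
  refine ⟨hi, ?_⟩
  have := integral_mul_fderiv_eq_neg_fderiv_mul_of_integrable (μ := μ) (f := fun _ : E => (1 : ℂ))
    (g := f) (v := v) (by simp) (by simpa using hi)
    (by simpa using hf.continuous.integrable_of_hasCompactSupport hc)
    (fun x _ => differentiableAt_const _) (fun x _ => hf.differentiable one_ne_zero x)
  simpa using this

theorem Hint_dbar {f : E → ℂ} (hf : ContDiff ℝ 1 f) (hc : HasCompactSupport f) (v : E) :
    Integrable (fun t => dbar f t v) μ ∧ ∫ t, dbar f t v ∂μ = 0 := by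
  obtain ⟨i1, e1⟩ := Hint_fderiv (μ := μ) hf hc v
  obtain ⟨i2, e2⟩ := Hint_fderiv (μ := μ) hf hc (Complex.I • v)
  refine ⟨(i1.add (i2.const_mul _)).div_const 2, ?_⟩
  simp only [dbar]
  rw [integral_div, integral_add i1 (i2.const_mul _), integral_const_mul, e1, e2]
  simp

theorem Hint_del {f : E → ℂ} (hf : ContDiff ℝ 1 f) (hc : HasCompactSupport f) (v : E) :
    Integrable (fun t => del f t v) μ ∧ ∫ t, del f t v ∂μ = 0 := by
  obtain ⟨i1, e1⟩ := Hint_fderiv (μ := μ) hf hc v
  obtain ⟨i2, e2⟩ := Hint_fderiv (μ := μ) hf hc (Complex.I • v)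
  refine ⟨(i1.sub (i2.const_mul _)).div_const 2, ?_⟩
  simp only [del]
  rw [integral_div, integral_sub i1 (i2.const_mul _), integral_const_mul, e1, e2]
  simp

/-- a function which is continuous on `U` and vanishes outside a compact subset of `U`. -/
theorem Hint_cpt {U K : Set E} (hU : IsOpen U) (hK : IsCompact K) (hKU : K ⊆ U) {F : E → ℂ}
    (hF : ∀ t ∈ U, ContinuousAt F t) (h0 : ∀ t, t ∉ K → F t = 0) :
    Integrable F μ ∧ ∫ t in U, F t ∂μ = ∫ t, F t ∂μ := by
  have hc : Continuous F := by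
    refine continuous_iff_continuousAt.2 fun t => ?_
    by_cases ht : t ∈ K
    · exact hF t (hKU ht)
    · refine (continuousAt_const (y := (0 : ℂ))).congr ?_
      filter_upwards [hK.isClosed.isOpen_compl.mem_nhds ht] with s hs using (h0 s hs).symm
  exact ⟨hc.integrable_of_hasCompactSupport (HasCompactSupport.intro hK h0),
    setIntegral_eq_integral_of_forall_compl_eq_zero fun t ht => h0 t fun h => ht (hKU h)⟩

theorem Hibp_c1 {U : Set E} {f τ : E → ℂ} (hf : ∀ t ∈ U, ContDiffAt ℝ 1 f t) (hτ : HTest U τ) :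
    ContDiff ℝ 1 fun t => f t * τ t := by
  refine contDiff_iff_contDiffAt.2 fun t => ?_
  by_cases ht : t ∈ tsupport τ
  · exact (hf t (hτ.sub ht)).mul (hτ.c2.of_le one_le_two).contDiffAt
  · refine (contDiffAt_const (c := (0 : ℂ))).congr_of_eventuallyEq ?_
    filter_upwards [notMem_tsupport_iff_eventuallyEq.1 ht] with s hs
    rw [hs, Pi.zero_apply, mul_zero]

/-- integration by parts for an abstract first order operator. -/
theorem Hibp_gen {U : Set E} (hU : IsOpen U) {f τ : E → ℂ} (hf : ∀ t ∈ U, ContDiffAt ℝ 1 f t)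
    (hτ : HTest U τ) (D : (E → ℂ) → E → ℂ)
    (hcongr : ∀ {f g : E → ℂ} {t : E}, f =ᶠ[𝓝 t] g → D f t = D g t) (h0 : ∀ t, D 0 t = 0)
    (hmul : ∀ {f g : E → ℂ} {t : E}, DifferentiableAt ℝ f t → DifferentiableAt ℝ g t →
      D (fun w => f w * g w) t = D f t * g t + f t * D g t)
    (hcont : ∀ {f : E → ℂ} {t : E}, ContDiffAt ℝ 1 f t → ContinuousAt (D f) t)
    (hint : ∀ {f : E → ℂ}, ContDiff ℝ 1 f → HasCompactSupport f → ∫ t, D f t ∂μ = 0) :
    ∫ t in U, f t * D τ t ∂μ = -∫ t in U, D f t * τ t ∂μ := by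
  have hτ1 : ContDiff ℝ 1 τ := hτ.c2.of_le one_le_two
  have z1 : ∀ t, t ∉ tsupport τ → D τ t = 0 := fun t ht => by
    rw [hcongr (notMem_tsupport_iff_eventuallyEq.1 ht), h0]
  obtain ⟨i1, -⟩ := Hint_cpt (μ := μ) hU hτ.cpt.isCompact hτ.sub (F := fun t => f t * D τ t)
    (fun t ht => (hf t ht).continuousAt.mul (hcont hτ1.contDiffAt))
    (fun t ht => by rw [z1 t ht, mul_zero])
  obtain ⟨i2, -⟩ := Hint_cpt (μ := μ) hU hτ.cpt.isCompact hτ.sub (F := fun t => D f t * τ t)
    (fun t ht => (hcont (hf t ht)).mul hτ1.continuous.continuousAt)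
    (fun t ht => by rw [image_eq_zero_of_notMem_tsupport ht, mul_zero])
  have hp := Hibp_c1 hf hτ
  obtain ⟨-, e3⟩ := Hint_cpt (μ := μ) hU hτ.cpt.isCompact hτ.sub (F := D fun t => f t * τ t)
    (fun t _ => hcont hp.contDiffAt) (fun t ht => by
      rw [hcongr (g := 0) ?_, h0]
      filter_upwards [notMem_tsupport_iff_eventuallyEq.1 ht] with s hs
      rw [hs, Pi.zero_apply, mul_zero])
  rw [hint hp hτ.cpt.mul_left, setIntegral_congr_fun hU.measurableSet
    (g := fun t => D f t * τ t + f t * D τ t) (fun t ht =>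
      hmul ((hf t ht).differentiableAt one_ne_zero) (hτ1.differentiable one_ne_zero t)),
    integral_add i2.integrableOn i1.integrableOn] at e3
  linear_combination e3

/-- `f * τ` is globally `C¹` (it vanishes near every point outside `tsupport τ`) with compact
support; `dbar_mul` on `U`; all three integrands vanish outside `tsupport τ` (`Hint_cpt`). -/
theorem Hibp_dbar {U : Set E} (hU : IsOpen U) {f τ : E → ℂ} (hf : ∀ t ∈ U, ContDiffAt ℝ 1 f t)
    (hτ : HTest U τ) (v : E) :
    ∫ t in U, f t * dbar τ t v ∂μ = -∫ t in U, dbar f t v * τ t ∂μ := by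
  exact Hibp_gen hU hf hτ (fun f t => dbar f t v) (fun h => Hdbar_congr h v)
    (fun _ => Hdbar_const 0 v) (fun h h' => dbar_mul h h' v) (fun h => Hdbar_cont h v)
    fun h h' => (Hint_dbar h h' v).2

theorem Hibp_del {U : Set E} (hU : IsOpen U) {f τ : E → ℂ} (hf : ∀ t ∈ U, ContDiffAt ℝ 1 f t)
    (hτ : HTest U τ) (v : E) :
    ∫ t in U, f t * del τ t v ∂μ = -∫ t in U, del f t v * τ t ∂μ := by
  exact Hibp_gen hU hf hτ (fun f t => del f t v) (fun h => Hdel_congr h v)
    (fun _ => Hdel_const 0 v) (fun h h' => Hdel_mul h h' v) (fun h => Hdel_cont h v)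
    fun h h' => (Hint_del h h' v).2

/-- exact forms are weakly closed (`Hibp_del` twice, `Hdel_c1`, `Hdel_del`). -/
theorem Hexact {U : Set E} (hU : IsOpen U) {f τ : E → ℂ} (hf : ∀ t ∈ U, ContDiffAt ℝ 2 f t)
    (hτ : HTest U τ) (v w : E) :
    ∫ t in U, del f t v * del τ t w ∂μ = ∫ t in U, del f t w * del τ t v ∂μ := by
  rw [Hibp_del hU (fun t ht => Hdel_c1 (hf t ht) v) hτ w,
    Hibp_del hU (fun t ht => Hdel_c1 (hf t ht) w) hτ v]
  congr 1
  exact setIntegral_congr_fun hU.measurableSet fun t ht => by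
    simp only [Hdel_del (hf t ht) v w]

/-- the pointwise divergence identity; `g s = ∑ j, ∂̄_j b_j`, `W_k = ∂̄_k W`.  Expand with `Hdel_sum`,
`Hdel_mul`, `dbar_mul`, `Hdel_conj`, `Hdbar_conj`, `Hlevi_vec`, `Hdbar_vec`; the second order terms
`W conj(b_j) ∂̄_k ∂_j b_k` and `W conj(b_j) ∂_j g` cancel by `Hdel_dbar`;
`∂_j W = conj (∂̄_j W)` as `W` is real (`Hdel_conj`). -/
theorem Hbk_id (e : ι → E) {b : ι → E → ℂ} {W : E → ℝ} {t : E} (hb : ∀ j, ContDiffAt ℝ 2 (b j) t)
    (hW : ContDiffAt ℝ 2 W t) :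
    (HQ e W t (fun j => b j t) (∑ j, dbar (b j) t (e j)) : ℂ) =
      W t * ∑ j, ∑ k, conj (del (b j) t (e k)) * del (b k) t (e j) +
      ∑ j, ∑ k, del (fun s => dbar (fun x => (W x : ℂ)) s (e k) * (conj (b j s) * b k s)) t (e j) -
      ∑ j, ∑ k, dbar (fun s => W s * (conj (b j s) * del (b k) s (e j))) t (e k) +
      ∑ j, del (fun s => W s * (conj (b j s) * ∑ k, dbar (b k) s (e k))) t (e j) := by
  have hc : ContDiffAt ℝ 2 (fun x => (W x : ℂ)) t := Complex.ofRealCLM.contDiff.contDiffAt.comp t hW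
  have d0 : DifferentiableAt ℝ (fun x => (W x : ℂ)) t := hc.differentiableAt two_ne_zero
  have d1 : ∀ j, DifferentiableAt ℝ (b j) t := fun j => (hb j).differentiableAt two_ne_zero
  have d2 : ∀ j, DifferentiableAt ℝ (fun s => conj (b j s)) t := fun j =>
    (Complex.conjCLE : ℂ →L[ℝ] ℂ).differentiableAt.comp t (d1 j)
  have d3 : ∀ v, DifferentiableAt ℝ (fun s => dbar (fun x => (W x : ℂ)) s v) t := fun v =>
    (Hdbar_c1 hc v).differentiableAt one_ne_zero
  have d4 : ∀ k v, DifferentiableAt ℝ (fun s => del (b k) s v) t := fun k v =>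
    (Hdel_c1 (hb k) v).differentiableAt one_ne_zero
  have d5 : ∀ k v, DifferentiableAt ℝ (fun s => dbar (b k) s v) t := fun k v =>
    (Hdbar_c1 (hb k) v).differentiableAt one_ne_zero
  have d6 : DifferentiableAt ℝ (fun s => ∑ k, dbar (b k) s (e k)) t :=
    DifferentiableAt.fun_sum fun k _ => d5 k _
  have hr : ∀ v, del (fun x => (W x : ℂ)) t v = conj (dbar (fun x => (W x : ℂ)) t v) := fun v => by
    rw [← Hdel_conj d0]
    simp only [Complex.conj_ofReal]
  obtain ⟨g, hg⟩ : ∃ g, g = ∑ j, dbar (b j) t (e j) := ⟨_, rfl⟩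
  have eA : ∀ j k, del (fun s => dbar (fun x => (W x : ℂ)) s (e k) * (conj (b j s) * b k s)) t (e j) =
      hess W t (e j) (e k) * (conj (b j t) * b k t) +
        conj (dbar (b j) t (e j)) * (b k t * dbar (fun x => (W x : ℂ)) t (e k)) +
        dbar (fun x => (W x : ℂ)) t (e k) * (conj (b j t) * del (b k) t (e j)) := fun j k => by
    rw [Hdel_mul (d3 _) ((d2 j).fun_mul (d1 k)), Hdel_mul (d2 j) (d1 k), Hdel_conj (d1 j), hess]
    ring
  have eB : ∀ j k, dbar (fun s => W s * (conj (b j s) * del (b k) s (e j))) t (e k) =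
      dbar (fun x => (W x : ℂ)) t (e k) * (conj (b j t) * del (b k) t (e j)) +
        W t * (conj (del (b j) t (e k)) * del (b k) t (e j)) +
        W t * (conj (b j t) * del (fun s => dbar (b k) s (e k)) t (e j)) := fun j k => by
    rw [dbar_mul d0 ((d2 j).fun_mul (d4 k _)), dbar_mul (d2 j) (d4 k _), Hdbar_conj (d1 j),
      Hdel_dbar (hb k)]
    ring
  have eC : ∀ j, del (fun s => W s * (conj (b j s) * ∑ k, dbar (b k) s (e k))) t (e j) =
      conj (b j t * dbar (fun x => (W x : ℂ)) t (e j)) * g +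
        W t * (conj (dbar (b j) t (e j)) * g) +
        ∑ k, W t * (conj (b j t) * del (fun s => dbar (b k) s (e k)) t (e j)) := fun j => by
    rw [Hdel_mul d0 ((d2 j).fun_mul d6), Hdel_mul (d2 j) d6, Hdel_conj (d1 j), hr,
      Hdel_sum _ fun k _ => d5 k _, ← hg, ← Finset.mul_sum, ← Finset.mul_sum, map_mul]
    ring
  simp only [eA, eB, eC, Finset.sum_add_distrib, ← Finset.mul_sum, ← Finset.sum_mul, ← map_sum,
    ← hg, ← Hdbar_vec e _ fun j => b j t, ← Hlevi_vec e hW fun j => b j t]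
  rw [HQ]
  push_cast
  rw [Complex.re_eq_add_conj, ← Complex.conj_mul', map_mul, Complex.conj_conj]
  ring

/-- the smooth Bochner–Kodaira inequality: integrate `Hbk_id` (`Hint_del`, `Hint_dbar`); the first
term is `W ∑ |∂_k b_j|² ≥ 0` by closedness. -/
theorem Hbk (e : ι → E) {b : ι → E → ℂ} (hb : ∀ j, ContDiff ℝ 2 (b j)) {W : E → ℝ}
    (hW : HTest univ W) (h0 : ∀ t, 0 ≤ W t)
    (hcl : ∀ t ∈ tsupport W, ∀ j k, del (b j) t (e k) = del (b k) t (e j)) :
    0 ≤ ∫ t, HQ e W t (fun j => b j t) (∑ j, dbar (b j) t (e j)) ∂μ := by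
  have hc : ContDiff ℝ 2 fun x => (W x : ℂ) := Complex.ofRealCLM.contDiff.comp hW.c2
  have hcs : HasCompactSupport fun x => (W x : ℂ) := hW.cpt.comp_left Complex.ofReal_zero
  have c1 : ∀ j, ContDiff ℝ 1 (b j) := fun j => (hb j).of_le one_le_two
  have c2 : ∀ j, ContDiff ℝ 1 fun s => conj (b j s) := fun j =>
    (Complex.conjCLE : ℂ →L[ℝ] ℂ).contDiff.comp (c1 j)
  have c3 : ∀ {f : E → ℂ}, ContDiff ℝ 2 f → ∀ v, ContDiff ℝ 1 fun s => dbar f s v :=
    fun hf v => contDiff_iff_contDiffAt.2 fun _ => Hdbar_c1 hf.contDiffAt v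
  have c4 : ∀ {f : E → ℂ}, ContDiff ℝ 2 f → ∀ v, ContDiff ℝ 1 fun s => del f s v :=
    fun hf v => contDiff_iff_contDiffAt.2 fun _ => Hdel_c1 hf.contDiffAt v
  have hA := fun j k => Hint_del (μ := μ) ((c3 hc (e k)).mul ((c2 j).mul (c1 k)))
    (HasCompactSupport.mul_right (HasCompactSupport.intro hcs.isCompact fun t ht => by
      rw [Hdbar_congr (notMem_tsupport_iff_eventuallyEq.1 ht)]
      exact Hdbar_const 0 _)) (e j)
  have hB := fun j k => Hint_dbar (μ := μ)
    ((hc.of_le one_le_two).mul ((c2 j).mul (c4 (hb k) (e j)))) hcs.mul_right (e k)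
  have hC := fun j => Hint_del (μ := μ) ((hc.of_le one_le_two).mul ((c2 j).mul
    (ContDiff.sum (s := Finset.univ) fun k _ => c3 (hb k) (e k)))) hcs.mul_right (e j)
  have iA := integrable_finsetSum Finset.univ fun j _ =>
    integrable_finsetSum Finset.univ fun k _ => (hA j k).1
  have iB := integrable_finsetSum Finset.univ fun j _ =>
    integrable_finsetSum Finset.univ fun k _ => (hB j k).1
  have iC := integrable_finsetSum Finset.univ fun j _ => (hC j).1
  have iD := (iA.sub iB).add iC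
  by_cases hi : Integrable (fun t => HQ e W t (fun j => b j t) (∑ j, dbar (b j) t (e j))) μ
  swap
  · rw [integral_undef hi]
  refine le_trans (le_of_eq ?_) (integral_mono iD.re hi fun t => ?_)
  · rw [integral_re iD, integral_add' (iA.sub iB) iC, integral_sub' iA iB,
      integral_finsetSum _ fun j _ => integrable_finsetSum _ fun k _ => (hA j k).1,
      integral_finsetSum _ fun j _ => integrable_finsetSum _ fun k _ => (hB j k).1,
      integral_finsetSum _ fun j _ => (hC j).1]
    simp only [integral_finsetSum _ fun k _ => (hA _ k).1,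
      integral_finsetSum _ fun k _ => (hB _ k).1, (hA _ _).2, (hB _ _).2, (hC _).2]
    simp
  · have h := congrArg Complex.re
      (Hbk_id e (fun j => (hb j).contDiffAt) hW.c2.contDiffAt (b := b) (t := t))
    have hp : 0 ≤ ((W t : ℂ) * ∑ j, ∑ k, conj (del (b j) t (e k)) * del (b k) t (e j)).re := by
      by_cases ht : t ∈ tsupport W
      · rw [Complex.re_ofReal_mul, Complex.re_sum]
        refine mul_nonneg (h0 t) (Finset.sum_nonneg fun j _ => ?_)
        rw [Complex.re_sum]
        refine Finset.sum_nonneg fun k _ => ?_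
        rw [hcl t ht j k, Complex.conj_mul', ← Complex.ofReal_pow, Complex.ofReal_re]
        positivity
      · simp [image_eq_zero_of_notMem_tsupport ht]
    simp only [Complex.ofReal_re, Complex.add_re, Complex.sub_re] at h
    simp only [Pi.add_apply, Pi.sub_apply, RCLike.re_to_complex, Complex.add_re, Complex.sub_re]
    linarith

end Crest.Agent.R271
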