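import Crest.Agent.R271.HCalc

/-! Row 271, part A: transfer between a Riemann domain and its charts. -/

set_option autoImplicit false
set_option linter.unusedSectionVars false

namespace Crest.Agent.R271

open MeasureTheory Filter Topology Set
open scoped ENNReal NNReal ComplexConjugate

namespace RD
variable {E Y : Type} [NormedAddCommGroup E] [NormedSpace ℂ E] [FiniteDimensional ℂ E]
  [MeasurableSpace E] [BorelSpace E] {μ : Measure E} [μ.IsAddHaarMeasure]
  [TopologicalSpace Y] [T2Space Y] [SecondCountableTopology Y] [MeasurableSpace Y] [BorelSpace Y]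
  (X : RD E Y μ) {F : Type} [NormedAddCommGroup F] [NormedSpace ℝ F] {Ω : Set Y}

section top

theorem U_open (hΩ : IsOpen Ω) (y : Y) : IsOpen (X.U Ω y) := by
  rw [U, ← X.coe y]
  exact (X.ch y).isOpen_image_of_subset_source (hΩ.inter (X.ch y).open_source) inter_subset_right

theorem U_mem {y : Y} {t : E} : t ∈ X.U Ω y ↔ t ∈ (X.ch y).target ∧ (X.ch y).symm t ∈ Ω := by
  constructor
  · rintro ⟨w, ⟨hw, hs⟩, rfl⟩
    exact ⟨X.π_mem hs, by rwa [X.symm_π hs]⟩
  · rintro ⟨h1, h2⟩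
    exact ⟨_, ⟨h2, (X.ch y).map_target h1⟩, X.π_symm h1⟩

/-- germs in the chart at `y` and in the preferred chart of the point. -/
theorem loc_symm {G : Type} (f : Y → G) {y : Y} {t : E} (ht : t ∈ (X.ch y).target) :
    X.π ((X.ch y).symm t) = t ∧ X.loc f ((X.ch y).symm t) =ᶠ[𝓝 t] X.loc f y := by
  refine ⟨X.π_symm ht, ?_⟩
  have := X.loc_eventuallyEq f ((X.ch y).map_target ht)
  rw [X.π_symm ht] at this
  exact this.symm

theorem loc_congr {G : Type} {f g : Y → G} {y : Y} (h : f =ᶠ[𝓝 y] g) :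
    X.loc f y =ᶠ[𝓝 (X.π y)] X.loc g y := by
  have h1 : Tendsto (X.ch y).symm (𝓝 (X.π y)) (𝓝 y) := by
    have := ((X.ch y).continuousAt_symm (X.π_mem (X.mem y))).tendsto
    rwa [X.symm_π (X.mem y)] at this
  exact h.comp_tendsto h1

theorem C2.at_chart {f : Y → F} (hf : X.C2 Ω f) {y : Y} {t : E} (ht : t ∈ X.U Ω y) :
    ContDiffAt ℝ 2 (X.loc f y) t := by
  obtain ⟨w, ⟨hw, hs⟩, rfl⟩ := ht
  exact (hf w hw).congr_of_eventuallyEq (X.loc_eventuallyEq f hs)

theorem db_chart (f : Y → ℂ) {y : Y} {t : E} (ht : t ∈ (X.ch y).target) (v : E) :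
    X.db f ((X.ch y).symm t) v = dbar (X.loc f y) t v := by
  rw [db, (X.loc_symm f ht).1]
  exact Hdbar_congr (X.loc_symm f ht).2 v

theorem dl_chart (f : Y → ℂ) {y : Y} {t : E} (ht : t ∈ (X.ch y).target) (v : E) :
    X.dl f ((X.ch y).symm t) v = del (X.loc f y) t v := by
  rw [dl, (X.loc_symm f ht).1]
  exact Hdel_congr (X.loc_symm f ht).2 v

theorem db_congr {f g : Y → ℂ} {y : Y} (h : f =ᶠ[𝓝 y] g) (v : E) : X.db f y v = X.db g y v := by
  exact Hdbar_congr (X.loc_congr h) v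

theorem dl_congr {f g : Y → ℂ} {y : Y} (h : f =ᶠ[𝓝 y] g) (v : E) : X.dl f y v = X.dl g y v := by
  exact Hdel_congr (X.loc_congr h) v

theorem db_of_notMem {f : Y → ℂ} {y : Y} (h : y ∉ tsupport f) (v : E) : X.db f y v = 0 := by
  exact (X.db_congr (notMem_tsupport_iff_eventuallyEq.1 h) v).trans (Hdbar_const 0 v)

theorem dl_of_notMem {f : Y → ℂ} {y : Y} (h : y ∉ tsupport f) (v : E) : X.dl f y v = 0 := by
  exact (X.dl_congr (notMem_tsupport_iff_eventuallyEq.1 h) v).trans (Hdel_const 0 v)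

theorem Hhelper24_cont {G H : Type} [TopologicalSpace H] (f : Y → G) (Φ : (E → G) → E → H)
    (hΦ : ∀ {a b : E → G} {t : E}, a =ᶠ[𝓝 t] b → Φ a t = Φ b t) {y : Y}
    (hc : ContinuousAt (Φ (X.loc f y)) (X.π y)) :
    ContinuousAt (fun w => Φ (X.loc f w) (X.π w)) y := by
  refine (hc.comp X.continuous_π.continuousAt).congr ?_
  filter_upwards [(X.ch y).open_source.mem_nhds (X.mem y)] with w hw
  exact hΦ (X.loc_eventuallyEq f hw)

theorem C2.db_cont {f : Y → ℂ} (hf : X.C2 Ω f) (v : E) : ContinuousOn (fun y => X.db f y v) Ω := by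
  exact fun y hy => (X.Hhelper24_cont f (fun a t => dbar a t v) (fun h => Hdbar_congr h v)
    (Hdbar_cont ((hf y hy).of_le (by norm_num)) v)).continuousWithinAt

theorem C2.dl_cont {f : Y → ℂ} (hf : X.C2 Ω f) (v : E) : ContinuousOn (fun y => X.dl f y v) Ω := by
  exact fun y hy => (X.Hhelper24_cont f (fun a t => del a t v) (fun h => Hdel_congr h v)
    (Hdel_cont ((hf y hy).of_le (by norm_num)) v)).continuousWithinAt

theorem C2.hess_cont {W : Y → ℝ} (hW : X.C2 Ω W) (v w : E) :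
    ContinuousOn (fun y => hess (X.loc W y) (X.π y) v w) Ω := by
  exact fun y hy => (X.Hhelper24_cont W (fun a t => hess a t v w) (fun h => Hhess_congr h v w)
    (Hhess_cont (hW y hy) v w)).continuousWithinAt

/-- the basic way to build a test function. -/
theorem Test.of {Ω' K : Set Y} (hΩ : IsOpen Ω) (hK : IsCompact K) (hKΩ : K ⊆ Ω) (hK' : K ⊆ Ω')
    {σ : Y → F} (hσ : X.C2 Ω σ) (h0 : ∀ y, y ∉ K → σ y = 0) : X.Test Ω' σ := by
  refine ⟨fun y _ => ?_, HasCompactSupport.intro hK h0,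
    (closure_minimal (Function.support_subset_iff'.2 h0) hK.isClosed).trans hK'⟩
  by_cases hy : y ∈ K
  · exact hσ y (hKΩ hy)
  · have h1 : σ =ᶠ[𝓝 y] fun _ => 0 := by
      filter_upwards [hK.isClosed.isOpen_compl.mem_nhds hy] with w hw using h0 w hw
    exact (contDiffAt_const (c := (0 : F))).congr_of_eventuallyEq (X.loc_congr h1)

theorem Test.mono {Ω' : Set Y} {σ : Y → F} (h : X.Test Ω σ) (hs : tsupport σ ⊆ Ω') :
    X.Test Ω' σ := ⟨h.c2, h.cpt, hs⟩

theorem Test.zero : X.Test Ω (fun _ => (0 : F)) := by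
  exact Test.of X isOpen_empty isCompact_empty Subset.rfl (empty_subset _)
    (fun _ h => h.elim) fun _ _ => rfl

theorem Test.add {σ τ : Y → F} (h : X.Test Ω σ) (h' : X.Test Ω τ) :
    X.Test Ω fun y => σ y + τ y := by
  exact ⟨fun y hy => (h.c2 y hy).add (h'.c2 y hy), h.cpt.add h'.cpt,
    (tsupport_add σ τ).trans (union_subset h.sub h'.sub)⟩

/-- the product of a `C²` function on `Ω ⊇ Ω'` and a test function on `Ω'`. -/
theorem Test.mul_left {A : Type} [NormedRing A] [NormedAlgebra ℝ A] {Ω' : Set Y} (hΩ : IsOpen Ω)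
    (hs : Ω' ⊆ Ω) {f σ : Y → A} (hf : X.C2 Ω f) (h : X.Test Ω' σ) :
    X.Test Ω' fun y => f y * σ y := by
  exact Test.of X hΩ h.cpt (h.sub.trans hs) h.sub (fun y hy => (hf y hy).mul (h.c2 y trivial))
    fun y hy => by rw [image_eq_zero_of_notMem_tsupport hy, mul_zero]

theorem push_eq {G : Type} [Zero G] (σ : Y → G) {y : Y} {t : E} (ht : t ∈ (X.ch y).target) :
    X.push y σ =ᶠ[𝓝 t] X.loc σ y := by
  filter_upwards [(X.ch y).open_target.mem_nhds ht] with s hs using indicator_of_mem hs _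

theorem pull_eq {G : Type} [Zero G] (τ : E → G) {y : Y} {t : E} (ht : t ∈ (X.ch y).target) :
    X.loc (X.pull y τ) y =ᶠ[𝓝 t] τ := by
  filter_upwards [(X.ch y).open_target.mem_nhds ht] with s hs
  simp only [loc, pull, Function.comp, indicator_of_mem ((X.ch y).map_target hs), X.π_symm hs]

/-- `X.push y σ` vanishes outside the compact set `π '' tsupport σ ⊆ X.U Ω y`. -/
theorem Test.push {y : Y} {σ : Y → F} (h : X.Test (Ω ∩ (X.ch y).source) σ) :
    HTest (X.U Ω y) (X.push y σ) := by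
  have hK : IsCompact (X.π '' tsupport σ) := h.cpt.isCompact.image X.continuous_π
  have hKU : X.π '' tsupport σ ⊆ X.U Ω y := image_mono h.sub
  have h0 : ∀ t, t ∉ X.π '' tsupport σ → X.push y σ t = 0 := by
    intro t ht
    by_cases ht' : t ∈ (X.ch y).target
    · rw [RD.push, indicator_of_mem ht']
      exact image_eq_zero_of_notMem_tsupport (f := σ) fun h' => ht ⟨_, h', X.π_symm ht'⟩
    · exact indicator_of_notMem ht' _
  refine ⟨contDiff_iff_contDiffAt.2 fun t => ?_, HasCompactSupport.intro hK h0,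
    (closure_minimal (Function.support_subset_iff'.2 h0) hK.isClosed).trans hKU⟩
  by_cases ht : t ∈ X.π '' tsupport σ
  · have ht' := (X.U_mem.1 (hKU ht)).1
    exact (C2.at_chart X h.c2 (X.U_mem.2 ⟨ht', trivial⟩)).congr_of_eventuallyEq (X.push_eq σ ht')
  · refine (contDiffAt_const (c := (0 : F))).congr_of_eventuallyEq ?_
    filter_upwards [hK.isClosed.isOpen_compl.mem_nhds ht] with w hw using h0 w hw

/-- `X.pull y τ` vanishes outside the compact set `(X.ch y).symm '' tsupport τ`. -/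
theorem Test.pull {y : Y} {τ : E → F} (h : HTest (X.U Ω y) τ) :
    X.Test (Ω ∩ (X.ch y).source) (X.pull y τ) := by
  have hs : ∀ t ∈ tsupport τ, t ∈ (X.ch y).target ∧ (X.ch y).symm t ∈ Ω := fun t ht =>
    X.U_mem.1 (h.sub ht)
  have hK : IsCompact ((X.ch y).symm '' tsupport τ) :=
    h.cpt.isCompact.image_of_continuousOn ((X.ch y).continuousOn_symm.mono fun t ht => (hs t ht).1)
  have hK' : (X.ch y).symm '' tsupport τ ⊆ Ω ∩ (X.ch y).source := by
    rintro _ ⟨t, ht, rfl⟩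
    exact ⟨(hs t ht).2, (X.ch y).map_target (hs t ht).1⟩
  refine Test.of X (X.ch y).open_source hK (hK'.trans inter_subset_right) hK' (fun w hw => ?_)
    fun w hw => ?_
  · exact h.c2.contDiffAt.congr_of_eventuallyEq
      ((X.loc_eventuallyEq _ hw).symm.trans (X.pull_eq τ (X.π_mem hw)))
  · by_cases hw' : w ∈ (X.ch y).source
    · rw [RD.pull, indicator_of_mem hw']
      exact image_eq_zero_of_notMem_tsupport fun h' => hw ⟨_, h', X.symm_π hw'⟩
    · exact indicator_of_notMem hw' _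

theorem Hh94_bump (hΩ : IsOpen Ω) {y : Y} (hy : y ∈ Ω) :
    ∃ β : Y → ℝ, X.Test (Ω ∩ (X.ch y).source) β ∧ (∀ w, 0 ≤ β w) ∧ {w | β w = 1} ∈ 𝓝 y := by
  have hm : X.π y ∈ X.U Ω y := ⟨y, ⟨hy, X.mem y⟩, rfl⟩
  obtain ⟨ε, hε, hsub⟩ := Metric.nhds_basis_closedBall.mem_iff.1 ((X.U_open hΩ y).mem_nhds hm)
  let b : ContDiffBump (X.π y) := ⟨ε / 2, ε, by positivity, half_lt_self hε⟩
  refine ⟨X.pull y b, Test.pull X ⟨b.contDiff, b.hasCompactSupport, ?_⟩, fun w => ?_, ?_⟩
  · rw [b.tsupport_eq]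
    exact hsub
  · exact Set.indicator_nonneg (fun w _ => b.nonneg) w
  · have h1 : ∀ᶠ w in 𝓝 y, b (X.π w) = 1 :=
      X.continuous_π.continuousAt.eventually b.eventuallyEq_one
    filter_upwards [h1, (X.ch y).open_source.mem_nhds (X.mem y)] with w hw hw'
    rw [pull, Set.indicator_of_mem hw', hw]

/-- partition of unity.  For `y ∈ K` pull back a bump `β_y` (`ContDiffBump (X.π y)` with
`closedBall (π y) rOut ⊆ X.U Ω y`, `Test.pull`), which is `1` near `y`; finitely many of these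
neighbourhoods cover `K` (`IsCompact.elim_nhds_subcover`); `r y = β_y * ψ (∑ β)`,
`ψ s = (s + Real.smoothTransition (1 - s))⁻¹` (the denominator is positive for `s ≥ 0`). -/
theorem partition (hΩ : IsOpen Ω) {K : Set Y} (hK : IsCompact K) (hKΩ : K ⊆ Ω) :
    ∃ (s : Finset Y) (r : Y → Y → ℝ), (∀ y ∈ s, X.Test (Ω ∩ (X.ch y).source) (r y)) ∧
      (∀ y ∈ s, ∀ w, 0 ≤ r y w) ∧ ∀ w ∈ K, ∑ y ∈ s, r y w = 1 := by
  choose! β hβ h0 h1 using fun y (hy : y ∈ K) => X.Hh94_bump hΩ (hKΩ hy)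
  obtain ⟨s, hs, hcov⟩ := hK.elim_nhds_subcover (fun y => {w | β y w = 1}) h1
  have hnn : ∀ w, 0 ≤ ∑ y ∈ s, β y w := fun w => Finset.sum_nonneg fun y hy => h0 y (hs y hy) w
  have hpos : ∀ a : ℝ, 0 ≤ a → 0 < a + Real.smoothTransition (1 - a) := by
    intro a ha
    rcases ha.eq_or_lt with h | h
    · rw [← h, sub_zero, Real.smoothTransition.one]
      norm_num
    · exact add_pos_of_pos_of_nonneg h (Real.smoothTransition.nonneg _)
  refine ⟨s, fun y w => (∑ y ∈ s, β y w + Real.smoothTransition (1 - ∑ y ∈ s, β y w))⁻¹ * β y w,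
    fun y hy => ?_, fun y hy w => mul_nonneg (inv_nonneg.2 (hpos _ (hnn w)).le) (h0 y (hs y hy) w),
    fun w hw => ?_⟩
  · refine Test.mul_left X isOpen_univ (subset_univ _) (fun w _ => ?_) (hβ y (hs y hy))
    have h2 : ContDiffAt ℝ 2 (fun t => ∑ y ∈ s, X.loc (β y) w t) (X.π w) :=
      ContDiffAt.sum fun y hy => (hβ y (hs y hy)).c2 w (mem_univ _)
    exact (h2.add (Real.smoothTransition.contDiffAt.comp _ (contDiffAt_const.sub h2))).inv
      (hpos _ (hnn _)).ne'
  · obtain ⟨y, hy, hyw⟩ := mem_iUnion₂.1 (hcov hw)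
    have h2 : 1 ≤ ∑ y ∈ s, β y w := by
      rw [← (show β y w = 1 from hyw)]
      exact Finset.single_le_sum (f := fun y => β y w) (fun y hy => h0 y (hs y hy) w) hy
    rw [← Finset.mul_sum, Real.smoothTransition.zero_of_nonpos (by linarith), add_zero]
    exact inv_mul_cancel₀ (by linarith)

end top

section meas

/-- see the proof of `lintegral_chart` (`h1`, `h3`). -/
theorem map_chart (hΩ : IsOpen Ω) (y : Y) :
    Measure.map X.π (X.ν.restrict (Ω ∩ (X.ch y).source)) = μ.restrict (X.U Ω y) ∧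
      Measure.map (X.ch y).symm (μ.restrict (X.U Ω y)) = X.ν.restrict (Ω ∩ (X.ch y).source) ∧
      AEMeasurable (X.ch y).symm (μ.restrict (X.U Ω y)) := by
  have hm : Measurable X.π := X.continuous_π.measurable
  have hA : MeasurableSet (Ω ∩ (X.ch y).source) := (hΩ.inter (X.ch y).open_source).measurableSet
  have hB : MeasurableSet (X.U Ω y) := (X.U_open hΩ y).measurableSet
  have hsub : X.U Ω y ⊆ (X.ch y).target := by
    rintro _ ⟨w, hw, rfl⟩
    exact X.π_mem hw.2
  have h1 := ((X.mp y).restrict_preimage hB).map_eq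
  have e1 : X.π ⁻¹' (X.U Ω y) ∩ (X.ch y).source = Ω ∩ (X.ch y).source := by
    ext w
    constructor
    · rintro ⟨⟨w', hw', e⟩, hw⟩
      rwa [← X.symm_π hw, ← e, X.symm_π hw'.2]
    · exact fun hw => ⟨⟨w, hw, rfl⟩, hw.2⟩
  rw [Measure.restrict_restrict (hm hB), Measure.restrict_restrict hB, e1,
    Set.inter_eq_left.2 hsub] at h1
  have h2 : AEMeasurable (X.ch y).symm (μ.restrict (X.U Ω y)) :=
    ((X.ch y).continuousOn_symm.mono hsub).aemeasurable hB
  refine ⟨h1, ?_, h2⟩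
  rw [← h1] at h2 ⊢
  rw [h2.map_map_of_aemeasurable hm.aemeasurable]
  refine (Measure.map_congr ?_).trans Measure.map_id
  filter_upwards [ae_restrict_mem hA] with w hw using X.symm_π hw.2

/-- no measurability assumption: `f` is a.e. strongly measurable iff `X.loc f y` is (`map_chart`,
`integral_map`, `integral_non_aestronglyMeasurable`). -/
theorem integral_chart (hΩ : IsOpen Ω) (y : Y) {f : Y → F}
    (h0 : ∀ w ∈ Ω, w ∉ (X.ch y).source → f w = 0) :
    ∫ w in Ω, f w ∂X.ν = ∫ t in X.U Ω y, X.loc f y t ∂μ := by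
  obtain ⟨h1, h2, h3⟩ := X.map_chart hΩ y
  have hA : MeasurableSet (Ω ∩ (X.ch y).source) := (hΩ.inter (X.ch y).open_source).measurableSet
  rw [setIntegral_eq_of_subset_of_forall_sdiff_eq_zero hΩ.measurableSet
    (inter_subset_left (t := (X.ch y).source))
    (fun w hw => h0 w hw.1 fun h => hw.2 ⟨hw.1, h⟩)]
  by_cases hm : AEStronglyMeasurable f (X.ν.restrict (Ω ∩ (X.ch y).source))
  · rw [← h2] at hm ⊢
    exact integral_map h3 hm
  · rw [integral_non_aestronglyMeasurable hm, integral_non_aestronglyMeasurable]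
    intro h
    rw [← h1] at h
    refine hm ((h.comp_aemeasurable X.continuous_π.measurable.aemeasurable).congr ?_)
    filter_upwards [ae_restrict_mem hA] with w hw using X.loc_π f hw.2

theorem memLp_chart (hΩ : IsOpen Ω) (y : Y) {f : Y → F} {p : ℝ≥0∞}
    (hf : MemLp f p (X.ν.restrict Ω)) : MemLp (X.loc f y) p (μ.restrict (X.U Ω y)) := by
  obtain ⟨-, h2, h3⟩ := X.map_chart hΩ y
  have h := hf.mono_measure (Measure.restrict_mono (inter_subset_left (t := (X.ch y).source)) le_rfl)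
  rw [← h2] at h
  exact h.comp_of_map h3

theorem ae_chart (hΩ : IsOpen Ω) (y : Y) {P : E → Prop} (h : ∀ᵐ t ∂μ.restrict (X.U Ω y), P t) :
    ∀ᵐ w ∂X.ν.restrict (Ω ∩ (X.ch y).source), P (X.π w) := by
  rw [← (X.map_chart hΩ y).1] at h
  exact ae_of_ae_map X.continuous_π.measurable.aemeasurable h

theorem openPos : X.ν.IsOpenPosMeasure := by
  refine ⟨fun V hV ⟨y, hy⟩ h0 => ?_⟩
  have h1 := (X.map_chart hV y).1
  rw [Measure.restrict_eq_zero.2 (measure_mono_null inter_subset_left h0), Measure.map_zero] at h1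
  exact (X.U_open hV y).measure_ne_zero μ ⟨X.π y, y, ⟨hy, X.mem y⟩, rfl⟩
    (Measure.restrict_eq_zero.1 h1.symm)

/-- continuous functions on `Ω` are bounded on `Ω' ⊆ K ⊆ Ω`, `K` compact. -/
theorem bdd_cont {Ω' K : Set Y} (hΩ' : MeasurableSet Ω') (hK : IsCompact K) (h1 : Ω' ⊆ K)
    (h2 : K ⊆ Ω) {c : Y → F} (hc : ContinuousOn c Ω) :
    AEStronglyMeasurable c (X.ν.restrict Ω') ∧ ∃ M : ℝ, 0 ≤ M ∧ ∀ y ∈ Ω', ‖c y‖ ≤ M := by
  obtain ⟨C, hC⟩ := hK.exists_bound_of_continuousOn (hc.mono h2)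
  exact ⟨(hc.mono (h1.trans h2)).aestronglyMeasurable hΩ', max C 0, le_max_right _ _,
    fun y hy => (hC y (h1 hy)).trans (le_max_left _ _)⟩

theorem memLp_cont {Ω' K : Set Y} (hΩ' : MeasurableSet Ω') (hK : IsCompact K) (h1 : Ω' ⊆ K)
    (h2 : K ⊆ Ω) {c : Y → F} (hc : ContinuousOn c Ω) (p : ℝ≥0∞) :
    MemLp c p (X.ν.restrict Ω') := by
  obtain ⟨hm, M, -, hM⟩ := X.bdd_cont hΩ' hK h1 h2 hc
  have := X.locFin
  have : IsFiniteMeasure (X.ν.restrict Ω') :=
    isFiniteMeasure_restrict.2 ((measure_mono h1).trans_lt hK.measure_lt_top).ne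
  exact MemLp.of_bound hm M ((ae_restrict_mem hΩ').mono hM)

theorem memLp_mul {Ω' K : Set Y} (hΩ' : MeasurableSet Ω') (hK : IsCompact K) (h1 : Ω' ⊆ K)
    (h2 : K ⊆ Ω) {c f : Y → ℂ} (hc : ContinuousOn c Ω) {p : ℝ≥0∞}
    (hf : MemLp f p (X.ν.restrict Ω')) : MemLp (fun y => c y * f y) p (X.ν.restrict Ω') := by
  obtain ⟨hm, M, -, hM⟩ := X.bdd_cont hΩ' hK h1 h2 hc
  refine hf.of_le_mul (c := M) (hm.mul hf.1) ((ae_restrict_mem hΩ').mono fun y hy => ?_)
  rw [norm_mul]
  exact mul_le_mul_of_nonneg_right (hM y hy) (norm_nonneg _)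

/-- a continuous function on `Ω` vanishing outside a compact subset. -/
theorem memLp_cpt {K : Set Y} (hΩ : IsOpen Ω) (hK : IsCompact K) (h2 : K ⊆ Ω) {c : Y → F}
    (hc : ContinuousOn c Ω) (h0 : ∀ y ∈ Ω, y ∉ K → c y = 0) (p : ℝ≥0∞) :
    MemLp c p (X.ν.restrict Ω) := by
  have hm : MeasurableSet K := hK.isClosed.measurableSet
  have h : MemLp (K.indicator c) p (X.ν.restrict Ω) := by
    rw [memLp_indicator_iff_restrict hm, Measure.restrict_restrict hm, inter_eq_left.2 h2]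
    exact X.memLp_cont hm hK subset_rfl h2 hc p
  refine h.ae_eq ((ae_restrict_mem hΩ.measurableSet).mono fun y hy => ?_)
  by_cases hy' : y ∈ K
  · exact Set.indicator_of_mem hy' _
  · rw [Set.indicator_of_notMem hy', h0 y hy hy']

end meas

end RD

end Crest.Agent.R271
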