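import Crest.Agent.R271.LP

/-! Row 271, part B: the auxiliary functions of one variable in the extension theorem. -/

set_option autoImplicit false

namespace Crest.Agent.R271

open Filter Topology
open scoped ComplexConjugate

/-- `η`. -/
noncomputable def otE (ε x : ℝ) : ℝ := 14 - Real.log (x + ε) - x

/-- `-η'`. -/
noncomputable def otD (ε x : ℝ) : ℝ := 1 / (x + ε) + 1

/-- `Ψ' + x Ψ''` for `Ψ = - log η`. -/
noncomputable def otL (ε x : ℝ) : ℝ :=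
  (otE ε x * (ε / (x + ε) ^ 2 + 1) + x * otD ε x ^ 2) / otE ε x ^ 2

variable {ε x : ℝ}

theorem otE_bounds (hε : 0 < ε) (hε' : ε ≤ 1 / 2) (hx : 0 ≤ x) (hx' : x ≤ 1) :
    12 ≤ otE ε x ∧ otE ε x ≤ 14 - Real.log ε := by
  have h1 := Real.log_le_sub_one_of_pos (show 0 < x + ε by linarith)
  have h2 := Real.log_le_log hε (show ε ≤ x + ε by linarith)
  unfold otE
  constructor <;> linarith

theorem otL_pos (hε : 0 < ε) (hε' : ε ≤ 1 / 2) (hx : 0 ≤ x) (hx' : x ≤ 1) : 0 < otL ε x := by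
  have h : 0 < otE ε x := by linarith [(otE_bounds hε hε' hx hx').1]
  unfold otL
  positivity

theorem OTr_mul (hε : 0 < ε) (hx : 0 ≤ x) (hx' : x ≤ 1) : x * otE ε x ≤ 15 := by
  rcases hx.eq_or_lt with rfl | h0
  · norm_num
  have h1 := mul_le_mul_of_nonneg_left (Real.log_le_log h0 (show x ≤ x + ε by linarith)) hx
  have h2 := Real.negMulLog_le_one_sub_self hx
  unfold Real.negMulLog at h2
  unfold otE
  nlinarith

theorem OTr_u {u : ℝ} (hε : 0 < ε) (hε' : ε ≤ 1 / 2) (hx : 0 ≤ x) (hx' : x ≤ 1) (hu0 : 0 < u)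
    (hu1 : u * (x + ε) = 1) : x * (x * (u + 1) ^ 2) ≤ 4 ∧ (x ≤ ε →
      x * (u + 1) ^ 2 ≤ 4 * (ε * u ^ 2 + 1) ∧ 1 ≤ 4 * ε * (ε * u ^ 2 + 1)) := by
  refine ⟨?_, fun h => ⟨?_, ?_⟩⟩
  · have h1 : u * x + x ≤ 2 := by linarith [mul_pos hu0 hε]
    have h2 := pow_le_pow_left₀ (by positivity) h1 2
    linarith
  · have h1 : (u + 1) ^ 2 ≤ 2 * u ^ 2 + 2 := by linarith [sq_nonneg (u - 1)]
    have h2 := mul_le_mul h h1 (by positivity) hε.le
    linarith [mul_nonneg hε.le (sq_nonneg u)]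
  · have h1 : 1 ≤ 2 * (ε * u) := by linarith [mul_le_mul_of_nonneg_left h hu0.le]
    have h2 := one_le_pow₀ h1 (n := 2)
    linarith

theorem OTr_in {A η W m q g L₀ : ℝ} (hε : 0 < ε) (hη : 12 ≤ η) (hxη : x * η ≤ 15) (hW : 0 ≤ W)
    (hm1 : 1 ≤ m) (hq0 : 0 ≤ q) (h1 : q ≤ 4 * m) (h2 : 1 ≤ 4 * ε * m) (hg : g ^ 2 ≤ L₀ / ε ^ 2)
    (hab : A ≤ 2 * g ^ 2 + 2 * (W * q / η ^ 2)) :
    A / (η * ((η * m + q) / η ^ 2)) + x * W / 30 ≤ W / η + 8 * L₀ / ε := by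
  have η0 : 0 < η := by linarith
  have m0 : 0 < m := by linarith
  have N0 : 0 < η * m + q := by positivity
  have b1 : 2 * g ^ 2 * (η / (η * m + q)) ≤ 8 * L₀ / ε := by
    have c1 : η / (η * m + q) ≤ 4 * ε := by
      rw [div_le_iff₀ N0]
      linarith [mul_le_mul_of_nonneg_left h2 η0.le, mul_nonneg hε.le hq0]
    calc 2 * g ^ 2 * (η / (η * m + q)) ≤ 2 * g ^ 2 * (4 * ε) := by gcongr
      _ ≤ 2 * (L₀ / ε ^ 2) * (4 * ε) := by gcongr
      _ = 8 * L₀ / ε := by field_simp; ring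
  have b2 : 2 * (q / (η * (η * m + q))) + x / 30 ≤ 1 / η := by
    have c1 : 2 * (q / (η * (η * m + q))) ≤ 1 / (2 * η) := by
      rw [← mul_div_assoc, div_le_div_iff₀ (by positivity) (by positivity)]
      have c0 : 3 * q ≤ η * m := by linarith [mul_le_mul_of_nonneg_right hη m0.le]
      linarith [mul_le_mul_of_nonneg_left c0 η0.le]
    have c2 : x / 30 ≤ 1 / (2 * η) := by
      rw [div_le_div_iff₀ (by norm_num) (by positivity)]
      linarith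
    have c3 : 1 / η = 1 / (2 * η) + 1 / (2 * η) := by field_simp; ring
    linarith
  calc A / (η * ((η * m + q) / η ^ 2)) + x * W / 30
      ≤ (2 * g ^ 2 + 2 * (W * q / η ^ 2)) / (η * ((η * m + q) / η ^ 2)) + x * W / 30 := by
        gcongr
    _ = W * (2 * (q / (η * (η * m + q))) + x / 30) + 2 * g ^ 2 * (η / (η * m + q)) := by
        field_simp
        ring
    _ ≤ W * (1 / η) + 8 * L₀ / ε := by gcongr
    _ = W / η + 8 * L₀ / ε := by ring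

theorem OTr_out {η W m q : ℝ} (hη : 12 ≤ η) (hxη : x * η ≤ 15) (hW : 0 ≤ W)
    (hm1 : 1 ≤ m) (hq0 : 0 ≤ q) (hq1 : x * q ≤ 4) :
    W * q / η ^ 2 / (η * ((η * m + q) / η ^ 2)) + x * W / 30 ≤ W / η := by
  have η0 : 0 < η := by linarith
  have m0 : 0 < m := by linarith
  have N0 : 0 < η * m + q := by positivity
  have b1 : x / 30 ≤ m / (η * m + q) := by
    rw [div_le_div_iff₀ (by norm_num) N0]
    linarith [mul_le_mul_of_nonneg_right hxη m0.le]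
  calc W * q / η ^ 2 / (η * ((η * m + q) / η ^ 2)) + x * W / 30
      = W * (q / (η * (η * m + q)) + x / 30) := by field_simp
    _ ≤ W * (q / (η * (η * m + q)) + m / (η * m + q)) := by gcongr
    _ = W / η := by
        field_simp
        ring

/-- Put `η = otE`, `m = ε / (x + ε) ^ 2 + 1`, `q = x otD ^ 2`, `b = q / (η m + q)`.  Then `x η ≤ 15`,
`x q ≤ 4 ≤ 4 m`, so `(1 - b) / η = m / (η m + q) ≥ x / 19`.  For `x ≤ ε`: `q ≤ 4 m`, so `b ≤ 1 / 4`,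
and `g ^ 2 / (η otL) ≤ g ^ 2 / m ≤ 4 ε g ^ 2`. -/
theorem ot_point (hε : 0 < ε) (hε' : ε ≤ 1 / 2) {s : ℂ} (hs : ‖s‖ ^ 2 = x) (hx' : x ≤ 1) (w : ℂ)
    {g L₀ : ℝ} (hg : g ^ 2 ≤ L₀ / ε ^ 2) (hg0 : ε < x → g = 0) :
    ‖(g : ℂ) + w * ((otD ε x / otE ε x : ℝ) : ℂ) * s‖ ^ 2 / (otE ε x * otL ε x) + x * ‖w‖ ^ 2 / 30 ≤
      ‖w‖ ^ 2 / otE ε x + if x ≤ ε then 8 * L₀ / ε else 0 := by
  have hx : 0 ≤ x := hs ▸ sq_nonneg _
  have hη := (otE_bounds hε hε' hx hx').1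
  have hxη := OTr_mul hε hx hx'
  have ha : ‖w * ((otD ε x / otE ε x : ℝ) : ℂ) * s‖ ^ 2 =
      ‖w‖ ^ 2 * (x * otD ε x ^ 2) / otE ε x ^ 2 := by
    rw [norm_mul, norm_mul, mul_pow, mul_pow, hs, Complex.norm_real, Real.norm_eq_abs, sq_abs]
    ring
  have hab : ‖(g : ℂ) + w * ((otD ε x / otE ε x : ℝ) : ℂ) * s‖ ^ 2 ≤
      2 * g ^ 2 + 2 * ‖w * ((otD ε x / otE ε x : ℝ) : ℂ) * s‖ ^ 2 := by
    have h1 := pow_le_pow_left₀ (norm_nonneg _)
      (norm_add_le (g : ℂ) (w * ((otD ε x / otE ε x : ℝ) : ℂ) * s)) 2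
    rw [Complex.norm_real, Real.norm_eq_abs] at h1
    linarith [sq_nonneg (|g| - ‖w * ((otD ε x / otE ε x : ℝ) : ℂ) * s‖), sq_abs g]
  have hxe : 0 < x + ε := by linarith
  have hm : ε / (x + ε) ^ 2 = ε * (1 / (x + ε)) ^ 2 := by field_simp
  obtain ⟨h1, h2⟩ := OTr_u (u := 1 / (x + ε)) hε hε' hx hx' (by positivity) (by field_simp)
  have hm1 : 1 ≤ ε * (1 / (x + ε)) ^ 2 + 1 := le_add_of_nonneg_left (by positivity)
  rw [ha] at hab
  unfold otL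
  rw [hm]
  split_ifs with hc
  · exact OTr_in hε hη hxη (sq_nonneg _) hm1 (by positivity) (h2 hc).1 (h2 hc).2 hg hab
  · rw [hg0 (not_le.1 hc), Complex.ofReal_zero, zero_add, ha, add_zero]
    exact OTr_out hη hxη (sq_nonneg _) hm1 (by positivity) h1

end Crest.Agent.R271
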