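/-!
# Row 271 (S0413, Fujita freeness): plan of the proof

Interfaces: Defs, RDB, H (part A), LP, HC, Ex (part B), Core (part C), Ana (part D), HF (part F),
S0413 (part E).  Never change an interface statement without telling helper98.

## Part A: `RD.hormander` (H.lean)
Fix a basis e_j of E, d_j u = (Du e_j - i Du (i e_j))/2, db_j u = (Du e_j + i Du (i e_j))/2.
(AP) for a C^2 weight phi0 (one of the phi j) and a test form al = (al_j) (C^1 or C^2, compact support
in Omega):  |int u conj(div al)|^2 <= (int H e^{-phi0}) (int |div al|^2 e^{phi0}), div al = sum d_j al_j.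
 * replace rho by rho + sum |coord_j o pi|^2 (strictly psh, still an exhaustion). supp al in {rho < c}.
   Work on Om' = {rho < c + 2} (relatively compact), del = c + 2 - rho.
   psi = kappa(rho) with kappa C^2, 0 for rho <= c + 1/2 ..., e^psi >= |d eta_nu|^2 for the cutoffs
   eta_nu = theta(nu del) (|d eta_nu| <= C / del), |d psi|^2 <= C / del^2, psi <= C / del;
   phi = phi0 + A chi(rho), chi C^2 convex increasing, 0 for rho <= c, chi' >= 1/del^2, chi >= 1/del on
   supp psi (e.g. chi(s) = max(s - c, 0)^3 / (c + 2 - s)); A large.
 * write al = be e^{-phi0}; decompose be = b1 + b2 in L^2(Om', e^{-phi+psi})^n, b1 in ker S (closed subspace: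
   weakly db_k b_j = db_j b_k), b2 orthogonal.  db(test functions) lie in ker S, so weakly
   D b2 = 0 for D b = e^{phi-psi} div(e^{psi-phi} b) = sum (d_j b_j - phi_j b_j + psi_j b_j); so D b1 = D be.
 * Bochner-Kodaira for C^2 compactly supported forms g, del_j = d_j - phi_j:
   |sum del_j g_j|^2_phi + 1/2 sum |db_k g_j - db_j g_k|^2_phi = sum |db_k g_j|^2_phi + int levi phi (g) e^{-phi}.
 * (APX) a compactly supported L^2 form whose weak div and weak curl are in L^2 is a graph norm limit of
   test forms with supports in a fixed compact set: finite partition of unity in charts + convolution with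
   ContDiffBump (constant coefficient operators commute with convolution; no Friedrichs lemma needed).
 * apply to eta_nu b1, error terms are tails of |b1|^2 e^{-phi+psi}; Fatou:
   int levi phi0 (b1) e^{-phi} <= (1+eps) |D be|^2_phi, and <db u, be> = <db u, b1>_{phi-psi}
   <= (int H e^{-phi+2psi})^{1/2} (int levi phi0 (b1) e^{-phi})^{1/2}, -phi + 2 psi <= -phi0.  eps -> 0.
(limit) j -> infinity by dominated convergence: weight N.  (Riesz) in L^2(N nu): w with
 int u conj(div al) = int w conj(div al) N, so u - w N is weakly holomorphic, int |w N|^2 / N <= C.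
(Weyl) a locally integrable weakly holomorphic function is a.e. equal to a holomorphic function
 (convolve in a chart; L^1 Cauchy => locally uniformly Cauchy by the mean value inequality; R264.SCV.weierstrass;
 glue: the local representatives are unique since continuous).

## Part B (LP, HC, Ex)
(mean value) F holomorphic on a nbhd of a closed ball: sup on the half ball |F|^2 <= C int |F|^2.
(Stein) hermitian balls {sum |l_j (w - z)|^2 < r^2} and products with discs are Stein in RD.triv
 (exhaustion 1/(r^2 - N), levi_comp; sums).
(OT) W Stein bounded in E, disc D(t0', R) in C, t0 in the disc, N0 > 0 LP on a nbhd of the closure of W x D: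
 there is F holomorphic on W x D, F(., t0) = 1, int |F|^2 / N0 <= C R^2 int_W 1/N0(., t0), C universal.
 Proof (s = (t - t0)/(2R), |s| < 1): u0 = (cut(|s|^2/e^2) - 1)/s, P = orthogonal projection of L^2(1/N0) onto the
 (closed) holomorphic functions, w = u0 - P u0, F = 1 + s P u0 = cut - s w.  eta = 11 - log(|s|^2 + e^2) - |s|^2,
 psi = - log eta.  w e^psi is orthogonal to A^2(phi + psi), so hormander gives
 int |w|^2 e^{psi-phi} <= int |g + w psi_sbar|^2 / psi_{s sbar} e^{psi - phi}, g = cut'/e^2.
 With m = - eta_{s sbar} = e^2/(|s|^2+e^2)^2 + 1, q = |eta_s|^2 <= 2|s|^2/(|s|^2+e^2)^2 + 2|s|^2,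
 psi_{s sbar} = (eta m + q)/eta^2, b = |psi_s|^2/psi_{s sbar} = q/(eta m + q):  (1-b)/eta >= c |s|^2, and on |s| < e:
 b <= 1/4, |g|^2/(eta psi_{s sbar}) <= C/e^2.  Choose e so small that log N0 oscillates by <= 1 on W x D(t0, 2 R e).
(K') if nw^(-c) is not integrable near y (ball W around y, g bounded holomorphic on W), delta > 0: there is C with
 |F(y)|^2 <= C e^{(c+delta) T} int_{W, nw <= e^{-T}} |F|^2 for all T >= 0, F holomorphic on W.
 (`hc` with N = M_j^c, N0 = e^T M_j, M_j the approximants of nw; h_j is uniformly bounded on the half ball; if F(y)
 were large, M_j^(-c) would have uniformly bounded integrals near y.)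
(ex_add_le) c, c' not integrable, c'' > c + c' integrable for lam + lam'.  om(z,t) = (1 + sum |g_i e^{T lam_i(t)/2}|^2)^A,
 lam(t) = (1-t) lam + t lam'; int 1/om(., 1/2) <= C e^{-c'' T/2}; OT on W x D(1/2, R); f(t) = F(y,t);
 on Re t = -eta: (K') + averaging over D(t, eta) (there lam_i(t') <= (1+2 eta) lam_i) gives
 |f|^2 <= C e^{((c+delta)(1+2 eta) - c''/2) T}; same on Re t = 1 + eta; on the strip |f|^2 <= C e^{C T};
 maximum principle for f exp(gam T (t-1/2) + bet T (t-1/2)^2) on a long rectangle, T -> infinity.
(ex_lsc) reduce to fixed lam (ex_mono, ex_smul_le).  Parameter s = (y, b), G_i(z,s) = ev b_i (z + y), s(t) = s + (k t)^k (s0 - s),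
 OT on W x D(0,1) at t0 = 1/k for the approximants M_j^c; F is bounded with bounded derivative, so |F| >= 1/2 on
 W' x D(0,1/k); for |kt|^k <= min(1, N_d^{Lam/2}) (N_d = max(N(z,s), d)) one has N(z,s(t)) <= A N_d; hence
 int_{W'} min(1, N_d^{Lam/k}) N_d^{-c} <= C, d -> 0.
(ultrafilters) N >= 0, N^(-c) not integrable near z for all c > c0, {N = 0} null: the sets whose complement is
 contained in a measurable set with finite N^(-c) integral for some c > c0 form a filter compatible with nhds z;
 U an ultrafilter below both, N -> 0 along U.  val f = sup {a >= 0 | |f|^2 <= N^a U-a.e.}.  intNear_prod: take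
 N = the product, w_i = val g_i; then kappa <p,w> >= 1 and ex g w <= 1.
(not_intNear_inv) every nearby parallel line contains a zero (maximum principle for 1/f), so
 mu {|f| <= r} >= c r^2 by Fubini and translation invariance.  (intNear_poly) factor along a direction where the top form
 does not vanish, AM-GM, average over translates.

## Part D (Ana.lean)
Pt S = S ->a C with the topology of pointwise convergence; standard etale presentation + inverse function theorem give an
RD over Fin n -> C (measure: sum over a countable disjointed chart cover), all elements of S are Hol; Stein univ (sum |gam|^2 over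
generators gam).  WLOG the monic polynomial chi is irreducible, S = A[1/g], A = C[t][T]/chi.
(izumi, nz) s g^{ek} = Q(t,T); Cayley-Hamilton for multiplication by Q on A: a(t) = s s', a /= 0, deg a <= C k; intNear_poly.
(ALG) h Hol on univ, int |h|^2 (1 + |gam|^2)^(-M) finite => h in S: traces tau_i(t) = sum over the fibre of g^M h T^i, holomorphic off
 {Nm g = 0}, L^2 with polynomial growth (RD.lint); Nm(g) tau_i is weakly holomorphic / extends, is a polynomial, divisible by
 Nm(g) (not_intNear_inv); Euler dual basis: chi'(T) g^M h in A.
(bsp) hc with F = 1, N = nw^c N_y^n, N0 = a N_y, N_y = sum |s_i - s_i(y)|^2 (s_i spanning V; {N_y <= r} is a basis of compact nbhds of y),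
 not_intNear_norm forces h(y) = 1, ALG.  (den) Noether normalisation of S/p, continuity of roots, lying over.
(final) core (eps = 1/2) with ev f = loc f x, W = target; hc with N = Pi N_x^eta |sigma|^(2m/a), delta = 1/(2a); ALG.
(pole) common localisation S'' of S and S' with varpi invertible; nu_t = |det A|^2 nu_t' on Pt S'' (derivations S'' -> C at a point
 are determined by their values on t'); complement of Pt S'' in Pt S' is null (nz); |varpi|^(-2) would be integrable near a zero.

## Part F (HF.lean)
For V in a field F: a minimal reduction Y = span(1, y_1..y_d) <= V has y algebraically independent (linear change of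
coordinates); V^k <= V^N Y^(k-N); delta = [F : C(y)]; dim_{C(y)} C(y) V^j >= min(j+1, delta) gives
d! H(k) >= delta' (k - delta')^d for delta' <= delta; a common denominator gives d! H(k) <= delta (k + c)^d.
Reductions V^a' <= W >= u V'^a give delta a'^d = delta' a^d, so a^d | delta.  Apply to F = Frac(S/p).

## Part E (S0413)
Reduce to closed points.  Local rings of smooth C-algebras are regular (standard etale over C[t], R188 reg_of_unram) and UFDs
(induction on the dimension: x in m - m^2 prime, Nagata (RingTheory/Ideal/UFD), P R_x invertible with a finite free resolution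
(R188 reg_glDim) => stably free => free_of_isStablyFree_of_invertible).  Hence DVRs at prime divisors, Hartogs, L locally principal.
div f is finite.  Sections s_0..s_q of a0 L with affine X_{s_i} covering X, x in U = X_{s_0}; sigma = {s_i^e, b_j s_0^e} (degree a), V = span sigma/sigma_0.
A basepoint free family sigma' of degree a'' = 1 mod a, products sigma' sigma (degree a' = a'' + a), V' = span of ratios, u = sigma'_0^a/sigma_0^a'.
Reductions: for a valuation subring of K (centre xi on X by properness) W <= s O_xi for s in V^a' resp. u V'^a;
integrality of xi T over C[U T] (iInf_valuationSubring_superset), take homogeneous components.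
l = local generator of L at x, chart S = B_j, sigma~ = sigma_0 / l^a unit of S; g = f l^m / coef(dt).

## Part C (Core.lean): helper98.
-/
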