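import Crest.Agent.R271.Defs
import Crest.Agent.R264.Osgood

/-! Row 271: basic facts about Riemann domains. -/

set_option autoImplicit false

namespace Crest.Agent.R271

open MeasureTheory Filter Topology
open scoped ENNReal NNReal

namespace RD
variable {E Y : Type} [NormedAddCommGroup E] [NormedSpace ℂ E] [FiniteDimensional ℂ E]
  [MeasurableSpace E] [BorelSpace E] {μ : Measure E}
  [TopologicalSpace Y] [MeasurableSpace Y] [BorelSpace Y] (X : RD E Y μ)

theorem continuous_π : Continuous X.π := by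
  refine continuous_iff_continuousAt.2 fun y => ?_
  rw [← X.coe y]
  exact (X.ch y).continuousAt (X.mem y)

theorem symm_π {y y' : Y} (h : y' ∈ (X.ch y).source) : (X.ch y).symm (X.π y') = y' := by
  rw [← X.coe y]
  exact (X.ch y).left_inv h

theorem π_symm {y : Y} {t : E} (h : t ∈ (X.ch y).target) : X.π ((X.ch y).symm t) = t := by
  rw [← X.coe y]
  exact (X.ch y).right_inv h

theorem π_mem {y y' : Y} (h : y' ∈ (X.ch y).source) : X.π y' ∈ (X.ch y).target := by
  rw [← X.coe y]
  exact (X.ch y).map_source h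

theorem loc_π {F : Type} (f : Y → F) {y y' : Y} (h : y' ∈ (X.ch y).source) :
    X.loc f y (X.π y') = f y' := by
  simp only [loc, Function.comp, X.symm_π h]

/-- local expressions in different charts have the same germ. -/
theorem loc_eventuallyEq {F : Type} (f : Y → F) {y y' : Y} (h : y' ∈ (X.ch y).source) :
    X.loc f y =ᶠ[𝓝 (X.π y')] X.loc f y' := by
  have h1 : (X.ch y).target ∈ 𝓝 (X.π y') := (X.ch y).open_target.mem_nhds (X.π_mem h)
  have h2 : ∀ᶠ t in 𝓝 (X.π y'), (X.ch y).symm t ∈ (X.ch y').source := by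
    refine ((X.ch y).continuousAt_symm (X.π_mem h)).eventually ?_
    rw [X.symm_π h]
    exact (X.ch y').open_source.mem_nhds (X.mem y')
  filter_upwards [h1, h2] with t ht ht'
  have := X.symm_π ht'
  rw [X.π_symm ht] at this
  simp only [loc, Function.comp, this]

theorem map_nhds (y : Y) : Filter.map X.π (𝓝 y) = 𝓝 (X.π y) := by
  rw [← X.coe y]
  exact (X.ch y).map_nhds_eq (X.mem y)

/-- integration in a chart (`F` need not be measurable). -/
theorem mp (y : Y) :
    MeasurePreserving X.π (X.ν.restrict (X.ch y).source) (μ.restrict (X.ch y).target) := by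
  have hm : Measurable X.π := X.continuous_π.measurable
  have hS : MeasurableSet (X.ch y).source := (X.ch y).open_source.measurableSet
  have hT : MeasurableSet (X.ch y).target := (X.ch y).open_target.measurableSet
  refine ⟨hm, Measure.ext fun s hs => ?_⟩
  rw [Measure.map_apply hm hs, Measure.restrict_apply (hm hs), Measure.restrict_apply hs,
    ← lintegral_indicator_one ((hm hs).inter hS), ← lintegral_indicator_one (hs.inter hT),
    X.lint _ (measurable_one.indicator ((hm hs).inter hS))]
  refine lintegral_congr fun t => ?_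
  by_cases ht : t ∈ (X.ch y).target
  · rw [tsum_eq_single (⟨(X.ch y).symm t, X.π_symm ht⟩ : X.π ⁻¹' {t})]
    · have h1 : (X.ch y).symm t ∈ (X.ch y).source := (X.ch y).map_target ht
      by_cases hts : t ∈ s
      · rw [Set.indicator_of_mem (show t ∈ s ∩ (X.ch y).target from ⟨hts, ht⟩),
          Set.indicator_of_mem]
        · rfl
        · exact ⟨by rwa [Set.mem_preimage, X.π_symm ht], h1⟩
      · rw [Set.indicator_of_notMem (fun h : t ∈ s ∩ (X.ch y).target => hts h.1),
          Set.indicator_of_notMem]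
        rintro ⟨h2, -⟩
        rw [Set.mem_preimage, X.π_symm ht] at h2
        exact hts h2
    · rintro ⟨w, hw⟩ hne
      refine Set.indicator_of_notMem (fun h => hne (Subtype.ext ?_)) _
      have h2 : X.π w = t := hw
      change w = (X.ch y).symm t
      rw [← h2, X.symm_π h.2]
  · rw [Set.indicator_of_notMem (fun h : t ∈ s ∩ (X.ch y).target => ht h.2), ENNReal.tsum_eq_zero]
    rintro ⟨w, hw⟩
    refine Set.indicator_of_notMem (fun h => ht ?_) _
    have h2 : X.π w = t := hw
    rw [← h2]
    exact X.π_mem h.2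

theorem lintegral_chart (y : Y) {A : Set Y} (hA : MeasurableSet A) (hs : A ⊆ (X.ch y).source)
    (F : Y → ℝ≥0∞) : ∫⁻ w in A, F w ∂X.ν = ∫⁻ t in X.π '' A, X.loc F y t ∂μ := by
  have hm : Measurable X.π := X.continuous_π.measurable
  have hT : MeasurableSet (X.ch y).target := (X.ch y).open_target.measurableSet
  have hsub : X.π '' A ⊆ (X.ch y).target := by
    rintro _ ⟨w, hw, rfl⟩
    exact X.π_mem (hs hw)
  have hB : MeasurableSet (X.π '' A) := by
    have h1 : Measurable ((X.ch y).target.restrict (X.ch y).symm) :=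
      (continuousOn_iff_continuous_restrict.1 (X.ch y).continuousOn_symm).measurable
    have e : X.π '' A = Subtype.val '' (((X.ch y).target.restrict (X.ch y).symm) ⁻¹' A) := by
      ext t
      constructor
      · rintro ⟨w, hw, rfl⟩
        refine ⟨⟨X.π w, X.π_mem (hs hw)⟩, ?_, rfl⟩
        change (X.ch y).symm (X.π w) ∈ A
        rwa [X.symm_π (hs hw)]
      · rintro ⟨⟨t, ht⟩, h2, rfl⟩
        exact ⟨_, h2, X.π_symm ht⟩
    rw [e]
    exact hT.subtype_image (h1 hA)
  have h1 := ((X.mp y).restrict_preimage hB).map_eq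
  have e1 : X.π ⁻¹' (X.π '' A) ∩ (X.ch y).source = A := by
    ext w
    constructor
    · rintro ⟨⟨w', hw', e⟩, hw⟩
      rwa [← X.symm_π hw, ← e, X.symm_π (hs hw')]
    · exact fun hw => ⟨⟨w, hw, rfl⟩, hs hw⟩
  rw [Measure.restrict_restrict (hm hB), Measure.restrict_restrict hB, e1,
    Set.inter_eq_left.2 hsub] at h1
  have h2 : AEMeasurable (X.ch y).symm (μ.restrict (X.π '' A)) :=
    ((X.ch y).continuousOn_symm.mono hsub).aemeasurable hB
  have h3 : Measure.map (X.ch y).symm (μ.restrict (X.π '' A)) = X.ν.restrict A := by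
    rw [← h1] at h2 ⊢
    rw [h2.map_map_of_aemeasurable hm.aemeasurable]
    refine (Measure.map_congr ?_).trans Measure.map_id
    filter_upwards [ae_restrict_mem hA] with w hw using X.symm_π (hs hw)
  apply le_antisymm
  · rw [← h3]
    exact lintegral_map_le _ _
  · rw [← h1]
    refine (lintegral_map_le _ _).trans (le_of_eq ?_)
    exact setLIntegral_congr_fun hA fun w hw => X.loc_π F (hs hw)

theorem intNear_iff {y y' : Y} (h : y' ∈ (X.ch y).source) (ω : Y → ℝ≥0∞) :
    IntNear X.ν ω y' ↔ IntNear μ (X.loc ω y) (X.π y') := by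
  constructor
  · rintro ⟨V, hV, hf⟩
    have hA : IsOpen (interior V ∩ (X.ch y).source) := isOpen_interior.inter (X.ch y).open_source
    refine ⟨X.π '' (interior V ∩ (X.ch y).source), ?_, ?_⟩
    · rw [← X.map_nhds]
      exact image_mem_map (hA.mem_nhds ⟨mem_interior_iff_mem_nhds.2 hV, h⟩)
    · rw [← X.lintegral_chart y hA.measurableSet Set.inter_subset_right]
      exact (lintegral_mono_set (Set.inter_subset_left.trans interior_subset)).trans_lt hf
  · rintro ⟨V, hV, hf⟩
    have hA : IsOpen (X.π ⁻¹' interior V ∩ (X.ch y).source) :=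
      (isOpen_interior.preimage X.continuous_π).inter (X.ch y).open_source
    refine ⟨_, hA.mem_nhds ⟨mem_interior_iff_mem_nhds.2 hV, h⟩, ?_⟩
    rw [X.lintegral_chart y hA.measurableSet Set.inter_subset_right]
    refine (lintegral_mono_set ?_).trans_lt hf
    rintro _ ⟨w, hw, rfl⟩
    exact interior_subset hw.1

theorem locFin [IsLocallyFiniteMeasure μ] : IsLocallyFiniteMeasure X.ν := by
  refine ⟨fun y => ?_⟩
  obtain ⟨s, hs, hfin⟩ := μ.finiteAt_nhds (X.π y)
  obtain ⟨V, hV, hf⟩ := (X.intNear_iff (X.mem y) fun _ => 1).2 ⟨s, hs, by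
    simpa [loc, Function.comp] using hfin⟩
  exact ⟨V, hV, by simpa using hf⟩

theorem C2.continuousOn {F : Type} [NormedAddCommGroup F] [NormedSpace ℝ F] {Ω : Set Y} {f : Y → F}
    (h : X.C2 Ω f) : ContinuousOn f Ω := by
  intro y hy
  have h1 : ContinuousAt (fun w => X.loc f y (X.π w)) y :=
    (h y hy).continuousAt.comp X.continuous_π.continuousAt
  refine (h1.congr ?_).continuousWithinAt
  filter_upwards [(X.ch y).open_source.mem_nhds (X.mem y)] with w hw using X.loc_π f hw

theorem Hol.differentiableAt {Ω : Set Y} {f : Y → ℂ} (h : X.Hol Ω f) {y y' : Y}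
    (hs : y' ∈ (X.ch y).source) (hy : y' ∈ Ω) : DifferentiableAt ℂ (X.loc f y) (X.π y') := by
  exact (h y' hy).congr_of_eventuallyEq (X.loc_eventuallyEq f hs)

theorem Hol.analyticAt {Ω : Set Y} (hΩ : IsOpen Ω) {f : Y → ℂ} (h : X.Hol Ω f) {y : Y}
    (hy : y ∈ Ω) : AnalyticAt ℂ (X.loc f y) (X.π y) := by
  refine Crest.Agent.R264.SCV.analyticAt_of_eventually ?_
  rw [← X.map_nhds, eventually_map]
  filter_upwards [(X.ch y).open_source.mem_nhds (X.mem y), hΩ.mem_nhds hy] with w h1 h2
  exact Hol.differentiableAt X h h1 h2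

theorem Hol.c2 {Ω : Set Y} (hΩ : IsOpen Ω) {f : Y → ℂ} (h : X.Hol Ω f) : X.C2 Ω f := by
  exact fun y hy => ((Hol.analyticAt X hΩ h hy).contDiffAt (n := 2)).restrict_scalars ℝ

theorem triv_hol {Ω : Set E} (hΩ : IsOpen Ω) {f : E → ℂ} :
    (RD.triv μ).Hol Ω f ↔ DifferentiableOn ℂ f Ω := by
  exact ⟨fun h y hy => (h y hy).differentiableWithinAt,
    fun h y hy => h.differentiableAt (hΩ.mem_nhds hy)⟩

theorem triv_loc {F : Type} (f : E → F) (y : E) : (RD.triv μ).loc f y = f := rfl

end RD

end Crest.Agent.R271
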